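import Crest.Agent.R169.Defs

/-!
# Row 169, P1 (part 1): sub-families of lattices are lattices (Noetherian property)
Author: helper132.
-/

set_option autoImplicit false
set_option linter.unusedSectionVars false

open Polynomial

namespace Crest.Agent.R169.P1

section Rees

variable {k K V : Type} [Field k] [Field K] [Algebra k K] [AddCommGroup V] [Module k V]
  [Module K V] [IsScalarTower k K V]

/-- closed under `1, u, v` -/
structure Fam (u v : K) (E : ℤ → Submodule k V) : Prop where
  mono : ∀ m, E m ≤ E (m + 1)
  umul : ∀ m, ∀ e ∈ E m, u • e ∈ E (m + 1)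
  vmul : ∀ m, ∀ e ∈ E m, v • e ∈ E (m + 1)

/-- the ring `k[X, uX, vX]` -/
noncomputable def opR (k : Type) {K : Type} [Field k] [Field K] [Algebra k K] (u v : K) :
    Subalgebra k K[X] :=
  Algebra.adjoin k {monomial 1 (1 : K), monomial 1 u, monomial 1 v}

instance opR_noeth (u v : K) : IsNoetherianRing (opR k u v) := by
  apply isNoetherianRing_of_fg
  exact Subalgebra.fg_def.2 ⟨_, by simp, rfl⟩

/-- the Rees module of a family, `E (N0 + i)` in degree `i` -/
noncomputable def rees (u v : K) (E : ℤ → Submodule k V) (N0 : ℤ) (h : Fam u v E) :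
    Submodule (opR k u v) (PolynomialModule K V) where
  carrier := {p | ∀ i : ℕ, p.coeff i ∈ E (N0 + i)}
  zero_mem' := by intro i; simp
  add_mem' := by
    intro p q hp hq i
    simpa using (E (N0 + i)).add_mem (hp i) (hq i)
  smul_mem' := by
    rintro ⟨r, hr⟩ p hp
    change ∀ i : ℕ, (r • p).coeff i ∈ E (N0 + i)
    have key : ∀ a : K, (∀ m, ∀ e ∈ E m, a • e ∈ E (m + 1)) → ∀ p : PolynomialModule K V,
        (∀ i : ℕ, p.coeff i ∈ E (N0 + i)) → ∀ i : ℕ,
          ((monomial 1 a : K[X]) • p).coeff i ∈ E (N0 + i) := by
      intro a ha p hp i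
      rw [PolynomialModule.monomial_smul_apply]
      split_ifs with h1
      · have := ha _ _ (hp (i - 1))
        have e : N0 + ((i - 1 : ℕ) : ℤ) + 1 = N0 + i := by
          rw [Nat.cast_sub h1]; push_cast; ring
        rwa [e] at this
      · exact Submodule.zero_mem _
    unfold opR at hr
    induction hr using Algebra.adjoin_induction generalizing p with
    | mem x hx =>
      rcases hx with rfl | rfl | rfl
      · exact key 1 (fun m e he => by rw [one_smul]; exact h.mono m he) p hp
      · exact key u h.umul p hp
      · exact key v h.vmul p hp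
    | algebraMap c =>
      intro i
      rw [algebraMap_smul]
      exact (E (N0 + i)).smul_mem c (hp i)
    | add x y _ _ hx hy =>
      intro i
      rw [add_smul, PolynomialModule.coeff_add]
      exact (E (N0 + i)).add_mem (hx hp i) (hy hp i)
    | mul x y _ _ hx hy =>
      intro i
      rw [mul_smul]
      exact hx (fun i => hy hp i) i


theorem act_mem (u v : K) {a : K} (ha : a = 1 ∨ a = u ∨ a = v) :
    (monomial 1 a : K[X]) ∈ opR k u v := by
  apply Algebra.subset_adjoin
  rcases ha with rfl | rfl | rfl <;> simp

theorem k_smul_single (u v : K) (c : k) (i : ℕ) (w : V) :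
    PolynomialModule.single K i (c • w) =
      (algebraMap k (opR k u v) c) • PolynomialModule.single K i w := by
  rw [Subalgebra.smul_def]
  have : ((algebraMap k (opR k u v) c : opR k u v) : K[X]) = monomial 0 (algebraMap k K c) := by
    rw [Subalgebra.coe_algebraMap]; rfl
  rw [this, PolynomialModule.monomial_smul_single, zero_add, algebraMap_smul]

theorem x_smul_single (u v : K) {a : K} (ha : a = 1 ∨ a = u ∨ a = v) (i : ℕ) (w : V) :
    PolynomialModule.single K (i + 1) (a • w) =
      (⟨monomial 1 a, act_mem u v ha⟩ : opR k u v) • PolynomialModule.single K i w := by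
  rw [Subalgebra.smul_def, PolynomialModule.monomial_smul_single, add_comm]

theorem eq_sum_single (p : PolynomialModule K V) :
    p = ∑ i ∈ p.coeff.support, PolynomialModule.single K i (p.coeff i) := by
  apply PolynomialModule.ext
  rw [PolynomialModule.coeff_sum]
  simp only [PolynomialModule.coeff_single]
  exact (Finsupp.sum_single p.coeff).symm

theorem rees_fg {u v : K} {E : ℤ → Submodule k V} (hE : IsLat u v E) (N0 : ℤ) (h : Fam u v E) :
    (rees u v E N0 h).FG := by
  classical
  obtain ⟨m1, hm1⟩ := hE.gen
  -- generators: all `single i w`, `i ≤ I1`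
  set I1 : ℕ := (m1 - N0).toNat with hI1
  have hb : ∀ i : ℕ, ∃ S : Finset V, Submodule.span k (S : Set V) = E (N0 + i) := fun i =>
    (Module.Finite.iff_fg.1 (hE.fin (N0 + i)))
  choose S hS using hb
  let T : Finset (PolynomialModule K V) :=
    (Finset.range (I1 + 1)).biUnion fun i => (S i).image (PolynomialModule.single K i)
  refine ⟨T, le_antisymm ?_ ?_⟩
  · rw [Submodule.span_le]
    intro p hp
    simp only [T, Finset.coe_biUnion, Set.mem_iUnion, Finset.coe_image] at hp
    obtain ⟨i, -, w, hw, rfl⟩ := hp
    have hwE : w ∈ E (N0 + i) := by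
      rw [← hS i]; exact Submodule.subset_span hw
    intro j
    rw [PolynomialModule.coeff_single, Finsupp.single_apply]
    split_ifs with hij
    · subst hij; exact hwE
    · exact Submodule.zero_mem _
  · -- each single lies in the span
    have hlow : ∀ i : ℕ, i ≤ I1 → ∀ w ∈ E (N0 + i),
        PolynomialModule.single K i w ∈
          Submodule.span (opR k u v) (T : Set (PolynomialModule K V)) := by
      intro i hi w hw
      rw [← hS i] at hw
      induction hw using Submodule.span_induction with
      | mem x hx =>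
        apply Submodule.subset_span
        simp only [T, Finset.coe_biUnion, Set.mem_iUnion, Finset.coe_image]
        exact ⟨i, by simpa [Nat.lt_succ_iff] using hi, x, hx, rfl⟩
      | zero => rw [PolynomialModule.single_zero]; exact Submodule.zero_mem _
      | add x y _ _ hx hy => rw [PolynomialModule.single_add]; exact Submodule.add_mem _ hx hy
      | smul c x _ hx => rw [k_smul_single u v]; exact Submodule.smul_mem _ _ hx
    have hsingle : ∀ i : ℕ, ∀ w ∈ E (N0 + i),
        PolynomialModule.single K i w ∈
          Submodule.span (opR k u v) (T : Set (PolynomialModule K V)) := by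
      intro i
      induction i with
      | zero => exact hlow 0 (Nat.zero_le _)
      | succ i ih =>
        intro w hw
        by_cases hi : i + 1 ≤ I1
        · exact hlow _ hi w hw
        · have hge : N0 + i ≥ m1 := by omega
          have e : N0 + ((i + 1 : ℕ) : ℤ) = N0 + i + 1 := by push_cast; ring
          rw [e] at hw
          obtain ⟨a, ha, b, hb, c, hc, rfl⟩ := hm1 _ hge w hw
          rw [PolynomialModule.single_add, PolynomialModule.single_add]
          refine Submodule.add_mem _ (Submodule.add_mem _ ?_ ?_) ?_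
          · have := x_smul_single (k := k) u v (a := 1) (Or.inl rfl) i a
            rw [one_smul] at this
            rw [this]
            exact Submodule.smul_mem _ _ (ih a ha)
          · rw [x_smul_single (k := k) u v (Or.inr (Or.inl rfl)) i b]
            exact Submodule.smul_mem _ _ (ih b hb)
          · rw [x_smul_single (k := k) u v (Or.inr (Or.inr rfl)) i c]
            exact Submodule.smul_mem _ _ (ih c hc)
    intro p hp
    rw [eq_sum_single p]
    exact Submodule.sum_mem _ fun i _ => hsingle i _ (hp i)

/-- `p.coeff (i+1) ∈ F + uF + vF` for `i ≥ D` -/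
def Good (u v : K) (F : ℤ → Submodule k V) (m0 : ℤ) (D : ℕ) (p : PolynomialModule K V) : Prop :=
  ∀ i : ℕ, D ≤ i → ∃ a ∈ F (m0 + i), ∃ b ∈ F (m0 + i), ∃ c ∈ F (m0 + i),
    p.coeff (i + 1) = a + u • b + v • c

omit [IsScalarTower k K V] in
theorem Good.zero {u v : K} {F : ℤ → Submodule k V} {m0 : ℤ} {D : ℕ} :
    Good u v F m0 D 0 := fun i _ =>
  ⟨0, Submodule.zero_mem _, 0, Submodule.zero_mem _, 0, Submodule.zero_mem _, by simp⟩

omit [IsScalarTower k K V] in
theorem Good.add {u v : K} {F : ℤ → Submodule k V} {m0 : ℤ} {D : ℕ} {x y : PolynomialModule K V}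
    (hx : Good u v F m0 D x) (hy : Good u v F m0 D y) : Good u v F m0 D (x + y) := by
  intro i hi
  obtain ⟨a, ha, b, hb, c, hc, h1⟩ := hx i hi
  obtain ⟨a', ha', b', hb', c', hc', h2⟩ := hy i hi
  refine ⟨a + a', Submodule.add_mem _ ha ha', b + b', Submodule.add_mem _ hb hb', c + c',
    Submodule.add_mem _ hc hc', ?_⟩
  rw [PolynomialModule.coeff_add, Finsupp.add_apply, h1, h2, smul_add, smul_add]
  abel

theorem Good.smul {u v : K} {F : ℤ → Submodule k V} (hF : Fam u v F) {m0 : ℤ} {D : ℕ} {r : K[X]}
    (hr : r ∈ opR k u v) :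
    ∀ x : PolynomialModule K V, (∀ i : ℕ, x.coeff i ∈ F (m0 + i)) → Good u v F m0 D x →
      Good u v F m0 D (r • x) := by
  have hrr : ∀ r ∈ opR k u v, ∀ x : PolynomialModule K V,
      (∀ i : ℕ, x.coeff i ∈ F (m0 + i)) → (∀ i : ℕ, (r • x).coeff i ∈ F (m0 + i)) := by
    intro r hr x hx i
    exact (rees u v F m0 hF).smul_mem ⟨r, hr⟩ (x := x) hx i
  unfold opR at hr
  induction hr using Algebra.adjoin_induction with
  | mem y hy =>
    intro x hx _ i _
    rcases hy with rfl | rfl | rfl
    · exact ⟨x.coeff i, hx i, 0, Submodule.zero_mem _, 0, Submodule.zero_mem _, by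
        rw [PolynomialModule.monomial_smul_apply]; simp⟩
    · exact ⟨0, Submodule.zero_mem _, x.coeff i, hx i, 0, Submodule.zero_mem _, by
        rw [PolynomialModule.monomial_smul_apply]; simp⟩
    · exact ⟨0, Submodule.zero_mem _, 0, Submodule.zero_mem _, x.coeff i, hx i, by
        rw [PolynomialModule.monomial_smul_apply]; simp⟩
  | algebraMap c =>
    intro x _ hx i hi
    obtain ⟨a, ha, b, hb, c', hc', h1⟩ := hx i hi
    refine ⟨c • a, Submodule.smul_mem _ _ ha, c • b, Submodule.smul_mem _ _ hb, c • c',
      Submodule.smul_mem _ _ hc', ?_⟩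
    rw [algebraMap_smul]
    change c • (x.coeff (i + 1)) = _
    rw [h1, smul_add, smul_add, smul_comm c u b, smul_comm c v c']
  | add y z _ _ hy hz =>
    intro x hx hg
    rw [add_smul]
    exact (hy x hx hg).add (hz x hx hg)
  | mul y z _ hz' hy hz =>
    intro x hx hg
    rw [mul_smul]
    exact hy _ (hrr z hz' x hx) (hz x hx hg)

/-- **Noetherian property**: a subfamily (closed under `1, u, v`) of a lattice is a lattice. -/
theorem isLat_of_le {u v : K} {E F : ℤ → Submodule k V} (hE : IsLat u v E)
    (hF : Fam u v F) (hle : ∀ m, F m ≤ E m) : IsLat u v F := by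
  classical
  obtain ⟨m0, hm0⟩ := hE.bot
  have hEf : Fam u v E := ⟨hE.mono, hE.umul, hE.vmul⟩
  refine ⟨hF.mono, hF.umul, hF.vmul, ?_, ⟨m0, fun m hm => ?_⟩, ?_⟩
  · intro m
    have := hE.fin m
    exact Submodule.finiteDimensional_of_le (hle m)
  · exact le_bot_iff.1 ((hle m).trans (hm0 m hm).le)
  · have hN : IsNoetherian (opR k u v) (rees u v E m0 hEf) :=
      isNoetherian_of_fg_of_noetherian _ (rees_fg hE m0 hEf)
    have hFG : (rees u v F m0 hF).FG :=
      isNoetherian_submodule.1 hN _ (fun p hp i => hle _ (hp i))
    obtain ⟨S, hS⟩ := hFG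
    -- bound of degrees
    let D : ℕ := S.sup fun p => p.coeff.support.sup id
    have hD : ∀ p ∈ S, ∀ i, D < i → p.coeff i = 0 := by
      intro p hp i hi
      by_contra hne
      have h1 : i ∈ p.coeff.support := Finsupp.mem_support_iff.2 hne
      have h2 : i ≤ p.coeff.support.sup id := Finset.le_sup (f := id) h1
      have h3 : p.coeff.support.sup id ≤ D :=
        Finset.le_sup (f := fun p : PolynomialModule K V => p.coeff.support.sup id) hp
      omega
    refine ⟨m0 + D, fun m hm w hw => ?_⟩
    have hsub : ∀ p ∈ rees u v F m0 hF, Good u v F m0 D p := by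
      intro p hp
      rw [← hS] at hp
      induction hp using Submodule.span_induction with
      | mem x hx =>
        intro i hi
        exact ⟨0, Submodule.zero_mem _, 0, Submodule.zero_mem _, 0, Submodule.zero_mem _, by
          rw [hD x hx (i + 1) (by omega)]; simp⟩
      | zero => exact Good.zero
      | add x y _ _ hx hy => exact hx.add hy
      | smul r x hx' hx =>
        have hxF : x ∈ rees u v F m0 hF := hS ▸ hx'
        exact Good.smul hF r.2 x hxF hx
    obtain ⟨i, hi⟩ : ∃ i : ℕ, m = m0 + i := ⟨(m - m0).toNat, by omega⟩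
    subst hi
    have hmem : PolynomialModule.single K (i + 1) w ∈ rees u v F m0 hF := by
      intro j
      rw [PolynomialModule.coeff_single, Finsupp.single_apply]
      split_ifs with hij
      · subst hij
        push_cast
        rwa [← add_assoc]
      · exact Submodule.zero_mem _
    obtain ⟨a, ha, b, hb, c, hc, h⟩ := hsub _ hmem i (by omega)
    refine ⟨a, ha, b, hb, c, hc, ?_⟩
    rw [← h, PolynomialModule.coeff_single, Finsupp.single_eq_same]

end Rees

end Crest.Agent.R169.P1
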