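import Mathlib
import Crest.Agent.R169.RingSpan

-- ▼ part R169/RingKummer
section

/-! # Row 169, part F: Kummer independence (helper877) -/

set_option autoImplicit false

namespace Crest.R169

section Kummer

/-- Kummer independence: elements whose `n`-th powers lie in `K`, pairwise with quotient not in
`K`, are linearly independent over `K` (`K` contains the `n`-th roots of unity). -/
theorem rk_kummer_li {K L : Type*} [Field K] [Field L] [Algebra K L] [IsGalois K L]
    (n : ℕ) [NeZero n] (ζ : K) (hζ : IsPrimitiveRoot ζ n) {ι : Type*} (s : ι → L)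
    (hs0 : ∀ i, s i ≠ 0) (hs : ∀ i, ∃ c : K, algebraMap K L c = s i ^ n)
    (hne : ∀ i j, i ≠ j → ∀ c : K, s i ≠ algebraMap K L c * s j) : LinearIndependent K s := by
  have hζL : IsPrimitiveRoot (algebraMap K L ζ) n :=
    hζ.map_of_injective (algebraMap K L).injective
  -- the ratio lies in `K`
  have hrat : ∀ (σ : L ≃ₐ[K] L) (i : ι), ∃ c : K, algebraMap K L c = σ (s i) / s i := by
    intro σ i
    have h1 : (σ (s i) / s i) ^ n = 1 := by
      obtain ⟨c, hc⟩ := hs i
      rw [div_pow, ← map_pow, ← hc, AlgEquiv.commutes, hc, div_self (pow_ne_zero _ (hs0 i))]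
    obtain ⟨a, -, ha⟩ := hζL.eq_pow_of_pow_eq_one h1
    exact ⟨ζ ^ a, by rw [map_pow, ha]⟩
  let χ : ι → ((L ≃ₐ[K] L) →* L) := fun i =>
    { toFun := fun σ => σ (s i) / s i
      map_one' := by simp [hs0 i]
      map_mul' := by
        intro σ τ
        obtain ⟨c, hc⟩ := hrat τ i
        have h1 : τ (s i) = algebraMap K L c * s i := by
          rw [hc, div_mul_cancel₀ _ (hs0 i)]
        have h2 : (σ * τ) (s i) = algebraMap K L c * σ (s i) := by
          rw [AlgEquiv.mul_apply, h1, map_mul, AlgEquiv.commutes]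
        rw [h2, ← hc, mul_div_assoc, mul_comm] }
  have hχ : Function.Injective χ := by
    intro i j hij
    by_contra hne'
    have hfix : ∀ σ : L ≃ₐ[K] L, σ (s i / s j) = s i / s j := by
      intro σ
      have h1 : σ (s i) / s i = σ (s j) / s j := by
        have := congrArg (fun f : (L ≃ₐ[K] L) →* L => f σ) hij
        exact this
      rw [map_div₀, div_eq_div_iff]
      · rw [div_eq_div_iff (hs0 i) (hs0 j)] at h1
        rw [h1]; ring
      · intro h
        exact hs0 j (by simpa using h)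
      · exact hs0 j
    have h2 := (InfiniteGalois.mem_range_algebraMap_iff_fixed (k := K) (s i / s j)).2 hfix
    obtain ⟨c, hc⟩ := h2
    apply hne i j hne' c
    rw [hc, div_mul_cancel₀ _ (hs0 j)]
  have hli := (linearIndependent_monoidHom (L ≃ₐ[K] L) L).comp χ hχ
  rw [linearIndependent_iff'] at hli ⊢
  intro S g hg i hi
  have h1 := hli S (fun i => algebraMap K L (g i) * s i) ?_ i hi
  · have h2 := (mul_eq_zero.1 h1).resolve_right (hs0 i)
    simpa using h2
  · funext σ
    have h3 := congrArg σ hg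
    rw [map_sum, map_zero] at h3
    simp only [Finset.sum_apply, Pi.smul_apply, Function.comp, smul_eq_mul, Pi.zero_apply]
    rw [← h3]
    refine Finset.sum_congr rfl fun j _ => ?_
    show algebraMap K L (g j) * s j * (σ (s j) / s j) = _
    rw [Algebra.smul_def, map_mul, AlgEquiv.commutes]
    field_simp [hs0 j]

/-- valuations of a Kummer relation in a factorial domain -/
theorem rk_val {R : Type*} [CommRing R] [IsDomain R] [WfDvdMonoid R] (p : Fin 5 → R)
    (hp : ∀ i, Prime (p i)) (hpp : ∀ i j, i ≠ j → ¬ p i ∣ p j) (n : ℕ) (N D : R) (hN : N ≠ 0)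
    (hD : D ≠ 0) (x y : Fin 5 → ℕ) (h : D ^ n * ∏ i, p i ^ x i = N ^ n * ∏ i, p i ^ y i)
    (i : Fin 5) : n * multiplicity (p i) D + x i = n * multiplicity (p i) N + y i := by
  have hfin : ∀ a : R, a ≠ 0 → FiniteMultiplicity (p i) a := fun a ha =>
    FiniteMultiplicity.of_prime_left (hp i) ha
  have hprod : ∀ x : Fin 5 → ℕ, emultiplicity (p i) (∏ j, p j ^ x j) = x i := by
    intro x
    rw [Finset.emultiplicity_prod (hp i), Finset.sum_eq_single i]
    · exact emultiplicity_pow_self_of_prime (hp i) _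
    · intro j _ hj
      rw [emultiplicity_pow (hp i), emultiplicity_eq_zero.2 (hpp i j (Ne.symm hj)), mul_zero]
    · simp
  have h1 := congrArg (emultiplicity (p i)) h
  rw [emultiplicity_mul (hp i), emultiplicity_mul (hp i), emultiplicity_pow (hp i),
    emultiplicity_pow (hp i), hprod, hprod, (hfin D hD).emultiplicity_eq_multiplicity,
    (hfin N hN).emultiplicity_eq_multiplicity] at h1
  exact_mod_cast h1

end Kummer

end Crest.R169
end

-- ▼ part R169/RingDomain
section

/-! # Row 169, part F: the good monomials are a basis, `O n k` is a domain (helper877) -/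

set_option autoImplicit false

open Polynomial

namespace Crest.R169

section Model

variable (k : Type*) [Field k]

/-- The five primes `a, 1+a+b, b, 1+a, 1+b` of `k[a][b]`. -/
noncomputable def rkP : Fin 5 → k[X][X] :=
  ![C X, 1 + C X + X, X, 1 + C X, 1 + X]

theorem rkP_prime (i : Fin 5) : Prime (rkP k i) := by
  fin_cases i
  · exact Polynomial.prime_C_iff.2 Polynomial.prime_X
  · have h : (1 + C X + X : k[X][X]) = X - C (-(1 + X)) := by
      simp only [C_neg, C_add, C_1]; ring
    show Prime (1 + C X + X : k[X][X])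
    rw [h]; exact Polynomial.prime_X_sub_C _
  · exact Polynomial.prime_X
  · have h : (1 + C X : k[X][X]) = C (X - C (-1)) := by
      simp only [C_neg, C_sub, C_1]; ring
    show Prime (1 + C X : k[X][X])
    rw [h]; exact Polynomial.prime_C_iff.2 (Polynomial.prime_X_sub_C _)
  · have h : (1 + X : k[X][X]) = X - C (-1) := by
      simp only [C_neg, C_1]; ring
    show Prime (1 + X : k[X][X])
    rw [h]; exact Polynomial.prime_X_sub_C _

theorem rkP_not_dvd (i j : Fin 5) (hij : i ≠ j) : ¬ rkP k i ∣ rkP k j := by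
  have key : ∀ a b : k, evalEval a b (rkP k i) = 0 → evalEval a b (rkP k j) ≠ 0 →
      ¬ rkP k i ∣ rkP k j := by
    intro a b h0 h1 hd
    obtain ⟨c, hc⟩ := hd
    apply h1
    rw [hc]
    have : evalEval a b (rkP k i * c) = evalEval a b (rkP k i) * evalEval a b c :=
      map_mul (evalEvalRingHom a b) _ _
    rw [this, h0, zero_mul]
  fin_cases i <;> fin_cases j <;> first
    | exact absurd rfl hij
    | (apply key 0 0 <;> simp [rkP, evalEval]; done)
    | (apply key 0 1 <;> simp [rkP, evalEval]; done)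
    | (apply key 1 0 <;> simp [rkP, evalEval]; done)
    | (apply key (-1) 0 <;> simp [rkP, evalEval]; done)
    | (apply key 0 (-1) <;> simp [rkP, evalEval]; done)
    | (apply key (-1) 1 <;> simp [rkP, evalEval]; done)
    | (apply key 1 (-1) <;> simp [rkP, evalEval]; done)

/-- The field `K = k(a,b)`. -/
abbrev rkK : Type _ := FractionRing k[X][X]

/-- the five elements `a, (1+a+b)/(ab), b, (1+a)/b, (1+b)/a` of `k(a,b)` -/
noncomputable def rkZ : Fin 5 → rkK k :=
  let P := fun i => algebraMap k[X][X] (rkK k) (rkP k i)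
  ![P 0, P 1 / (P 0 * P 2), P 2, P 3 / P 2, P 4 / P 0]

theorem rkP_map_ne (i : Fin 5) : algebraMap k[X][X] (rkK k) (rkP k i) ≠ 0 := by
  intro h
  exact (rkP_prime k i).ne_zero (IsFractionRing.injective k[X][X] (rkK k) (by rw [h, map_zero]))

theorem rkZ_rel (j : Fin 5) : rkZ k j * rkZ k (j + 1) = 1 + rkZ k (j + 3) := by
  have h0 := rkP_map_ne k 0
  have h2 := rkP_map_ne k 2
  have e1 : algebraMap k[X][X] (rkK k) (rkP k 1) = 1 + algebraMap k[X][X] (rkK k) (rkP k 0)
      + algebraMap k[X][X] (rkK k) (rkP k 2) := by simp [rkP]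
  have e3 : algebraMap k[X][X] (rkK k) (rkP k 3) =
      1 + algebraMap k[X][X] (rkK k) (rkP k 0) := by simp [rkP]
  have e4 : algebraMap k[X][X] (rkK k) (rkP k 4) =
      1 + algebraMap k[X][X] (rkK k) (rkP k 2) := by simp [rkP]
  generalize ha : algebraMap k[X][X] (rkK k) (rkP k 0) = a at *
  generalize hb : algebraMap k[X][X] (rkK k) (rkP k 2) = b at *
  have z0 : rkZ k 0 = a := by simp [rkZ, ha]
  have z1 : rkZ k 1 = (1 + a + b) / (a * b) := by simp [rkZ, ha, hb, e1]
  have z2 : rkZ k 2 = b := by simp [rkZ, hb]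
  have z3 : rkZ k 3 = (1 + a) / b := by simp [rkZ, hb, e3]
  have z4 : rkZ k 4 = (1 + b) / a := by simp [rkZ, ha, e4]
  fin_cases j
  · show rkZ k 0 * rkZ k 1 = 1 + rkZ k 3
    rw [z0, z1, z3]; field_simp; ring
  · show rkZ k 1 * rkZ k 2 = 1 + rkZ k 4
    rw [z1, z2, z4]; field_simp; ring
  · show rkZ k 2 * rkZ k 3 = 1 + rkZ k 0
    rw [z2, z3, z0]; field_simp
  · show rkZ k 3 * rkZ k 4 = 1 + rkZ k 1
    rw [z3, z4, z1]; field_simp; ring
  · show rkZ k 4 * rkZ k 0 = 1 + rkZ k 2
    rw [z4, z0, z2]; field_simp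

theorem rkZ_ne (j : Fin 5) : rkZ k j ≠ 0 := by
  have h : ∀ i, rkP k i ≠ 0 := fun i => (rkP_prime k i).ne_zero
  fin_cases j <;> simp [rkZ, h]

/-- product formula -/
theorem rkZ_prod (q : Fin 5 → ℕ) :
    (∏ j, rkZ k j ^ q j) * algebraMap k[X][X] (rkK k) (rkP k 0 ^ (q 1 + q 4) * rkP k 2 ^ (q 1 + q 3))
      = algebraMap k[X][X] (rkK k) (∏ j, rkP k j ^ q j) := by
  have h0 := rkP_map_ne k 0
  have h2 := rkP_map_ne k 2
  simp only [Fin.prod_univ_five, map_mul, map_pow]
  have z0 : rkZ k 0 = algebraMap k[X][X] (rkK k) (rkP k 0) := by simp [rkZ]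
  have z1 : rkZ k 1 = algebraMap k[X][X] (rkK k) (rkP k 1) /
    (algebraMap k[X][X] (rkK k) (rkP k 0) * algebraMap k[X][X] (rkK k) (rkP k 2)) := by simp [rkZ]
  have z2 : rkZ k 2 = algebraMap k[X][X] (rkK k) (rkP k 2) := by simp [rkZ]
  have z3 : rkZ k 3 = algebraMap k[X][X] (rkK k) (rkP k 3) /
    (algebraMap k[X][X] (rkK k) (rkP k 2)) := by simp [rkZ]
  have z4 : rkZ k 4 = algebraMap k[X][X] (rkK k) (rkP k 4) /
    (algebraMap k[X][X] (rkK k) (rkP k 0)) := by simp [rkZ]
  rw [z0, z1, z2, z3, z4]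
  generalize algebraMap k[X][X] (rkK k) (rkP k 0) = a at *
  generalize algebraMap k[X][X] (rkK k) (rkP k 1) = c at *
  generalize algebraMap k[X][X] (rkK k) (rkP k 2) = b at *
  generalize algebraMap k[X][X] (rkK k) (rkP k 3) = d at *
  generalize algebraMap k[X][X] (rkK k) (rkP k 4) = e at *
  simp only [div_pow, mul_pow, pow_add]
  field_simp

theorem rk_coeff (s t i j : ℕ) (U : k[X][X]) :
    (((C X : k[X][X]) ^ s * X ^ t * U).coeff j).coeff i =
      if t ≤ j then (if s ≤ i then (U.coeff (j - t)).coeff (i - s) else 0) else 0 := by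
  rw [mul_assoc, ← C_pow, coeff_C_mul, coeff_X_pow_mul' (p := U) (n := t) (d := j),
    coeff_X_pow_mul']
  split_ifs with h1 h2 <;> simp

/-- the `g`-vector map is injective on good exponents (`n = 1`) -/
theorem rk_g_inj (q q' : Fin 5 → ℕ) (h : Good 1 q) (h' : Good 1 q')
    (h1 : (q 0 : ℤ) - q 1 - q 4 = q' 0 - q' 1 - q' 4)
    (h2 : (q 2 : ℤ) - q 1 - q 3 = q' 2 - q' 1 - q' 3) : q = q' := by
  have a0 := h 0
  have a1 := h 1
  have a2 := h 2
  have a3 := h 3
  have a4 := h 4
  have b0 := h' 0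
  have b1 := h' 1
  have b2 := h' 2
  have b3 := h' 3
  have b4 := h' 4
  simp only [show (0 : Fin 5) + 1 = 1 from rfl, show (1 : Fin 5) + 1 = 2 from rfl,
    show (2 : Fin 5) + 1 = 3 from rfl, show (3 : Fin 5) + 1 = 4 from rfl,
    show (4 : Fin 5) + 1 = 0 from rfl] at *
  have : q 0 = q' 0 ∧ q 1 = q' 1 ∧ q 2 = q' 2 ∧ q 3 = q' 3 ∧ q 4 = q' 4 := by
    generalize q 0 = x0 at *
    generalize q 1 = x1 at *
    generalize q 2 = x2 at *
    generalize q 3 = x3 at *
    generalize q 4 = x4 at *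
    generalize q' 0 = y0 at *
    generalize q' 1 = y1 at *
    generalize q' 2 = y2 at *
    generalize q' 3 = y3 at *
    generalize q' 4 = y4 at *
    omega
  funext i
  fin_cases i
  · exact this.1
  · exact this.2.1
  · exact this.2.2.1
  · exact this.2.2.2.1
  · exact this.2.2.2.2

theorem rk_ring_aux {R : Type*} [CommRing R] (a b c d e : R) (M q0 q1 q2 q3 q4 s t : ℕ)
    (hs : s + (q1 + q4) = M + q0) (ht : t + (q1 + q3) = M + q2) :
    a ^ s * b ^ t * (c ^ q1 * d ^ q3 * e ^ q4) * (a ^ (q1 + q4) * b ^ (q1 + q3)) =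
      (a * b) ^ M * (a ^ q0 * c ^ q1 * b ^ q2 * d ^ q3 * e ^ q4) := by
  calc _ = a ^ (s + (q1 + q4)) * b ^ (t + (q1 + q3)) * (c ^ q1 * d ^ q3 * e ^ q4) := by
            rw [pow_add, pow_add]; ring
    _ = _ := by rw [hs, ht, pow_add, pow_add, mul_pow]; ring

/-- the part of `Z^q` with non-zero constant term -/
noncomputable def rkU (q : Fin 5 → ℕ) : k[X][X] :=
  rkP k 1 ^ q 1 * rkP k 3 ^ q 3 * rkP k 4 ^ q 4

theorem rkU_coeff (q : Fin 5 → ℕ) : ((rkU k q).coeff 0).coeff 0 = 1 := by
  have h1 : ((rkU k q).coeff 0).coeff 0 = evalEval 0 0 (rkU k q) := by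
    rw [evalEval, ← coeff_zero_eq_eval_zero, C_0, ← coeff_zero_eq_eval_zero]
  have h2 : evalEval 0 0 (rkU k q) = (evalEvalRingHom 0 0) (rkP k 1) ^ q 1 *
      (evalEvalRingHom 0 0) (rkP k 3) ^ q 3 * (evalEvalRingHom 0 0) (rkP k 4) ^ q 4 := by
    have : evalEval 0 0 (rkU k q) = evalEvalRingHom 0 0 (rkU k q) := rfl
    rw [this, rkU]
    simp only [map_mul, map_pow]
  rw [h1, h2]
  simp [rkP]

/-- the term in the polynomial ring -/
noncomputable def rkT (M : ℕ) (q : Fin 5 → ℕ) : k[X][X] :=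
  (C X) ^ (M + q 0 - q 1 - q 4) * X ^ (M + q 2 - q 1 - q 3) * rkU k q

theorem rkT_eq (M : ℕ) (q : Fin 5 → ℕ) (hle : q 1 + q 3 + q 4 ≤ M) :
    algebraMap k[X][X] (rkK k) (rkT k M q) =
      algebraMap k[X][X] (rkK k) ((C X * X) ^ M) * ∏ j, rkZ k j ^ q j := by
  have hprod := rkZ_prod k q
  have hne : algebraMap k[X][X] (rkK k) (rkP k 0 ^ (q 1 + q 4) * rkP k 2 ^ (q 1 + q 3)) ≠ 0 := by
    rw [map_mul, map_pow, map_pow]
    exact mul_ne_zero (pow_ne_zero _ (rkP_map_ne k 0)) (pow_ne_zero _ (rkP_map_ne k 2))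
  have key : rkT k M q * (rkP k 0 ^ (q 1 + q 4) * rkP k 2 ^ (q 1 + q 3)) =
      (C X * X) ^ M * ∏ j, rkP k j ^ q j := by
    rw [Fin.prod_univ_five]
    exact rk_ring_aux (C X) X (rkP k 1) (rkP k 3) (rkP k 4) M (q 0) (q 1) (q 2) (q 3) (q 4) _ _
      (by omega) (by omega)
  apply mul_right_cancel₀ hne
  rw [mul_assoc, hprod, ← map_mul, ← map_mul, key]

/-- linear independence of cluster monomials -/
theorem rk_li1 : LinearIndependent k
    (fun q : {q : Fin 5 → ℕ // Good 1 q} => ∏ j, rkZ k j ^ q.1 j) := by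
  classical
  rw [linearIndependent_iff']
  intro S g hg
  by_contra hcon
  push Not at hcon
  obtain ⟨i0, hi0, hgi0⟩ := hcon
  -- lexicographically minimal index
  obtain ⟨q0, hq0S, hq0⟩ := Finset.exists_min_image (S.filter fun q => g q ≠ 0)
    (fun q => toLex (((q.1 2 : ℤ) - q.1 1 - q.1 3, (q.1 0 : ℤ) - q.1 1 - q.1 4) : ℤ × ℤ))
    ⟨i0, Finset.mem_filter.2 ⟨hi0, hgi0⟩⟩
  rw [Finset.mem_filter] at hq0S
  obtain ⟨M, hMle⟩ : ∃ M : ℕ, ∀ q ∈ S, q.1 1 + q.1 3 + q.1 4 ≤ M :=
    ⟨∑ q ∈ S, (q.1 1 + q.1 3 + q.1 4), fun q hq =>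
    Finset.single_le_sum (f := fun q : {q : Fin 5 → ℕ // Good 1 q} => q.1 1 + q.1 3 + q.1 4)
      (fun _ _ => Nat.zero_le _) hq⟩
  have hsum : ∑ q ∈ S, C (C (g q)) * rkT k M q.1 = 0 := by
    apply IsFractionRing.injective k[X][X] (rkK k)
    rw [map_zero, map_sum]
    have h1 : algebraMap k[X][X] (rkK k) ((C X * X) ^ M) *
        ∑ q ∈ S, g q • ∏ j, rkZ k j ^ q.1 j = 0 := by rw [hg, mul_zero]
    rw [Finset.mul_sum] at h1
    rw [← h1]
    refine Finset.sum_congr rfl fun q hq => ?_
    rw [map_mul, rkT_eq k M q.1 (hMle q hq), Algebra.smul_def]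
    have : algebraMap k (rkK k) (g q) = algebraMap k[X][X] (rkK k) (C (C (g q))) := by
      rw [IsScalarTower.algebraMap_apply k k[X][X] (rkK k)]
      rfl
    rw [this, mul_left_comm]
  -- take the coefficient at the exponent of q0
  have hc := congrArg (fun f : k[X][X] => (f.coeff (M + q0.1 2 - q0.1 1 - q0.1 3)).coeff
    (M + q0.1 0 - q0.1 1 - q0.1 4)) hsum
  simp only [finsetSum_coeff, coeff_C_mul, coeff_zero] at hc
  rw [Finset.sum_eq_single q0] at hc
  · rw [rkT, rk_coeff, if_pos le_rfl, if_pos le_rfl, Nat.sub_self, Nat.sub_self, rkU_coeff,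
      mul_one] at hc
    exact hq0S.2 hc
  · intro q hq hne
    by_cases hgq : g q = 0
    · rw [hgq, zero_mul]
    · have hmin := hq0 q (Finset.mem_filter.2 ⟨hq, hgq⟩)
      rw [Prod.Lex.toLex_le_toLex] at hmin
      have hle := hMle q hq
      have hle0 := hMle q0 hq0S.1
      rw [rkT, rk_coeff]
      have hninj : ¬ ((q.1 0 : ℤ) - q.1 1 - q.1 4 = q0.1 0 - q0.1 1 - q0.1 4 ∧
          (q.1 2 : ℤ) - q.1 1 - q.1 3 = q0.1 2 - q0.1 1 - q0.1 3) := by
        rintro ⟨h1, h2⟩
        exact hne (Subtype.ext (rk_g_inj q.1 q0.1 q.2 q0.2 h1 h2))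
      split_ifs with h1 h2
      · exfalso
        simp only at hmin
        apply hninj
        rcases hmin with h3 | ⟨h3, h4⟩ <;> omega
      · rw [mul_zero]
      · rw [mul_zero]
  · intro h
    exact absurd hq0S.1 h

end Model

end Crest.R169
end

-- ▼ part R169/RingBasis

/-! # Row 169, part F: the good monomials are a basis, `O n k` is a domain (helper877) -/

set_option autoImplicit false

namespace Crest.R169

section

variable (n : ℕ) (k : Type*) [Field k]

open Polynomial in
/-- classes of the `Z^{e/n}` are distinct -/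
theorem rk_residue (n : ℕ) [NeZero n] (e e' : Fin 5 → ℕ) (he : ∀ i, e i < n) (he' : ∀ i, e' i < n)
    (c : rkK k) (h : ∏ j, rkZ k j ^ e j = c ^ n * ∏ j, rkZ k j ^ e' j) : e = e' := by
  have hn : 0 < n := NeZero.pos n
  obtain ⟨N, D, hD, rfl⟩ := IsFractionRing.div_surjective (A := k[X][X]) c
  have hD0 : D ≠ 0 := nonZeroDivisors.ne_zero hD
  have hDm : algebraMap k[X][X] (rkK k) D ≠ 0 := by
    intro h0
    exact hD0 (IsFractionRing.injective k[X][X] (rkK k) (by rw [h0, map_zero]))
  have h1 := rkZ_prod k e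
  have h2 := rkZ_prod k e'
  have hN0 : N ≠ 0 := by
    rintro rfl
    rw [map_zero, zero_div, zero_pow hn.ne', zero_mul, Finset.prod_eq_zero_iff] at h
    obtain ⟨j, -, hj⟩ := h
    exact rkZ_ne k j (eq_zero_of_pow_eq_zero hj)
  have key : D ^ n * ((∏ j, rkP k j ^ e j) * (rkP k 0 ^ (e' 1 + e' 4) * rkP k 2 ^ (e' 1 + e' 3)))
      = N ^ n * ((∏ j, rkP k j ^ e' j) * (rkP k 0 ^ (e 1 + e 4) * rkP k 2 ^ (e 1 + e 3))) := by
    apply IsFractionRing.injective k[X][X] (rkK k)
    rw [map_mul, map_mul, map_mul (algebraMap k[X][X] (rkK k)) (N ^ n),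
      map_mul (algebraMap k[X][X] (rkK k)) (∏ j, rkP k j ^ e' j), ← h1, ← h2, h, map_pow, map_pow,
      div_pow]
    have hDn : algebraMap k[X][X] (rkK k) D ^ n ≠ 0 := pow_ne_zero _ hDm
    generalize algebraMap k[X][X] (rkK k) D ^ n = d at *
    generalize algebraMap k[X][X] (rkK k) N ^ n = m at *
    field_simp
  have key2 : D ^ n * ∏ j, rkP k j ^ (![e 0 + (e' 1 + e' 4), e 1, e 2 + (e' 1 + e' 3), e 3, e 4] :
      Fin 5 → ℕ) j = N ^ n * ∏ j, rkP k j ^ (![e' 0 + (e 1 + e 4), e' 1, e' 2 + (e 1 + e 3), e' 3,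
        e' 4] : Fin 5 → ℕ) j := by
    rw [Fin.prod_univ_five, Fin.prod_univ_five] at key
    rw [Fin.prod_univ_five, Fin.prod_univ_five]
    simp only [Matrix.cons_val, pow_add (rkP k 0) (e 0), pow_add (rkP k 2) (e 2),
      pow_add (rkP k 0) (e' 0), pow_add (rkP k 2) (e' 2)]
    linear_combination key
  have hv := rk_val (rkP k) (rkP_prime k) (rkP_not_dvd k) n N D hN0 hD0 _ _ key2
  have hmod : ∀ a b x y : ℕ, x < n → y < n → n * a + x = n * b + y → x = y := by
    intro a b x y hx hy hxy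
    have := congrArg (· % n) hxy
    simp only [Nat.mul_add_mod, Nat.mod_eq_of_lt hx, Nat.mod_eq_of_lt hy] at this
    exact this
  have v1 : e 1 = e' 1 := hmod _ _ _ _ (he 1) (he' 1) (hv 1)
  have v3 : e 3 = e' 3 := hmod _ _ _ _ (he 3) (he' 3) (hv 3)
  have v4 : e 4 = e' 4 := hmod _ _ _ _ (he 4) (he' 4) (hv 4)
  have v0 : e 0 = e' 0 := by
    have := hv 0
    simp only [Matrix.cons_val] at this
    rw [v1, v4] at this
    exact hmod (multiplicity (rkP k 0) D) (multiplicity (rkP k 0) N) _ _ (he 0) (he' 0) (by omega)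
  have v2 : e 2 = e' 2 := by
    have := hv 2
    simp only [Matrix.cons_val] at this
    rw [v1, v3] at this
    exact hmod (multiplicity (rkP k 2) D) (multiplicity (rkP k 2) N) _ _ (he 2) (he' 2) (by omega)
  funext i
  fin_cases i
  · exact v0
  · exact v1
  · exact v2
  · exact v3
  · exact v4

/-- existence of the model field with linearly independent good monomials -/
theorem rk_model [IsAlgClosed k] [NeZero (n : k)] :
    ∃ φ : ORing n k →ₐ[k] SeparableClosure (rkK k),
      LinearIndependent k (fun β : {β : Fin 5 → ℕ // Good n β} => φ (zm n k β.1)) := by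
  classical
  have hn0 : n ≠ 0 := by
    rintro rfl
    exact NeZero.ne ((0 : ℕ) : k) (by simp)
  have : NeZero n := ⟨hn0⟩
  have hnK : NeZero (n : rkK k) := by
    refine ⟨?_⟩
    have := NeZero.ne (n : k)
    intro h
    apply this
    apply (algebraMap k (rkK k)).injective
    rw [map_natCast, h, map_zero]
  have hnL : NeZero (n : SeparableClosure (rkK k)) := by
    refine ⟨?_⟩
    have := NeZero.ne (n : rkK k)
    intro h
    apply this
    apply (algebraMap (rkK k) (SeparableClosure (rkK k))).injective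
    rw [map_natCast, h, map_zero]
  have hroot : ∀ j, ∃ x : SeparableClosure (rkK k), x ^ n = algebraMap _ _ (rkZ k j) := fun j =>
    IsSepClosed.exists_pow_nat_eq _ n
  choose r hr using hroot
  have hrel : ∀ j, r j ^ n * r (j + 1) ^ n = 1 + r (j + 3) ^ n := by
    intro j
    rw [hr, hr, hr, ← map_mul, rkZ_rel, map_add, map_one]
  have hr0 : ∀ j, r j ≠ 0 := by
    intro j h
    have := hr j
    rw [h, zero_pow hn0] at this
    exact rkZ_ne k j ((map_eq_zero _).1 this.symm)
  refine ⟨ORing.lift r hrel, ?_⟩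
  have hval : ∀ β : Fin 5 → ℕ, ORing.lift (k := k) r hrel (zm n k β) = ∏ j, r j ^ β j := by
    intro β
    simp [zm]
  simp only [hval]
  obtain ⟨ζ0, hζ0⟩ := HasEnoughRootsOfUnity.exists_primitiveRoot k n
  have hζ : IsPrimitiveRoot (algebraMap k (rkK k) ζ0) n :=
    hζ0.map_of_injective (algebraMap k (rkK k)).injective
  have hli2 : LinearIndependent (rkK k) (fun e : Fin 5 → Fin n => ∏ j, r j ^ (e j : ℕ)) := by
    apply rk_kummer_li n (algebraMap k (rkK k) ζ0) hζ
    · intro e
      exact Finset.prod_ne_zero_iff.2 fun j _ => pow_ne_zero _ (hr0 j)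
    · intro e
      refine ⟨∏ j, rkZ k j ^ (e j : ℕ), ?_⟩
      rw [map_prod, ← Finset.prod_pow]
      refine Finset.prod_congr rfl fun j _ => ?_
      rw [map_pow, ← hr, ← pow_mul, ← pow_mul, mul_comm]
    · intro e e' hne c hc
      apply hne
      have h1 : ∏ j, rkZ k j ^ (e j : ℕ) = c ^ n * ∏ j, rkZ k j ^ (e' j : ℕ) := by
        apply (algebraMap (rkK k) (SeparableClosure (rkK k))).injective
        have hh := congrArg (· ^ n) hc
        simp only [mul_pow] at hh
        rw [map_mul, map_pow, map_prod, map_prod]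
        have e1 : ∀ f : Fin 5 → Fin n, ∏ j, algebraMap (rkK k) (SeparableClosure (rkK k))
            (rkZ k j ^ (f j : ℕ)) = (∏ j, r j ^ (f j : ℕ)) ^ n := by
          intro f
          rw [← Finset.prod_pow]
          refine Finset.prod_congr rfl fun j _ => ?_
          rw [map_pow, ← hr, ← pow_mul, ← pow_mul, mul_comm]
        rw [e1, e1]
        exact hh
      have h2 := rk_residue k n (fun j => (e j : ℕ)) (fun j => (e' j : ℕ))
        (fun i => (e i).2) (fun i => (e' i).2) c h1
      funext i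
      exact Fin.ext (congrFun h2 i)
  have hli := linearIndependent_smul (rk_li1 k) hli2
  have hgood : ∀ β : {β : Fin 5 → ℕ // Good n β}, Good 1 (fun j => β.1 j / n) := by
    intro β j
    rcases β.2 j with h | h
    · left; show β.1 j / n < 1
      rw [Nat.div_eq_of_lt h]; exact Nat.zero_lt_one
    · right; show β.1 (j + 1) / n < 1
      rw [Nat.div_eq_of_lt h]; exact Nat.zero_lt_one
  have hcomp := hli.comp (fun β : {β : Fin 5 → ℕ // Good n β} =>
    ((⟨fun j => β.1 j / n, hgood β⟩ : {q : Fin 5 → ℕ // Good 1 q}),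
      (fun j => (⟨β.1 j % n, Nat.mod_lt _ (NeZero.pos n)⟩ : Fin n)))) ?_
  · convert hcomp using 1
    funext β
    simp only [Function.comp, Algebra.smul_def, map_prod, map_pow, ← hr]
    rw [← Finset.prod_mul_distrib]
    refine Finset.prod_congr rfl fun j _ => ?_
    rw [← pow_mul, ← pow_add, Nat.div_add_mod]
  · intro β β' h
    rw [Prod.mk.injEq] at h
    apply Subtype.ext
    funext j
    have h1 := congrFun (congrArg Subtype.val h.1) j
    have h2 := congrArg Fin.val (congrFun h.2 j)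
    simp only at h1 h2
    rw [← Nat.div_add_mod (β.1 j) n, ← Nat.div_add_mod (β'.1 j) n, h1, h2]

/-- the basis monomials are linearly independent -/
theorem linearIndependent_zm [IsAlgClosed k] [NeZero (n : k)] :
    LinearIndependent k (fun β : {β : Fin 5 → ℕ // Good n β} => zm n k β.1) := by
  obtain ⟨φ, hφ⟩ := rk_model n k
  exact LinearIndependent.of_comp φ.toLinearMap hφ

theorem NeZero.pos_of_cast [NeZero (n : k)] : 0 < n := by
  rcases Nat.eq_zero_or_pos n with rfl | h
  · exact absurd (by simp) (NeZero.ne ((0 : ℕ) : k))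
  · exact h

/-- the monomials `z^β`, `β` good, form a `k`-basis of `O n k`. -/
noncomputable def zBasis [IsAlgClosed k] [NeZero (n : k)] :
    Module.Basis {β : Fin 5 → ℕ // Good n β} k (ORing n k) :=
  Module.Basis.mk (linearIndependent_zm n k) (span_zm_good (NeZero.pos_of_cast n k)).ge

variable {n k}

@[simp] theorem zBasis_apply [IsAlgClosed k] [NeZero (n : k)] (β : {β : Fin 5 → ℕ // Good n β}) :
    zBasis n k β = zm n k β.1 := by
  simp [zBasis]

/-- `O n k` is a domain. -/
instance instIsDomainORing [IsAlgClosed k] [NeZero (n : k)] : IsDomain (ORing n k) := by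
  obtain ⟨φ, hφ⟩ := rk_model n k
  have hinj : Function.Injective φ := by
    rw [injective_iff_map_eq_zero]
    intro x hx
    have h1 : x = ∑ β ∈ ((zBasis n k).repr x).support, (zBasis n k).repr x β • zm n k β.1 := by
      conv_lhs => rw [← (zBasis n k).linearCombination_repr x]
      rw [Finsupp.linearCombination_apply, Finsupp.sum]
      simp
    have h2 : ∑ β ∈ ((zBasis n k).repr x).support, (zBasis n k).repr x β • φ (zm n k β.1) = 0 := by
      rw [h1, map_sum] at hx
      simpa using hx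
    have h3 := linearIndependent_iff'.1 hφ _ _ h2
    have h4 : (zBasis n k).repr x = 0 := by
      ext β
      by_cases hβ : β ∈ ((zBasis n k).repr x).support
      · exact h3 β hβ
      · simpa using hβ
    simpa using h4
  exact hinj.isDomain φ.toRingHom

/-- membership in `F_m` in terms of coordinates. -/
theorem mem_Fil_iff [IsAlgClosed k] [NeZero (n : k)] (m : ℤ) (x : ORing n k) :
    x ∈ Fil n k m ↔ ∀ β : {β : Fin 5 → ℕ // Good n β},
      (zBasis n k).repr x β ≠ 0 → ∀ i, w i β.1 ≤ m := by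
  rw [Fil_eq_span_good (NeZero.pos_of_cast n k)]
  have h1 : (zm n k '' {β | Good n β ∧ ∀ i, w i β ≤ m}) =
      (zBasis n k) '' {β | ∀ i, w i β.1 ≤ m} := by
    ext y
    constructor
    · rintro ⟨β, ⟨h1, h2⟩, rfl⟩
      exact ⟨⟨β, h1⟩, h2, by simp⟩
    · rintro ⟨β, h2, rfl⟩
      exact ⟨β.1, ⟨β.2, h2⟩, by simp⟩
  rw [h1, Module.Basis.mem_span_image]
  constructor
  · intro h β hβ
    exact h (by simpa using hβ)
  · intro h β hβ
    exact h β (by simpa using hβ)


end

end Crest.R169
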