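import Crest.Agent.R169.TBasic
import Crest.Agent.R169.Lat
import Crest.Agent.R169.Bridge
import Crest.Agent.R169.Frob
import Mathlib
import Crest.Agent.R169.Ring

-- ▼ part R169/Rank
section

/-!
# Row 169: rank of a `T`-lattice in `Q^R` over `K0 = k(u,v)` is `N R` (helper169)
-/

set_option autoImplicit false

namespace Crest.Agent.R169.Rank

open Module

variable {k Q : Type} [Field k] [Field Q] [Algebra k Q] (D : TData k Q)

/-- the `K0`-span of `F` is closed under multiplication by elements of `F`. -/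
theorem mul_mem_span {f : Q} {i : ℤ} (hf : f ∈ D.F i) {x : Q} (hx : x ∈ spanK D.K0 D.F) :
    f * x ∈ spanK D.K0 D.F := by
  induction hx using Submodule.span_induction with
  | mem x h =>
    obtain ⟨j, hj⟩ := Set.mem_iUnion.1 h
    exact Submodule.subset_span (Set.mem_iUnion.2 ⟨i + j, D.mul_mem i j f hf x hj⟩)
  | zero => simp
  | add x y _ _ hx hy =>
    rw [mul_add]
    exact Submodule.add_mem _ hx hy
  | smul a x _ hx =>
    have : f * a • x = a • (f * x) := by
      rw [Algebra.smul_def, Algebra.smul_def]; ring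
    rw [this]
    exact Submodule.smul_mem _ _ hx

theorem spanK_le {V : Type} [AddCommGroup V] [Module k V] [Module Q V]
    [IsScalarTower k Q V] {E : ℤ → Submodule k V} (hE : IsLat D.u D.v E) :
    ∃ m₁ : ℤ, spanK D.K0 E ≤ Submodule.span D.K0 (E m₁ : Set V) := by
  obtain ⟨m₁, h⟩ := hE.gen
  refine ⟨m₁, Submodule.span_le.2 ?_⟩
  intro x hx
  obtain ⟨m, hm⟩ := Set.mem_iUnion.1 hx
  have key : ∀ n : ℕ, ∀ x ∈ E (m₁ + n), x ∈ Submodule.span D.K0 (E m₁ : Set V) := by
    intro n
    induction n with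
    | zero =>
      intro x hx
      exact Submodule.subset_span (by simpa using hx)
    | succ n ih =>
      intro x hx
      obtain ⟨a, ha, b, hb, c, hc, rfl⟩ := h (m₁ + n) (by omega) x (by
        have e : m₁ + ((n + 1 : ℕ) : ℤ) = m₁ + n + 1 := by push_cast; ring
        rwa [e] at hx)
      have hu : D.u ∈ D.K0 := IntermediateField.subset_adjoin _ _ (by simp)
      have hv : D.v ∈ D.K0 := IntermediateField.subset_adjoin _ _ (by simp)
      refine Submodule.add_mem _ (Submodule.add_mem _ (ih a ha) ?_) ?_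
      · exact Submodule.smul_mem _ (⟨D.u, hu⟩ : D.K0) (ih b hb)
      · exact Submodule.smul_mem _ (⟨D.v, hv⟩ : D.K0) (ih c hc)
  rcases le_total m m₁ with hle | hle
  · exact Submodule.subset_span (hE.mono_le hle hm)
  · obtain ⟨n, rfl⟩ := Int.le.dest hle
    exact key n x hm

theorem finite_spanK {V : Type} [AddCommGroup V] [Module k V] [Module Q V]
    [IsScalarTower k Q V] {E : ℤ → Submodule k V} (hE : IsLat D.u D.v E) :
    Module.Finite D.K0 (spanK D.K0 E) := by
  obtain ⟨m₁, h⟩ := spanK_le D hE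
  have : IsScalarTower k D.K0 V := ⟨fun a x v => by
    change ((a • x : D.K0) : Q) • v = a • ((x : Q) • v)
    rw [← smul_assoc]
    rfl⟩
  have hfin := hE.fin m₁
  obtain ⟨s, hs⟩ := (Module.Finite.iff_fg.1 hfin)
  have h2 : (E m₁ : Set V) ⊆ Submodule.span D.K0 (s : Set V) := by
    intro x hx
    have : x ∈ Submodule.span k (s : Set V) := by rw [hs]; exact hx
    exact Submodule.span_le_restrictScalars k D.K0 (s : Set V) this
  have h3 : spanK D.K0 E ≤ Submodule.span D.K0 (s : Set V) :=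
    h.trans (Submodule.span_le.2 h2)
  have : Module.Finite D.K0 (Submodule.span D.K0 (s : Set V)) :=
    Module.Finite.iff_fg.2 ⟨s, rfl⟩
  exact Submodule.finiteDimensional_of_le h3

/-- `T ⊗ K0 = Q`. -/
theorem spanK_F : spanK D.K0 D.F = ⊤ := by
  have hfin := finite_spanK D (E := D.F) D.lat
  rw [eq_top_iff]
  intro q _
  obtain ⟨m, f, hf, g, hg, hg0, hq⟩ := D.frac q
  let L : spanK D.K0 D.F →ₗ[D.K0] spanK D.K0 D.F :=
    { toFun := fun x => ⟨g * x.1, mul_mem_span D hg x.2⟩
      map_add' := by intro x y; ext; simp [mul_add]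
      map_smul' := by
        intro a x
        ext
        simp only [SetLike.val_smul, RingHom.id_apply, Algebra.smul_def]
        ring }
  have hinj : Function.Injective L := by
    intro x y h
    have h1 : g * x.1 = g * y.1 := congrArg Subtype.val h
    exact Subtype.ext (mul_left_cancel₀ hg0 h1)
  have hsurj := LinearMap.surjective_of_injective hinj
  have hf' : f ∈ spanK D.K0 D.F := Submodule.subset_span (Set.mem_iUnion.2 ⟨m, hf⟩)
  obtain ⟨x, hx⟩ := hsurj ⟨f, hf'⟩
  have h1 : g * x.1 = f := congrArg Subtype.val hx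
  have h2 : q = x.1 := by
    apply mul_left_cancel₀ hg0
    rw [h1, mul_comm, hq]
  rw [h2]
  exact x.2

theorem finite_Q : Module.Finite D.K0 Q := by
  have hfin := finite_spanK D (E := D.F) D.lat
  rw [spanK_F] at hfin
  exact Module.finite_def.2 (Module.Finite.iff_fg.1 hfin)

/-- the `K0`-span of a `T`-lattice is a `Q`-subspace, hence everything. -/
theorem spanK_G {V : Type} [AddCommGroup V] [Module k V] [Module Q V]
    [IsScalarTower k Q V] {G : ℤ → Submodule k V} (hG : IsTLat D G) :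
    spanK D.K0 G = ⊤ := by
  have key : ∀ q : Q, ∀ x ∈ spanK D.K0 G, q • x ∈ spanK D.K0 G := by
    intro q x hx
    have hq : q ∈ spanK D.K0 D.F := by rw [spanK_F]; trivial
    induction hq using Submodule.span_induction with
    | mem f h =>
      obtain ⟨i, hi⟩ := Set.mem_iUnion.1 h
      induction hx using Submodule.span_induction with
      | mem x h =>
        obtain ⟨j, hj⟩ := Set.mem_iUnion.1 h
        exact Submodule.subset_span (Set.mem_iUnion.2 ⟨i + j, hG.act i j f hi x hj⟩)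
      | zero => simp
      | add x y _ _ hx hy =>
        rw [smul_add]
        exact Submodule.add_mem _ hx hy
      | smul a x _ hx =>
        have : f • a • x = a • (f • x) := by
          have h1 : ∀ y : V, a • y = (a : Q) • y := fun y => rfl
          rw [h1, h1, smul_smul, smul_smul, mul_comm]
        rw [this]
        exact Submodule.smul_mem _ _ hx
    | zero => simp
    | add a b _ _ ha hb =>
      rw [add_smul]
      exact Submodule.add_mem _ ha hb
    | smul a b _ hb =>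
      have : (a • b) • x = a • (b • x) := by
        have h1 : ∀ y : V, a • y = (a : Q) • y := fun y => rfl
        rw [h1, Algebra.smul_def, smul_smul]
        rfl
      rw [this]
      exact Submodule.smul_mem _ _ hb
  rw [eq_top_iff]
  intro x _
  have hx : x ∈ spanK Q G := by rw [hG.full]; trivial
  induction hx using Submodule.span_induction with
  | mem x h => exact Submodule.subset_span h
  | zero => exact Submodule.zero_mem _
  | add x y _ _ hx hy => exact Submodule.add_mem _ (hx trivial) (hy trivial)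
  | smul q x _ hx => exact key q x (hx trivial)


theorem rk_G {R : ℕ} {G : ℤ → Submodule k (Fin R → Q)} (hG : IsTLat D G) :
    rk D.K0 G = rk D.K0 D.F * R := by
  have hfin := finite_Q D
  unfold rk
  rw [spanK_G D hG, spanK_F, finrank_top, finrank_top, Module.finrank_pi_fintype]
  simp [mul_comm]

end Crest.Agent.R169.Rank
end

-- ▼ part R169/Numeric
section

/-!
# Row 169: final numerics
-/

set_option autoImplicit false

namespace Crest.Agent.R169

theorem Jinv_T7 : Jinv 1715 (-(8575 / 2 : ℚ)) 4802 = -343 := by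
  unfold Jinv; norm_num

/-- For `T = T_7` the lower bound C7 and the upper bound contradict each other for large `p`. -/
theorem numeric_contra (R : ℕ) (hR : 0 < R) (c0 c1 : ℕ) :
    ∃ p0 : ℕ, ∀ p : ℕ, p0 ≤ p → ∀ J JW : ℚ, 0 ≤ J →
      (p : ℚ) ^ 2 * (J - R * (-343)) + R * (-343) ≤ JW →
      JW ≤ 1 / 2 * ((1715 : ℕ) * R) * ((p : ℚ) / 2 + (R - 1) * c0 + c1) ^ 2 → False := by
  refine ⟨10 * ((R - 1) * c0 + c1 + 1), fun p hp J JW hJ h1 h2 => ?_⟩
  have hR1 : (1 : ℚ) ≤ R := by exact_mod_cast hR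
  set C : ℚ := (R - 1) * c0 + c1 with hC
  have hC0 : 0 ≤ C := by
    have h : (0 : ℚ) ≤ (R - 1) * c0 := mul_nonneg (by linarith) (by positivity)
    have : (0 : ℚ) ≤ c1 := by positivity
    linarith
  have hpC : 10 * (C + 1) ≤ (p : ℚ) := by
    have h : ((10 * ((R - 1) * c0 + c1 + 1) : ℕ) : ℚ) ≤ p := by exact_mod_cast hp
    rw [hC]
    have e : (((R - 1 : ℕ) : ℚ)) = (R : ℚ) - 1 := by
      rw [Nat.cast_sub hR]; norm_num
    push_cast at h
    rw [e] at h
    linarith
  have hp0 : (0 : ℚ) ≤ p := by positivity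
  have e3 : (p : ℚ) / 2 + (R - 1) * c0 + c1 = p / 2 + C := by rw [hC]; ring
  rw [e3] at h2
  have hRp : (R : ℚ) * (343 * (p : ℚ) ^ 2 - 343) ≤ R * ((1715 / 2) * (p / 2 + C) ^ 2) := by
    have h4 : (p : ℚ) ^ 2 * J ≥ 0 := by positivity
    push_cast at h2
    nlinarith
  have h5 : 343 * (p : ℚ) ^ 2 - 343 ≤ (1715 / 2) * (p / 2 + C) ^ 2 :=
    le_of_mul_le_mul_left hRp (by linarith)
  nlinarith [mul_nonneg hC0 hp0, mul_nonneg hC0 hC0, mul_nonneg (sub_nonneg.2 hpC) hp0,
    mul_nonneg (sub_nonneg.2 hpC) hC0]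

/-- char `p` contradiction from C7 + upper bound. -/
theorem charp_contra {k Q : Type} [Field k] [Field Q] [Algebra k Q] (D : TData k Q)
    (R : ℕ) (hR : 0 < R) (c0 c1 p : ℕ)
    (hp : ∀ J JW : ℚ, 0 ≤ J →
      (p : ℚ) ^ 2 * (J - R * (-343)) + R * (-343) ≤ JW →
      JW ≤ 1 / 2 * ((1715 : ℕ) * R) * ((p : ℚ) / 2 + (R - 1) * c0 + c1) ^ 2 → False)
    (hU : UpperBound D p 1715 c0 c1) (hL : C7 D p 1715 (-(8575 / 2)) 4802)
    (G : ℤ → Submodule k (Fin R → Q)) (hG : IsTLat D G) (b c : ℚ)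
    (hHP : HasHP G (1715 * R) b c) (hN : NSS (Q := Q) G (1715 * R) b)
    (hJ : 0 ≤ Jinv (1715 * R) b c)
    (hW : ∃ b' c' : ℚ, HasHP (frobPull D p G) (1715 * R) b' c') : False := by
  obtain ⟨b', c', hW⟩ := hW
  have h1 := hL R G hR hG b c b' c' hHP hW
  have h2 := hU R G hR hG b c b' c' hHP hN hW
  rw [Jinv_T7] at h1
  exact hp _ _ hJ h1 (by exact_mod_cast h2)

end Crest.Agent.R169
end

-- ▼ part R169/Der0
section

/-!
# Row 169, module F4: derivations (abstract part)

* `Crest.Agent.R169.Der.ext` : extension of a derivation `O → Q` to the fraction field `Q`;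
* `Crest.Agent.R169.Der.kernel_pow` : common kernel of two diagonalisable derivations is `Q^p`.
-/

set_option autoImplicit false

namespace Crest.Agent.R169.Der

section Ext

variable {k O Q : Type*} [CommRing k] [CommRing O] [Algebra k O] [Field Q] [Algebra k Q]
  [Algebra O Q] [IsScalarTower k O Q] [IsFractionRing O Q]

open TrivSqZeroExt in
/-- the dual-number valued ring hom attached to a derivation `O → Q` -/
noncomputable def dualHom (D : Derivation k O Q) : O →+* TrivSqZeroExt Q Q where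
  toFun x := inl (algebraMap O Q x) + inr (D x)
  map_one' := by
    rw [map_one, Derivation.map_one_eq_zero, inr_zero, add_zero, inl_one]
  map_mul' x y := by
    apply TrivSqZeroExt.ext
    · simp
    · rw [TrivSqZeroExt.snd_mul]
      simp only [TrivSqZeroExt.snd_add, TrivSqZeroExt.snd_inl, TrivSqZeroExt.snd_inr, zero_add,
        TrivSqZeroExt.fst_add, TrivSqZeroExt.fst_inl, TrivSqZeroExt.fst_inr, add_zero,
        Derivation.leibniz, op_smul_eq_smul, smul_eq_mul, Algebra.smul_def]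
  map_zero' := by simp
  map_add' x y := by
    apply TrivSqZeroExt.ext
    · simp
    · simp

theorem dualHom_fst (D : Derivation k O Q) (x : O) :
    (dualHom D x).fst = algebraMap O Q x := by
  simp [dualHom]

theorem dualHom_snd (D : Derivation k O Q) (x : O) : (dualHom D x).snd = D x := by
  simp [dualHom]

theorem dualHom_isUnit (D : Derivation k O Q) (y : nonZeroDivisors O) :
    IsUnit (dualHom D y) := by
  rw [TrivSqZeroExt.isUnit_iff_isUnit_fst, dualHom_fst]
  exact IsLocalization.map_units Q y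

/-- extension of `dualHom` to the fraction field -/
noncomputable def dualHomQ (D : Derivation k O Q) : Q →+* TrivSqZeroExt Q Q :=
  IsLocalization.lift (M := nonZeroDivisors O) (dualHom_isUnit D)

theorem dualHomQ_algebraMap (D : Derivation k O Q) (x : O) :
    dualHomQ D (algebraMap O Q x) = dualHom D x :=
  IsLocalization.lift_eq _ _

theorem dualHomQ_fst (D : Derivation k O Q) (q : Q) : (dualHomQ D q).fst = q := by
  have h : (TrivSqZeroExt.fstHom ℤ Q Q).toRingHom.comp (dualHomQ D) = RingHom.id Q := by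
    apply IsLocalization.ringHom_ext (nonZeroDivisors O)
    ext x
    simp [dualHomQ_algebraMap, dualHom_fst]
  have := congrArg (fun f => f q) h
  simpa using this

/-- extension of a derivation to the fraction field -/
noncomputable def ext (D : Derivation k O Q) : Derivation k Q Q :=
  Derivation.mk'
    { toFun := fun q => (dualHomQ D q).snd
      map_add' := fun x y => by rw [map_add]; simp
      map_smul' := fun c x => by
        have h1 : algebraMap k Q c = algebraMap O Q (algebraMap k O c) :=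
          IsScalarTower.algebraMap_apply k O Q c
        rw [Algebra.smul_def, map_mul, h1, dualHomQ_algebraMap, TrivSqZeroExt.snd_mul,
          dualHom_fst, dualHom_snd, Derivation.map_algebraMap, ← h1]
        simp [Algebra.smul_def] }
    (fun a b => by
      show (dualHomQ D (a * b)).snd = a • (dualHomQ D b).snd + b • (dualHomQ D a).snd
      rw [map_mul, TrivSqZeroExt.snd_mul, dualHomQ_fst, dualHomQ_fst, op_smul_eq_smul])

theorem ext_algebraMap (D : Derivation k O Q) (x : O) : ext D (algebraMap O Q x) = D x := by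
  show (dualHomQ D (algebraMap O Q x)).snd = D x
  rw [dualHomQ_algebraMap, dualHom_snd]

end Ext


section Kernel

variable {Q : Type*} [Field Q]

/-- monomials `c^p z1^i z2^j` -/
def monos (p : ℕ) (z1 z2 : Q) : Set Q :=
  {x | ∃ (c : Q) (i j : ℕ), x = c ^ p * z1 ^ i * z2 ^ j}

theorem monos_mul (p : ℕ) (z1 z2 : Q) {x y : Q} (hx : x ∈ monos p z1 z2)
    (hy : y ∈ monos p z1 z2) : x * y ∈ monos p z1 z2 := by
  obtain ⟨c, i, j, rfl⟩ := hx
  obtain ⟨d, i', j', rfl⟩ := hy
  exact ⟨c * d, i + i', j + j', by ring⟩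

theorem monos_one (p : ℕ) (z1 z2 : Q) : (1 : Q) ∈ monos p z1 z2 :=
  ⟨1, 0, 0, by simp⟩

/-- the submonoid of monomials -/
def monosM (p : ℕ) (z1 z2 : Q) : Submonoid Q where
  carrier := monos p z1 z2
  mul_mem' := monos_mul p z1 z2
  one_mem' := monos_one p z1 z2

/-- The subring spanned by the monomials is a subfield. -/
def monosField (p : ℕ) (hp : p ≠ 0) (z1 z2 : Q) : Subfield Q :=
  { Subring.closure (monos p z1 z2) with
    inv_mem' := by
      intro x hx
      by_cases h0 : x = 0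
      · subst h0
        rw [inv_zero]
        exact Subring.zero_mem _
      · have h1 : x⁻¹ = (x⁻¹) ^ p * x ^ (p - 1) := by
          obtain ⟨n, rfl⟩ := Nat.exists_eq_succ_of_ne_zero hp
          rw [Nat.succ_sub_one, pow_succ, mul_assoc, mul_comm, mul_assoc, ← mul_pow,
            mul_inv_cancel₀ h0, one_pow, mul_one]
        rw [h1]
        refine Subring.mul_mem _ (Subring.subset_closure ⟨x⁻¹, 0, 0, by simp⟩) ?_
        exact Subring.pow_mem _ hx _ }

theorem mem_monosField {p : ℕ} {hp : p ≠ 0} {z1 z2 x : Q} :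
    x ∈ monosField p hp z1 z2 ↔ x ∈ AddSubgroup.closure (monos p z1 z2) := by
  have h : x ∈ monosField p hp z1 z2 ↔ x ∈ Subring.closure (monos p z1 z2) := Iff.rfl
  rw [h, Subring.mem_closure_iff]
  have h2 : Submonoid.closure (monos p z1 z2) = monosM p z1 z2 := by
    apply le_antisymm
    · exact Submonoid.closure_le.mpr (fun x hx => hx)
    · intro x hx
      exact Submonoid.subset_closure hx
  rw [h2]
  rfl

variable {k : Type*} [CommRing k] [Algebra k Q]

theorem natCast_pow_eq (p : ℕ) [Fact p.Prime] [CharP Q p] (i : ℕ) (hi : ¬ p ∣ i) :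
    (i : Q) ^ (p - 1) = 1 := by
  have h1 : (i : ZMod p) ≠ 0 := by
    rw [Ne, ZMod.natCast_eq_zero_iff]
    exact hi
  have h2 := ZMod.pow_card_sub_one_eq_one h1
  have h3 := congrArg (ZMod.castHom (dvd_refl p) Q) h2
  simpa using h3

theorem AddMonoid.End.mul_apply' {A : Type*} [AddCommMonoid A] (f g : AddMonoid.End A) (x : A) :
    (f * g) x = f (g x) := rfl

/-- Common kernel of two derivations is `Q^p`. -/
theorem kernel_pow (p : ℕ) [Fact p.Prime] [CharP Q p] (D1 D2 : Derivation k Q Q)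
    (z1 z2 h1 h2 : Q) (hh1 : h1 ≠ 0) (hh2 : h2 ≠ 0)
    (e11 : D1 z1 = h1 * z1) (e12 : D1 z2 = 0) (e21 : D2 z1 = 0) (e22 : D2 z2 = h2 * z2)
    (hgen : ∀ S : Subfield Q, (∀ x : Q, x ^ p ∈ S) → z1 ∈ S → z2 ∈ S → S = ⊤)
    (x : Q) (hx1 : D1 x = 0) (hx2 : D2 x = 0) : ∃ y, y ^ p = x := by
  have hp : p.Prime := Fact.out
  have hp0 : p ≠ 0 := hp.ne_zero
  have hp1 : p - 1 ≠ 0 := Nat.sub_ne_zero_of_lt hp.one_lt
  -- scaled derivations
  set δ1 : Derivation k Q Q := h1⁻¹ • D1 with hδ1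
  set δ2 : Derivation k Q Q := h2⁻¹ • D2 with hδ2
  have d11 : δ1 z1 = z1 := by
    rw [hδ1, Derivation.smul_apply, e11, smul_eq_mul, ← mul_assoc, inv_mul_cancel₀ hh1, one_mul]
  have d12 : δ1 z2 = 0 := by rw [hδ1, Derivation.smul_apply, e12, smul_zero]
  have d21 : δ2 z1 = 0 := by rw [hδ2, Derivation.smul_apply, e21, smul_zero]
  have d22 : δ2 z2 = z2 := by
    rw [hδ2, Derivation.smul_apply, e22, smul_eq_mul, ← mul_assoc, inv_mul_cancel₀ hh2, one_mul]
  have dp : ∀ (δ : Derivation k Q Q) (c : Q), δ (c ^ p) = 0 := by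
    intro δ c
    rw [Derivation.leibniz_pow]
    have : (p : Q) = 0 := CharP.cast_eq_zero Q p
    rw [nsmul_eq_mul, this, zero_mul]
  have m1 : ∀ (c : Q) (i j : ℕ), δ1 (c ^ p * z1 ^ i * z2 ^ j)
      = (i : Q) * (c ^ p * z1 ^ i * z2 ^ j) := by
    intro c i j
    rw [Derivation.leibniz, Derivation.leibniz, dp, Derivation.leibniz_pow,
      Derivation.leibniz_pow, d11, d12]
    rcases Nat.eq_zero_or_pos i with hi | hi
    · subst hi; simp
    · obtain ⟨n, rfl⟩ := Nat.exists_eq_add_of_lt hi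
      simp only [zero_add] at *
      simp only [smul_eq_mul, nsmul_eq_mul, Nat.add_sub_cancel]
      push_cast
      ring
  have m2 : ∀ (c : Q) (i j : ℕ), δ2 (c ^ p * z1 ^ i * z2 ^ j)
      = (j : Q) * (c ^ p * z1 ^ i * z2 ^ j) := by
    intro c i j
    rw [Derivation.leibniz, Derivation.leibniz, dp, Derivation.leibniz_pow,
      Derivation.leibniz_pow, d21, d22]
    rcases Nat.eq_zero_or_pos j with hj | hj
    · subst hj; simp
    · obtain ⟨n, rfl⟩ := Nat.exists_eq_add_of_lt hj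
      simp only [zero_add] at *
      simp only [smul_eq_mul, nsmul_eq_mul, Nat.add_sub_cancel]
      push_cast
      ring
  -- additive endomorphisms
  let E1 : AddMonoid.End Q := (δ1 : Q →ₗ[k] Q).toAddMonoidHom
  let E2 : AddMonoid.End Q := (δ2 : Q →ₗ[k] Q).toAddMonoidHom
  have E1a : ∀ y, E1 y = δ1 y := fun _ => rfl
  have E2a : ∀ y, E2 y = δ2 y := fun _ => rfl
  have castmul : ∀ (δ : Derivation k Q Q) (n i : ℕ) (y : Q),
      δ ((i : Q) ^ n * y) = (i : Q) ^ n * δ y := by
    intro δ n i y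
    rw [Derivation.leibniz, Derivation.leibniz_pow, Derivation.map_natCast]
    simp
  have it1 : ∀ (n : ℕ) (c : Q) (i j : ℕ), (E1 ^ n) (c ^ p * z1 ^ i * z2 ^ j)
      = (i : Q) ^ n * (c ^ p * z1 ^ i * z2 ^ j) := by
    intro n c i j
    induction n with
    | zero => simp
    | succ n ih =>
      rw [pow_succ', AddMonoid.End.mul_apply', ih, E1a, castmul, m1, pow_succ]
      ring
  have it2 : ∀ (n : ℕ) (c : Q) (i j : ℕ), (E2 ^ n) (c ^ p * z1 ^ i * z2 ^ j)
      = (j : Q) ^ n * (c ^ p * z1 ^ i * z2 ^ j) := by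
    intro n c i j
    induction n with
    | zero => simp
    | succ n ih =>
      rw [pow_succ', AddMonoid.End.mul_apply', ih, E2a, castmul, m2, pow_succ]
      ring
  let P1 : AddMonoid.End Q := 1 - E1 ^ (p - 1)
  let P2 : AddMonoid.End Q := 1 - E2 ^ (p - 1)
  have P1m : ∀ (c : Q) (i j : ℕ), P1 (c ^ p * z1 ^ i * z2 ^ j) =
      if p ∣ i then c ^ p * z1 ^ i * z2 ^ j else 0 := by
    intro c i j
    show (c ^ p * z1 ^ i * z2 ^ j) - (E1 ^ (p - 1)) (c ^ p * z1 ^ i * z2 ^ j) = _
    rw [it1]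
    split_ifs with h
    · have : (i : Q) = 0 := (CharP.cast_eq_zero_iff Q p i).mpr h
      rw [this, zero_pow hp1, zero_mul, sub_zero]
    · rw [natCast_pow_eq p i h, one_mul, sub_self]
  have P2m : ∀ (c : Q) (i j : ℕ), P2 (c ^ p * z1 ^ i * z2 ^ j) =
      if p ∣ j then c ^ p * z1 ^ i * z2 ^ j else 0 := by
    intro c i j
    show (c ^ p * z1 ^ i * z2 ^ j) - (E2 ^ (p - 1)) (c ^ p * z1 ^ i * z2 ^ j) = _
    rw [it2]
    split_ifs with h
    · have : (j : Q) = 0 := (CharP.cast_eq_zero_iff Q p j).mpr h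
      rw [this, zero_pow hp1, zero_mul, sub_zero]
    · rw [natCast_pow_eq p j h, one_mul, sub_self]
  -- everything is spanned by the monomials
  have htop : monosField p hp0 z1 z2 = ⊤ := by
    apply hgen
    · intro y
      exact Subring.subset_closure ⟨y, 0, 0, by simp⟩
    · exact Subring.subset_closure ⟨1, 1, 0, by simp⟩
    · exact Subring.subset_closure ⟨1, 0, 1, by simp⟩
  have hmem : ∀ y : Q, y ∈ AddSubgroup.closure (monos p z1 z2) := by
    intro y
    rw [← mem_monosField (hp := hp0), htop]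
    trivial
  have key : ∀ y : Q, P1 (P2 y) ∈ (frobenius Q p).range := by
    intro y
    induction hmem y using AddSubgroup.closure_induction with
    | mem y hy =>
      obtain ⟨c, i, j, rfl⟩ := hy
      rw [P2m]
      split_ifs with hj
      · rw [P1m]
        split_ifs with hi
        · obtain ⟨a, rfl⟩ := hi
          obtain ⟨b, rfl⟩ := hj
          refine ⟨c * z1 ^ a * z2 ^ b, ?_⟩
          rw [frobenius_def]
          ring
        · exact Subring.zero_mem _
      · rw [map_zero]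
        exact Subring.zero_mem _
    | zero => rw [map_zero, map_zero]; exact Subring.zero_mem _
    | add a b _ _ ha hb => rw [map_add, map_add]; exact Subring.add_mem _ ha hb
    | neg a _ ha => rw [map_neg, map_neg]; exact Subring.neg_mem _ ha
  have z1' : ∀ n : ℕ, n ≠ 0 → (E1 ^ n) x = 0 := by
    intro n hn
    obtain ⟨n, rfl⟩ := Nat.exists_eq_succ_of_ne_zero hn
    rw [pow_succ, AddMonoid.End.mul_apply', E1a, hδ1, Derivation.smul_apply, hx1, smul_zero,
      map_zero]
  have z2' : ∀ n : ℕ, n ≠ 0 → (E2 ^ n) x = 0 := by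
    intro n hn
    obtain ⟨n, rfl⟩ := Nat.exists_eq_succ_of_ne_zero hn
    rw [pow_succ, AddMonoid.End.mul_apply', E2a, hδ2, Derivation.smul_apply, hx2, smul_zero,
      map_zero]
  have hP2 : P2 x = x := by
    show x - (E2 ^ (p - 1)) x = x
    rw [z2' _ hp1, sub_zero]
  have hP1 : P1 x = x := by
    show x - (E1 ^ (p - 1)) x = x
    rw [z1' _ hp1, sub_zero]
  obtain ⟨y, hy⟩ := key x
  rw [hP2, hP1, frobenius_def] at hy
  exact ⟨y, hy⟩

end Kernel

end Crest.Agent.R169.Der
end

-- ▼ part R169/Der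

/-!
# Row 169, module F4: the two derivations of the explicit ring `O n k`
-/

set_option autoImplicit false

open Crest.R169

namespace Crest.Agent.R169.Der

section DerO

variable (n : ℕ) (k : Type*) [Field k]

/-- abbreviations for `z_j ^ n` -/
noncomputable def ZZ (j : Fin 5) : ORing n k := z n k j ^ n

theorem ZZ_rel (j : Fin 5) : ZZ n k j * ZZ n k (j + 1) = 1 + ZZ n k (j + 3) := z_rel n k j

/-- logarithmic coefficients of the two derivations -/
noncomputable def gcoef : Fin 2 → Fin 5 → ORing n k :=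
  ![![ZZ n k 2 * ZZ n k 3, 0, -(ZZ n k 4 * ZZ n k 0), ZZ n k 0 * ZZ n k 1 * ZZ n k 2,
      -(ZZ n k 0 * ZZ n k 1 * ZZ n k 2)],
    ![0, -(ZZ n k 3 * ZZ n k 4), ZZ n k 4 * ZZ n k 0 * ZZ n k 1,
      -(ZZ n k 4 * ZZ n k 0 * ZZ n k 1), ZZ n k 1 * ZZ n k 2]]

theorem gcoef_rel (i : Fin 2) (j : Fin 5) :
    ZZ n k j * ZZ n k (j + 1) * (gcoef n k i j + gcoef n k i (j + 1))
      = ZZ n k (j + 3) * gcoef n k i (j + 3) := by
  have r0 : ZZ n k 0 * ZZ n k 1 = 1 + ZZ n k 3 := ZZ_rel n k 0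
  have r1 : ZZ n k 1 * ZZ n k 2 = 1 + ZZ n k 4 := ZZ_rel n k 1
  have r2 : ZZ n k 2 * ZZ n k 3 = 1 + ZZ n k 0 := ZZ_rel n k 2
  have r3 : ZZ n k 3 * ZZ n k 4 = 1 + ZZ n k 1 := ZZ_rel n k 3
  have r4 : ZZ n k 4 * ZZ n k 0 = 1 + ZZ n k 2 := ZZ_rel n k 4
  fin_cases i <;> fin_cases j
  · show ZZ n k 0 * ZZ n k 1 * (ZZ n k 2 * ZZ n k 3 + 0)
      = ZZ n k 3 * (ZZ n k 0 * ZZ n k 1 * ZZ n k 2)
    ring
  · show ZZ n k 1 * ZZ n k 2 * (0 + -(ZZ n k 4 * ZZ n k 0))
      = ZZ n k 4 * (-(ZZ n k 0 * ZZ n k 1 * ZZ n k 2))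
    ring
  · show ZZ n k 2 * ZZ n k 3 * (-(ZZ n k 4 * ZZ n k 0) + ZZ n k 0 * ZZ n k 1 * ZZ n k 2)
      = ZZ n k 0 * (ZZ n k 2 * ZZ n k 3)
    linear_combination (ZZ n k 2 * ZZ n k 3 * ZZ n k 0) * r1
  · show ZZ n k 3 * ZZ n k 4 * (ZZ n k 0 * ZZ n k 1 * ZZ n k 2 +
        -(ZZ n k 0 * ZZ n k 1 * ZZ n k 2)) = ZZ n k 1 * 0
    ring
  · show ZZ n k 4 * ZZ n k 0 * (-(ZZ n k 0 * ZZ n k 1 * ZZ n k 2) + ZZ n k 2 * ZZ n k 3)
      = ZZ n k 2 * (-(ZZ n k 4 * ZZ n k 0))
    linear_combination (-(ZZ n k 4 * ZZ n k 0 * ZZ n k 2)) * r0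
  · show ZZ n k 0 * ZZ n k 1 * (0 + -(ZZ n k 3 * ZZ n k 4))
      = ZZ n k 3 * (-(ZZ n k 4 * ZZ n k 0 * ZZ n k 1))
    ring
  · show ZZ n k 1 * ZZ n k 2 * (-(ZZ n k 3 * ZZ n k 4) + ZZ n k 4 * ZZ n k 0 * ZZ n k 1)
      = ZZ n k 4 * (ZZ n k 1 * ZZ n k 2)
    linear_combination (ZZ n k 1 * ZZ n k 2 * ZZ n k 4) * r0
  · show ZZ n k 2 * ZZ n k 3 * (ZZ n k 4 * ZZ n k 0 * ZZ n k 1 +
        -(ZZ n k 4 * ZZ n k 0 * ZZ n k 1)) = ZZ n k 0 * 0
    ring
  · show ZZ n k 3 * ZZ n k 4 * (-(ZZ n k 4 * ZZ n k 0 * ZZ n k 1) + ZZ n k 1 * ZZ n k 2)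
      = ZZ n k 1 * (-(ZZ n k 3 * ZZ n k 4))
    linear_combination (-(ZZ n k 3 * ZZ n k 4 * ZZ n k 1)) * r4
  · show ZZ n k 4 * ZZ n k 0 * (ZZ n k 1 * ZZ n k 2 + 0)
      = ZZ n k 2 * (ZZ n k 4 * ZZ n k 0 * ZZ n k 1)
    ring

variable {n k}

/-- the images of the generators in the dual numbers -/
noncomputable def dgen (i : Fin 2) (l : Fin 5) : TrivSqZeroExt (ORing n k) (ORing n k) :=
  TrivSqZeroExt.inl (z n k l) +
    TrivSqZeroExt.inr ((n : k)⁻¹ • (z n k l * gcoef n k i l))

theorem dgen_pow (hn : (n : k) ≠ 0) (i : Fin 2) (l : Fin 5) :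
    (dgen i l : TrivSqZeroExt (ORing n k) (ORing n k)) ^ n
      = TrivSqZeroExt.inl (ZZ n k l) + TrivSqZeroExt.inr (ZZ n k l * gcoef n k i l) := by
  apply TrivSqZeroExt.ext
  · simp [dgen, ZZ]
  · rw [TrivSqZeroExt.snd_pow]
    have hn0 : n ≠ 0 := by
      rintro rfl
      exact hn (by simp)
    obtain ⟨m, rfl⟩ := Nat.exists_eq_succ_of_ne_zero hn0
    simp only [dgen, TrivSqZeroExt.fst_add, TrivSqZeroExt.fst_inl, TrivSqZeroExt.fst_inr, add_zero,
      TrivSqZeroExt.snd_add, TrivSqZeroExt.snd_inl, TrivSqZeroExt.snd_inr, zero_add, ZZ,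
      Nat.pred_succ, smul_eq_mul]
    rw [Algebra.mul_smul_comm, ← mul_assoc, ← pow_succ, ← Nat.cast_smul_eq_nsmul k, smul_smul,
      mul_inv_cancel₀ hn, one_smul]

/-- the algebra hom `O → O[ε]` -/
noncomputable def dhom (hn : (n : k) ≠ 0) (i : Fin 2) :
    ORing n k →ₐ[k] TrivSqZeroExt (ORing n k) (ORing n k) :=
  ORing.lift (dgen i) (by
    intro j
    rw [dgen_pow hn, dgen_pow hn, dgen_pow hn]
    apply TrivSqZeroExt.ext
    · simpa using ZZ_rel n k j
    · rw [TrivSqZeroExt.snd_mul]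
      simp only [TrivSqZeroExt.fst_add, TrivSqZeroExt.fst_inl, TrivSqZeroExt.fst_inr, add_zero,
        TrivSqZeroExt.snd_add, TrivSqZeroExt.snd_inl, TrivSqZeroExt.snd_inr, zero_add,
        op_smul_eq_smul, smul_eq_mul, TrivSqZeroExt.snd_one]
      rw [← gcoef_rel]
      ring)

theorem dhom_fst (hn : (n : k) ≠ 0) (i : Fin 2) (x : ORing n k) : (dhom hn i x).fst = x := by
  have h : (TrivSqZeroExt.fstHom k (ORing n k) (ORing n k)).comp (dhom hn i)
      = AlgHom.id k (ORing n k) := by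
    apply ORing.algHom_ext
    intro j
    simp [dhom, dgen]
  exact DFunLike.congr_fun h x

/-- The derivations `D_0, D_1` of `O n k`. -/
noncomputable def derO (hn : (n : k) ≠ 0) (i : Fin 2) :
    Derivation k (ORing n k) (ORing n k) :=
  Derivation.mk'
    { toFun := fun q => (dhom hn i q).snd
      map_add' := fun x y => by rw [map_add]; simp
      map_smul' := fun c x => by rw [map_smul]; simp }
    (fun a b => by
      show (dhom hn i (a * b)).snd = a • (dhom hn i b).snd + b • (dhom hn i a).snd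
      rw [map_mul, TrivSqZeroExt.snd_mul, dhom_fst, dhom_fst, op_smul_eq_smul])

theorem derO_z (hn : (n : k) ≠ 0) (i : Fin 2) (l : Fin 5) :
    derO hn i (z n k l) = (n : k)⁻¹ • (z n k l * gcoef n k i l) := by
  show (dhom hn i (z n k l)).snd = _
  simp [dhom, dgen]

theorem leibniz_prod_pow {B : Type*} [CommRing B] [Algebra k B] (D : Derivation k B B)
    (x a : Fin 5 → B) (h : ∀ l, D (x l) = x l * a l) (γ : Fin 5 → ℕ) (s : Finset (Fin 5)) :
    D (∏ l ∈ s, x l ^ γ l) = (∏ l ∈ s, x l ^ γ l) * ∑ l ∈ s, (γ l : B) * a l := by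
  classical
  induction s using Finset.induction_on with
  | empty => simp
  | insert l s hl ih =>
    rw [Finset.prod_insert hl, Finset.sum_insert hl, Derivation.leibniz, ih,
      Derivation.leibniz_pow, h]
    rcases Nat.eq_zero_or_pos (γ l) with h0 | h0
    · rw [h0]; simp
    · obtain ⟨m, hm⟩ := Nat.exists_eq_add_of_lt h0
      rw [hm]
      simp only [zero_add, smul_eq_mul, nsmul_eq_mul, Nat.add_sub_cancel]
      push_cast
      ring

theorem derO_zm (hn : (n : k) ≠ 0) (i : Fin 2) (γ : Fin 5 → ℕ) :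
    derO hn i (zm n k γ) = ∑ l, ((γ l : k) * (n : k)⁻¹) • (zm n k γ * gcoef n k i l) := by
  have h := leibniz_prod_pow (derO hn i) (z n k) (fun l => (n : k)⁻¹ • gcoef n k i l)
    (fun l => by rw [derO_z, Algebra.mul_smul_comm]) γ Finset.univ
  have h2 : (∏ l, z n k l ^ γ l) = zm n k γ := rfl
  rw [h2] at h
  rw [h, Finset.mul_sum]
  refine Finset.sum_congr rfl fun l _ => ?_
  rw [Algebra.mul_smul_comm, Algebra.mul_smul_comm, mul_smul]
  rw [smul_comm ((γ l : k)) ((n : k)⁻¹)]
  congr 1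
  rw [← nsmul_eq_mul, ← Nat.cast_smul_eq_nsmul k, Algebra.mul_smul_comm]

/-- `zm (n • δ)` in terms of `ZZ` -/
theorem zm_nsmul (δ : Fin 5 → ℕ) : zm n k (n • δ) = ∏ j, ZZ n k j ^ δ j := by
  unfold zm ZZ
  refine Finset.prod_congr rfl fun j _ => ?_
  rw [Pi.smul_apply, smul_eq_mul, pow_mul]

theorem w_nsmul (i : Fin 5) (m : ℕ) (δ : Fin 5 → ℕ) : w i (m • δ) = m * w i δ := by
  simp only [w, Pi.smul_apply, smul_eq_mul, Nat.cast_mul]
  ring

theorem zm_nsmul_mem (δ : Fin 5 → ℕ) (h : ∀ i, w i δ ≤ 1) : zm n k (n • δ) ∈ Fil n k n := by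
  refine zm_mem_Fil fun i => ?_
  rw [w_nsmul]
  have := h i
  nlinarith [Int.natCast_nonneg n]

theorem gcoef_mem (i : Fin 2) (l : Fin 5) : gcoef n k i l ∈ Fil n k n := by
  have h23 : ZZ n k 2 * ZZ n k 3 ∈ Fil n k n := by
    have := zm_nsmul_mem (n := n) (k := k) ![0, 0, 1, 1, 0] (by decide)
    rw [zm_nsmul, Fin.prod_univ_five] at this
    simpa using this
  have h40 : ZZ n k 4 * ZZ n k 0 ∈ Fil n k n := by
    have := zm_nsmul_mem (n := n) (k := k) ![1, 0, 0, 0, 1] (by decide)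
    rw [zm_nsmul, Fin.prod_univ_five] at this
    rw [mul_comm]
    simpa using this
  have h012 : ZZ n k 0 * ZZ n k 1 * ZZ n k 2 ∈ Fil n k n := by
    have := zm_nsmul_mem (n := n) (k := k) ![1, 1, 1, 0, 0] (by decide)
    rw [zm_nsmul, Fin.prod_univ_five] at this
    simpa using this
  have h34 : ZZ n k 3 * ZZ n k 4 ∈ Fil n k n := by
    have := zm_nsmul_mem (n := n) (k := k) ![0, 0, 0, 1, 1] (by decide)
    rw [zm_nsmul, Fin.prod_univ_five] at this
    simpa using this
  have h401 : ZZ n k 4 * ZZ n k 0 * ZZ n k 1 ∈ Fil n k n := by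
    have := zm_nsmul_mem (n := n) (k := k) ![1, 1, 0, 0, 1] (by decide)
    rw [zm_nsmul, Fin.prod_univ_five] at this
    have h2 : ZZ n k 4 * ZZ n k 0 * ZZ n k 1 = ZZ n k 0 * ZZ n k 1 * ZZ n k 4 := by ring
    rw [h2]
    simpa using this
  have h12 : ZZ n k 1 * ZZ n k 2 ∈ Fil n k n := by
    have := zm_nsmul_mem (n := n) (k := k) ![0, 1, 1, 0, 0] (by decide)
    rw [zm_nsmul, Fin.prod_univ_five] at this
    simpa using this
  fin_cases i <;> fin_cases l
  · exact h23
  · exact Submodule.zero_mem _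
  · exact Submodule.neg_mem _ h40
  · exact h012
  · exact Submodule.neg_mem _ h012
  · exact Submodule.zero_mem _
  · exact Submodule.neg_mem _ h34
  · exact h401
  · exact Submodule.neg_mem _ h401
  · exact h12

/-- The derivations have degree `n` with respect to the filtration. -/
theorem derO_Fil (hn : (n : k) ≠ 0) (i : Fin 2) (m : ℤ) (x : ORing n k) (hx : x ∈ Fil n k m) :
    derO hn i x ∈ Fil n k (m + n) := by
  induction hx using Submodule.span_induction with
  | mem x hx =>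
    obtain ⟨γ, hγ, rfl⟩ := hx
    rw [derO_zm]
    refine Submodule.sum_mem _ fun l _ => Submodule.smul_mem _ _ ?_
    exact Fil_mul_mem (zm_mem_Fil hγ) (gcoef_mem i l)
  | zero => rw [map_zero]; exact Submodule.zero_mem _
  | add x y _ _ h1 h2 => rw [map_add]; exact Submodule.add_mem _ h1 h2
  | smul c x _ h => rw [Derivation.map_smul]; exact Submodule.smul_mem _ _ h

end DerO

section DerQ

variable {n : ℕ} {k : Type*} [Field k] [IsDomain (ORing n k)]

/-- The derivations on the fraction field. -/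
noncomputable def derQ (hn : (n : k) ≠ 0) (i : Fin 2) :
    Derivation k (QField n k) (QField n k) :=
  ext ((Algebra.linearMap (ORing n k) (QField n k)).compDer (derO hn i))

theorem derQ_algebraMap (hn : (n : k) ≠ 0) (i : Fin 2) (x : ORing n k) :
    derQ hn i (algebraMap (ORing n k) (QField n k) x)
      = algebraMap (ORing n k) (QField n k) (derO hn i x) := by
  rw [derQ, ext_algebraMap]
  rfl

theorem derQ_FilQ (hn : (n : k) ≠ 0) (i : Fin 2) (m : ℤ) (x : QField n k)
    (hx : x ∈ FilQ n k m) : derQ hn i x ∈ FilQ n k (m + n) := by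
  obtain ⟨y, hy, rfl⟩ := hx
  refine ⟨derO hn i y, derO_Fil hn i m y hy, ?_⟩
  exact (derQ_algebraMap hn i y).symm

end DerQ

section Nonzero

variable {n : ℕ} {k : Type*} [Field k]

/-- a point of `O n k` at which all coordinates are equal and nonzero. -/
theorem exists_point [IsAlgClosed k] (hn : (n : k) ≠ 0) :
    ∃ (f : ORing n k →ₐ[k] k), ∀ j, f (z n k j) ≠ 0 := by
  have hn0 : n ≠ 0 := by
    rintro rfl
    exact hn (by simp)
  obtain ⟨t, ht⟩ := IsAlgClosed.exists_root (Polynomial.X ^ 2 - Polynomial.X - 1 : Polynomial k)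
    (by
      have : (Polynomial.X ^ 2 - Polynomial.X - 1 : Polynomial k).degree = 2 := by
        compute_degree!
      rw [this]
      decide)
  have ht' : t * t = 1 + t := by
    have : t ^ 2 - t - 1 = 0 := by simpa [Polynomial.IsRoot] using ht
    linear_combination this
  have ht0 : t ≠ 0 := by
    rintro rfl
    simp at ht'
  obtain ⟨c, hc⟩ := IsAlgClosed.exists_pow_nat_eq t (Nat.pos_of_ne_zero hn0)
  refine ⟨ORing.lift (fun _ => c) (fun j => by rw [hc, ht']), fun j => ?_⟩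
  rw [ORing.lift_z]
  rintro rfl
  rw [zero_pow hn0] at hc
  exact ht0 hc.symm

theorem z_ne_zero [IsAlgClosed k] (hn : (n : k) ≠ 0) (j : Fin 5) : z n k j ≠ 0 := by
  obtain ⟨f, hf⟩ := exists_point (n := n) (k := k) hn
  intro h
  exact hf j (by rw [h, map_zero])

end Nonzero

section Kernel

variable {n : ℕ} {k : Type*} [Field k] [IsAlgClosed k] [IsDomain (ORing n k)]

/-- Every subfield of `Q` containing all `p`-th powers, `z_0` and `z_1` is `Q`. -/
theorem subfield_top (p : ℕ) [Fact p.Prime] [CharP k p] (hn : (n : k) ≠ 0)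
    (S : Subfield (QField n k)) (hS : ∀ x : QField n k, x ^ p ∈ S)
    (h0 : algebraMap (ORing n k) (QField n k) (z n k 0) ∈ S)
    (h1 : algebraMap (ORing n k) (QField n k) (z n k 1) ∈ S) : S = ⊤ := by
  have hp : p.Prime := Fact.out
  set ι := algebraMap (ORing n k) (QField n k) with hι
  have hinj : Function.Injective ι := IsFractionRing.injective (ORing n k) (QField n k)
  have hz : ∀ j, ι (z n k j) ≠ 0 := fun j h => z_ne_zero (k := k) hn j (hinj (by rw [h, map_zero]))
  have hcop : Nat.Coprime n p := by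
    rw [Nat.coprime_comm, Nat.Prime.coprime_iff_not_dvd hp]
    intro h
    exact hn ((CharP.cast_eq_zero_iff k p n).mpr h)
  have hroot : ∀ j, ι (ZZ n k j) ∈ S → ι (z n k j) ∈ S := by
    intro j hj
    have e1 : ι (ZZ n k j) = ι (z n k j) ^ n := by rw [ZZ, map_pow]
    have e2 : ((n : ℤ) * Nat.gcdA n p + (p : ℤ) * Nat.gcdB n p) = 1 := by
      rw [← Nat.gcd_eq_gcd_ab, hcop.gcd_eq_one]
      rfl
    have e3 : ι (z n k j) = (ι (z n k j) ^ n) ^ (Nat.gcdA n p) *
        (ι (z n k j) ^ p) ^ (Nat.gcdB n p) := by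
      rw [← zpow_natCast (ι (z n k j)) n, ← zpow_natCast (ι (z n k j)) p, ← zpow_mul, ← zpow_mul,
        ← zpow_add₀ (hz j), e2, zpow_one]
    rw [e3]
    refine S.mul_mem (zpow_mem ?_ _) (zpow_mem (hS _) _)
    rw [← e1]
    exact hj
  have hZ0 : ι (ZZ n k 0) ∈ S := by rw [ZZ, map_pow]; exact S.pow_mem h0 _
  have hZ1 : ι (ZZ n k 1) ∈ S := by rw [ZZ, map_pow]; exact S.pow_mem h1 _
  have r0 : ZZ n k 0 * ZZ n k 1 = 1 + ZZ n k 3 := ZZ_rel n k 0
  have r2 : ZZ n k 2 * ZZ n k 3 = 1 + ZZ n k 0 := ZZ_rel n k 2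
  have r3 : ZZ n k 3 * ZZ n k 4 = 1 + ZZ n k 1 := ZZ_rel n k 3
  have hZ3 : ι (ZZ n k 3) ∈ S := by
    have : ι (ZZ n k 3) = ι (ZZ n k 0) * ι (ZZ n k 1) - 1 := by
      rw [← map_mul, r0, map_add, map_one]
      ring
    rw [this]
    exact S.sub_mem (S.mul_mem hZ0 hZ1) S.one_mem
  have hZ3n : ι (ZZ n k 3) ≠ 0 := by rw [ZZ, map_pow]; exact pow_ne_zero _ (hz 3)
  have hZ2 : ι (ZZ n k 2) ∈ S := by
    have : ι (ZZ n k 2) = (1 + ι (ZZ n k 0)) / ι (ZZ n k 3) := by
      rw [eq_div_iff hZ3n, ← map_mul, r2, map_add, map_one]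
    rw [this]
    exact S.div_mem (S.add_mem S.one_mem hZ0) hZ3
  have hZ4 : ι (ZZ n k 4) ∈ S := by
    have : ι (ZZ n k 4) = (1 + ι (ZZ n k 1)) / ι (ZZ n k 3) := by
      rw [eq_div_iff hZ3n, ← map_mul, mul_comm (ZZ n k 4), r3, map_add, map_one]
    rw [this]
    exact S.div_mem (S.add_mem S.one_mem hZ1) hZ3
  have hall : ∀ j, ι (z n k j) ∈ S := by
    intro j
    fin_cases j
    · exact h0
    · exact h1
    · exact hroot 2 hZ2
    · exact hroot 3 hZ3
    · exact hroot 4 hZ4
  have hk : ∀ c : k, ι (algebraMap k (ORing n k) c) ∈ S := by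
    intro c
    obtain ⟨d, rfl⟩ := IsAlgClosed.exists_pow_nat_eq c hp.pos
    rw [map_pow, map_pow]
    exact hS _
  have hO : ∀ x : ORing n k, ι x ∈ S := by
    intro x
    have hx : x ∈ Algebra.adjoin k (Set.range (z n k)) := by
      rw [ORing.adjoin_range_z]
      trivial
    induction hx using Algebra.adjoin_induction with
    | mem x hx => obtain ⟨j, rfl⟩ := hx; exact hall j
    | algebraMap c => exact hk c
    | add x y _ _ hx hy => rw [map_add]; exact S.add_mem hx hy
    | mul x y _ _ hx hy => rw [map_mul]; exact S.mul_mem hx hy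
  rw [eq_top_iff]
  intro q _
  obtain ⟨a, b, _, rfl⟩ := IsFractionRing.div_surjective (A := ORing n k) q
  exact S.div_mem (hO a) (hO b)

omit [IsAlgClosed k] in
theorem charP_QField (p : ℕ) [CharP k p] : CharP (QField n k) p :=
  charP_of_injective_algebraMap (algebraMap k (QField n k)).injective p

/-- Common kernel of the two derivations is `Q^p`. -/
theorem derQ_ker (p : ℕ) [Fact p.Prime] [CharP k p] (hn : (n : k) ≠ 0) (x : QField n k)
    (hx : ∀ i, derQ hn i x = 0) : ∃ y, x = y ^ p := by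
  have : CharP (QField n k) p := charP_QField p
  set ι := algebraMap (ORing n k) (QField n k) with hι
  have hinj : Function.Injective ι := IsFractionRing.injective (ORing n k) (QField n k)
  have hz : ∀ j, ι (z n k j) ≠ 0 := fun j h => z_ne_zero (k := k) hn j (hinj (by rw [h, map_zero]))
  have hZ : ∀ j, ι (ZZ n k j) ≠ 0 := fun j => by rw [ZZ, map_pow]; exact pow_ne_zero _ (hz j)
  have hni : (n : k)⁻¹ ≠ 0 := inv_ne_zero hn
  have hni' : algebraMap k (QField n k) (n : k)⁻¹ ≠ 0 := by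
    rw [Ne, map_eq_zero]
    exact hni
  have key : ∀ (i : Fin 2) (l : Fin 5), derQ hn i (ι (z n k l))
      = (algebraMap k (QField n k) (n : k)⁻¹ * ι (gcoef n k i l)) * ι (z n k l) := by
    intro i l
    rw [derQ_algebraMap, derO_z, Algebra.smul_def, map_mul, map_mul,
      ← IsScalarTower.algebraMap_apply k (ORing n k) (QField n k)]
    ring
  obtain ⟨y, hy⟩ := kernel_pow p (derQ hn 0) (derQ hn 1) (ι (z n k 0)) (ι (z n k 1))
    (algebraMap k (QField n k) (n : k)⁻¹ * ι (gcoef n k 0 0))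
    (algebraMap k (QField n k) (n : k)⁻¹ * ι (gcoef n k 1 1))
    (mul_ne_zero hni' (by
      show ι (ZZ n k 2 * ZZ n k 3) ≠ 0
      rw [map_mul]
      exact mul_ne_zero (hZ 2) (hZ 3)))
    (mul_ne_zero hni' (by
      show ι (-(ZZ n k 3 * ZZ n k 4)) ≠ 0
      rw [map_neg, map_mul]
      exact neg_ne_zero.mpr (mul_ne_zero (hZ 3) (hZ 4))))
    (key 0 0)
    (by
      rw [key 0 1]
      have : gcoef n k 0 1 = 0 := rfl
      rw [this, map_zero, mul_zero, zero_mul])
    (by
      rw [key 1 0]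
      have : gcoef n k 1 0 = 0 := rfl
      rw [this, map_zero, mul_zero, zero_mul])
    (key 1 1)
    (fun S hS h0 h1 => subfield_top p hn S hS h0 h1)
    x (hx 0) (hx 1)
  exact ⟨y, hy.symm⟩

end Kernel

section Data

/-- (F4) the derivation data for the explicit `T`-data `D` with `D.F = FilQ n k`. -/
noncomputable def derData {n : ℕ} {k : Type} [Field k] [IsAlgClosed k] [IsDomain (ORing n k)]
    (hn : (n : k) ≠ 0) (D : TData k (QField n k)) (hF : ∀ m, D.F m = FilQ n k m)
    (p : ℕ) [Fact p.Prime] [CharP k p] (c1 : ℕ)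
    (hgen : ∀ m : ℤ, (c1 : ℤ) ≤ m → ∀ e ∈ D.F (m + 1), ∃ a ∈ D.F m, ∃ b ∈ D.F m, ∃ c ∈ D.F m,
      e = a + D.u * b + D.v * c) : DerData D p n c1 where
  d := derQ hn
  deg := by
    intro i m f hf
    rw [hF] at hf ⊢
    exact derQ_FilQ hn i m f hf
  ker := fun f hf => derQ_ker p hn f hf
  gen := hgen

end Data

end Crest.Agent.R169.Der
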