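import Crest.Agent.R169.GenL
import Crest.Agent.R169.Lat

-- ▼ part R169/HilbEx
section

/-!
# Row 169, P1 (part 3): eventually polynomial growth of `dim E_m`
Author: helper132.
-/

set_option autoImplicit false
set_option linter.unusedSectionVars false

namespace Crest.Agent.R169.P1

open Module

variable {k K V : Type} [Field k] [Field K] [Algebra k K] [AddCommGroup V] [Module k V]
  [Module K V] [IsScalarTower k K V]

/-- multiplication by `a : K` as a `k`-linear map -/
noncomputable def mulBy (k : Type) {K V : Type} [Field k] [Field K] [Algebra k K]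
    [AddCommGroup V] [Module k V] [Module K V] [IsScalarTower k K V] (a : K) : V →ₗ[k] V :=
  DistribSMul.toLinearMap k V a

@[simp] theorem mulBy_apply (a : K) (w : V) : mulBy k a w = a • w := rfl

theorem mulBy_inj {a : K} (ha : a ≠ 0) : Function.Injective (mulBy k a : V →ₗ[k] V) := by
  intro x y hxy
  simpa using (smul_right_injective V ha) hxy

theorem finrank_map_mulBy {a : K} (ha : a ≠ 0) (W : Submodule k V) :
    finrank k (W.map (mulBy k a)) = finrank k W :=
  (LinearEquiv.finrank_eq (Submodule.equivMapOfInjective _ (mulBy_inj ha) W)).symm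

theorem finrank_sup_map_le {W E W' : Submodule k V} [Module.Finite k E] [Module.Finite k W']
    (f : V →ₗ[k] V) (hWE : W ≤ E) (hf : W.map f ≤ W') :
    finrank k (W' ⊔ E.map f : Submodule k V) + finrank k W ≤ finrank k W' + finrank k E := by
  obtain ⟨D, hD⟩ := Submodule.exists_isCompl W
  have hC : W ⊔ (D ⊓ E) = E := by
    rw [← sup_inf_assoc_of_le D hWE, hD.sup_eq_top, top_inf_eq]
  have hCi : W ⊓ (D ⊓ E) = ⊥ := by
    rw [← inf_assoc, hD.inf_eq_bot, bot_inf_eq]
  have : Module.Finite k W := Submodule.finiteDimensional_of_le hWE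
  have : Module.Finite k (D ⊓ E : Submodule k V) := Submodule.finiteDimensional_of_le inf_le_right
  have h1 := Submodule.finrank_sup_add_finrank_inf_eq W (D ⊓ E)
  rw [hC, hCi, finrank_bot, add_zero] at h1
  have h2 : W' ⊔ E.map f = W' ⊔ (D ⊓ E).map f := by
    conv_lhs => rw [← hC, Submodule.map_sup, ← sup_assoc, sup_eq_left.2 hf]
  have h3 := Submodule.finrank_add_le_finrank_add_finrank W' ((D ⊓ E).map f)
  have h4 := Submodule.finrank_map_le f (D ⊓ E)
  rw [h2]
  omega

/-- second difference -/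
theorem second_diff {u v : K} {E : ℤ → Submodule k V} (hE : IsLat u v E) {t : k}
    (ht0 : lf u v t ≠ 0) {M : ℤ}
    (hM : ∀ m ≥ M, ∀ w ∈ E m, u • w + t • v • w ∈ E m → w ∈ E (m - 1)) :
    ∀ m ≥ M, finrank k (E m ⊔ (E m).map (mulBy k (lf u v t)) : Submodule k V)
      + finrank k (E (m - 1)) = 2 * finrank k (E m) := by
  intro m hm
  have h : Fam u v E := ⟨hE.mono, hE.umul, hE.vmul⟩
  have := hE.fin m
  have h1 := Submodule.finrank_sup_add_finrank_inf_eq (E m) ((E m).map (mulBy k (lf u v t)))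
  have h2 : E m ⊓ (E m).map (mulBy k (lf u v t)) = (E (m - 1)).map (mulBy k (lf u v t)) := by
    ext x
    constructor
    · rintro ⟨hx, w, hw, rfl⟩
      refine ⟨w, hM m hm w hw ?_, rfl⟩
      rw [← lf_smul]; exact hx
    · rintro ⟨w, hw, rfl⟩
      refine ⟨?_, w, mono_le hE.mono (by omega) hw, rfl⟩
      have := h.lf t hw
      rwa [sub_add_cancel] at this
  rw [h2, finrank_map_mulBy ht0, finrank_map_mulBy ht0] at h1
  omega

/-- the second difference is eventually nonincreasing -/
theorem second_diff_anti {u v : K} {E : ℤ → Submodule k V} (hE : IsLat u v E) {t : k}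
    (ht0 : lf u v t ≠ 0) {M : ℤ}
    (hM : ∀ m ≥ M, ∀ w ∈ E m, u • w + t • v • w ∈ E m → w ∈ E (m - 1)) :
    ∃ M' ≥ M, ∀ m ≥ M',
      (finrank k (E (m + 2)) : ℤ) - 2 * finrank k (E (m + 1)) + finrank k (E m) ≤
        (finrank k (E (m + 1)) : ℤ) - 2 * finrank k (E m) + finrank k (E (m - 1)) := by
  have h : Fam u v E := ⟨hE.mono, hE.umul, hE.vmul⟩
  obtain ⟨m1, hm1⟩ := hE.gen
  refine ⟨max M m1, le_max_left _ _, fun m hm => ?_⟩
  have hmM : m ≥ M := (le_max_left _ _).trans hm
  have hm1' : m ≥ m1 := (le_max_right _ _).trans hm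
  have h0 := second_diff hE ht0 hM m hmM
  have h1 := second_diff hE ht0 hM (m + 1) (by omega)
  rw [add_sub_cancel_right] at h1
  set L := mulBy (V := V) k (lf u v t) with hL
  have := hE.fin m
  have := hE.fin (m + 1)
  have hW : E m ⊔ (E m).map L ≤ E (m + 1) := by
    refine sup_le (hE.mono m) ?_
    rintro _ ⟨w, hw, rfl⟩
    exact h.lf t hw
  have hv : (E m ⊔ (E m).map L).map (mulBy k v) ≤ E (m + 1) ⊔ (E (m + 1)).map L := by
    rw [Submodule.map_sup]
    refine sup_le ?_ ?_
    · rintro _ ⟨w, hw, rfl⟩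
      exact Submodule.mem_sup_left (h.vmul m w hw)
    · rintro _ ⟨_, ⟨w, hw, rfl⟩, rfl⟩
      refine Submodule.mem_sup_right ⟨v • w, h.vmul m w hw, ?_⟩
      simp only [hL, mulBy_apply]
      rw [smul_comm]
  have h2 := finrank_sup_map_le (mulBy k v) hW hv
  have h3 : E (m + 2) ≤ (E (m + 1) ⊔ (E (m + 1)).map L) ⊔ (E (m + 1)).map (mulBy k v) := by
    intro x hx
    have e : m + 2 = m + 1 + 1 := by ring
    rw [e] at hx
    obtain ⟨a, ha, b, hb, c, hc, rfl⟩ := hm1 (m + 1) (by omega) x hx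
    have e2 : a + u • b + v • c = (a + L b) + mulBy k v (c - t • b) := by
      simp only [hL, mulBy_apply, lf_smul, smul_sub]
      rw [smul_comm v t b]
      abel
    rw [e2]
    refine Submodule.add_mem_sup (Submodule.add_mem_sup ha ⟨b, hb, rfl⟩)
      ⟨_, sub_mem hc (Submodule.smul_mem _ _ hb), rfl⟩
  have h4 := Submodule.finrank_mono h3
  omega

theorem eventually_const (e : ℤ → ℤ) (M : ℤ) (h0 : ∀ m ≥ M, 0 ≤ e m)
    (h1 : ∀ m ≥ M, e (m + 1) ≤ e m) : ∃ M' ≥ M, ∀ m ≥ M', e m = e M' := by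
  classical
  have hne : ∃ n : ℕ, ∃ m ≥ M, e m = n := ⟨(e M).toNat, M, le_rfl, by
    rw [Int.toNat_of_nonneg (h0 M le_rfl)]⟩
  obtain ⟨m0, hm0, hm0'⟩ := Nat.find_spec hne
  refine ⟨m0, hm0, fun m hm => ?_⟩
  have hle : ∀ n : ℕ, e (m0 + n) ≤ e m0 := by
    intro n
    induction n with
    | zero => simp
    | succ n ih =>
      have := h1 (m0 + n) (by omega)
      push_cast
      rw [← add_assoc]
      omega
  have h2 : e m ≤ e m0 := by
    obtain ⟨n, rfl⟩ := Int.le.dest hm
    exact hle n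
  have h3 : ((Nat.find hne : ℕ) : ℤ) ≤ e m := by
    have := Nat.find_min' hne ⟨m, by omega, (Int.toNat_of_nonneg (h0 m (by omega))).symm⟩
    have h4 := Int.toNat_of_nonneg (h0 m (by omega))
    omega
  omega

theorem poly_of_second_diff (h : ℤ → ℤ) (s : ℤ) (M : ℤ)
    (hs : ∀ m ≥ M, h (m + 1) - 2 * h m + h (m - 1) = s) :
    ∃ b c : ℚ, ∀ m ≥ M, (h m : ℚ) = s / 2 * (m : ℚ) ^ 2 + b * m + c := by
  set b : ℚ := h (M + 1) - h M - s / 2 * (2 * M + 1) with hb
  set c : ℚ := h M - s / 2 * M ^ 2 - b * M with hc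
  refine ⟨b, c, fun m hm => ?_⟩
  obtain ⟨n, rfl⟩ := Int.le.dest hm
  have key : ∀ n : ℕ, ((h (M + n) : ℤ) : ℚ) = s / 2 * ((M + n : ℤ) : ℚ) ^ 2 + b * (M + n : ℤ) + c ∧
      ((h (M + n + 1) : ℤ) : ℚ) = s / 2 * ((M + n + 1 : ℤ) : ℚ) ^ 2 + b * (M + n + 1 : ℤ) + c := by
    intro n
    induction n with
    | zero =>
      constructor
      · simp only [Nat.cast_zero, add_zero]
        rw [hc]; ring
      · simp only [Nat.cast_zero, add_zero]
        rw [hc, hb]; push_cast; ring
    | succ n ih =>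
      have e : M + ((n + 1 : ℕ) : ℤ) = M + n + 1 := by push_cast; ring
      rw [e]
      refine ⟨ih.2, ?_⟩
      have h2 := hs (M + n + 1) (by omega)
      rw [add_sub_cancel_right] at h2
      have h3 : ((h (M + n + 1 + 1) : ℤ) : ℚ) - 2 * h (M + n + 1) + h (M + n) = s := by
        exact_mod_cast h2
      have h4 : ((h (M + n + 1 + 1) : ℤ) : ℚ) = s + 2 * h (M + n + 1) - h (M + n) := by linarith
      rw [h4, ih.1, ih.2]
      push_cast
      ring
  exact (key n).1

theorem second_diff_nonneg {u v : K} {E : ℤ → Submodule k V} (hE : IsLat u v E) {t : k}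
    (ht0 : lf u v t ≠ 0) {M : ℤ}
    (hM : ∀ m ≥ M, ∀ w ∈ E m, u • w + t • v • w ∈ E m → w ∈ E (m - 1)) :
    ∀ m ≥ M, 0 ≤ (finrank k (E (m + 1)) : ℤ) - 2 * finrank k (E m) + finrank k (E (m - 1)) := by
  intro m hm
  have h : Fam u v E := ⟨hE.mono, hE.umul, hE.vmul⟩
  have h0 := second_diff hE ht0 hM m hm
  have := hE.fin (m + 1)
  have hW : E m ⊔ (E m).map (mulBy k (lf u v t)) ≤ E (m + 1) := by
    refine sup_le (hE.mono m) ?_
    rintro _ ⟨w, hw, rfl⟩
    exact h.lf t hw
  have := Submodule.finrank_mono hW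
  omega

theorem lf_ne_zero {u v : K} (hK : AlgebraicIndependent k ![u, v]) (t : k) : lf u v t ≠ 0 := by
  intro h
  have h1 : MvPolynomial.aeval ![u, v] (MvPolynomial.X 0 + MvPolynomial.C t * MvPolynomial.X 1 :
      MvPolynomial (Fin 2) k) = 0 := by
    simpa [lf] using h
  have h2 := (injective_iff_map_eq_zero _).1 hK _ h1
  have h3 := congrArg (MvPolynomial.coeff (Finsupp.single 0 1)) h2
  simp [MvPolynomial.coeff_C_mul, MvPolynomial.coeff_X, Finsupp.single_left_inj] at h3

/-- growth of a lattice is eventually polynomial (with some leading coefficient) -/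
theorem exists_poly [Infinite k] {u v : K} (hK : AlgebraicIndependent k ![u, v])
    {E : ℤ → Submodule k V} (hE : IsLat u v E) :
    ∃ (s : ℕ) (b c : ℚ), HasHP E s b c := by
  obtain ⟨T, M, hT⟩ := generic_l hE
  obtain ⟨t, ht⟩ := Infinite.exists_notMem_finset T
  have ht0 : lf u v t ≠ 0 := lf_ne_zero hK t
  obtain ⟨M', hM', hanti⟩ := second_diff_anti hE ht0 (hT t ht)
  have hnn := second_diff_nonneg hE ht0 (hT t ht)
  obtain ⟨M2, hM2, hconst⟩ := eventually_const
    (fun m => (finrank k (E (m + 1)) : ℤ) - 2 * finrank k (E m) + finrank k (E (m - 1))) M'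
    (fun m hm => hnn m (by omega)) (fun m hm => by
      have := hanti m hm
      beta_reduce
      have e : m + 1 + 1 = m + 2 := by ring
      have e' : m + 1 - 1 = m := by ring
      rw [e, e']; exact this)
  set s := (finrank k (E (M2 + 1)) : ℤ) - 2 * finrank k (E M2) + finrank k (E (M2 - 1)) with hs
  have hs0 : 0 ≤ s := hnn M2 (by omega)
  obtain ⟨b, c, hbc⟩ := poly_of_second_diff (fun m => (finrank k (E m) : ℤ)) s M2
    (fun m hm => hconst m hm)
  refine ⟨s.toNat, b, c, M2, fun m hm => ?_⟩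
  have h1 : ((s.toNat : ℕ) : ℚ) = (s : ℚ) := by
    have := Int.toNat_of_nonneg hs0
    exact_mod_cast this
  rw [h1]
  have := hbc m hm
  exact_mod_cast this

end Crest.Agent.R169.P1
end

-- ▼ part R169/PolyDim
section

/-!
# Row 169, P1 (part 4): `dim k[u,v]_{≤ m}` and common denominators
Author: helper132.
-/

set_option autoImplicit false
set_option linter.unusedSectionVars false

namespace Crest.Agent.R169.P1

open Module

variable {k K : Type} [Field k] [Field K] [Algebra k K]

/-- the index set of monomials of degree `≤ n` -/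
def monIdx (n : ℕ) : Finset (ℕ × ℕ) := (Finset.range (n + 1)).biUnion fun d => Finset.HasAntidiagonal.antidiagonal d

theorem mem_monIdx {n : ℕ} {p : ℕ × ℕ} : p ∈ monIdx n ↔ p.1 + p.2 ≤ n := by
  simp [monIdx]

theorem card_monIdx (n : ℕ) : (monIdx n).card = ((n + 1) * (n + 2)) / 2 := by
  classical
  rw [monIdx, Finset.card_biUnion]
  · simp only [Finset.Nat.card_antidiagonal]
    induction n with
    | zero => simp
    | succ n ih =>
      rw [Finset.sum_range_succ, ih]
      have h1 : 2 ∣ (n + 1) * (n + 2) := (Nat.even_mul_succ_self (n + 1)).two_dvd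
      have h2 : 2 ∣ (n + 1 + 1) * (n + 1 + 2) := (Nat.even_mul_succ_self (n + 2)).two_dvd
      obtain ⟨a, ha⟩ := h1
      obtain ⟨b, hb⟩ := h2
      rw [ha, hb, Nat.mul_div_cancel_left _ two_pos, Nat.mul_div_cancel_left _ two_pos]
      nlinarith
  · intro i _ j _ hij
    rw [Function.onFun, Finset.disjoint_left]
    intro p hp hp'
    rw [Finset.HasAntidiagonal.mem_antidiagonal] at hp hp'
    exact hij (hp.symm.trans hp')

theorem linInd_mon {u v : K} (hK : AlgebraicIndependent k ![u, v]) :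
    LinearIndependent k (fun p : ℕ × ℕ => u ^ p.1 * v ^ p.2) := by
  have h1 : LinearIndependent k (fun s : Fin 2 →₀ ℕ => MvPolynomial.aeval ![u, v]
      (MvPolynomial.monomial s (1 : k))) := by
    have := (MvPolynomial.basisMonomials (Fin 2) k).linearIndependent.map'
      (MvPolynomial.aeval ![u, v] : MvPolynomial (Fin 2) k →ₐ[k] K).toLinearMap
      (LinearMap.ker_eq_bot.2 hK)
    have hfun : (fun s : Fin 2 →₀ ℕ => MvPolynomial.aeval ![u, v]
        (MvPolynomial.monomial s (1 : k))) =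
        (MvPolynomial.aeval ![u, v] : MvPolynomial (Fin 2) k →ₐ[k] K).toLinearMap ∘
          (MvPolynomial.basisMonomials (Fin 2) k) := by
      funext s; simp
    rw [hfun]
    exact this
  let g : ℕ × ℕ → (Fin 2 →₀ ℕ) := fun p => Finsupp.single 0 p.1 + Finsupp.single 1 p.2
  have hg : Function.Injective g := by
    intro p q hpq
    have h0 := DFunLike.congr_fun hpq 0
    have h1 := DFunLike.congr_fun hpq 1
    simp [g] at h0 h1
    exact Prod.ext h0 h1
  have h2 := h1.comp g hg
  convert h2 using 1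
  funext p
  simp only [Function.comp, g, MvPolynomial.aeval_monomial]
  rw [Finsupp.prod_add_index' (by simp) (by intro a b c; exact pow_add _ _ _)]
  simp

theorem polyLE_eq {u v : K} (n : ℕ) :
    polyLE k u v n = Submodule.span k
      (Set.range fun p : monIdx n => u ^ (p : ℕ × ℕ).1 * v ^ (p : ℕ × ℕ).2) := by
  unfold polyLE
  congr 1
  ext x
  constructor
  · rintro ⟨i, j, hij, rfl⟩
    exact ⟨⟨(i, j), mem_monIdx.2 (by exact_mod_cast hij)⟩, rfl⟩
  · rintro ⟨⟨p, hp⟩, rfl⟩
    exact ⟨p.1, p.2, by exact_mod_cast mem_monIdx.1 hp, rfl⟩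

theorem polyLE_neg {u v : K} {m : ℤ} (hm : m < 0) : polyLE k u v m = ⊥ := by
  unfold polyLE
  rw [Submodule.span_eq_bot]
  rintro x ⟨i, j, hij, rfl⟩
  omega

theorem dimA_nat (n : ℕ) : dimA n = ((n + 1) * (n + 2)) / 2 := by
  unfold dimA
  congr 2

theorem dimA_neg {m : ℤ} (hm : m < 0) : dimA m = 0 := by
  unfold dimA
  have : (m + 1).toNat = 0 := by omega
  rw [this]; simp

instance polyLE_finite (u v : K) (m : ℤ) : Module.Finite k (polyLE k u v m) := by
  rcases lt_or_ge m 0 with hm | hm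
  · rw [polyLE_neg hm]; infer_instance
  · obtain ⟨n, rfl⟩ := Int.eq_ofNat_of_zero_le hm
    rw [polyLE_eq]
    exact Module.Finite.span_of_finite k (Set.finite_range _)

/-- `dim k[u,v]_{≤ m} = dimA m` -/
theorem finrank_polyLE {u v : K} (hK : AlgebraicIndependent k ![u, v]) (m : ℤ) :
    finrank k (polyLE k u v m) = dimA m := by
  rcases lt_or_ge m 0 with hm | hm
  · rw [polyLE_neg hm, dimA_neg hm, finrank_bot]
  · obtain ⟨n, rfl⟩ := Int.eq_ofNat_of_zero_le hm
    rw [polyLE_eq, dimA_nat, ← card_monIdx]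
    have := finrank_span_eq_card (R := k)
      ((linInd_mon hK).comp (fun p : monIdx n => (p : ℕ × ℕ)) Subtype.val_injective)
    rw [Fintype.card_coe] at this
    exact this

theorem dimA_cast {m : ℤ} (hm : -2 ≤ m) : (dimA m : ℚ) = ((m : ℚ) + 1) * (m + 2) / 2 := by
  obtain ⟨n, hn⟩ : ∃ n : ℕ, m = n - 2 := ⟨(m + 2).toNat, by omega⟩
  subst hn
  match n with
  | 0 => simp [dimA]
  | 1 => simp [dimA]; 
  | n + 2 =>
    have e : ((n + 2 : ℕ) : ℤ) - 2 = n := by push_cast; ring
    rw [e, dimA_nat]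
    have h1 : 2 ∣ (n + 1) * (n + 2) := (Nat.even_mul_succ_self (n + 1)).two_dvd
    rw [Nat.cast_div h1 (by norm_num)]
    push_cast
    ring

theorem polyLE_mono {u v : K} {m m' : ℤ} (h : m ≤ m') : polyLE k u v m ≤ polyLE k u v m' := by
  apply Submodule.span_mono
  rintro x ⟨i, j, hij, rfl⟩
  exact ⟨i, j, hij.trans h, rfl⟩

theorem polyLE_mul {u v : K} {m m' : ℤ} {a b : K} (ha : a ∈ polyLE k u v m)
    (hb : b ∈ polyLE k u v m') : a * b ∈ polyLE k u v (m + m') := by
  unfold polyLE at ha hb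
  induction ha using Submodule.span_induction with
  | mem x hx =>
    induction hb using Submodule.span_induction with
    | mem y hy =>
      obtain ⟨i, j, hij, rfl⟩ := hx
      obtain ⟨i', j', hij', rfl⟩ := hy
      apply Submodule.subset_span
      exact ⟨i + i', j + j', by push_cast; linarith, by ring⟩
    | zero => rw [mul_zero]; exact Submodule.zero_mem _
    | add y z _ _ hy hz => rw [mul_add]; exact add_mem hy hz
    | smul c y _ hy => rw [mul_smul_comm]; exact Submodule.smul_mem _ _ hy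
  | zero => rw [zero_mul]; exact Submodule.zero_mem _
  | add y z _ _ hy hz => rw [add_mul]; exact add_mem hy hz
  | smul c y _ hy => rw [smul_mul_assoc]; exact Submodule.smul_mem _ _ hy

theorem one_mem_polyLE {u v : K} {m : ℤ} (hm : 0 ≤ m) : (1 : K) ∈ polyLE k u v m :=
  Submodule.subset_span ⟨0, 0, by simpa using hm, by simp⟩

theorem u_mem_polyLE {u v : K} {m : ℤ} (hm : 1 ≤ m) : u ∈ polyLE k u v m :=
  Submodule.subset_span ⟨1, 0, by simpa using hm, by simp⟩

theorem v_mem_polyLE {u v : K} {m : ℤ} (hm : 1 ≤ m) : v ∈ polyLE k u v m :=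
  Submodule.subset_span ⟨0, 1, by simpa using hm, by simp⟩

theorem aeval_mem_polyLE (u v : K) (p : MvPolynomial (Fin 2) k) :
    ∃ n : ℕ, MvPolynomial.aeval ![u, v] p ∈ polyLE k u v n := by
  induction p using MvPolynomial.induction_on with
  | C a =>
    refine ⟨0, ?_⟩
    rw [MvPolynomial.aeval_C, Algebra.algebraMap_eq_smul_one]
    exact Submodule.smul_mem _ _ (one_mem_polyLE le_rfl)
  | add p q hp hq =>
    obtain ⟨n, hn⟩ := hp
    obtain ⟨n', hn'⟩ := hq
    refine ⟨max n n', ?_⟩
    rw [map_add]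
    exact add_mem (polyLE_mono (by exact_mod_cast le_max_left _ _) hn)
      (polyLE_mono (by exact_mod_cast le_max_right _ _) hn')
  | mul_X p i hp =>
    obtain ⟨n, hn⟩ := hp
    refine ⟨n + 1, ?_⟩
    rw [map_mul, MvPolynomial.aeval_X]
    push_cast
    fin_cases i
    · exact polyLE_mul hn (u_mem_polyLE le_rfl)
    · exact polyLE_mul hn (v_mem_polyLE le_rfl)

/-- every element of `k(u,v)` is a fraction of polynomials -/
theorem IsRat_frac {u v : K} (hK : IsRat k u v) (a : K) :
    ∃ (n : ℕ) (q : K), q ≠ 0 ∧ q ∈ polyLE k u v n ∧ q * a ∈ polyLE k u v n := by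
  have ha : a ∈ IntermediateField.adjoin k ({u, v} : Set K) := by rw [hK.top]; trivial
  have hr : ({u, v} : Set K) = Set.range ![u, v] := by
    ext x
    simp [eq_comm, or_comm]
  rw [hr, IntermediateField.mem_adjoin_range_iff] at ha
  obtain ⟨r, s, rfl⟩ := ha
  by_cases hs : MvPolynomial.aeval ![u, v] s = 0
  · refine ⟨0, 1, one_ne_zero, one_mem_polyLE le_rfl, ?_⟩
    rw [hs]; simp
  · obtain ⟨n, hn⟩ := aeval_mem_polyLE u v r
    obtain ⟨n', hn'⟩ := aeval_mem_polyLE u v s
    refine ⟨max n n', _, hs, polyLE_mono (by exact_mod_cast le_max_right _ _) hn', ?_⟩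
    rw [mul_div_cancel₀ _ hs]
    exact polyLE_mono (by exact_mod_cast le_max_left _ _) hn

/-- common denominators -/
theorem common_denom {u v : K} (hK : IsRat k u v) (S : Finset K) :
    ∃ (n : ℕ) (q : K), q ≠ 0 ∧ q ∈ polyLE k u v n ∧ ∀ a ∈ S, q * a ∈ polyLE k u v n := by
  classical
  induction S using Finset.induction_on with
  | empty => exact ⟨0, 1, one_ne_zero, one_mem_polyLE le_rfl, by simp⟩
  | insert a S _ ih =>
    obtain ⟨n, q, hq, h0, h⟩ := ih
    obtain ⟨n', q', hq', h1, h2⟩ := IsRat_frac hK a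
    refine ⟨n + n', q * q', mul_ne_zero hq hq', ?_, fun b hb => ?_⟩
    · push_cast; exact polyLE_mul h0 h1
    · rw [Finset.mem_insert] at hb
      push_cast
      rcases hb with rfl | hb
      · rw [mul_assoc]; exact polyLE_mul h0 h2
      · rw [mul_comm q q', mul_assoc, add_comm]; exact polyLE_mul h1 (h b hb)

end Crest.Agent.R169.P1
end

-- ▼ part R169/HilbRk
section

/-!
# Row 169, P1 (part 5): the leading coefficient is the rank
Author: helper132.
-/

set_option autoImplicit false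
set_option linter.unusedSectionVars false

namespace Crest.Agent.R169.P1

open Module

/-- a quadratic polynomial that is eventually `≥ 0` -/
theorem quad_nonneg {a b c : ℚ} {M : ℤ} (h : ∀ m ≥ M, 0 ≤ a * (m : ℚ) ^ 2 + b * m + c) :
    0 ≤ a ∧ (a = 0 → 0 ≤ b) ∧ (a = 0 → b = 0 → 0 ≤ c) := by
  refine ⟨?_, ?_, ?_⟩
  · by_contra ha
    push Not at ha
    obtain ⟨N, hN⟩ := exists_int_gt ((|b| + |c|) / (-a) + 1)
    have h1 := h (max M (max N 1)) (le_max_left _ _)
    set m : ℤ := max M (max N 1) with hm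
    have hm1 : (1 : ℚ) ≤ (m : ℚ) := by
      have : (1 : ℤ) ≤ m := (le_max_right _ _).trans (le_max_right _ _)
      exact_mod_cast this
    have hmN : (|b| + |c|) / (-a) < (m : ℚ) := by
      have : N ≤ m := (le_max_left _ _).trans (le_max_right _ _)
      have h2 : (N : ℚ) ≤ m := by exact_mod_cast this
      linarith
    have h3 : |b| + |c| < (m : ℚ) * (-a) := by
      rwa [div_lt_iff₀ (by linarith)] at hmN
    have hb := le_abs_self b
    have hc := le_abs_self c
    have hb0 := abs_nonneg b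
    have hc0 := abs_nonneg c
    nlinarith [mul_le_mul_of_nonneg_right hb (by linarith : (0 : ℚ) ≤ (m : ℚ)),
      mul_pos (by linarith : (0 : ℚ) < (m : ℚ)) (sub_pos.2 h3), mul_nonneg hc0 (by linarith : (0:ℚ) ≤ (m:ℚ) - 1)]
  · intro ha
    by_contra hb
    push Not at hb
    obtain ⟨N, hN⟩ := exists_int_gt (|c| / (-b) + 1)
    have h1 := h (max M N) (le_max_left _ _)
    have hmN : |c| / (-b) < ((max M N : ℤ) : ℚ) := by
      have h2 : (N : ℚ) ≤ ((max M N : ℤ) : ℚ) := by exact_mod_cast le_max_right M N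
      linarith
    rw [div_lt_iff₀ (by linarith)] at hmN
    have hc := le_abs_self c
    rw [ha] at h1
    nlinarith
  · intro ha hb
    have h1 := h M le_rfl
    rw [ha, hb] at h1
    simpa using h1

theorem quad_unique {a b c a' b' c' : ℚ} {M : ℤ}
    (h : ∀ m ≥ M, a * (m : ℚ) ^ 2 + b * m + c = a' * (m : ℚ) ^ 2 + b' * m + c') :
    a = a' ∧ b = b' ∧ c = c' := by
  have h1 := quad_nonneg (a := a - a') (b := b - b') (c := c - c') (M := M)
    (fun m hm => by have := h m hm; nlinarith)
  have h2 := quad_nonneg (a := a' - a) (b := b' - b) (c := c' - c) (M := M)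
    (fun m hm => by have := h m hm; nlinarith)
  have ha : a = a' := by linarith [h1.1, h2.1]
  have hb : b = b' := by
    have := h1.2.1 (by linarith); have := h2.2.1 (by linarith); linarith
  have hc : c = c' := by
    have := h1.2.2 (by linarith) (by linarith)
    have := h2.2.2 (by linarith) (by linarith)
    linarith
  exact ⟨ha, hb, hc⟩

section

variable {k K V : Type} [Field k] [Field K] [Algebra k K] [AddCommGroup V] [Module k V]
  [Module K V]

theorem unique_hp {E : ℤ → Submodule k V} {n n' : ℕ} {b b' c c' : ℚ} (h : HasHP E n b c)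
    (h' : HasHP E n' b' c') : n = n' ∧ b = b' ∧ c = c' := by
  obtain ⟨M, hM⟩ := h
  obtain ⟨M', hM'⟩ := h'
  have := quad_unique (M := max M M') (fun m hm =>
    (hM m ((le_max_left _ _).trans hm)).symm.trans (hM' m ((le_max_right _ _).trans hm)))
  refine ⟨?_, this.2⟩
  have h1 := this.1
  have : (n : ℚ) = n' := by linarith
  exact_mod_cast this

variable [IsScalarTower k K V]

theorem polyLE_smul {u v : K} {E : ℤ → Submodule k V} (h : Fam u v E) {m m' : ℤ} {p : K} {w : V}
    (hp : p ∈ polyLE k u v m) (hw : w ∈ E m') : p • w ∈ E (m' + m) := by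
  unfold polyLE at hp
  induction hp using Submodule.span_induction with
  | mem x hx =>
    obtain ⟨i, j, hij, rfl⟩ := hx
    exact mono_le h.mono (by push_cast; linarith) (h.mon i j hw)
  | zero => rw [zero_smul]; exact Submodule.zero_mem _
  | add y z _ _ hy hz => rw [add_smul]; exact add_mem hy hz
  | smul c y _ hy => rw [smul_assoc]; exact Submodule.smul_mem _ _ hy

theorem span_eq {u v : K} {E : ℤ → Submodule k V} (hE : IsLat u v E) :
    ∃ m₁ : ℤ, spanK K E = Submodule.span K (E m₁ : Set V) := by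
  obtain ⟨m₁, hm₁⟩ := hE.gen
  refine ⟨m₁, le_antisymm ?_ (Submodule.span_mono (Set.subset_iUnion (fun m => (E m : Set V)) m₁))⟩
  unfold spanK
  rw [Submodule.span_le]
  have key : ∀ n : ℕ, ∀ x ∈ E (m₁ + n), x ∈ Submodule.span K (E m₁ : Set V) := by
    intro n
    induction n with
    | zero => intro x hx; simp only [Nat.cast_zero, add_zero] at hx; exact Submodule.subset_span hx
    | succ n ih =>
      intro x hx
      have e : m₁ + ((n + 1 : ℕ) : ℤ) = m₁ + n + 1 := by push_cast; ring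
      rw [e] at hx
      obtain ⟨a, ha, b, hb, c, hc, rfl⟩ := hm₁ (m₁ + n) (by omega) x hx
      exact add_mem (add_mem (ih a ha) (Submodule.smul_mem _ _ (ih b hb)))
        (Submodule.smul_mem _ _ (ih c hc))
  rintro x ⟨_, ⟨m, rfl⟩, hx⟩
  rcases le_total m m₁ with hm | hm
  · exact Submodule.subset_span (mono_le hE.mono hm hx)
  · obtain ⟨n, rfl⟩ := Int.le.dest hm
    exact key n x hx

theorem spanK_finite {u v : K} {E : ℤ → Submodule k V} (hE : IsLat u v E) :
    Module.Finite K (spanK K E) := by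
  obtain ⟨m₁, h⟩ := span_eq hE
  rw [h]
  have := hE.fin m₁
  obtain ⟨S, hS⟩ := Module.Finite.iff_fg.1 this
  have : Submodule.span K (E m₁ : Set V) = Submodule.span K (S : Set V) := by
    rw [← hS, Submodule.span_span_of_tower]
  rw [this]
  exact Module.Finite.span_finset K S

/-- `(b → k[u,v]_{≤m}) → V` -/
noncomputable def Psi (u v : K) {ι : Type} [Fintype ι] (w : ι → V) (m : ℤ) :
    (ι → polyLE k u v m) →ₗ[k] V where
  toFun g := ∑ i, (g i : K) • w i
  map_add' g h := by simp [add_smul, Finset.sum_add_distrib]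
  map_smul' c g := by simp [Finset.smul_sum, smul_assoc]

theorem Psi_inj {u v : K} {ι : Type} [Fintype ι] {w : ι → V} (hw : LinearIndependent K w)
    (m : ℤ) : Function.Injective (Psi (k := k) u v w m) := by
  rw [injective_iff_map_eq_zero]
  intro g hg
  have := Fintype.linearIndependent_iff.1 hw (fun i => (g i : K)) hg
  funext i
  exact Subtype.ext (this i)

theorem finrank_Psi_dom {u v : K} (hK : AlgebraicIndependent k ![u, v]) {ι : Type} [Fintype ι]
    (m : ℤ) : finrank k (ι → polyLE k u v m) = Fintype.card ι * dimA m := by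
  rw [Module.finrank_pi_fintype]
  simp [finrank_polyLE hK]

/-- lower and upper bounds of `dim E_m` by free lattices of rank `rk` -/
theorem sandwich {u v : K} (hK : IsRat k u v) {E : ℤ → Submodule k V} (hE : IsLat u v E) :
    ∃ (m₁ : ℤ) (r : ℕ), ∀ j : ℕ, rk K E * dimA j ≤ finrank k (E (m₁ + j)) ∧
      finrank k (E (m₁ + j)) ≤ rk K E * dimA (j + r) := by
  classical
  have h : Fam u v E := ⟨hE.mono, hE.umul, hE.vmul⟩
  obtain ⟨m₀, hspan₀⟩ := span_eq hE
  obtain ⟨m₂, hm₂⟩ := hE.gen
  -- a common index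
  set m₁ : ℤ := max m₀ m₂ with hm₁
  have hspan : spanK K E = Submodule.span K (E m₁ : Set V) := by
    refine le_antisymm ?_
      (Submodule.span_mono (Set.subset_iUnion (fun m => (E m : Set V)) m₁))
    rw [hspan₀]
    exact Submodule.span_mono (mono_le hE.mono (le_max_left _ _))
  have := hE.fin m₁
  obtain ⟨S, hS⟩ := Module.Finite.iff_fg.1 this
  have hspanS : Submodule.span K (E m₁ : Set V) = Submodule.span K (S : Set V) := by
    rw [← hS, Submodule.span_span_of_tower]
  obtain ⟨b, hbS, hbspan, hbli⟩ := exists_linearIndependent K (S : Set V)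
  have hbfin : b.Finite := S.finite_toSet.subset hbS
  have : Fintype b := hbfin.fintype
  have hcard : rk K E = Fintype.card b := by
    unfold rk
    rw [hspan, hspanS, ← hbspan, finrank_span_set_eq_card hbli, Set.toFinset_card]
  have hbE : ∀ i : b, (i : V) ∈ E m₁ := fun i => by
    rw [← hS]; exact Submodule.subset_span (hbS i.2)
  -- coordinates
  have hcoord : ∀ x ∈ S, ∃ g : b → K, x = ∑ i, g i • (i : V) := by
    intro x hx
    have hx' : x ∈ Submodule.span K b := by
      rw [hbspan]; exact Submodule.subset_span hx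
    have hb' : b = Set.range (Subtype.val : b → V) := by simp
    rw [hb', Submodule.mem_span_range_iff_exists_fun] at hx'
    obtain ⟨g, hg⟩ := hx'
    exact ⟨g, hg.symm⟩
  choose! co hco using hcoord
  obtain ⟨r, q, hq, _, hqr⟩ := common_denom hK
    (S.biUnion fun x => Finset.univ.image fun i : b => co x i)
  have hqS : ∀ x ∈ S, ∀ i : b, q * co x i ∈ polyLE k u v r := fun x hx i =>
    hqr _ (Finset.mem_biUnion.2 ⟨x, hx, Finset.mem_image.2 ⟨i, Finset.mem_univ _, rfl⟩⟩)
  refine ⟨m₁, r, fun j => ⟨?_, ?_⟩⟩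
  · -- lower bound
    have hfin := hE.fin (m₁ + j)
    have hinj := Psi_inj (k := k) (u := u) (v := v) hbli (j : ℤ)
    have hmem : ∀ g, Psi (k := k) u v (Subtype.val : b → V) (j : ℤ) g ∈ E (m₁ + j) := by
      intro g
      exact Submodule.sum_mem _ fun i _ => polyLE_smul h (g i).2 (hbE i)
    have h1 := LinearMap.finrank_le_finrank_of_injective
      (f := (Psi (k := k) u v (Subtype.val : b → V) (j : ℤ)).codRestrict (E (m₁ + j)) hmem)
      (by
        intro x y hxy
        apply hinj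
        exact congrArg Subtype.val hxy)
    rw [finrank_Psi_dom hK.indep, ← hcard] at h1
    exact h1
  · -- upper bound
    have key : ∀ j : ℕ, ∀ x ∈ E (m₁ + j),
        q • x ∈ LinearMap.range (Psi (k := k) u v (Subtype.val : b → V) ((j : ℤ) + r)) := by
      intro j
      induction j with
      | zero =>
        intro x hx
        simp only [Nat.cast_zero, add_zero] at hx
        rw [← hS] at hx
        induction hx using Submodule.span_induction with
        | mem x hx =>
          refine ⟨fun i => ⟨q * co x i, ?_⟩, ?_⟩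
          · simpa using hqS x hx i
          · simp only [Psi, LinearMap.coe_mk, AddHom.coe_mk]
            conv_rhs => rw [hco x hx]
            rw [Finset.smul_sum]
            simp only [mul_smul]
        | zero => rw [smul_zero]; exact Submodule.zero_mem _
        | add y z _ _ hy hz => rw [smul_add]; exact add_mem hy hz
        | smul c y _ hy => rw [smul_comm]; exact Submodule.smul_mem _ _ hy
      | succ j ih =>
        intro x hx
        have e : m₁ + ((j + 1 : ℕ) : ℤ) = m₁ + j + 1 := by push_cast; ring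
        rw [e] at hx
        obtain ⟨a, ha, b', hb', c, hc, rfl⟩ := hm₂ (m₁ + j) (by omega) x hx
        obtain ⟨ga, hga⟩ := ih a ha
        obtain ⟨gb, hgb⟩ := ih b' hb'
        obtain ⟨gc, hgc⟩ := ih c hc
        refine ⟨fun i => ⟨ga i + u * gb i + v * gc i, ?_⟩, ?_⟩
        · refine add_mem (add_mem (polyLE_mono ?_ (ga i).2) ?_) ?_
          · push_cast; omega
          · have := polyLE_mul (k := k) (u_mem_polyLE (v := v) (u := u) le_rfl) (gb i).2
            convert this using 2; push_cast; ring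
          · have := polyLE_mul (k := k) (v_mem_polyLE (v := v) (u := u) le_rfl) (gc i).2
            convert this using 2; push_cast; ring
        · simp only [Psi, LinearMap.coe_mk, AddHom.coe_mk] at hga hgb hgc ⊢
          simp only [add_smul, Finset.sum_add_distrib, mul_smul, ← Finset.smul_sum]
          rw [hga, hgb, hgc, smul_add, smul_add, smul_comm u q, smul_comm v q]
    have h1 : (E (m₁ + j)).map (mulBy k q) ≤
        LinearMap.range (Psi (k := k) u v (Subtype.val : b → V) ((j : ℤ) + r)) := by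
      rintro _ ⟨x, hx, rfl⟩
      exact key j x hx
    have h2 := Submodule.finrank_mono h1
    rw [finrank_map_mulBy hq] at h2
    have h3 := LinearMap.finrank_range_le (Psi (k := k) u v (Subtype.val : b → V) ((j : ℤ) + r))
    rw [finrank_Psi_dom hK.indep, ← hcard] at h3
    exact h2.trans h3

/-- **the leading coefficient is the rank** -/
theorem lead_eq_rk {u v : K} (hK : IsRat k u v) {E : ℤ → Submodule k V} (hE : IsLat u v E)
    {s : ℕ} {b c : ℚ} (hHP : HasHP E s b c) : s = rk K E := by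
  obtain ⟨m₁, r, hsw⟩ := sandwich hK hE
  obtain ⟨M, hM⟩ := hHP
  set n := rk K E with hn
  have key : ∀ m ≥ max M m₁, (n : ℚ) * (((m : ℚ) - m₁ + 1) * (m - m₁ + 2) / 2) ≤
      s / 2 * (m : ℚ) ^ 2 + b * m + c ∧ s / 2 * (m : ℚ) ^ 2 + b * m + c ≤
        (n : ℚ) * (((m : ℚ) - m₁ + r + 1) * (m - m₁ + r + 2) / 2) := by
    intro m hm
    have hm1 : M ≤ m := (le_max_left _ _).trans hm
    have hm2 : m₁ ≤ m := (le_max_right _ _).trans hm
    obtain ⟨j, rfl⟩ := Int.le.dest hm2
    rw [← hM _ hm1]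
    obtain ⟨h1, h2⟩ := hsw j
    have e1 := dimA_cast (m := (j : ℤ)) (by omega)
    have e2 := dimA_cast (m := (j : ℤ) + r) (by omega)
    have h1' : ((n * dimA j : ℕ) : ℚ) ≤ (finrank k (E (m₁ + j)) : ℚ) := by exact_mod_cast h1
    have h2' : (finrank k (E (m₁ + j)) : ℚ) ≤ ((n * dimA (j + r) : ℕ) : ℚ) := by exact_mod_cast h2
    push_cast at h1' h2' e1 e2 ⊢
    rw [e1] at h1'
    rw [e2] at h2'
    constructor
    · convert h1' using 2; ring
    · convert h2' using 2; ring
  have h1 := (quad_nonneg (a := (s : ℚ) / 2 - n / 2) (b := b - n * (-2 * m₁ + 3) / 2)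
    (c := c - n * ((-m₁ + 1) * (-m₁ + 2)) / 2) (M := max M m₁) (fun m hm => by
      have := (key m hm).1
      nlinarith)).1
  have h2 := (quad_nonneg (a := (n : ℚ) / 2 - s / 2) (b := n * (-2 * m₁ + 2 * r + 3) / 2 - b)
    (c := n * ((-m₁ + r + 1) * (-m₁ + r + 2)) / 2 - c) (M := max M m₁) (fun m hm => by
      have := (key m hm).2
      nlinarith)).1
  have h3 : (s : ℚ) = n := by linarith
  exact_mod_cast h3

end

end Crest.Agent.R169.P1
end

-- ▼ part R169/Hilb

/-!
# Row 169, Part P1 (owner helper132): the frozen statements of `LatStmts.lean`, proved.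
-/

set_option autoImplicit false
set_option linter.unusedSectionVars false

namespace Crest.Agent.R169

open Module

variable {k K V : Type} [Field k] [Field K] [Algebra k K] [AddCommGroup V] [Module k V]
  [Module K V] {u v : K} {E E' : ℤ → Submodule k V}

theorem IsFam.toFam (h : IsFam u v E) : P1.Fam u v E := ⟨h.mono, h.umul, h.vmul⟩

theorem IsLat.toFam (h : IsLat u v E) : P1.Fam u v E := ⟨h.mono, h.umul, h.vmul⟩

theorem IsLat.of_le [IsScalarTower k K V] (hE : IsLat u v E) (hF : IsFam u v E')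
    (hle : ∀ m, E' m ≤ E m) : IsLat u v E' := P1.isLat_of_le hE hF.toFam hle

theorem IsLat.interU [IsScalarTower k K V] (hE : IsLat u v E) (U : Submodule K V) :
    IsLat u v (interU E U) := by
  refine P1.isLat_of_le hE ⟨?_, ?_, ?_⟩ fun m => inf_le_left
  · intro m
    exact inf_le_inf_right _ (hE.mono m)
  · rintro m x ⟨hx, hxU⟩
    exact ⟨hE.umul m x hx, U.smul_mem u hxU⟩
  · rintro m x ⟨hx, hxU⟩
    exact ⟨hE.vmul m x hx, U.smul_mem v hxU⟩

theorem IsLat.quotU [IsScalarTower k K V] (hE : IsLat u v E) (U : Submodule K V) :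
    IsLat u v (quotU E U) := by
  obtain ⟨m₀, hm₀⟩ := hE.bot
  obtain ⟨m₁, hm₁⟩ := hE.gen
  refine ⟨fun m => Submodule.map_mono (hE.mono m), ?_, ?_, ?_, ⟨m₀, fun m hm => ?_⟩,
    ⟨m₁, fun m hm => ?_⟩⟩
  · rintro m _ ⟨x, hx, rfl⟩
    exact ⟨u • x, hE.umul m x hx, by simp⟩
  · rintro m _ ⟨x, hx, rfl⟩
    exact ⟨v • x, hE.vmul m x hx, by simp⟩
  · intro m
    have := hE.fin m
    unfold Crest.Agent.R169.quotU
    infer_instance
  · unfold Crest.Agent.R169.quotU
    rw [hm₀ m hm, Submodule.map_bot]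
  · rintro _ ⟨x, hx, rfl⟩
    obtain ⟨a, ha, b, hb, c, hc, rfl⟩ := hm₁ m hm x hx
    exact ⟨_, ⟨a, ha, rfl⟩, _, ⟨b, hb, rfl⟩, _, ⟨c, hc, rfl⟩, by simp⟩

theorem IsLat.shift (hE : IsLat u v E) (a : ℤ) : IsLat u v (shiftL E a) := by
  obtain ⟨m₀, hm₀⟩ := hE.bot
  obtain ⟨m₁, hm₁⟩ := hE.gen
  have e : ∀ m : ℤ, m + 1 + a = m + a + 1 := fun m => by ring
  refine ⟨fun m => ?_, fun m x hx => ?_, fun m x hx => ?_, fun m => hE.fin _,
    ⟨m₀ - a, fun m hm => hm₀ _ (by omega)⟩, ⟨m₁ - a, fun m hm x hx => ?_⟩⟩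
  · simp only [shiftL, e]; exact hE.mono _
  · simp only [shiftL, e] at hx ⊢; exact hE.umul _ _ hx
  · simp only [shiftL, e] at hx ⊢; exact hE.vmul _ _ hx
  · simp only [shiftL, e] at hx ⊢
    exact hm₁ _ (by omega) x hx

theorem hasHP_unique {n n' : ℕ} {b b' c c' : ℚ} (h : HasHP E n b c) (h' : HasHP E n' b' c') :
    n = n' ∧ b = b' ∧ c = c' := P1.unique_hp h h'

theorem HasHP.integral {n : ℕ} {b c : ℚ} (h : HasHP E n b c) :
    (∃ t : ℤ, 2 * b = t) ∧ (∃ t : ℤ, c = t) := by
  obtain ⟨M, hM⟩ := h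
  have hb : ∃ t : ℤ, 2 * b = t := by
    have h1 := hM M le_rfl
    have h2 := hM (M + 1) (by omega)
    refine ⟨2 * ((finrank k (E (M + 1)) : ℤ) - finrank k (E M)) - n * (2 * M + 1), ?_⟩
    push_cast at h2 ⊢
    rw [h1, h2]; ring
  refine ⟨hb, ?_⟩
  obtain ⟨t, ht⟩ := hb
  have h3 := hM (2 * |M|) (by
    have := neg_abs_le M; have := le_abs_self M; have := abs_nonneg M; omega)
  refine ⟨(finrank k (E (2 * |M|)) : ℤ) - 2 * n * |M| ^ 2 - t * |M|, ?_⟩
  push_cast at h3 ⊢
  rw [h3, ← ht]; ring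

/-- existence of the Hilbert polynomial, integrality -/
theorem IsLat.exists_hasHP [IsScalarTower k K V] [Infinite k] (hK : IsRat k u v)
    (hE : IsLat u v E) :
    ∃ b c : ℚ, HasHP E (rk K E) b c ∧ (∃ t : ℤ, 2 * b = t) ∧ (∃ t : ℤ, c = t) := by
  obtain ⟨s, b, c, h⟩ := P1.exists_poly hK.indep hE
  have hs := P1.lead_eq_rk hK hE h
  subst hs
  exact ⟨b, c, h, h.integral⟩

theorem IsLat.hasHP [IsScalarTower k K V] [Infinite k] (hK : IsRat k u v)
    (hE : IsLat u v E) : HasHP E (rk K E) (hb E) (hc E) := by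
  obtain ⟨b, c, h, -⟩ := hE.exists_hasHP hK
  have h1 : HasHP E (Classical.epsilon (fun t : ℕ × ℚ × ℚ => HasHP E t.1 t.2.1 t.2.2)).1
      (hb E) (hc E) :=
    Classical.epsilon_spec (p := fun t : ℕ × ℚ × ℚ => HasHP E t.1 t.2.1 t.2.2) ⟨(_, b, c), h⟩
  have h2 := (hasHP_unique h h1).1
  rw [← h2] at h1
  exact h1

theorem finrank_add [IsScalarTower k K V] (hE : IsLat u v E) (U : Submodule K V) (m : ℤ) :
    finrank k (E m) = finrank k (interU E U m) + finrank k (quotU E U m) := by
  have := hE.fin m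
  have h1 := LinearMap.finrank_range_add_finrank_ker
    ((U.mkQ.restrictScalars k).domRestrict (E m))
  have h2 : LinearMap.range ((U.mkQ.restrictScalars k).domRestrict (E m)) = quotU E U m := by
    rw [LinearMap.range_domRestrict]; rfl
  have h3 : finrank k (LinearMap.ker ((U.mkQ.restrictScalars k).domRestrict (E m))) =
      finrank k (interU E U m) := by
    have h4 : (LinearMap.ker ((U.mkQ.restrictScalars k).domRestrict (E m))).map (E m).subtype =
        interU E U m := by
      ext x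
      constructor
      · rintro ⟨⟨y, hy⟩, hy', rfl⟩
        refine ⟨hy, ?_⟩
        simpa using hy'
      · rintro ⟨hx, hxU⟩
        refine ⟨⟨x, hx⟩, ?_, rfl⟩
        simpa using hxU
    rw [← h4]
    exact (LinearEquiv.finrank_eq
      (Submodule.equivMapOfInjective _ (Submodule.injective_subtype _) _))
  rw [h2, h3] at h1
  omega


theorem HasHP.quotU [IsScalarTower k K V] (hE : IsLat u v E) (U : Submodule K V)
    {n n₁ : ℕ} {b b₁ c c₁ : ℚ} (h : HasHP E n b c)
    (h1 : HasHP (Crest.Agent.R169.interU E U) n₁ b₁ c₁) (hn : n₁ ≤ n) :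
    HasHP (Crest.Agent.R169.quotU E U) (n - n₁) (b - b₁) (c - c₁) := by
  obtain ⟨M, hM⟩ := h
  obtain ⟨M', hM'⟩ := h1
  refine ⟨max M M', fun m hm => ?_⟩
  have e1 := hM m ((le_max_left _ _).trans hm)
  have e2 := hM' m ((le_max_right _ _).trans hm)
  rw [finrank_add hE U m] at e1
  push_cast [Nat.cast_sub hn] at e1 ⊢
  rw [e2] at e1
  linarith

/-- elements of the span are fractions -/
theorem IsLat.exists_mul_mem [IsScalarTower k K V] (hK : IsRat k u v) (hE : IsLat u v E) {x : V}
    (hx : x ∈ spanK K E) : ∃ q : K, q ≠ 0 ∧ ∃ m, q • x ∈ E m := by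
  unfold spanK at hx
  induction hx using Submodule.span_induction with
  | mem x hx =>
    obtain ⟨_, ⟨m, rfl⟩, hx⟩ := hx
    exact ⟨1, one_ne_zero, m, by rwa [one_smul]⟩
  | zero => exact ⟨1, one_ne_zero, 0, by simp⟩
  | add y z _ _ hy hz =>
    obtain ⟨q, hq, m, h1⟩ := hy
    obtain ⟨q', hq', m', h2⟩ := hz
    obtain ⟨n, p, hp, hp1, hp2⟩ := P1.IsRat_frac hK q
    obtain ⟨n', p', hp', hp1', hp2'⟩ := P1.IsRat_frac hK q'
    refine ⟨(p * q) * (p' * q'), mul_ne_zero (mul_ne_zero hp hq) (mul_ne_zero hp' hq'),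
      max (m + n + n') (m' + n + n'), ?_⟩
    rw [smul_add]
    refine add_mem ?_ ?_
    · have e : ((p * q) * (p' * q')) • y = (p * (p' * q')) • q • y := by
        rw [smul_smul]; congr 1; ring
      rw [e]
      have := P1.polyLE_smul hE.toFam (P1.polyLE_mul hp1 hp2') h1
      exact P1.mono_le hE.mono (by omega) this
    · have e : ((p * q) * (p' * q')) • z = ((p * q) * p') • q' • z := by
        rw [smul_smul]; congr 1; ring
      rw [e]
      have := P1.polyLE_smul hE.toFam (P1.polyLE_mul hp2 hp1') h2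
      exact P1.mono_le hE.mono (by omega) this
  | smul c y _ hy =>
    obtain ⟨q, hq, m, h1⟩ := hy
    obtain ⟨n, p, hp, hp1, hp2⟩ := P1.IsRat_frac hK c
    refine ⟨p * q, mul_ne_zero hp hq, m + n, ?_⟩
    have e : (p * q) • c • y = (p * c) • q • y := by
      rw [smul_smul, smul_smul]; congr 1; ring
    rw [e]
    exact P1.polyLE_smul hE.toFam hp2 h1

theorem spanK_interU [IsScalarTower k K V] (hK : IsRat k u v) (hE : IsLat u v E)
    (U : Submodule K V) : spanK K (interU E U) = spanK K E ⊓ U := by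
  apply le_antisymm
  · refine le_inf (Submodule.span_mono (Set.iUnion_mono fun m => ?_)) ?_
    · intro x hx; exact hx.1
    · unfold spanK
      rw [Submodule.span_le]
      rintro x ⟨_, ⟨m, rfl⟩, hx⟩
      exact hx.2
  · rintro x ⟨hx, hxU⟩
    obtain ⟨q, hq, m, h⟩ := hE.exists_mul_mem hK hx
    have h1 : q • x ∈ spanK K (interU E U) :=
      Submodule.subset_span (Set.mem_iUnion.2 ⟨m, h, U.smul_mem q hxU⟩)
    have := Submodule.smul_mem _ q⁻¹ h1
    rwa [smul_smul, inv_mul_cancel₀ hq, one_smul] at this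

theorem spanK_quotU [IsScalarTower k K V] (E : ℤ → Submodule k V)
    (U : Submodule K V) : spanK K (quotU E U) = (spanK K E).map U.mkQ := by
  unfold spanK
  rw [Submodule.map_span, Set.image_iUnion]
  congr 1

theorem IsLat.spanK_finite [IsScalarTower k K V] (hE : IsLat u v E) :
    Module.Finite K (spanK K E) := P1.spanK_finite hE

/-- additivity of the rank (needs `K = k(u,v)`!) -/
theorem rk_add [IsScalarTower k K V] (hK : IsRat k u v) (hE : IsLat u v E) (U : Submodule K V) :
    rk K E = rk K (interU E U) + rk K (quotU E U) := by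
  unfold rk
  have := hE.spanK_finite
  rw [spanK_interU hK hE, spanK_quotU]
  have h1 := LinearMap.finrank_range_add_finrank_ker (U.mkQ.domRestrict (spanK K E))
  rw [LinearMap.range_domRestrict] at h1
  have h3 : finrank K (LinearMap.ker (U.mkQ.domRestrict (spanK K E))) =
      finrank K (spanK K E ⊓ U : Submodule K V) := by
    have h4 : (LinearMap.ker (U.mkQ.domRestrict (spanK K E))).map (spanK K E).subtype =
        spanK K E ⊓ U := by
      ext x
      constructor
      · rintro ⟨⟨y, hy⟩, hy', rfl⟩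
        refine ⟨hy, ?_⟩
        simpa using hy'
      · rintro ⟨hx, hxU⟩
        refine ⟨⟨x, hx⟩, ?_, rfl⟩
        simpa using hxU
    rw [← h4]
    exact (LinearEquiv.finrank_eq
      (Submodule.equivMapOfInjective _ (Submodule.injective_subtype _) _))
  rw [h3] at h1
  omega



/-- sublattice of the same rank -/
theorem HasHP.mono {n : ℕ} {b b' c c' : ℚ} (hE : ∀ m, Module.Finite k (E m))
    (h' : HasHP E' n b' c') (h : HasHP E n b c)
    (hle : ∃ m₀ : ℤ, ∀ m ≥ m₀, E' m ≤ E m) : b' ≤ b ∧ (b' = b → c' ≤ c) := by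
  obtain ⟨M, hM⟩ := h
  obtain ⟨M', hM'⟩ := h'
  obtain ⟨m₀, hm₀⟩ := hle
  have key : ∀ m ≥ max (max M M') m₀, 0 ≤ (0 : ℚ) * (m : ℚ) ^ 2 + (b - b') * m + (c - c') := by
    intro m hm
    have h1 := hM m ((le_max_left _ _).trans ((le_max_left _ _).trans hm))
    have h2 := hM' m ((le_max_right _ _).trans ((le_max_left _ _).trans hm))
    have := hE m
    have h3 : (finrank k (E' m) : ℚ) ≤ finrank k (E m) := by
      exact_mod_cast Submodule.finrank_mono (hm₀ m ((le_max_right _ _).trans hm))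
    rw [h1, h2] at h3
    linarith
  have := P1.quad_nonneg key
  refine ⟨by linarith [this.2.1 rfl], fun hbb => ?_⟩
  linarith [this.2.2 rfl (by linarith)]


/-- sublattice: smaller rank -/
theorem rk_le_of_le [IsScalarTower k K V] (hE : IsLat u v E) (hE' : IsLat u v E')
    (hle : ∃ m₀ : ℤ, ∀ m ≥ m₀, E' m ≤ E m) : rk K E' ≤ rk K E := by
  obtain ⟨m₀, hm₀⟩ := hle
  have := hE.spanK_finite
  apply Submodule.finrank_mono
  unfold spanK
  rw [Submodule.span_le]
  rintro x ⟨_, ⟨m, rfl⟩, hx⟩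
  apply Submodule.subset_span
  exact Set.mem_iUnion.2 ⟨max m m₀, hm₀ _ (le_max_right _ _)
    (P1.mono_le hE'.mono (le_max_left _ _) hx)⟩

/-- additivity (*) -/
theorem jinv_add (n₁ n₂ : ℕ) (b₁ b₂ c₁ c₂ : ℚ) (h₁ : 0 < n₁) (h₂ : 0 < n₂) :
    Jinv (n₁ + n₂) (b₁ + b₂) (c₁ + c₂) = Jinv n₁ b₁ c₁ + Jinv n₂ b₂ c₂
      + n₁ / 2 * (b₁ / n₁ - (b₁ + b₂) / (n₁ + n₂)) ^ 2
      + n₂ / 2 * (b₂ / n₂ - (b₁ + b₂) / (n₁ + n₂)) ^ 2 := by
  have hn₁ : (n₁ : ℚ) ≠ 0 := by positivity
  have hn₂ : (n₂ : ℚ) ≠ 0 := by positivity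
  have hn : (n₁ : ℚ) + n₂ ≠ 0 := by positivity
  unfold Jinv
  push_cast
  field_simp
  ring

end Crest.Agent.R169
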