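import Crest.Agent.R169.P3e

/-!
# Row 169, P2: the saturation of a lattice
(helper272)
-/

set_option autoImplicit false
set_option linter.unusedSectionVars false
set_option linter.unusedVariables false

namespace Crest.Agent.R169.P2

open Module P3

section

variable {k K V W : Type} [Field k] [Field K] [Algebra k K] [AddCommGroup V] [Module k V]
  [Module K V] [IsScalarTower k K V] [AddCommGroup W] [Module k W] [Module K W]
  [IsScalarTower k K W] {u v : K}

/-- free lattices are lattices -/
lemma freeL_isLat {n : ℕ} (d : Fin n → ℤ) : IsLat (k := k) u v (freeL k u v d) where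
  mono := (freeL_isFam d).mono
  umul := (freeL_isFam d).umul
  vmul := (freeL_isFam d).vmul
  fin m := freeL_finite d m
  bot := by
    refine ⟨- (∑ i, |d i|) - 1, fun m hm => freeL_bot (m₀ := - (∑ i, |d i|) - 1) ?_ hm⟩
    intro i
    have h1 : |d i| ≤ ∑ i, |d i| :=
      Finset.single_le_sum (f := fun i => |d i|) (fun _ _ => abs_nonneg _) (Finset.mem_univ i)
    have h2 := neg_abs_le (d i)
    omega
  gen := by
    refine ⟨∑ i, |d i|, fun m hm g hg => ?_⟩
    rw [mem_freeL] at hg
    have key : ∀ i, ∃ a ∈ polyLE k u v (m - d i), ∃ b ∈ polyLE k u v (m - d i),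
        ∃ c ∈ polyLE k u v (m - d i), g i = a + u * b + v * c := by
      intro i
      have h1 : |d i| ≤ ∑ i, |d i| :=
        Finset.single_le_sum (f := fun i => |d i|) (fun _ _ => abs_nonneg _) (Finset.mem_univ i)
      have h2 := le_abs_self (d i)
      refine polyLE_gen (by omega) ?_
      have := hg i
      have e : m + 1 - d i = m - d i + 1 := by ring
      rwa [e] at this
    choose a ha b hb c hc h using key
    refine ⟨a, mem_freeL.2 ha, b, mem_freeL.2 hb, c, mem_freeL.2 hc, ?_⟩
    funext i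
    simpa using h i

/-- transfer along a `K`-linear map injective on the family -/
lemma isLat_of_map (ψ : V →ₗ[K] W) {E : ℤ → Submodule k V} (hE : IsFam u v E)
    (hinj : ∀ m, ∀ x ∈ E m, ψ x = 0 → x = 0)
    (hL : IsLat u v (fun m => (E m).map (ψ.restrictScalars k))) : IsLat u v E where
  mono := hE.mono
  umul := hE.umul
  vmul := hE.vmul
  fin m := by
    have := hL.fin m
    let φ : E m →ₗ[k] (E m).map (ψ.restrictScalars k) :=
      ((ψ.restrictScalars k).domRestrict (E m)).codRestrict _
        (fun x => ⟨x.1, x.2, rfl⟩)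
    refine Module.Finite.of_injective φ ?_
    intro x y hxy
    have h1 : ψ (x : V) = ψ (y : V) := congrArg Subtype.val hxy
    have h2 : ψ ((x : V) - y) = 0 := by rw [map_sub, h1, sub_self]
    have h3 := hinj m _ (Submodule.sub_mem _ x.2 y.2) h2
    exact Subtype.ext (sub_eq_zero.1 h3)
  bot := by
    obtain ⟨m₀, h⟩ := hL.bot
    refine ⟨m₀, fun m hm => ?_⟩
    rw [eq_bot_iff]
    intro x hx
    have h1 : ψ.restrictScalars k x ∈ (E m).map (ψ.restrictScalars k) := ⟨x, hx, rfl⟩
    have h2 := h m hm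
    rw [h2, Submodule.mem_bot] at h1
    rw [Submodule.mem_bot]
    exact hinj m x hx h1
  gen := by
    obtain ⟨m₁, h⟩ := hL.gen
    refine ⟨m₁, fun m hm x hx => ?_⟩
    obtain ⟨_, ⟨a, ha, rfl⟩, _, ⟨b, hb, rfl⟩, _, ⟨c, hc, rfl⟩, h1⟩ :=
      h m hm (ψ x) ⟨x, hx, rfl⟩
    refine ⟨a, ha, b, hb, c, hc, ?_⟩
    have h1' : ψ x = ψ a + u • ψ b + v • ψ c := h1
    have h2 : ψ (x - (a + u • b + v • c)) = 0 := by
      rw [map_sub, map_add, map_add, map_smul, map_smul, h1', sub_self]
    have h3 : a + u • b + v • c ∈ E (m + 1) :=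
      Submodule.add_mem _ (Submodule.add_mem _ (hE.mono m ha) (hE.umul m b hb))
        (hE.vmul m c hc)
    exact sub_eq_zero.1 (hinj (m + 1) _ (Submodule.sub_mem _ hx h3) h2)

/-- the condition defining the saturation, at level `j` -/
def Lev (u v : K) (E : ℤ → Submodule k V) (m : ℤ) (j : ℕ) (x : V) : Prop :=
  ∀ i l : ℕ, i + l ≤ j → (u ^ i * v ^ l) • x ∈ E (m + j)

lemma Lev.succ {E : ℤ → Submodule k V} (hE : IsFam u v E) {m : ℤ} {j : ℕ} {x : V}
    (h : Lev u v E m j x) : Lev u v E m (j + 1) x := by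
  intro i l hil
  have e : m + ((j + 1 : ℕ) : ℤ) = m + j + 1 := by push_cast; ring
  rw [e]
  by_cases h1 : i + l ≤ j
  · exact hE.mono _ (h i l h1)
  · rcases i with _ | i
    · rcases l with _ | l
      · omega
      · have := hE.vmul _ _ (h 0 l (by omega))
        rw [smul_smul] at this
        convert this using 2
        ring
    · have := hE.umul _ _ (h i l (by omega))
      rw [smul_smul] at this
      convert this using 2
      ring

lemma Lev.mono {E : ℤ → Submodule k V} (hE : IsFam u v E) {m : ℤ} {j j' : ℕ} {x : V}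
    (h : Lev u v E m j x) (hj : j ≤ j') : Lev u v E m j' x := by
  induction j', hj using Nat.le_induction with
  | base => exact h
  | succ n _ ih => exact ih.succ hE

lemma Lev.add {E : ℤ → Submodule k V} {m : ℤ} {j : ℕ} {x y : V}
    (hx : Lev u v E m j x) (hy : Lev u v E m j y) : Lev u v E m j (x + y) := by
  intro i l hil
  rw [smul_add]
  exact Submodule.add_mem _ (hx i l hil) (hy i l hil)

lemma Lev.smul {E : ℤ → Submodule k V} {m : ℤ} {j : ℕ} {x : V} (c : k)
    (hx : Lev u v E m j x) : Lev u v E m j (c • x) := by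
  intro i l hil
  rw [smul_comm]
  exact Submodule.smul_mem _ _ (hx i l hil)

/-- the saturation -/
def sat (u v : K) (E : ℤ → Submodule k V) (hE : IsFam u v E) (m : ℤ) : Submodule k V where
  carrier := {x | ∃ j, Lev u v E m j x}
  zero_mem' := ⟨0, fun i l _ => by rw [smul_zero]; exact Submodule.zero_mem _⟩
  add_mem' := by
    rintro x y ⟨j, hx⟩ ⟨j', hy⟩
    exact ⟨max j j', (hx.mono hE (le_max_left _ _)).add (hy.mono hE (le_max_right _ _))⟩
  smul_mem' := by
    rintro c x ⟨j, hx⟩
    exact ⟨j, hx.smul c⟩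


lemma sat_isFam {E : ℤ → Submodule k V} (hE : IsFam u v E) : IsFam u v (sat u v E hE) where
  mono m := by
    rintro x ⟨j, hx⟩
    refine ⟨j, fun i l hil => ?_⟩
    have := hE.mono _ (hx i l hil)
    have e : m + (j : ℤ) + 1 = m + 1 + j := by ring
    rwa [e] at this
  umul m x := by
    rintro ⟨j, hx⟩
    refine ⟨j, fun i l hil => ?_⟩
    have := hE.umul _ _ (hx i l hil)
    rw [smul_comm] at this
    have e : m + (j : ℤ) + 1 = m + 1 + j := by ring
    rwa [e] at this
  vmul m x := by
    rintro ⟨j, hx⟩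
    refine ⟨j, fun i l hil => ?_⟩
    have := hE.vmul _ _ (hx i l hil)
    rw [smul_comm] at this
    have e : m + (j : ℤ) + 1 = m + 1 + j := by ring
    rwa [e] at this

lemma le_sat {E : ℤ → Submodule k V} (hE : IsFam u v E) (m : ℤ) : E m ≤ sat u v E hE m := by
  intro x hx
  refine ⟨0, fun i l hil => ?_⟩
  have h1 : i = 0 := by omega
  have h2 : l = 0 := by omega
  subst h1; subst h2
  simpa using hx

lemma sat_SAT {E : ℤ → Submodule k V} (hE : IsFam u v E) : SAT u v (sat u v E hE) := by
  rintro m x ⟨j1, h1⟩ ⟨j2, h2⟩ ⟨j3, h3⟩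
  set j := max j1 (max j2 j3) with hj
  have h1' := h1.mono hE (le_max_left j1 (max j2 j3))
  have h2' := h2.mono hE (le_trans (le_max_left j2 j3) (le_max_right j1 _))
  have h3' := h3.mono hE (le_trans (le_max_right j2 j3) (le_max_right j1 _))
  rw [← hj] at h1' h2' h3'
  refine ⟨j + 1, fun i l hil => ?_⟩
  have e : m - 1 + ((j + 1 : ℕ) : ℤ) = m + j := by push_cast; ring
  rw [e]
  by_cases h : i + l ≤ j
  · exact h1' i l h
  · rcases i with _ | i
    · rcases l with _ | l
      · omega
      · have := h3' 0 l (by omega)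
        rw [smul_smul] at this
        convert this using 2
        ring
    · have := h2' i l (by omega)
      rw [smul_smul] at this
      convert this using 2
      ring

/-- iterated (Hu) -/
lemma polyLE_Hu_iter (h : MonoIndep k u v) (j : ℕ) : ∀ (M : ℤ) (y : K),
    (∀ i ≤ j, u ^ i * y ∈ polyLE k u v M) → y ∈ polyLE k u v (M - j) := by
  induction j with
  | zero => intro M y hy; simpa using hy 0 le_rfl
  | succ j ih =>
    intro M y hy
    have h1 : ∀ i ≤ j, u ^ i * y ∈ polyLE k u v (M - 1) := by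
      intro i hi
      refine polyLE_Hu h (hy i (by omega)) ?_
      have := hy (i + 1) (by omega)
      convert this using 1
      ring
    have := ih (M - 1) y h1
    convert this using 2
    push_cast; ring

lemma denom_fin (hf : HasFrac k u v) {n m : ℕ} (q : Fin n → Fin m → K) :
    ∃ b : K, b ≠ 0 ∧ ∃ M : ℤ, ∀ i j, b * q i j ∈ polyLE k u v M := by
  obtain ⟨b, hb, M, _, _, h⟩ := common_denom hf (n := n * m)
    (fun x => q (finProdFinEquiv.symm x).1 (finProdFinEquiv.symm x).2)
  refine ⟨b, hb, M, fun i j => ?_⟩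
  have := h (finProdFinEquiv (i, j))
  simpa using this

/-- embedding of a lattice (and its saturation) into a free lattice -/
lemma exists_embed (hmi : MonoIndep k u v) (hfr : HasFrac k u v) {E : ℤ → Submodule k V}
    (hE : IsLat u v E) :
    ∃ (n : ℕ) (ψ : V →ₗ[K] (Fin n → K)) (d : Fin n → ℤ),
      (∀ x ∈ spanK K E, ψ x = 0 → x = 0) ∧ ∀ m, ∀ x ∈ E m, ψ x ∈ freeL k u v d m := by
  classical
  have hfin := hE.fin
  have hFam := isFam_of_isLat hE
  obtain ⟨m₀, h0⟩ := hE.bot
  obtain ⟨m₁, h1⟩ := cc_zero_of_isLat hE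
  obtain ⟨r, δ, e, he, -, hgen⟩ := exists_generators hFam m₀ m₁ h0 h1
  -- the span is finite dimensional
  have hspan : spanK K E = Submodule.span K (Set.range e) := by
    apply le_antisymm
    · refine Submodule.span_le.2 ?_
      intro x hx
      obtain ⟨m, hm⟩ := Set.mem_iUnion.1 hx
      obtain ⟨q, _, rfl⟩ := hgen m x hm
      exact Submodule.sum_mem _ fun j _ =>
        Submodule.smul_mem _ _ (Submodule.subset_span ⟨j, rfl⟩)
    · refine Submodule.span_le.2 ?_
      rintro _ ⟨j, rfl⟩
      exact Submodule.subset_span (Set.mem_iUnion.2 ⟨δ j, he j⟩)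
  have hfd : Module.Finite K (spanK K E) := by
    rw [hspan]; exact Module.Finite.span_of_finite K (Set.finite_range e)
  obtain ⟨π, hπ⟩ := LinearMap.exists_leftInverse_of_injective (spanK K E).subtype
    (Submodule.ker_subtype _)
  let b := Module.finBasis K (spanK K E)
  let ψ₀ : V →ₗ[K] (Fin (finrank K (spanK K E)) → K) := b.equivFun.toLinearMap ∘ₗ π
  have hψ₀ : ∀ x ∈ spanK K E, ψ₀ x = 0 → x = 0 := by
    intro x hx h
    have h2 : π x = 0 := by
      have : b.equivFun (π x) = 0 := h
      simpa using this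
    have h3 : π x = ⟨x, hx⟩ := by
      have := LinearMap.congr_fun hπ ⟨x, hx⟩
      simpa using this
    rw [h3] at h2
    exact congrArg Subtype.val h2
  obtain ⟨c, hc, M, hM⟩ := denom_fin hfr (fun i j => ψ₀ (e i) j)
  refine ⟨_, c • ψ₀, fun _ => -(M + ∑ i, |δ i|), ?_, ?_⟩
  · intro x hx h
    refine hψ₀ x hx ?_
    have h2 : c • ψ₀ x = 0 := h
    rcases smul_eq_zero.1 h2 with h3 | h3
    · exact absurd h3 hc
    · exact h3
  · intro m x hx
    obtain ⟨q, hq, rfl⟩ := hgen m x hx
    rw [mem_freeL]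
    intro j
    have h2 : (c • ψ₀) (∑ i, q i • e i) j = ∑ i, q i * (c * ψ₀ (e i) j) := by
      rw [LinearMap.smul_apply, map_sum, Pi.smul_apply, Finset.sum_apply, smul_eq_mul,
        Finset.mul_sum]
      refine Finset.sum_congr rfl fun i _ => ?_
      rw [map_smul, Pi.smul_apply, smul_eq_mul]
      ring
    rw [h2]
    refine Submodule.sum_mem _ fun i _ => ?_
    refine polyLE_mono ?_ (mul_mem_polyLE (hq i) (hM i j))
    have h1 : |δ i| ≤ ∑ i, |δ i| :=
      Finset.single_le_sum (f := fun i => |δ i|) (fun _ _ => abs_nonneg _) (Finset.mem_univ i)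
    have h3 := neg_abs_le (δ i)
    omega

end

end Crest.Agent.R169.P2

namespace Crest.Agent.R169

open Module P3 P2

variable {k K V : Type} [Field k] [Field K] [Algebra k K] [AddCommGroup V] [Module k V]
  [Module K V] {u v : K} {E E' : ℤ → Submodule k V}

/-- P2: the saturation. -/
theorem exists_sat [IsScalarTower k K V] [Infinite k] (hK : IsRat k u v) (hE : IsLat u v E) :
    ∃ E' : ℤ → Submodule k V, IsSatOf u v E E' ∧ IsLat u v E' ∧ (∀ m, E m ≤ E' m) ∧
      (∃ m₀ : ℤ, ∀ m ≥ m₀, E' m = E m) ∧ SAT u v E' := by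
  have hmi := monoIndep_of_isRat hK.indep
  have hfr := hasFrac_of_top hK.top
  have hFam := isFam_of_isLat hE
  have hsF := sat_isFam hFam
  obtain ⟨n, ψ, d, hψ, hψE⟩ := exists_embed hmi hfr hE
  have hsub : ∀ m, ∀ x ∈ sat u v E hFam m, x ∈ spanK K E := by
    rintro m x ⟨j, hx⟩
    have := hx 0 0 (by omega)
    simp only [pow_zero, mul_one, one_smul] at this
    exact Submodule.subset_span (Set.mem_iUnion.2 ⟨_, this⟩)
  have hLat : IsLat u v (sat u v E hFam) := by
    refine isLat_of_map ψ hsF (fun m x hx h => hψ x (hsub m x hx) h) ?_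
    refine P1.isLat_of_le (freeL_isLat (k := k) (u := u) (v := v) d) ?_ ?_
    · refine ⟨fun m => Submodule.map_mono (hsF.mono m), ?_, ?_⟩
      · rintro m _ ⟨x, hx, rfl⟩
        exact ⟨u • x, hsF.umul m x hx, by simp⟩
      · rintro m _ ⟨x, hx, rfl⟩
        exact ⟨v • x, hsF.vmul m x hx, by simp⟩
    · rintro m _ ⟨x, ⟨j, hx⟩, rfl⟩
      rw [mem_freeL]
      intro i
      have h2 : ∀ i' ≤ j, u ^ i' * (ψ x i) ∈ polyLE k u v (m + j - d i) := by
        intro i' hi'
        have h3 := hψE _ _ (hx i' 0 (by omega))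
        rw [mem_freeL] at h3
        have h4 := h3 i
        simpa using h4
      have h3 := polyLE_Hu_iter hmi j _ _ h2
      have e : m + (j : ℤ) - d i - j = m - d i := by ring
      rw [e] at h3
      exact h3
  refine ⟨sat u v E hFam, fun m x => Iff.rfl, hLat, le_sat hFam, ?_, sat_SAT hFam⟩
  -- equality in large degrees
  have hfin := hLat.fin
  obtain ⟨m₀, h0⟩ := hLat.bot
  obtain ⟨m₁, h1⟩ := cc_zero_of_isLat hLat
  obtain ⟨r, δ, e, he, -, hgen⟩ := exists_generators hsF m₀ m₁ h0 h1
  choose j hj using he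
  refine ⟨∑ i, (|δ i| + j i), fun m hm => le_antisymm ?_ (le_sat hFam m)⟩
  intro x hx
  obtain ⟨q, hq, rfl⟩ := hgen m x hx
  refine Submodule.sum_mem _ fun i _ => ?_
  have h2 : |δ i| + (j i : ℤ) ≤ ∑ i, (|δ i| + (j i : ℤ)) :=
    Finset.single_le_sum (f := fun i => |δ i| + (j i : ℤ)) (fun _ _ => by positivity)
      (Finset.mem_univ i)
  have h3 := le_abs_self (δ i)
  obtain ⟨N, hN⟩ : ∃ N : ℕ, m - δ i = N := ⟨(m - δ i).toNat, by omega⟩
  have h4 : Lev u v E (δ i) N (e i) := (hj i).mono hFam (by omega)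
  have h5 := hq i
  rw [hN, polyLE_eq] at h5
  have e2 : δ i + (N : ℤ) = m := by omega
  generalize q i = a at h5
  induction h5 using Submodule.span_induction with
  | mem a h =>
    obtain ⟨p, hp, rfl⟩ := h
    have hp' : ((p.1 : ℤ) + p.2) ≤ N := hp
    have := h4 p.1 p.2 (by omega)
    rw [e2] at this
    exact this
  | zero => rw [zero_smul]; exact Submodule.zero_mem _
  | add x y _ _ hx hy => rw [add_smul]; exact Submodule.add_mem _ hx hy
  | smul a x _ hx => rw [smul_assoc]; exact Submodule.smul_mem _ _ hx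

end Crest.Agent.R169
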