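import Crest.Agent.R169.D7
import Crest.Agent.R169.Frob
import Crest.Agent.R169.Defs
import Crest.Agent.R169.KStar
import Crest.Agent.R169.Lat
import Crest.Agent.R169.Bridge
import Crest.Agent.R169.TBasic
import Crest.Agent.R169.Hilb
import Crest.Agent.R169.GenL
import Crest.Agent.R169.E4Num
import Crest.Agent.R169.P2

-- ▼ part R169/D7Hilb
section

/-! # Row 169, part F: Hilbert polynomial of `D7` -/

set_option autoImplicit false

open Crest.R169

namespace Crest.Agent.R169

namespace D7Hilb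

variable (k : Type) [Field k] [IsAlgClosed k] [NeZero ((7 : ℕ) : k)]

theorem finrank_F (m : ℤ) :
    Module.finrank k ((D7 k).F m) = Module.finrank k (Fil 7 k m) := by
  have hinj : Function.Injective ((Algebra.linearMap (ORing 7 k) (QField 7 k)).restrictScalars k) :=
    D7Aux.toQ_injective
  exact (Submodule.equivMapOfInjective _ hinj (Fil 7 k m)).finrank_eq.symm

theorem finrank_F_rat {m : ℤ} (hm : 40 ≤ m) :
    (Module.finrank k ((D7 k).F m) : ℚ) = (1715 : ℕ) / 2 * (m : ℚ) ^ 2 + -(8575 / 2) * m + 4802 := by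
  have h := finrank_Fil_seven k m hm
  rw [finrank_F]
  have h2 : (2 * (Module.finrank k (Fil 7 k m) : ℤ) : ℚ) = ((1715 * m ^ 2 - 8575 * m + 9604 : ℤ) : ℚ) := by
    exact_mod_cast h
  push_cast at h2 ⊢
  linarith

end D7Hilb

/-- (F1) for `D7` -/
theorem D7_hilb (k : Type) [Field k] [IsAlgClosed k] [NeZero ((7 : ℕ) : k)] :
    HilbT (D7 k) 1715 (-(8575 / 2)) 4802 where
  hp := ⟨40, fun _ hm => D7Hilb.finrank_F_rat k hm⟩
  pos := by norm_num


end Crest.Agent.R169
end

-- ▼ part R169/ULim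
section

/-!
# Row 169, Part E2: ultralimits of vectors and subspaces
-/

set_option autoImplicit false

namespace Crest.Agent.R169

open Filter

/-! ### Ultraproduct of a family of fields -/

section UProd

variable (Q : PP → Type) [∀ p, Field (Q p)]

/-- sequences vanishing almost everywhere -/
def nullQ : Ideal (∀ p : PP, Q p) where
  carrier := {f | AE (fun p => f p = 0)}
  add_mem' := by
    intro a b ha hb
    exact (AE.and ha hb).mono (by rintro p ⟨h1, h2⟩; simp [h1, h2])
  zero_mem' := AE.of_forall (fun p => rfl)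
  smul_mem' := by
    intro c x hx
    exact AE.mono hx (by intro p h; simp [h])

instance nullQ_isMaximal : (nullQ Q).IsMaximal := by
  rw [Ideal.isMaximal_iff]
  constructor
  · intro h
    have h1 : AE (fun p => (1 : ∀ p : PP, Q p) p = 0) := h
    obtain ⟨p, hp⟩ := h1.exists
    exact one_ne_zero hp
  · intro J x hJ hx hxJ
    have h1 : AE (fun p => x p ≠ 0) := AE.not_iff.2 hx
    have h2 : x * (fun p => (x p)⁻¹) - 1 ∈ nullQ Q := by
      change AE (fun p => (x * (fun p => (x p)⁻¹) - 1) p = 0)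
      refine h1.mono ?_
      intro p hp
      simp [hp]
    have h3 : x * (fun p => (x p)⁻¹) ∈ J := Ideal.mul_mem_right _ _ hxJ
    have h4 := J.sub_mem h3 (hJ h2)
    simpa using h4

/-- the ultraproduct field of the family -/
def UProd : Type := (∀ p : PP, Q p) ⧸ nullQ Q

noncomputable instance : Field (UProd Q) := Ideal.Quotient.field (nullQ Q)

variable {Q}

/-- the class of a sequence -/
noncomputable def ucls : (∀ p : PP, Q p) →+* UProd Q := Ideal.Quotient.mk (nullQ Q)

theorem ucls_surjective : Function.Surjective (ucls (Q := Q)) := Ideal.Quotient.mk_surjective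

theorem ucls_eq_zero {f : ∀ p : PP, Q p} : ucls f = 0 ↔ AE (fun p => f p = 0) :=
  Ideal.Quotient.eq_zero_iff_mem

theorem ucls_eq_iff {f g : ∀ p : PP, Q p} : ucls f = ucls g ↔ AE (fun p => f p = g p) := by
  rw [← sub_eq_zero, ← map_sub, ucls_eq_zero]
  constructor
  · intro h; exact h.mono (fun p hp => by simpa [sub_eq_zero] using hp)
  · intro h; exact h.mono (fun p hp => by simpa [sub_eq_zero] using hp)

end UProd

/-! ### Choosing almost everywhere -/

/-- if almost every `p` admits a witness, choose a global witness -/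
theorem AE.choose {α : PP → Type} [∀ p, Nonempty (α p)] {P : ∀ p, α p → Prop}
    (h : AE (fun p => ∃ x, P p x)) : ∃ x : ∀ p, α p, AE (fun p => P p (x p)) := by
  classical
  refine ⟨fun p => if hp : ∃ x, P p x then hp.choose else Classical.arbitrary _, h.mono ?_⟩
  intro p hp
  simp only [hp, dif_pos]
  exact hp.choose_spec


theorem AE.exists_finite {ι : Type} [Finite ι] {P : ι → PP → Prop}
    (h : AE (fun p => ∃ i, P i p)) : ∃ i, AE (P i) := by
  by_contra hc
  push Not at hc
  have h1 : AE (fun p => ∀ i, ¬ P i p) := AE.all_finite (fun i => AE.not_iff.2 (hc i))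
  obtain ⟨p, hp1, hp2⟩ := (h.and h1).exists
  obtain ⟨i, hi⟩ := hp1
  exact hp2 i hi


theorem AE.exists_const_nat (f : PP → ℕ) (b : ℕ) (h : AE (fun p => f p ≤ b)) :
    ∃ i, AE (fun p => f p = i) := by
  have h1 : AE (fun p => ∃ i : Set.Icc 0 b, f p = i) :=
    h.mono (fun p hp => ⟨⟨f p, ⟨Nat.zero_le _, hp⟩⟩, rfl⟩)
  obtain ⟨i, hi⟩ := AE.exists_finite h1
  exact ⟨i, hi⟩

/-! ### Uniform families of `T`-data -/

variable {Q : PP → Type} [∀ p, Field (Q p)] [∀ p, Algebra (Kp p) (Q p)]
  {Qs : Type} [Field Qs] [Algebra KStar Qs]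

/-- `Ds` is the ultralimit of the `T`-data `D p`. -/
structure UFam (D : ∀ p, TData (Kp p) (Q p)) (Ds : TData KStar Qs) where
  ι : Qs →+* UProd Q
  ι_alg : ∀ c : ∀ p, Kp p,
    ι (algebraMap KStar Qs (cls c)) = ucls (fun p => algebraMap (Kp p) (Q p) (c p))
  ι_u : ι Ds.u = ucls (fun p => (D p).u)
  ι_v : ι Ds.v = ucls (fun p => (D p).v)
  lim_ex : ∀ (m : ℤ) (x : ∀ p, Q p), AE (fun p => x p ∈ (D p).F m) →
    ∃ y ∈ Ds.F m, ι y = ucls x
  rep_ex : ∀ (m : ℤ), ∀ y ∈ Ds.F m, ∃ x : ∀ p, Q p, (∀ p, x p ∈ (D p).F m) ∧ ι y = ucls x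

variable {D : ∀ p, TData (Kp p) (Q p)} {Ds : TData KStar Qs}

namespace UFam

variable (X : UFam D Ds) {R : ℕ}

include X in
theorem ι_injective : Function.Injective X.ι := X.ι.injective

/-- the vector `y` is the ultralimit of the vectors `x p` -/
def Lim (x : ∀ p, Fin R → Q p) (y : Fin R → Qs) : Prop :=
  ∀ i, X.ι (y i) = ucls (fun p => x p i)

variable {X}

theorem Lim.add {x x' : ∀ p, Fin R → Q p} {y y' : Fin R → Qs} (h : X.Lim x y)
    (h' : X.Lim x' y') : X.Lim (fun p => x p + x' p) (y + y') := by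
  intro i
  have : (fun p => (x p + x' p) i) = (fun p => x p i) + (fun p => x' p i) := rfl
  rw [this, map_add, ← h i, ← h' i, Pi.add_apply, map_add]

theorem Lim.neg {x : ∀ p, Fin R → Q p} {y : Fin R → Qs} (h : X.Lim x y) :
    X.Lim (fun p => - x p) (-y) := by
  intro i
  have : (fun p => (- x p) i) = - (fun p => x p i) := rfl
  rw [this, map_neg, ← h i, Pi.neg_apply, map_neg]

theorem Lim.zero : X.Lim (fun p => (0 : Fin R → Q p)) 0 := by
  intro i
  have : (fun p => (0 : Fin R → Q p) i) = 0 := rfl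
  rw [this, map_zero, Pi.zero_apply, map_zero]

theorem Lim.qsmul {x : ∀ p, Fin R → Q p} {y : Fin R → Qs} (h : X.Lim x y)
    {f : ∀ p, Q p} {g : Qs} (hg : X.ι g = ucls f) : X.Lim (fun p => f p • x p) (g • y) := by
  intro i
  have : (fun p => (f p • x p) i) = f * (fun p => x p i) := rfl
  rw [this, map_mul, ← h i, ← hg, Pi.smul_apply, smul_eq_mul, map_mul]

theorem Lim.smul {x : ∀ p, Fin R → Q p} {y : Fin R → Qs} (h : X.Lim x y)
    (c : ∀ p, Kp p) : X.Lim (fun p => c p • x p) (cls c • y) := by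
  have := h.qsmul (X.ι_alg c)
  intro i
  have h1 := this i
  simp only [Pi.smul_apply, smul_eq_mul] at h1 ⊢
  rw [Algebra.smul_def, h1]
  congr 1
  funext p
  rw [Algebra.smul_def]

theorem Lim.congr {x x' : ∀ p, Fin R → Q p} {y : Fin R → Qs} (h : X.Lim x y)
    (h' : AE (fun p => x p = x' p)) : X.Lim x' y := by
  intro i
  rw [h i, ucls_eq_iff]
  exact h'.mono (fun p hp => by rw [hp])

theorem Lim.unique {x : ∀ p, Fin R → Q p} {y y' : Fin R → Qs} (h : X.Lim x y)
    (h' : X.Lim x y') : y = y' := by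
  funext i
  apply X.ι.injective
  rw [h i, h' i]

theorem Lim.unique_left {x x' : ∀ p, Fin R → Q p} {y : Fin R → Qs} (h : X.Lim x y)
    (h' : X.Lim x' y) : AE (fun p => x p = x' p) := by
  have h1 : ∀ i, AE (fun p => x p i = x' p i) := by
    intro i
    rw [← ucls_eq_iff, ← h i, ← h' i]
  exact (AE.all_finite h1).mono (fun p hp => funext hp)

theorem Lim.sum {d : ℕ} {x : Fin d → ∀ p, Fin R → Q p} {y : Fin d → Fin R → Qs}
    (h : ∀ j, X.Lim (x j) (y j)) : X.Lim (fun p => ∑ j, x j p) (∑ j, y j) := by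
  intro i
  have e : (fun p => (∑ j, x j p) i) = ∑ j, (fun p => x j p i) := by
    funext p
    simp [Finset.sum_apply]
  rw [e, map_sum, Finset.sum_apply, map_sum]
  exact Finset.sum_congr rfl (fun j _ => h j i)

/-- linear independence over the constants transfers -/
theorem Lim.linInd_iff {d : ℕ} {x : Fin d → ∀ p, Fin R → Q p} {y : Fin d → Fin R → Qs}
    (h : ∀ j, X.Lim (x j) (y j)) :
    LinearIndependent KStar y ↔ AE (fun p => LinearIndependent (Kp p) (fun j => x j p)) := by
  constructor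
  · intro hy
    by_contra hc
    rw [← AE.not_iff] at hc
    -- choose a relation with a coefficient equal to one
    have h1 : AE (fun p => ∃ i : Fin d, ∃ c : Fin d → Kp p,
        c i = 1 ∧ ∑ j, c j • x j p = 0) := by
      refine hc.mono ?_
      intro p hp
      rw [Fintype.not_linearIndependent_iff] at hp
      obtain ⟨g, hg, i, hi⟩ := hp
      refine ⟨i, fun j => (g i)⁻¹ * g j, inv_mul_cancel₀ hi, ?_⟩
      have : ∑ j, ((g i)⁻¹ * g j) • x j p = (g i)⁻¹ • ∑ j, g j • x j p := by
        rw [Finset.smul_sum]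
        exact Finset.sum_congr rfl (fun j _ => by rw [mul_smul])
      rw [this, hg, smul_zero]
    obtain ⟨i, hi⟩ := AE.exists_finite h1
    obtain ⟨c, hc⟩ := AE.choose (α := fun p => Fin d → Kp p) hi
    have h2 : ∀ j, X.Lim (fun p => c p j • x j p) (cls (fun p => c p j) • y j) :=
      fun j => (h j).smul (fun p => c p j)
    have h3 := Lim.sum h2
    have h4 : ∑ j, cls (fun p => c p j) • y j = 0 := by
      refine h3.unique (Lim.congr Lim.zero ?_)
      exact hc.mono (fun p hp => hp.2.symm)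
    rw [Fintype.linearIndependent_iff] at hy
    have h5 := hy _ h4 i
    rw [cls_eq_zero] at h5
    obtain ⟨p, hp1, hp2⟩ := (hc.and h5).exists
    rw [hp1.1] at hp2
    exact one_ne_zero hp2
  · intro hx
    rw [Fintype.linearIndependent_iff]
    intro g hg i
    have h2 : ∀ j, X.Lim (fun p => rep (g j) p • x j p) (cls (rep (g j)) • y j) :=
      fun j => (h j).smul (rep (g j))
    have h3 := Lim.sum h2
    simp only [cls_rep, hg] at h3
    have h4 := h3.unique_left Lim.zero
    rw [← cls_rep (g i), cls_eq_zero]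
    refine (hx.and h4).mono ?_
    rintro p ⟨hp1, hp2⟩
    rw [Fintype.linearIndependent_iff] at hp1
    exact hp1 (fun j => rep (g j) p) hp2 i

/-- linear independence over the function field transfers (one direction) -/
theorem Lim.linInd_Q {d : ℕ} {x : Fin d → ∀ p, Fin R → Q p} {y : Fin d → Fin R → Qs}
    (h : ∀ j, X.Lim (x j) (y j)) (hy : LinearIndependent Qs y) :
    AE (fun p => LinearIndependent (Q p) (fun j => x j p)) := by
  classical
  -- a left inverse
  have hinj : LinearMap.ker (Fintype.linearCombination Qs y) = ⊥ := by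
    rw [LinearMap.ker_eq_bot']
    intro c hc
    rw [Fintype.linearCombination_apply] at hc
    funext j
    exact Fintype.linearIndependent_iff.1 hy c hc j
  obtain ⟨g, hg⟩ := LinearMap.exists_leftInverse_of_injective _ hinj
  -- its matrix
  let Z : Fin d → Fin R → Qs := fun l i => g (Pi.single i 1) l
  have hZ : ∀ l j, ∑ i, Z l i * y j i = if l = j then 1 else 0 := by
    intro l j
    have h1 := congrArg (fun f => f (Pi.single j 1)) hg
    simp only [LinearMap.comp_apply, LinearMap.id_apply] at h1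
    rw [Fintype.linearCombination_apply_single, one_smul] at h1
    have h2 : y j = ∑ i, (y j i) • (Pi.single i (1 : Qs) : Fin R → Qs) := by
      funext i
      simp [Finset.sum_apply, Pi.single_apply]
    rw [h2, map_sum] at h1
    simp only [map_smul] at h1
    have h3 := congrFun h1 l
    simp only [Finset.sum_apply, Pi.smul_apply, smul_eq_mul] at h3
    rw [Pi.single_apply] at h3
    rw [← h3]
    exact Finset.sum_congr rfl (fun i _ => by simp only [Z]; ring)
  -- representatives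
  choose z hz using fun (l : Fin d) (i : Fin R) => ucls_surjective (Q := Q) (X.ι (Z l i))
  have key : ∀ l j, AE (fun p => ∑ i, z l i p * x j p i = if l = j then 1 else 0) := by
    intro l j
    have h1 : ucls (fun p => ∑ i, z l i p * x j p i) = ucls (fun p => if l = j then 1 else 0) := by
      have e1 : (fun p => ∑ i, z l i p * x j p i) = ∑ i, (z l i) * (fun p => x j p i) := by
        funext p
        simp [Finset.sum_apply]
      rw [e1, map_sum]
      have e2 : ∀ i, ucls (z l i * fun p => x j p i) = X.ι (Z l i * y j i) := by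
        intro i
        rw [map_mul, map_mul, hz, h j i]
      simp only [e2]
      rw [← map_sum, hZ]
      split_ifs
      · rw [map_one]
        exact (map_one ucls).symm
      · rw [map_zero]
        exact (map_zero ucls).symm
    exact ucls_eq_iff.1 h1
  refine (AE.all_finite (fun l => AE.all_finite (key l))).mono ?_
  intro p hp
  rw [Fintype.linearIndependent_iff]
  intro c hc l
  have h1 : ∑ i, z l i p * (∑ j, c j • x j p) i = c l := by
    simp only [Finset.sum_apply, Pi.smul_apply, smul_eq_mul, Finset.mul_sum]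
    rw [Finset.sum_comm]
    have : ∀ j, ∑ i, z l i p * (c j * x j p i) = c j * (if l = j then 1 else 0) := by
      intro j
      rw [← hp l j, Finset.mul_sum]
      exact Finset.sum_congr rfl (fun i _ => by ring)
    simp only [this]
    simp
  rw [hc] at h1
  simpa using h1.symm

end UFam

/-! ### Boxes -/

/-- vectors with all coordinates in `F m` -/
def TData.box {k Q : Type} [Field k] [Field Q] [Algebra k Q] (D : TData k Q) (R : ℕ) (m : ℤ) :
    Submodule k (Fin R → Q) := Submodule.pi Set.univ (fun _ => D.F m)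

theorem TData.mem_box {k Q : Type} [Field k] [Field Q] [Algebra k Q] {D : TData k Q} {R : ℕ}
    {m : ℤ} {x : Fin R → Q} : x ∈ D.box R m ↔ ∀ i, x i ∈ D.F m := by
  simp [TData.box, Submodule.mem_pi]

theorem TData.box_finite {k Q : Type} [Field k] [Field Q] [Algebra k Q] (D : TData k Q) (R : ℕ)
    (m : ℤ) : Module.Finite k (D.box R m) := by
  have := D.lat.fin m
  let f : D.box R m →ₗ[k] (Fin R → D.F m) :=
    { toFun := fun x i => ⟨x.1 i, TData.mem_box.1 x.2 i⟩
      map_add' := fun x y => rfl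
      map_smul' := fun c x => rfl }
  have hf : Function.Injective f := by
    intro x y hxy
    apply Subtype.ext
    funext i
    exact congrArg Subtype.val (congrFun hxy i)
  exact Module.Finite.of_injective f hf

theorem TData.finite_of_le_box {k Q : Type} [Field k] [Field Q] [Algebra k Q] (D : TData k Q)
    {R : ℕ} {m : ℤ} {E : Submodule k (Fin R → Q)} (h : E ≤ D.box R m) : Module.Finite k E := by
  have := D.box_finite R m
  exact Submodule.finiteDimensional_of_le h

namespace UFam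

variable (X : UFam D Ds) {R : ℕ}

theorem exists_lim {m : ℤ} {x : ∀ p, Fin R → Q p} (h : AE (fun p => x p ∈ (D p).box R m)) :
    ∃ y ∈ Ds.box R m, X.Lim x y := by
  have h1 : ∀ i, ∃ y ∈ Ds.F m, X.ι y = ucls (fun p => x p i) := by
    intro i
    exact X.lim_ex m _ (h.mono (fun p hp => TData.mem_box.1 hp i))
  choose y hy hy' using h1
  exact ⟨y, TData.mem_box.2 hy, hy'⟩

theorem exists_rep {m : ℤ} {y : Fin R → Qs} (h : y ∈ Ds.box R m) :
    ∃ x : ∀ p, Fin R → Q p, (∀ p, x p ∈ (D p).box R m) ∧ X.Lim x y := by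
  have h1 := fun i => X.rep_ex m (y i) (TData.mem_box.1 h i)
  choose x hx hx' using h1
  exact ⟨fun p i => x i p, fun p => TData.mem_box.2 (fun i => hx i p), fun i => hx' i⟩

variable {X} in
theorem Lim.mem_box {m : ℤ} {x : ∀ p, Fin R → Q p} {y : Fin R → Qs} (hxy : X.Lim x y)
    (h : AE (fun p => x p ∈ (D p).box R m)) : y ∈ Ds.box R m := by
  obtain ⟨y', hy', hl⟩ := X.exists_lim h
  rw [hxy.unique hl]
  exact hy'


/-- the ultralimit of a family of subspaces -/
def ulim (E : ∀ p, Submodule (Kp p) (Fin R → Q p)) : Submodule KStar (Fin R → Qs) where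
  carrier := {y | ∃ x : ∀ p, Fin R → Q p, AE (fun p => x p ∈ E p) ∧ X.Lim x y}
  add_mem' := by
    rintro y y' ⟨x, hx, hl⟩ ⟨x', hx', hl'⟩
    exact ⟨_, (hx.and hx').mono (fun p hp => (E p).add_mem hp.1 hp.2), hl.add hl'⟩
  zero_mem' := ⟨_, AE.of_forall (fun p => (E p).zero_mem), Lim.zero⟩
  smul_mem' := by
    rintro c y ⟨x, hx, hl⟩
    refine ⟨_, hx.mono (fun p hp => (E p).smul_mem (rep c p) hp), ?_⟩
    have := hl.smul (rep c)
    rwa [cls_rep] at this

variable {X}

theorem mem_ulim {E : ∀ p, Submodule (Kp p) (Fin R → Q p)} {y : Fin R → Qs} :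
    y ∈ X.ulim E ↔ ∃ x : ∀ p, Fin R → Q p, AE (fun p => x p ∈ E p) ∧ X.Lim x y := Iff.rfl

theorem Lim.mem_ulim {E : ∀ p, Submodule (Kp p) (Fin R → Q p)} {x : ∀ p, Fin R → Q p}
    {y : Fin R → Qs} (hl : X.Lim x y) (hx : AE (fun p => x p ∈ E p)) : y ∈ X.ulim E :=
  ⟨x, hx, hl⟩

theorem Lim.ae_mem {E : ∀ p, Submodule (Kp p) (Fin R → Q p)} {x : ∀ p, Fin R → Q p}
    {y : Fin R → Qs} (hl : X.Lim x y) (hy : y ∈ X.ulim E) : AE (fun p => x p ∈ E p) := by
  obtain ⟨x', hx', hl'⟩ := hy
  refine (hx'.and (hl.unique_left hl')).mono ?_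
  rintro p ⟨h1, h2⟩
  rw [h2]
  exact h1


theorem ulim_mono {E E' : ∀ p, Submodule (Kp p) (Fin R → Q p)} (h : AE (fun p => E p ≤ E' p)) :
    X.ulim E ≤ X.ulim E' := by
  rintro y ⟨x, hx, hl⟩
  exact ⟨x, (h.and hx).mono (fun p hp => hp.1 hp.2), hl⟩

theorem ulim_congr {E E' : ∀ p, Submodule (Kp p) (Fin R → Q p)} (h : AE (fun p => E p = E' p)) :
    X.ulim E = X.ulim E' :=
  le_antisymm (ulim_mono (h.mono (fun _ hp => hp.le))) (ulim_mono (h.mono (fun _ hp => hp.ge)))






theorem ulim_inf (E E' : ∀ p, Submodule (Kp p) (Fin R → Q p)) :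
    X.ulim (fun p => E p ⊓ E' p) = X.ulim E ⊓ X.ulim E' := by
  apply le_antisymm
  · exact le_inf (ulim_mono (AE.of_forall (fun _ => inf_le_left)))
      (ulim_mono (AE.of_forall (fun _ => inf_le_right)))
  · rintro y ⟨⟨x, hx, hl⟩, hy'⟩
    exact ⟨x, (hx.and (hl.ae_mem hy')).mono (fun p hp => hp), hl⟩

theorem ulim_sup {m : ℤ} {E E' : ∀ p, Submodule (Kp p) (Fin R → Q p)}
    (hb : AE (fun p => E p ≤ (D p).box R m)) :
    X.ulim (fun p => E p ⊔ E' p) = X.ulim E ⊔ X.ulim E' := by
  apply le_antisymm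
  · rintro y ⟨x, hx, hl⟩
    have h1 : AE (fun p => ∃ a, a ∈ E p ∧ x p - a ∈ E' p) := by
      refine hx.mono ?_
      intro p hp
      obtain ⟨a, ha, b, hb, hab⟩ := Submodule.mem_sup.1 hp
      exact ⟨a, ha, by rw [← hab]; simpa using hb⟩
    obtain ⟨a, ha⟩ := AE.choose (α := fun p => Fin R → Q p) h1
    obtain ⟨z, hz, hlz⟩ := X.exists_lim (m := m) (x := a)
      ((hb.and ha).mono (fun p hp => hp.1 hp.2.1))
    have h2 : X.Lim (fun p => x p - a p) (y - z) := by
      have := hl.add hlz.neg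
      simpa [sub_eq_add_neg] using this
    have h3 : y = z + (y - z) := by abel
    rw [h3]
    exact Submodule.add_mem_sup (hlz.mem_ulim (ha.mono (fun p hp => hp.1)))
      (h2.mem_ulim (ha.mono (fun p hp => hp.2)))
  · exact sup_le (ulim_mono (AE.of_forall (fun p => le_sup_left)))
      (ulim_mono (AE.of_forall (fun p => le_sup_right)))

/-- the ultralimit of spans is the span of the limits -/
theorem ulim_span {d : ℕ} {x : Fin d → ∀ p, Fin R → Q p} {y : Fin d → Fin R → Qs}
    (h : ∀ j, X.Lim (x j) (y j)) :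
    X.ulim (fun p => Submodule.span (Kp p) (Set.range (fun j => x j p))) =
      Submodule.span KStar (Set.range y) := by
  apply le_antisymm
  · rintro z ⟨w, hw, hl⟩
    have h1 : AE (fun p => ∃ c : Fin d → Kp p, ∑ j, c j • x j p = w p) := by
      refine hw.mono ?_
      intro p hp
      obtain ⟨c, hc⟩ := (Submodule.mem_span_range_iff_exists_fun (Kp p)).1 hp
      exact ⟨c, hc⟩
    obtain ⟨c, hc⟩ := AE.choose (α := fun p => Fin d → Kp p) h1
    have h3 := Lim.sum (fun j => (h j).smul (fun p => c p j))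
    have h4 := (h3.congr hc).unique hl
    rw [← h4]
    refine Submodule.sum_mem _ (fun j _ => Submodule.smul_mem _ _ (Submodule.subset_span ⟨j, rfl⟩))
  · rw [Submodule.span_le]
    rintro _ ⟨j, rfl⟩
    exact (h j).mem_ulim (AE.of_forall (fun p => Submodule.subset_span ⟨j, rfl⟩))

/-- the dimension of an ultralimit -/
theorem finrank_ulim {m : ℤ} {E : ∀ p, Submodule (Kp p) (Fin R → Q p)}
    (hb : AE (fun p => E p ≤ (D p).box R m)) {d : ℕ}
    (hd : AE (fun p => Module.finrank (Kp p) (E p) = d)) :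
    Module.finrank KStar (X.ulim E) = d := by
  have h1 : AE (fun p => ∃ b : Fin d → Fin R → Q p, LinearIndependent (Kp p) b ∧
      Submodule.span (Kp p) (Set.range b) = E p) := by
    refine (hb.and hd).mono ?_
    rintro p ⟨hp1, hp2⟩
    have := (D p).finite_of_le_box hp1
    let b := Module.finBasisOfFinrankEq (Kp p) (E p) hp2
    refine ⟨fun j => (b j : Fin R → Q p), ?_, ?_⟩
    · exact b.linearIndependent.map' (E p).subtype (Submodule.ker_subtype _)
    · have : (Set.range fun j => (b j : Fin R → Q p)) = (E p).subtype '' (Set.range b) := by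
        rw [← Set.range_comp]; rfl
      rw [this, Submodule.span_image, b.span_eq, Submodule.map_top, Submodule.range_subtype]
  obtain ⟨b, hbb⟩ := AE.choose (α := fun p => Fin d → Fin R → Q p) h1
  have h2 : ∀ j, ∃ y ∈ Ds.box R m, X.Lim (fun p => b p j) y := by
    intro j
    refine X.exists_lim ((hb.and hbb).mono ?_)
    rintro p ⟨hp1, hp2, hp3⟩
    apply hp1
    rw [← hp3]
    exact Submodule.subset_span ⟨j, rfl⟩
  choose y hy hl using h2
  have h3 : LinearIndependent KStar y := (Lim.linInd_iff hl).2 (hbb.mono (fun p hp => hp.1))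
  have h4 : X.ulim E = Submodule.span KStar (Set.range y) := by
    rw [← ulim_span hl]
    exact ulim_congr (hbb.mono (fun p hp => hp.2.symm))
  rw [h4, finrank_span_eq_card h3, Fintype.card_fin]

variable (X) in
include X in
theorem ae_finrank_le {m : ℤ} {E : ∀ p, Submodule (Kp p) (Fin R → Q p)}
    (hb : AE (fun p => E p ≤ (D p).box R m)) :
    AE (fun p => Module.finrank (Kp p) (E p) ≤ Module.finrank KStar (Ds.box R m)) := by
  by_contra hc
  rw [← AE.not_iff] at hc
  set N := Module.finrank KStar (Ds.box R m) with hN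
  have h1 : AE (fun p => ∃ b : Fin (N + 1) → Fin R → Q p, LinearIndependent (Kp p) b ∧
      ∀ j, b j ∈ (D p).box R m) := by
    refine (hb.and hc).mono ?_
    rintro p ⟨hp1, hp2⟩
    have := (D p).finite_of_le_box hp1
    push Not at hp2
    obtain ⟨f, hf⟩ := exists_linearIndependent_of_le_finrank (R := Kp p) (M := E p) (n := N + 1)
      hp2
    refine ⟨fun j => (f j : Fin R → Q p), ?_, fun j => hp1 (f j).2⟩
    exact hf.map' (E p).subtype (Submodule.ker_subtype _)
  obtain ⟨b, hbb⟩ := AE.choose (α := fun p => Fin (N + 1) → Fin R → Q p) h1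
  have h2 : ∀ j, ∃ y ∈ Ds.box R m, X.Lim (fun p => b p j) y :=
    fun j => X.exists_lim (hbb.mono (fun p hp => hp.2 j))
  choose y hy hl using h2
  have h3 : LinearIndependent KStar y := (Lim.linInd_iff hl).2 (hbb.mono (fun p hp => hp.1))
  have h4 : LinearIndependent KStar (fun j => (⟨y j, hy j⟩ : Ds.box R m)) :=
    LinearIndependent.of_comp (Ds.box R m).subtype h3
  have := Ds.box_finite R m
  have h5 := h4.fintype_card_le_finrank
  rw [Fintype.card_fin, ← hN] at h5
  omega

theorem ae_finrank_eq {m : ℤ} {E : ∀ p, Submodule (Kp p) (Fin R → Q p)}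
    (hb : AE (fun p => E p ≤ (D p).box R m)) :
    AE (fun p => Module.finrank (Kp p) (E p) = Module.finrank KStar (X.ulim E)) := by
  obtain ⟨d, hd⟩ := AE.exists_const_nat _ _ (X.ae_finrank_le hb)
  rw [finrank_ulim hb hd]
  exact hd



theorem ae_qsmul_mem {i m : ℤ} {E E' : ∀ p, Submodule (Kp p) (Fin R → Q p)}
    (hb : AE (fun p => E p ≤ (D p).box R m))
    (h : ∀ f ∈ Ds.F i, ∀ y ∈ X.ulim E, f • y ∈ X.ulim E') :
    AE (fun p => ∀ f ∈ (D p).F i, ∀ e ∈ E p, f • e ∈ E' p) := by
  by_contra hc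
  rw [← AE.not_iff] at hc
  have h1 : AE (fun p => ∃ fe : Q p × (Fin R → Q p), fe.1 ∈ (D p).F i ∧ fe.2 ∈ E p ∧
      fe.1 • fe.2 ∉ E' p) := by
    refine hc.mono ?_
    intro p hp
    push Not at hp
    obtain ⟨f, hf, e, he, hfe⟩ := hp
    exact ⟨(f, e), hf, he, hfe⟩
  obtain ⟨fe, hfe⟩ := AE.choose (α := fun p => Q p × (Fin R → Q p)) h1
  obtain ⟨f, hf, hf'⟩ := X.lim_ex i (fun p => (fe p).1) (hfe.mono (fun p hp => hp.1))
  obtain ⟨y, hy, hl⟩ := X.exists_lim (m := m) (x := fun p => (fe p).2)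
    ((hb.and hfe).mono (fun p hp => hp.1 hp.2.2.1))
  have h2 := (hl.qsmul hf').ae_mem (h f hf y (hl.mem_ulim (hfe.mono (fun p hp => hp.2.1))))
  obtain ⟨p, hp1, hp2⟩ := (hfe.and h2).exists
  exact hp1.2.2 hp2

end UFam

end Crest.Agent.R169
end

-- ▼ part R169/EIface
section

/-!
# Row 169, Part E: interface of the transfer to characteristic `p`

* `UnifT` : the uniform facts on the family of `T`-data used by Part E (from Part F).
* `Transfer X G Gp n b c` : output of E3 (helper872).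
* `E3Stmt`, `E4Stmt`, `partE_of` : the end statements and their assembly.
-/

set_option autoImplicit false

namespace Crest.Agent.R169

/-- generated (over `1, u, v`) from degree `g` on -/
def GenFrom {k K V : Type} [Field k] [Field K] [AddCommGroup V] [Module k V] [Module K V]
    (u v : K) (E : ℤ → Submodule k V) (g : ℤ) : Prop :=
  ∀ m ≥ g, ∀ e ∈ E (m + 1), ∃ a ∈ E m, ∃ b ∈ E m, ∃ c ∈ E m, e = a + u • b + v • c

variable {Q : PP → Type} [∀ p, Field (Q p)] [∀ p, Algebra (Kp p) (Q p)]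
  {Qs : Type} [Field Qs] [Algebra KStar Qs]

/-- uniformity of the family of `T`-data -/
structure UnifT (D : ∀ p, TData (Kp p) (Q p)) (Ds : TData KStar Qs) (N : ℕ) (bT cT : ℚ)
    (c1 : ℤ) : Prop where
  N_pos : 0 < N
  hp : ∀ p, HasHP (D p).F N bT cT
  hps : HasHP Ds.F N bT cT
  gen : ∀ p, GenFrom (D p).u (D p).v (D p).F c1
  gens : GenFrom Ds.u Ds.v Ds.F c1

variable {D : ∀ p, TData (Kp p) (Q p)} {Ds : TData KStar Qs}

/-- `Gp` is a reduction of `G` with the same Hilbert polynomial -/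
structure Transfer (X : UFam D Ds) {R : ℕ} (G : ℤ → Submodule KStar (Fin R → Qs))
    (Gp : ∀ p, ℤ → Submodule (Kp p) (Fin R → Q p)) (n : ℕ) (b c : ℚ) : Prop where
  lat : AE (fun p => IsTLat (D p) (Gp p))
  hp : ∃ m₀ : ℤ, AE (fun p => ∀ m ≥ m₀,
    (Module.finrank (Kp p) (Gp p m) : ℚ) = n / 2 * (m : ℚ) ^ 2 + b * m + c)
  gen : ∃ g : ℤ, AE (fun p => GenFrom (D p).u (D p).v (Gp p) g)
  box : ∃ a : ℤ, ∀ m, AE (fun p => Gp p m ≤ (D p).box R (m + a))
  lim : ∀ m, X.ulim (fun p => Gp p m) = G m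

/-- E3 (helper872) -/
def E3Stmt : Prop :=
  ∀ (Q : PP → Type) [∀ p, Field (Q p)] [∀ p, Algebra (Kp p) (Q p)]
    (Qs : Type) [Field Qs] [Algebra KStar Qs]
    (D : ∀ p, TData (Kp p) (Q p)) (Ds : TData KStar Qs) (X : UFam D Ds)
    (N : ℕ) (bT cT : ℚ) (c1 : ℤ), UnifT D Ds N bT cT c1 →
    ∀ (R : ℕ) (G : ℤ → Submodule KStar (Fin R → Qs)) (n : ℕ) (b c : ℚ),
      IsTLat Ds G → HasHP G n b c → (∃ a : ℤ, ∀ m, G m ≤ Ds.box R (m + a)) →
      ∃ Gp : ∀ p, ℤ → Submodule (Kp p) (Fin R → Q p), Transfer X G Gp n b c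

/-- E4 (helper822) -/
def E4Stmt : Prop :=
  ∀ (Q : PP → Type) [∀ p, Field (Q p)] [∀ p, Algebra (Kp p) (Q p)]
    (Qs : Type) [Field Qs] [Algebra KStar Qs]
    (D : ∀ p, TData (Kp p) (Q p)) (Ds : TData KStar Qs) (X : UFam D Ds)
    (N : ℕ) (bT cT : ℚ) (c1 : ℤ), UnifT D Ds N bT cT c1 →
    ∀ (R : ℕ) (G : ℤ → Submodule KStar (Fin R → Qs)) (n : ℕ) (b c : ℚ)
      (Gp : ∀ p, ℤ → Submodule (Kp p) (Fin R → Q p)),
      IsTLat Ds G → HasHP G n b c → 0 < n → Transfer X G Gp n b c → NSS (Q := Qs) G n b →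
      AE (fun p => NSS (Q := Q p) (Gp p) n b)

/-- scaling into a box (helper872) -/
def EScaleStmt : Prop :=
  ∀ (k Q : Type) [Field k] [Field Q] [Algebra k Q] (D : TData k Q) (R : ℕ)
    (G : ℤ → Submodule k (Fin R → Q)) (n : ℕ) (b c : ℚ),
    IsTLat D G → HasHP G n b c → NSS (Q := Q) G n b →
    ∃ G' : ℤ → Submodule k (Fin R → Q), IsTLat D G' ∧ HasHP G' n b c ∧ NSS (Q := Q) G' n b ∧
      ∃ a : ℤ, ∀ m, G' m ≤ D.box R (m + a)

/-- the end product of Part E -/
def PartEConcl (D : ∀ p, TData (Kp p) (Q p)) (Ds : TData KStar Qs) : Prop :=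
  ∀ (R : ℕ) (G : ℤ → Submodule KStar (Fin R → Qs)) (n : ℕ) (b c : ℚ), 0 < n →
    IsTLat Ds G → HasHP G n b c → NSS (Q := Qs) G n b → ∀ M : ℕ, ∃ p : PP, M < p.val ∧
      ∃ Gp : ℤ → Submodule (Kp p) (Fin R → Q p),
        IsTLat (D p) Gp ∧ HasHP Gp n b c ∧ NSS (Q := Q p) Gp n b

theorem partE_of (h3 : E3Stmt) (h4 : E4Stmt) (hs : EScaleStmt) (X : UFam D Ds) {N : ℕ}
    {bT cT : ℚ} {c1 : ℤ} (hU : UnifT D Ds N bT cT c1) : PartEConcl D Ds := by
  intro R G n b c hn hG hHP hN M
  obtain ⟨G', hG', hHP', hN', hbox⟩ := hs _ _ Ds R G n b c hG hHP hN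
  obtain ⟨Gp, hT⟩ := h3 Q Qs D Ds X N bT cT c1 hU R G' n b c hG' hHP' hbox
  have h5 := h4 Q Qs D Ds X N bT cT c1 hU R G' n b c Gp hG' hHP' hn hT hN'
  obtain ⟨m₀, hm₀⟩ := hT.hp
  obtain ⟨p, ⟨hp1, hp2, hp3⟩, hp⟩ := ((hT.lat.and (hm₀.and h5))).large M
  exact ⟨p, hp, Gp p, hp1, ⟨m₀, hp2⟩, hp3⟩

end Crest.Agent.R169
end

-- ▼ part R169/E3Win
section

/-!
# Row 169, part E3: the window lemma (pure lattice theory)

A lattice generated in degrees `≤ g` whose Hilbert function agrees with `P` in the degrees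
`g-1, g, m₁`, and with `dim E_g / (E_(g-1) + l E_(g-1)) ≤ n`, has Hilbert function `P` in all degrees
`≥ g - 1`.
-/

set_option autoImplicit false

namespace Crest.Agent.R169.E3Win

open Module

section Win

variable {k K V : Type} [Field k] [Field K] [Algebra k K] [AddCommGroup V] [Module k V]
  [Module K V] [IsScalarTower k K V]

/-- multiplication by `l ∈ K` as a `k`-linear map -/
noncomputable def mulK (k : Type) {K V : Type} [Field k] [Field K] [Algebra k K] [AddCommGroup V]
    [Module k V] [Module K V] [IsScalarTower k K V] (l : K) : V →ₗ[k] V :=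
  (LinearMap.lsmul K V l).restrictScalars k

@[simp] theorem mulK_apply (l : K) (x : V) : mulK k l x = l • x := rfl

theorem mulK_injective {l : K} (hl : l ≠ 0) : Function.Injective (mulK k l : V →ₗ[k] V) := by
  intro x y h
  simp only [mulK_apply] at h
  exact smul_right_injective V hl h

/-- `E_(m-1) + l E_(m-1)` -/
noncomputable def WL (l : K) (E : ℤ → Submodule k V) (m : ℤ) : Submodule k V :=
  E (m - 1) ⊔ (E (m - 1)).map (mulK k l)

variable {u v : K} {E : ℤ → Submodule k V}

theorem WL_le (hE : IsLat u v E) (t : k) (m : ℤ) :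
    WL (u + t • v) E m ≤ E m := by
  have h1 : ∀ x ∈ E (m - 1), x ∈ E m := by
    intro x hx
    have := hE.mono (m - 1) hx
    rwa [sub_add_cancel] at this
  refine sup_le h1 ?_
  rw [Submodule.map_le_iff_le_comap]
  intro x hx
  have hu := hE.umul (m - 1) x hx
  have hv := hE.vmul (m - 1) x hx
  rw [sub_add_cancel] at hu hv
  simp only [Submodule.mem_comap, mulK_apply, add_smul, smul_assoc]
  exact (E m).add_mem hu ((E m).smul_mem t hv)

/-- Lemma A: `dim E_(m+1)/W_(m+1) ≤ dim E_m/W_m`. -/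
theorem gamma_le (hE : IsLat u v E) {g : ℤ} (hg : GenFrom u v E g) (t : k) {m : ℤ} (hm : g ≤ m) :
    finrank k (E (m + 1)) + finrank k (WL (u + t • v) E m) ≤
      finrank k (WL (u + t • v) E (m + 1)) + finrank k (E m) := by
  classical
  have := hE.fin m
  have := hE.fin (m + 1)
  set l := u + t • v with hl
  have hW1 : WL l E (m + 1) ≤ E (m + 1) := WL_le hE t (m + 1)
  have hW0 : WL l E m ≤ E m := WL_le hE t m
  -- the map `E m → E (m+1) / W (m+1)`
  let W1 : Submodule k (E (m + 1)) := (WL l E (m + 1)).comap (E (m + 1)).subtype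
  let W0 : Submodule k (E m) := (WL l E m).comap (E m).subtype
  let φ0 : E m →ₗ[k] E (m + 1) :=
    (mulK k v).restrict (fun x hx => by simpa using hE.vmul m x hx)
  let φ : E m →ₗ[k] (E (m + 1) ⧸ W1) := W1.mkQ.comp φ0
  have hker : W0 ≤ LinearMap.ker φ := by
    rintro ⟨x, hx⟩ hx0
    rw [LinearMap.mem_ker]
    simp only [φ, LinearMap.comp_apply, Submodule.mkQ_apply, Submodule.Quotient.mk_eq_zero]
    change (v • x) ∈ WL l E (m + 1)
    have hx0' : x ∈ WL l E m := hx0
    rw [WL, Submodule.mem_sup] at hx0'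
    obtain ⟨a, ha, b, hb, rfl⟩ := hx0'
    obtain ⟨b, hb, rfl⟩ := hb
    rw [smul_add]
    have ha' := hE.vmul (m - 1) a ha
    have hb' := hE.vmul (m - 1) b hb
    rw [sub_add_cancel] at ha' hb'
    rw [WL]
    have e1 : m + 1 - 1 = m := by ring
    rw [e1]
    refine Submodule.add_mem_sup ha' ?_
    refine ⟨v • b, hb', ?_⟩
    simp only [mulK_apply]
    rw [smul_comm]
  have hsurj : Function.Surjective φ := by
    intro y
    obtain ⟨⟨e, he⟩, rfl⟩ := W1.mkQ_surjective y
    obtain ⟨a, ha, b, hb, c, hc, rfl⟩ := hg m hm e he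
    refine ⟨⟨c - t • b, (E m).sub_mem hc ((E m).smul_mem t hb)⟩, ?_⟩
    simp only [φ, LinearMap.comp_apply, Submodule.mkQ_apply]
    rw [Submodule.Quotient.eq]
    change v • (c - t • b) - (a + u • b + v • c) ∈ WL l E (m + 1)
    have e1 : v • (c - t • b) - (a + u • b + v • c) = -(a + l • b) := by
      rw [hl, add_smul, smul_assoc, smul_sub, smul_comm v t b]; abel
    rw [e1]
    apply Submodule.neg_mem
    rw [WL]
    have e2 : m + 1 - 1 = m := by ring
    rw [e2]
    exact Submodule.add_mem_sup ha ⟨b, hb, rfl⟩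
  have h1 : finrank k (LinearMap.range φ) + finrank k (LinearMap.ker φ) = finrank k (E m) :=
    LinearMap.finrank_range_add_finrank_ker φ
  have h2 : finrank k (LinearMap.range φ) = finrank k (E (m + 1) ⧸ W1) := by
    rw [LinearMap.range_eq_top.2 hsurj, finrank_top]
  have h3 : finrank k (E (m + 1) ⧸ W1) + finrank k W1 = finrank k (E (m + 1)) :=
    W1.finrank_quotient_add_finrank
  have h4 : finrank k W0 ≤ finrank k (LinearMap.ker φ) := Submodule.finrank_mono hker
  have h5 : finrank k W1 = finrank k (WL l E (m + 1)) :=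
    LinearEquiv.finrank_eq (Submodule.comapSubtypeEquivOfLe hW1)
  have h6 : finrank k W0 = finrank k (WL l E m) :=
    LinearEquiv.finrank_eq (Submodule.comapSubtypeEquivOfLe hW0)
  omega

/-- Lemma B. -/
theorem finrank_WL_le (hE : IsLat u v E) (t : k) (hl : u + t • v ≠ 0) (m : ℤ) :
    finrank k (WL (u + t • v) E m) + finrank k (E (m - 2)) ≤ 2 * finrank k (E (m - 1)) := by
  have := hE.fin (m - 1)
  have := hE.fin (m - 2)
  set l := u + t • v with hl'
  have h1 := Submodule.finrank_sup_add_finrank_inf_eq (E (m - 1)) ((E (m - 1)).map (mulK k l))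
  have h2 : finrank k ((E (m - 1)).map (mulK k l)) = finrank k (E (m - 1)) :=
    (LinearEquiv.finrank_eq (Submodule.equivMapOfInjective (mulK k l) (mulK_injective hl) _)).symm
  have h3 : finrank k ((E (m - 2)).map (mulK k l)) = finrank k (E (m - 2)) :=
    (LinearEquiv.finrank_eq (Submodule.equivMapOfInjective (mulK k l) (mulK_injective hl) _)).symm
  have e1 : m - 2 + 1 = m - 1 := by ring
  have h4 : (E (m - 2)).map (mulK k l) ≤ E (m - 1) ⊓ (E (m - 1)).map (mulK k l) := by
    refine le_inf ?_ ?_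
    · rw [Submodule.map_le_iff_le_comap]
      intro x hx
      have hu := hE.umul (m - 2) x hx
      have hv := hE.vmul (m - 2) x hx
      rw [e1] at hu hv
      simp only [Submodule.mem_comap, mulK_apply, hl', add_smul, smul_assoc]
      exact (E (m - 1)).add_mem hu ((E (m - 1)).smul_mem t hv)
    · apply Submodule.map_mono
      have := hE.mono (m - 2)
      rwa [e1] at this
  have h5 := Submodule.finrank_mono h4
  rw [WL]
  omega

/-- second difference bound -/
theorem second_diff_le (hE : IsLat u v E) {g : ℤ} (hg : GenFrom u v E g) (t : k)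
    (hl : u + t • v ≠ 0) {n : ℕ}
    (hn : finrank k (E g) ≤ finrank k (WL (u + t • v) E g) + n) :
    ∀ m ≥ g, finrank k (E m) + finrank k (E (m - 2)) ≤ 2 * finrank k (E (m - 1)) + n := by
  have key : ∀ m ≥ g, finrank k (E m) ≤ finrank k (WL (u + t • v) E m) + n := by
    intro m hm
    induction m, hm using Int.leInduction with
    | base => exact hn
    | succ m hm ih =>
      have := gamma_le hE hg t hm
      omega
  intro m hm
  have h1 := key m hm
  have h2 := finrank_WL_le hE t hl m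
  omega

end Win

/-- numeric lemma -/
theorem window_numeric (h : ℤ → ℕ) (n : ℕ) (b c b' c' : ℚ) (g : ℤ)
    (h2 : ∀ m ≥ g, h m + h (m - 2) ≤ 2 * h (m - 1) + n)
    (hg : (h g : ℚ) = n / 2 * (g : ℚ) ^ 2 + b * g + c)
    (hg1 : (h (g - 1) : ℚ) = n / 2 * ((g - 1 : ℤ) : ℚ) ^ 2 + b * ((g - 1 : ℤ) : ℚ) + c)
    (hP : ∃ m₀ : ℤ, ∀ m ≥ m₀, (h m : ℚ) = n / 2 * (m : ℚ) ^ 2 + b' * m + c') :
    b' ≤ b ∧ (b ≤ b' → ∀ m ≥ g - 1, (h m : ℚ) = n / 2 * (m : ℚ) ^ 2 + b * m + c) := by
  set D : ℤ → ℚ := fun m => (h m : ℚ) - h (m - 1) -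
    (n / 2 * (m : ℚ) ^ 2 + b * m + c - (n / 2 * ((m - 1 : ℤ) : ℚ) ^ 2 + b * ((m - 1 : ℤ) : ℚ) + c))
    with hD
  have hDg : D g = 0 := by
    simp only [hD]; rw [hg, hg1]; ring
  have hstep : ∀ m ≥ g, D (m + 1) ≤ D m := by
    intro m hm
    have := h2 (m + 1) (by omega)
    have e1 : m + 1 - 2 = m - 1 := by ring
    have e2 : m + 1 - 1 = m := by ring
    rw [e1, e2] at this
    have hq : (h (m + 1) : ℚ) + h (m - 1) ≤ 2 * h m + n := by exact_mod_cast this
    simp only [hD]
    rw [e2]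
    push_cast
    nlinarith [hq]
  have hanti : ∀ m ≥ g, ∀ m' ≥ m, D m' ≤ D m := by
    intro m hm m' hm'
    induction m', hm' using Int.leInduction with
    | base => exact le_rfl
    | succ j hj ih => exact (hstep j (by omega)).trans ih
  obtain ⟨m₀, hm₀⟩ := hP
  have hev : ∀ m ≥ m₀ + 1, D m = b' - b := by
    intro m hm
    simp only [hD]
    rw [hm₀ m (by omega), hm₀ (m - 1) (by omega)]
    push_cast
    ring
  have hle : b' ≤ b := by
    have h1 := hev (max (m₀ + 1) g) (le_max_left _ _)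
    have h3 := hanti g le_rfl (max (m₀ + 1) g) (le_max_right _ _)
    rw [h1, hDg] at h3
    linarith
  refine ⟨hle, fun hb => ?_⟩
  have hbb : b' = b := le_antisymm hle hb
  have hD0 : ∀ m ≥ g, D m = 0 := by
    intro m hm
    have h1 := hev (max (m₀ + 1) m) (le_max_left _ _)
    have h3 := hanti m hm (max (m₀ + 1) m) (le_max_right _ _)
    have h4 := hanti g le_rfl m hm
    rw [h1, hbb, sub_self] at h3
    rw [hDg] at h4
    exact le_antisymm h4 h3
  intro m hm
  induction m, hm using Int.leInduction with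
  | base => exact hg1
  | succ j hj ih =>
    have := hD0 (j + 1) (by omega)
    simp only [hD] at this
    have e2 : j + 1 - 1 = j := by ring
    rw [e2, ih] at this
    linarith

/-- The uniform upper bound (P6), as a statement. -/
def P6Stmt (s : ℕ) (b : ℚ) (g : ℤ) (C : ℚ) : Prop :=
  ∀ (k K V : Type) [Field k] [Field K] [Algebra k K] [AddCommGroup V] [Module k V]
    [Module K V] [IsScalarTower k K V] [IsAlgClosed k] (u v : K) (E : ℤ → Submodule k V),
    IsRat k u v → IsLat u v E → GenFrom u v E g → ∀ b' c' : ℚ, HasHP E s b' c' → b' ≤ b →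
      ∀ m ≥ g, (finrank k (E m) : ℚ) ≤ s / 2 * (m : ℚ) ^ 2 + b' * m + C

/-- The window theorem. -/
theorem window_hp (n : ℕ) (b c : ℚ) (g : ℤ) (C : ℚ) (hC : P6Stmt n b g C) :
    ∃ m₁ : ℤ, g ≤ m₁ ∧ ∀ (k K V : Type) [Field k] [Field K] [Algebra k K] [AddCommGroup V]
      [Module k V] [Module K V] [IsScalarTower k K V] [IsAlgClosed k] (u v : K)
      (E : ℤ → Submodule k V), IsRat k u v → IsLat u v E → GenFrom u v E g →
      ∀ (t : k), u + t • v ≠ 0 →
      (∃ b' c' : ℚ, HasHP E n b' c' ∧ (∃ z : ℤ, 2 * b' = z)) → (∃ z : ℤ, 2 * b = z) →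
      (finrank k (E g) : ℚ) = n / 2 * (g : ℚ) ^ 2 + b * g + c →
      (finrank k (E (g - 1)) : ℚ) = n / 2 * ((g - 1 : ℤ) : ℚ) ^ 2 + b * ((g - 1 : ℤ) : ℚ) + c →
      (finrank k (E m₁) : ℚ) = n / 2 * (m₁ : ℚ) ^ 2 + b * m₁ + c →
      finrank k (E g) ≤ finrank k (WL (u + t • v) E g) + n →
      ∀ m ≥ g - 1, (finrank k (E m) : ℚ) = n / 2 * (m : ℚ) ^ 2 + b * m + c := by
  obtain ⟨N, hN⟩ := exists_nat_gt (2 * (C - c))
  refine ⟨max g N, le_max_left _ _, ?_⟩
  intro k K V _ _ _ _ _ _ _ _ u v E hK hE hgen t hl hHP hbz hg hg1 hm1 hW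
  obtain ⟨b', c', hHP', z', hz'⟩ := hHP
  obtain ⟨z, hz⟩ := hbz
  obtain ⟨hle, hmain⟩ := window_numeric (fun m => finrank k (E m)) n b c b' c' g
    (second_diff_le hE hgen t hl hW) hg hg1 hHP'
  apply hmain
  by_contra hlt
  push Not at hlt
  have h1 : (finrank k (E (max g N)) : ℚ) ≤ n / 2 * ((max g N : ℤ) : ℚ) ^ 2
      + b' * ((max g N : ℤ) : ℚ) + C :=
    hC k K V u v E hK hE hgen b' c' hHP' hle _ (le_max_left _ _)
  rw [hm1] at h1
  have hzz : z' < z := by
    have : (z' : ℚ) < z := by rw [← hz, ← hz']; linarith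
    exact_mod_cast this
  have h3 : b' ≤ b - 1 / 2 := by
    have : (z' : ℚ) + 1 ≤ z := by exact_mod_cast hzz
    rw [← hz, ← hz'] at this
    linarith
  have h4 : (N : ℚ) ≤ ((max g N : ℤ) : ℚ) := by
    have : (N : ℤ) ≤ max g N := le_max_right _ _
    exact_mod_cast this
  have h5 : (0 : ℚ) ≤ N := Nat.cast_nonneg N
  nlinarith

end Crest.Agent.R169.E3Win
end

-- ▼ part R169/E3Gen
section

/-!
# Row 169, part E3: lattices given by finitely many generators
-/

set_option autoImplicit false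
set_option linter.unusedSectionVars false

namespace Crest.Agent.R169.E3Gen

open Module Crest.Agent.R169.E3Win

section Gen

variable {k K V : Type} [Field k] [Field K] [Algebra k K] [AddCommGroup V] [Module k V]
  [Module K V] [IsScalarTower k K V]

/-- index set of the monomial multiples of the generators in degree `m` -/
abbrev Idx {ι : Type} (d : ι → ℤ) (m : ℤ) : Type :=
  {t : ι × ℕ × ℕ // (t.2.1 : ℤ) + t.2.2 ≤ m - d t.1}

instance {ι : Type} [Finite ι] (d : ι → ℤ) (m : ℤ) : Finite (Idx d m) := by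
  classical
  have := Fintype.ofFinite ι
  let N : ℕ := ∑ i, (m - d i).toNat + 1
  have : Set.Finite {t : ι × ℕ × ℕ | (t.2.1 : ℤ) + t.2.2 ≤ m - d t.1} := by
    refine Set.Finite.subset (Set.Finite.prod (Set.finite_univ (α := ι))
      (Set.Finite.prod (Set.finite_Iic N) (Set.finite_Iic N))) ?_
    rintro ⟨i, a, b⟩ h
    simp only [Set.mem_ofPred_eq] at h
    have h1 : (m - d i).toNat ≤ ∑ i, (m - d i).toNat :=
      Finset.single_le_sum (f := fun i => (m - d i).toNat) (fun _ _ => Nat.zero_le _)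
        (Finset.mem_univ i)
    simp only [Set.mem_prod, Set.mem_univ, Set.mem_Iic, true_and, N]
    omega
  exact this

/-- the element of `V` attached to an index -/
def el {ι : Type} (u v : K) (x : ι → V) (t : ι × ℕ × ℕ) : V := (u ^ t.2.1 * v ^ t.2.2) • x t.1

/-- the family generated by `x i` in degree `d i` -/
def genL (k : Type) {K V : Type} [Field k] [Field K] [AddCommGroup V] [Module k V]
    [Module K V] {ι : Type} (u v : K) (d : ι → ℤ) (x : ι → V) (m : ℤ) : Submodule k V :=
  Submodule.span k (Set.range (fun t : Idx d m => el u v x t.1))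

variable {ι : Type} {u v : K} {d : ι → ℤ} {x : ι → V}

theorem el_mem {m : ℤ} {i : ι} {a b : ℕ} (h : (a : ℤ) + b ≤ m - d i) :
    (u ^ a * v ^ b) • x i ∈ genL k u v d x m :=
  Submodule.subset_span ⟨⟨(i, a, b), h⟩, rfl⟩

theorem gen_mem (i : ι) : x i ∈ genL k u v d x (d i) := by
  have := el_mem (k := k) (u := u) (v := v) (d := d) (x := x) (m := d i) (i := i) (a := 0)
    (b := 0) (by simp)
  simpa using this

theorem genL_le {E : Submodule k V} {m : ℤ}
    (h : ∀ i (a b : ℕ), (a : ℤ) + b ≤ m - d i → (u ^ a * v ^ b) • x i ∈ E) :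
    genL k u v d x m ≤ E := by
  rw [genL, Submodule.span_le]
  rintro _ ⟨⟨⟨i, a, b⟩, ht⟩, rfl⟩
  exact h i a b ht

theorem genL_mono {m m' : ℤ} (h : m ≤ m') : genL k u v d x m ≤ genL k u v d x m' :=
  genL_le fun i a b hab => el_mem (by omega)

theorem genL_umul (m : ℤ) : ∀ e ∈ genL k u v d x m, u • e ∈ genL k u v d x (m + 1) := by
  intro e he
  have : genL k u v d x m ≤ (genL k u v d x (m + 1)).comap (mulK k u) := by
    refine genL_le fun i a b hab => ?_
    simp only [Submodule.mem_comap, mulK_apply, smul_smul]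
    have e1 : u * (u ^ a * v ^ b) = u ^ (a + 1) * v ^ b := by ring
    rw [e1]
    exact el_mem (by push_cast; omega)
  exact this he

theorem genL_vmul (m : ℤ) : ∀ e ∈ genL k u v d x m, v • e ∈ genL k u v d x (m + 1) := by
  intro e he
  have : genL k u v d x m ≤ (genL k u v d x (m + 1)).comap (mulK k v) := by
    refine genL_le fun i a b hab => ?_
    simp only [Submodule.mem_comap, mulK_apply, smul_smul]
    have e1 : v * (u ^ a * v ^ b) = u ^ a * v ^ (b + 1) := by ring
    rw [e1]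
    exact el_mem (by push_cast; omega)
  exact this he

theorem genL_genFrom {g : ℤ} (hg : ∀ i, d i ≤ g) : GenFrom u v (genL k u v d x) g := by
  intro m hm e he
  have key : genL k u v d x (m + 1) ≤ genL k u v d x m ⊔
      ((genL k u v d x m).map (mulK k u) ⊔ (genL k u v d x m).map (mulK k v)) := by
    refine genL_le fun i a b hab => ?_
    have hi := hg i
    by_cases h0 : (a : ℤ) + b ≤ m - d i
    · exact Submodule.mem_sup_left (el_mem h0)
    · have h1 : (a : ℤ) + b = m + 1 - d i := by omega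
      rcases Nat.eq_zero_or_pos a with ha | ha
      · subst ha
        have hb : 0 < b := by
          by_contra hb
          have : b = 0 := by omega
          subst this
          simp at h1
          omega
        obtain ⟨b, rfl⟩ := Nat.exists_eq_succ_of_ne_zero hb.ne'
        refine Submodule.mem_sup_right (Submodule.mem_sup_right ?_)
        refine ⟨(u ^ 0 * v ^ b) • x i, el_mem (by push_cast at h1 ⊢; omega), ?_⟩
        simp only [mulK_apply, smul_smul]
        congr 1
        rw [Nat.succ_eq_add_one]; ring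
      · obtain ⟨a, rfl⟩ := Nat.exists_eq_succ_of_ne_zero ha.ne'
        refine Submodule.mem_sup_right (Submodule.mem_sup_left ?_)
        refine ⟨(u ^ a * v ^ b) • x i, el_mem (by push_cast at h1 ⊢; omega), ?_⟩
        simp only [mulK_apply, smul_smul]
        congr 1
        rw [Nat.succ_eq_add_one]; ring
  obtain ⟨a, ha, y, hy, rfl⟩ := Submodule.mem_sup.1 (key he)
  obtain ⟨b, hb, c, hc, rfl⟩ := Submodule.mem_sup.1 hy
  obtain ⟨b, hb, rfl⟩ := hb
  obtain ⟨c, hc, rfl⟩ := hc
  exact ⟨a, ha, b, hb, c, hc, by simp only [mulK_apply]; abel⟩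

theorem genL_isLat [Finite ι] : IsLat u v (genL k u v d x) where
  mono m := genL_mono (by omega)
  umul := genL_umul
  vmul := genL_vmul
  fin m := by
    rw [genL]
    exact Module.Finite.span_of_finite k (Set.finite_range _)
  bot := by
    classical
    have := Fintype.ofFinite ι
    refine ⟨-(∑ i, |d i|) - 1, fun m hm => ?_⟩
    rw [eq_bot_iff]
    refine genL_le fun i a b hab => ?_
    exfalso
    have h1 : |d i| ≤ ∑ i, |d i| :=
      Finset.single_le_sum (f := fun i => |d i|) (fun _ _ => abs_nonneg _) (Finset.mem_univ i)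
    have h2 := neg_abs_le (d i)
    omega
  gen := by
    classical
    have := Fintype.ofFinite ι
    refine ⟨∑ i, |d i|, genL_genFrom fun i => ?_⟩
    have h1 : |d i| ≤ ∑ i, |d i| :=
      Finset.single_le_sum (f := fun i => |d i|) (fun _ _ => abs_nonneg _) (Finset.mem_univ i)
    have h2 := le_abs_self (d i)
    omega

/-- closure of a lattice under monomials -/
theorem mon_mem {E : ℤ → Submodule k V} (hE : IsLat u v E) {m m' : ℤ} {e : V} (he : e ∈ E m)
    (a b : ℕ) (h : m + a + b ≤ m') : (u ^ a * v ^ b) • e ∈ E m' := by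
  have h1 : ∀ b : ℕ, ∀ m e, e ∈ E m → v ^ b • e ∈ E (m + b) := by
    intro b
    induction b with
    | zero => intro m e he; simpa using he
    | succ b ih =>
      intro m e he
      have := hE.vmul _ _ (ih m e he)
      rw [smul_smul, ← pow_succ'] at this
      have e1 : m + (b : ℤ) + 1 = m + ((b + 1 : ℕ) : ℤ) := by push_cast; ring
      rwa [e1] at this
  have h2 : ∀ a : ℕ, ∀ m e, e ∈ E m → u ^ a • e ∈ E (m + a) := by
    intro a
    induction a with
    | zero => intro m e he; simpa using he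
    | succ a ih =>
      intro m e he
      have := hE.umul _ _ (ih m e he)
      rw [smul_smul, ← pow_succ'] at this
      have e1 : m + (a : ℤ) + 1 = m + ((a + 1 : ℕ) : ℤ) := by push_cast; ring
      rwa [e1] at this
  have h3 : ∀ i j : ℤ, i ≤ j → E i ≤ E j := by
    intro i j hij
    obtain ⟨n, rfl⟩ := Int.le.dest hij
    clear hij
    induction n with
    | zero => simp
    | succ n ih =>
      refine ih.trans ?_
      have := hE.mono (i + n)
      rwa [add_assoc] at this
  have h4 := h2 a _ _ (h1 b _ _ he)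
  rw [smul_smul] at h4
  exact h3 _ _ (by omega) h4

/-- every lattice is generated by finitely many elements of degree `≤ g`. -/
theorem exists_genL {E : ℤ → Submodule k V} (hE : IsLat u v E) {g : ℤ}
    (hg : GenFrom u v E g) :
    ∃ (N : ℕ) (d : Fin N → ℤ) (x : Fin N → V), (∀ l, x l ∈ E (d l)) ∧ (∀ l, d l ≤ g) ∧
      ∀ m, E m = genL k u v d x m := by
  classical
  obtain ⟨m₀, hm₀⟩ := hE.bot
  have hS : ∀ m, ∃ S : Finset V, Submodule.span k (S : Set V) = E m := fun m =>
    Module.Finite.iff_fg.1 (hE.fin m)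
  choose S hS using hS
  let ι' : Type := Σ m : Finset.Icc m₀ g, (S m.1 : Finset V)
  have : Fintype ι' := inferInstanceAs (Fintype (Σ m : Finset.Icc m₀ g, (S m.1 : Finset V)))
  let eq : Fin (Fintype.card ι') ≃ ι' := (Fintype.equivFin ι').symm
  let d : Fin (Fintype.card ι') → ℤ := fun l => ((eq l).1 : ℤ)
  let x : Fin (Fintype.card ι') → V := fun l => ((eq l).2 : V)
  have hx : ∀ l, x l ∈ E (d l) := by
    intro l
    simp only [x, d]
    rw [← hS]
    exact Submodule.subset_span (eq l).2.2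
  refine ⟨Fintype.card ι', d, x, hx, fun l => (Finset.mem_Icc.1 (eq l).1.2).2, ?_⟩
  have hle : ∀ m, genL k u v d x m ≤ E m := fun m =>
    genL_le fun i a b hab => mon_mem hE (hx i) a b (by omega)
  have hmem : ∀ m, m₀ ≤ m → m ≤ g → E m ≤ genL k u v d x m := by
    intro m h1 h2
    rw [← hS m, Submodule.span_le]
    intro y hy
    let l := eq.symm ⟨⟨m, Finset.mem_Icc.2 ⟨h1, h2⟩⟩, ⟨y, hy⟩⟩
    have hl : eq l = ⟨⟨m, Finset.mem_Icc.2 ⟨h1, h2⟩⟩, ⟨y, hy⟩⟩ := eq.apply_symm_apply _
    have e1 : d l = m := congrArg (fun t : ι' => (t.1 : ℤ)) hl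
    have e2 : x l = y := congrArg (fun t : ι' => (t.2 : V)) hl
    have := gen_mem (k := k) (u := u) (v := v) (d := d) (x := x) l
    rw [e1, e2] at this
    exact this
  intro m
  refine le_antisymm ?_ (hle m)
  rcases lt_or_ge m m₀ with h | h
  · rw [hm₀ m h.le]; exact bot_le
  rcases le_or_gt m g with h2 | h2
  · exact hmem m h h2
  -- `m > g`
  have key : ∀ m, g ≤ m → E m ≤ genL k u v d x m := by
    intro m hm
    induction m, hm using Int.leInduction with
    | base =>
      rcases lt_or_ge g m₀ with h | h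
      · rw [hm₀ g h.le]; exact bot_le
      · exact hmem g h le_rfl
    | succ j hj ih =>
      intro e he
      obtain ⟨a, ha, b, hb, c, hc, rfl⟩ := hg j hj e he
      exact Submodule.add_mem _ (Submodule.add_mem _ (genL_mono (by omega) (ih ha))
        (genL_umul _ _ (ih hb))) (genL_vmul _ _ (ih hc))
  exact key m h2.le


end Gen

end Crest.Agent.R169.E3Gen
end

-- ▼ part R169/E3Rank
section

/-!
# Row 169, part E3: rank of `T`-lattices over `K0 = k(u,v)`
-/

set_option autoImplicit false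
set_option linter.unusedSectionVars false

namespace Crest.Agent.R169.E3Rank

open Module Crest.Agent.R169.E3Win Crest.Agent.R169.E3Gen

variable {k Q : Type} [Field k] [Field Q] [Algebra k Q]

/-- `u` as an element of `K0` -/
def u0 (D : TData k Q) : D.K0 := ⟨D.u, IntermediateField.subset_adjoin _ _ (by simp)⟩

/-- `v` as an element of `K0` -/
def v0 (D : TData k Q) : D.K0 := ⟨D.v, IntermediateField.subset_adjoin _ _ (by simp)⟩

theorem F_lat0 (D : TData k Q) : IsLat (u0 D) (v0 D) D.F :=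
  IsLat.restrict (L := D.K0) (Q := Q) (V := Q) D.lat

/-- the `K0`-span of `F` is everything, and `Q` is finite over `K0`. -/
theorem span_F (D : TData k Q) :
    spanK D.K0 D.F = ⊤ ∧ Module.Finite D.K0 Q := by
  classical
  obtain ⟨g, hg⟩ := (F_lat0 D).gen
  obtain ⟨N, d, x, hx, -, hF⟩ := exists_genL (F_lat0 D) (g := g) hg
  set S : Submodule D.K0 Q := spanK D.K0 D.F with hS
  have hFS : ∀ m, ∀ f ∈ D.F m, f ∈ S := fun m f hf =>
    Submodule.subset_span (Set.mem_iUnion.2 ⟨m, hf⟩)
  have hSle : S ≤ Submodule.span D.K0 (Set.range x) := by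
    rw [hS, spanK, Submodule.span_le]
    intro f hf
    obtain ⟨m, hm⟩ := Set.mem_iUnion.1 hf
    have hm' : f ∈ genL k (u0 D) (v0 D) d x m := by rw [← hF m]; exact hm
    have : genL k (u0 D) (v0 D) d x m ≤
        (Submodule.span D.K0 (Set.range x)).restrictScalars k := by
      refine genL_le fun i a b _ => ?_
      have h1 : x i ∈ Submodule.span D.K0 (Set.range x) := Submodule.subset_span ⟨i, rfl⟩
      exact (Submodule.span D.K0 (Set.range x)).smul_mem (u0 D ^ a * v0 D ^ b) h1
    exact this hm'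
  have hfin0 : Module.Finite D.K0 (Submodule.span D.K0 (Set.range x)) :=
    Module.Finite.span_of_finite _ (Set.finite_range _)
  have hfin : Module.Finite D.K0 S := Submodule.finiteDimensional_of_le hSle
  -- multiplication by `g ∈ F m` preserves `S`
  have hmul : ∀ m, ∀ g ∈ D.F m, ∀ s ∈ S, g * s ∈ S := by
    intro m g hg s hs
    rw [hS, spanK] at hs
    induction hs using Submodule.span_induction with
    | mem y hy =>
      obtain ⟨j, hj⟩ := Set.mem_iUnion.1 hy
      exact hFS _ _ (D.mul_mem m j g hg y hj)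
    | zero => rw [mul_zero]; exact S.zero_mem
    | add y z _ _ h1 h2 => rw [mul_add]; exact S.add_mem h1 h2
    | smul a y _ h1 => rw [mul_smul_comm]; exact S.smul_mem a h1
  have htop : S = ⊤ := by
    rw [eq_top_iff]
    intro q _
    obtain ⟨m, f, hf, g, hg, hg0, hq⟩ := D.frac q
    let φ : S →ₗ[D.K0] S := (LinearMap.mulLeft D.K0 g).restrict (fun s hs => hmul m g hg s hs)
    have hinj : Function.Injective φ := by
      intro s t hst
      have h1 : g * (s : Q) = g * (t : Q) := congrArg Subtype.val hst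
      exact Subtype.ext (mul_left_cancel₀ hg0 h1)
    have hsurj := (LinearMap.injective_iff_surjective (f := φ)).1 hinj
    obtain ⟨s, hs⟩ := hsurj ⟨f, hFS m f hf⟩
    have h1 : g * (s : Q) = f := congrArg Subtype.val hs
    have h2 : q = s := by
      apply mul_left_cancel₀ hg0
      rw [h1, ← hq, mul_comm]
    rw [h2]
    exact s.2
  refine ⟨htop, ?_⟩
  rw [htop] at hfin
  exact Module.Finite.equiv (Submodule.topEquiv (R := D.K0) (M := Q))

/-- `[Q : K0] = N` -/
theorem finrank_Q [Infinite k] (D : TData k Q) {N : ℕ} {bT cT : ℚ} (h : HasHP D.F N bT cT) :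
    finrank D.K0 Q = N := by
  obtain ⟨b, c, hHP, -, -⟩ := IsLat.exists_hasHP (TData.isRat D) (F_lat0 D)
  have h1 := (hasHP_unique h hHP).1
  rw [h1, rk, (span_F D).1, finrank_top]

variable {R : ℕ}

theorem G_lat0 (D : TData k Q) {G : ℤ → Submodule k (Fin R → Q)}
    (hG : IsLat D.u D.v G) : IsLat (u0 D) (v0 D) G :=
  IsLat.restrict (L := D.K0) (Q := Q) (V := Fin R → Q) hG

/-- a `T`-lattice spans over `K0` -/
theorem span_G (D : TData k Q) {G : ℤ → Submodule k (Fin R → Q)} (hG : IsTLat D G) :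
    spanK D.K0 G = ⊤ := by
  rw [eq_top_iff]
  intro w _
  have hw : w ∈ spanK Q G := by rw [hG.full]; trivial
  rw [spanK] at hw
  have key : ∀ q : Q, ∀ j, ∀ g ∈ G j, q • g ∈ spanK D.K0 G := by
    intro q
    have hq : q ∈ spanK D.K0 D.F := by rw [(span_F D).1]; trivial
    rw [spanK] at hq
    induction hq using Submodule.span_induction with
    | mem f hf =>
      obtain ⟨i, hi⟩ := Set.mem_iUnion.1 hf
      intro j g hg
      exact Submodule.subset_span (Set.mem_iUnion.2 ⟨_, hG.act i j f hi g hg⟩)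
    | zero => intro j g _; rw [zero_smul]; exact Submodule.zero_mem _
    | add y z _ _ h1 h2 =>
      intro j g hg
      rw [add_smul]; exact Submodule.add_mem _ (h1 j g hg) (h2 j g hg)
    | smul a y _ h1 =>
      intro j g hg
      rw [smul_assoc]; exact Submodule.smul_mem _ a (h1 j g hg)
  have key2 : ∀ q : Q, ∀ w ∈ spanK D.K0 G, q • w ∈ spanK D.K0 G := by
    intro q w hw
    rw [spanK] at hw
    induction hw using Submodule.span_induction with
    | mem g hg =>
      obtain ⟨j, hj⟩ := Set.mem_iUnion.1 hg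
      exact key q j g hj
    | zero => rw [smul_zero]; exact Submodule.zero_mem _
    | add y z _ _ h1 h2 => rw [smul_add]; exact Submodule.add_mem _ h1 h2
    | smul a y _ h1 => rw [smul_comm]; exact Submodule.smul_mem _ a h1
  induction hw using Submodule.span_induction with
  | mem g hg =>
    obtain ⟨j, hj⟩ := Set.mem_iUnion.1 hg
    exact Submodule.subset_span (Set.mem_iUnion.2 ⟨j, hj⟩)
  | zero => exact Submodule.zero_mem _
  | add y z _ _ h1 h2 => exact Submodule.add_mem _ (h1 trivial) (h2 trivial)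
  | smul a y _ h1 => exact key2 a _ (h1 trivial)

theorem rk_G [Infinite k] (D : TData k Q) {N : ℕ} {bT cT : ℚ} (h : HasHP D.F N bT cT)
    {G : ℤ → Submodule k (Fin R → Q)} (hG : IsTLat D G) : rk D.K0 G = R * N := by
  have := (span_F D).2
  rw [rk, span_G D hG, finrank_top, Module.finrank_pi_fintype]
  simp [finrank_Q D h]

/-- HP of a `T`-lattice: exists, with leading coefficient `R N` and `2b ∈ ℤ`. -/
theorem hasHP_G [Infinite k] (D : TData k Q) {N : ℕ} {bT cT : ℚ} (h : HasHP D.F N bT cT)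
    {G : ℤ → Submodule k (Fin R → Q)} (hG : IsTLat D G) :
    ∃ b c : ℚ, HasHP G (R * N) b c ∧ (∃ z : ℤ, 2 * b = z) := by
  obtain ⟨b, c, hHP, hb, -⟩ := IsLat.exists_hasHP (TData.isRat D) (G_lat0 D hG.lat)
  rw [rk_G D h hG] at hHP
  exact ⟨b, c, hHP, hb⟩

end Crest.Agent.R169.E3Rank
end

-- ▼ part R169/E3
section

/-!
# Row 169, part E3: transfer of a `T`-lattice with its Hilbert polynomial to characteristic `p`
-/

set_option autoImplicit false
set_option linter.unusedSectionVars false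

namespace Crest.Agent.R169.E3

open Module Crest.Agent.R169.E3Win Crest.Agent.R169.E3Gen Crest.Agent.R169.E3Rank

/-! ### generalities -/

section General

variable {k K V : Type} [Field k] [Field K] [Algebra k K] [AddCommGroup V] [Module k V]
  [Module K V] [IsScalarTower k K V] {u v : K} {E : ℤ → Submodule k V}

/-- exact dimension of `W_g` in large degrees -/
theorem finrank_WL_eq (hE : IsLat u v E) (t : k) (hl : u + t • v ≠ 0) {m : ℤ}
    (hinj : ∀ w ∈ E (m - 1), u • w + t • v • w ∈ E (m - 1) → w ∈ E (m - 2)) :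
    finrank k (WL (u + t • v) E m) + finrank k (E (m - 2)) = 2 * finrank k (E (m - 1)) := by
  have := hE.fin (m - 1)
  have := hE.fin (m - 2)
  set l := u + t • v with hl'
  have h1 := Submodule.finrank_sup_add_finrank_inf_eq (E (m - 1)) ((E (m - 1)).map (mulK k l))
  have h2 : finrank k ((E (m - 1)).map (mulK k l)) = finrank k (E (m - 1)) :=
    (LinearEquiv.finrank_eq (Submodule.equivMapOfInjective (mulK k l) (mulK_injective hl) _)).symm
  have h3 : finrank k ((E (m - 2)).map (mulK k l)) = finrank k (E (m - 2)) :=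
    (LinearEquiv.finrank_eq (Submodule.equivMapOfInjective (mulK k l) (mulK_injective hl) _)).symm
  have e1 : m - 2 + 1 = m - 1 := by ring
  have h4 : (E (m - 2)).map (mulK k l) = E (m - 1) ⊓ (E (m - 1)).map (mulK k l) := by
    apply le_antisymm
    · refine le_inf ?_ ?_
      · rw [Submodule.map_le_iff_le_comap]
        intro x hx
        have hu := hE.umul (m - 2) x hx
        have hv := hE.vmul (m - 2) x hx
        rw [e1] at hu hv
        simp only [Submodule.mem_comap, mulK_apply, hl', add_smul, smul_assoc]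
        exact (E (m - 1)).add_mem hu ((E (m - 1)).smul_mem t hv)
      · apply Submodule.map_mono
        have := hE.mono (m - 2)
        rwa [e1] at this
    · rintro y ⟨hy1, w, hw, rfl⟩
      refine ⟨w, hinj w hw ?_, rfl⟩
      have hy2 : mulK k l w ∈ E (m - 1) := hy1
      simpa only [mulK_apply, hl', add_smul, smul_assoc] using hy2
  rw [h4] at h3
  rw [WL]
  omega

theorem mulK_u0 {Q : Type} [Field Q] [Algebra k Q] (D : TData k Q) {R : ℕ}
    (G : ℤ → Submodule k (Fin R → Q)) (t : k) (m : ℤ) :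
    WL (u0 D + t • v0 D) G m = WL (D.u + t • D.v) G m := by
  have : (mulK k (u0 D + t • v0 D) : (Fin R → Q) →ₗ[k] (Fin R → Q)) =
      mulK k (D.u + t • D.v) := by
    ext1 x
    rfl
  rw [WL, WL, this]

end General

variable {Q : PP → Type} [∀ p, Field (Q p)] [∀ p, Algebra (Kp p) (Q p)]
  {Qs : Type} [Field Qs] [Algebra KStar Qs]
  {D : ∀ p, TData (Kp p) (Q p)} {Ds : TData KStar Qs} {X : UFam D Ds} {R : ℕ}

/-- Ultralimit of `l E`. -/
theorem ulim_map {m : ℤ} {E : ∀ p, Submodule (Kp p) (Fin R → Q p)}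
    (hb : AE (fun p => E p ≤ (D p).box R m)) {l : ∀ p, Q p} {ls : Qs}
    (hl : X.ι ls = ucls l) :
    X.ulim (fun p => (E p).map (mulK (Kp p) (l p))) = (X.ulim E).map (mulK KStar ls) := by
  apply le_antisymm
  · rintro y ⟨x, hx, hlim⟩
    have h1 : AE (fun p => ∃ z, z ∈ E p ∧ l p • z = x p) :=
      hx.mono (fun p hp => by
        obtain ⟨z, hz, hz'⟩ := hp
        exact ⟨z, hz, hz'⟩)
    obtain ⟨z, hz⟩ := AE.choose (α := fun p => Fin R → Q p) h1
    obtain ⟨z', hz', hlz⟩ := X.exists_lim (m := m) (x := z)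
      ((hb.and hz).mono (fun p hp => hp.1 hp.2.1))
    refine ⟨z', hlz.mem_ulim (hz.mono (fun p hp => hp.1)), ?_⟩
    have h2 := hlz.qsmul hl
    exact (h2.congr (hz.mono (fun p hp => hp.2))).unique hlim
  · rintro _ ⟨y, ⟨x, hx, hlim⟩, rfl⟩
    exact (hlim.qsmul hl).mem_ulim (hx.mono (fun p hp => ⟨x p, hp, rfl⟩))

/-- Ultralimit of the generated families. -/
theorem ulim_genL {N0 : ℕ} {d : Fin N0 → ℤ} {x : Fin N0 → ∀ p, Fin R → Q p}
    {y : Fin N0 → Fin R → Qs} (h : ∀ j, X.Lim (x j) (y j)) (m : ℤ) :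
    X.ulim (fun p => genL (Kp p) (D p).u (D p).v d (fun j => x j p) m) =
      genL KStar Ds.u Ds.v d y m := by
  classical
  obtain ⟨n, ⟨e⟩⟩ := Finite.exists_equiv_fin (Idx d m)
  have h1 : ∀ j : Fin n, X.Lim (fun p => el (D p).u (D p).v (fun j => x j p) (e.symm j).1)
      (el Ds.u Ds.v y (e.symm j).1) := by
    intro j
    refine (h (e.symm j).1.1).qsmul ?_
    rw [map_mul, map_pow, map_pow, X.ι_u, X.ι_v, ← map_pow, ← map_pow, ← map_mul]
    rfl
  have h2 := UFam.ulim_span h1
  have h3 : ∀ (k K V : Type) [Field k] [Field K] [AddCommGroup V] [Module k V] [Module K V]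
      (u v : K) (z : Fin N0 → V), genL k u v d z m =
      Submodule.span k (Set.range (fun j => el u v z (e.symm j).1)) := by
    intro k K V _ _ _ _ _ u v z
    rw [genL]
    congr 1
    have : (fun j => el u v z (e.symm j).1) = (fun t : Idx d m => el u v z t.1) ∘ e.symm := rfl
    rw [this, Set.range_comp, e.symm.surjective.range_eq, Set.image_univ]
  rw [h3 KStar Qs, ← h2]
  congr 1
  funext p
  exact h3 (Kp p) (Q p) _ _ _ _

theorem genL_le_box {k Q : Type} [Field k] [Field Q] [Algebra k Q] (D : TData k Q) {N0 : ℕ}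
    {d : Fin N0 → ℤ} {x : Fin N0 → Fin R → Q} {a : ℤ} (h : ∀ j, x j ∈ D.box R (d j + a)) (m : ℤ) :
    genL k D.u D.v d x m ≤ D.box R (m + a) := by
  refine genL_le fun i s t hst => ?_
  rw [TData.mem_box]
  intro r
  have h1 := TData.mem_box.1 (h i) r
  have h2 : D.u ^ s * D.v ^ t ∈ D.F (s + t) :=
    D.mul_mem _ _ _ (D.pow_mem D.u_mem s) _ (D.pow_mem D.v_mem t)
  have h3 := D.mul_mem _ _ _ h2 _ h1
  exact D.F_mono (by omega) h3

/-- extension of the `T`-action from low degrees -/
theorem act_of {k Q : Type} [Field k] [Field Q] [Algebra k Q] (D : TData k Q) {N0 : ℕ}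
    {d : Fin N0 → ℤ} {x : Fin N0 → Fin R → Q} {c : ℕ} (hg : GenFrom D.u D.v D.F c)
    (h : ∀ i : Fin (c + 1), ∀ l, ∀ f ∈ D.F (i : ℕ), f • x l ∈ genL k D.u D.v d x ((i : ℕ) + d l)) :
    ∀ i j : ℤ, ∀ f ∈ D.F i, ∀ g ∈ genL k D.u D.v d x j, f • g ∈ genL k D.u D.v d x (i + j) := by
  have hlat : IsLat D.u D.v (genL k D.u D.v d x) := genL_isLat
  -- generators, all degrees
  have h1 : ∀ i : ℤ, ∀ f ∈ D.F i, ∀ l, f • x l ∈ genL k D.u D.v d x (i + d l) := by
    intro i
    rcases lt_or_ge i 0 with hi | hi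
    · intro f hf l
      rw [D.eq_zero_of_neg hi hf, zero_smul]
      exact Submodule.zero_mem _
    rcases le_or_gt i c with hic | hic
    · intro f hf l
      obtain ⟨i, rfl⟩ := Int.eq_ofNat_of_zero_le hi
      have := h ⟨i, by omega⟩ l f hf
      exact this
    · have key : ∀ i : ℤ, (c : ℤ) ≤ i → ∀ f ∈ D.F i, ∀ l,
          f • x l ∈ genL k D.u D.v d x (i + d l) := by
        intro i hi
        induction i, hi using Int.leInduction with
        | base =>
          intro f hf l
          exact h ⟨c, by omega⟩ l f hf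
        | succ j hj ih =>
          intro f hf l
          obtain ⟨p, hp, q, hq, r, hr, rfl⟩ := hg j hj f hf
          have e1 : (p + D.u • q + D.v • r) • x l = p • x l + D.u • (q • x l) + D.v • (r • x l) := by
            simp only [add_smul, smul_assoc]
          rw [e1]
          have e2 : j + 1 + d l = j + d l + 1 := by ring
          rw [e2]
          exact Submodule.add_mem _ (Submodule.add_mem _ (genL_mono (by omega) (ih p hp l))
            (genL_umul _ _ (ih q hq l))) (genL_vmul _ _ (ih r hr l))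
      exact key i hic.le
  intro i j f hf g hgj
  have hle : genL k D.u D.v d x j ≤ (genL k D.u D.v d x (i + j)).comap (mulK k f) := by
    refine genL_le fun l s t hst => ?_
    simp only [Submodule.mem_comap, mulK_apply]
    rw [smul_comm]
    exact mon_mem hlat (h1 i f hf l) s t (by omega)
  exact hle hgj

/-- fullness from finitely many vectors -/
theorem exists_basis_sub {N0 : ℕ} {d : Fin N0 → ℤ} {y : Fin N0 → Fin R → Qs}
    {G : ℤ → Submodule KStar (Fin R → Qs)} (hG : IsTLat Ds G)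
    (h : ∀ m, G m = genL KStar Ds.u Ds.v d y m) :
    ∃ σ : Fin R → Fin N0, LinearIndependent Qs (fun j => y (σ j)) := by
  have hspan : Submodule.span Qs (Set.range y) = ⊤ := by
    rw [eq_top_iff, ← hG.full, spanK, Submodule.span_le]
    intro g hg
    obtain ⟨m, hm⟩ := Set.mem_iUnion.1 hg
    have hm' : g ∈ genL KStar Ds.u Ds.v d y m := by rw [← h m]; exact hm
    have : genL KStar Ds.u Ds.v d y m ≤
        (Submodule.span Qs (Set.range y)).restrictScalars KStar := by
      refine genL_le fun i a b _ => ?_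
      have h1 : y i ∈ Submodule.span Qs (Set.range y) := Submodule.subset_span ⟨i, rfl⟩
      exact (Submodule.span Qs (Set.range y)).smul_mem (Ds.u ^ a * Ds.v ^ b) h1
    exact this hm'
  obtain ⟨f, hf, -, hlin⟩ := Submodule.exists_fun_fin_finrank_span_eq Qs (Set.range y)
  have hr : finrank Qs (Submodule.span Qs (Set.range y)) = R := by
    rw [hspan, finrank_top, Module.finrank_fin_fun]
  choose σ hσ using hf
  refine ⟨fun j => σ (Fin.cast hr.symm j), ?_⟩
  have : (fun j => y (σ (Fin.cast hr.symm j))) = f ∘ (Fin.cast hr.symm) := by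
    funext j
    exact hσ _
  rw [this]
  exact hlin.comp _ (Fin.cast_injective _)

/-- **E3** -/
theorem e3_of (hP6 : ∀ (s : ℕ) (b : ℚ) (g : ℤ), ∃ C : ℚ, P6Stmt s b g C) : E3Stmt := by
  classical
  intro Q _ _ Qs _ _ D Ds X N bT cT c1 hU R G n b c hG hHP hbox
  obtain ⟨a, hbox⟩ := hbox
  have hinfK : Infinite KStar := inferInstance
  -- rank and integrality
  obtain ⟨b2, c2, hHP2, hbz⟩ := hasHP_G Ds hU.hps hG
  obtain ⟨hn, hb2, hc2⟩ := hasHP_unique hHP hHP2
  subst hn; subst hb2; subst hc2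
  -- generic `t`
  obtain ⟨T, M, hT⟩ := P1.generic_l hG.lat
  obtain ⟨t, ht⟩ := Infinite.exists_notMem_finset (insert 0 T)
  have htT : t ∉ T := fun h => ht (Finset.mem_insert_of_mem h)
  have hl : Ds.u + t • Ds.v ≠ 0 := by
    intro h0
    have hind := Ds.indep
    rw [algebraicIndependent_iff] at hind
    have h1 := hind (MvPolynomial.X 0 + MvPolynomial.C t * MvPolynomial.X 1) (by
      simp only [map_add, map_mul, MvPolynomial.aeval_X, MvPolynomial.algHom_C]
      simpa [Algebra.smul_def] using h0)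
    have h2 := congrArg (MvPolynomial.coeff (Finsupp.single (0 : Fin 2) 1)) h1
    have h3 : (Finsupp.single (1 : Fin 2) 1 : Fin 2 →₀ ℕ) ≠ Finsupp.single (0 : Fin 2) 1 := by
      intro h4
      have h5 := DFunLike.congr_fun h4 (0 : Fin 2)
      simp at h5
    rw [MvPolynomial.coeff_add, MvPolynomial.coeff_C_mul, MvPolynomial.coeff_X,
      MvPolynomial.coeff_X (1 : Fin 2), if_neg h3, MvPolynomial.coeff_zero] at h2
    simp at h2
  -- the threshold
  obtain ⟨g1, hg1⟩ := hG.lat.gen
  obtain ⟨m0, hm0⟩ := hHP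
  set g : ℤ := max g1 (max (M + 2) (m0 + 2)) with hgdef
  have hgg1 : g1 ≤ g := le_max_left _ _
  have hgM : M + 2 ≤ g := (le_max_left _ _).trans (le_max_right _ _)
  have hgm : m0 + 2 ≤ g := (le_max_right _ _).trans (le_max_right _ _)
  have hgen : GenFrom Ds.u Ds.v G g := fun m hm => hg1 m (hgg1.trans hm)
  -- generators
  obtain ⟨N0, d, y, hy, hdg, hGm⟩ := exists_genL hG.lat hgen
  have hy' : ∀ l, y l ∈ Ds.box R (d l + a) := fun l => hbox _ (hy l)
  choose x hx hlim using fun l => X.exists_rep (hy' l)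
  let Gp : ∀ p, ℤ → Submodule (Kp p) (Fin R → Q p) := fun p =>
    genL (Kp p) (D p).u (D p).v d (fun j => x j p)
  have hGpbox : ∀ p m, Gp p m ≤ (D p).box R (m + a) := fun p m =>
    genL_le_box (D p) (fun j => hx j p) m
  have hlimG : ∀ m, X.ulim (fun p => Gp p m) = G m := by
    intro m
    rw [hGm m]
    exact ulim_genL hlim m
  have hdim : ∀ m, AE (fun p => finrank (Kp p) (Gp p m) = finrank KStar (G m)) := by
    intro m
    have h1 := UFam.ae_finrank_eq (X := X) (m := m + a) (AE.of_forall (fun p => hGpbox p m))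
    rw [hlimG m] at h1
    exact h1
  have hlatp : ∀ p, IsLat (D p).u (D p).v (Gp p) := fun p => genL_isLat
  have hgenp : ∀ p, GenFrom (D p).u (D p).v (Gp p) g := fun p => genL_genFrom hdg
  -- the linear forms
  let tp : ∀ p, Kp p := rep t
  have hlp : X.ι (Ds.u + t • Ds.v) = ucls (fun p => (D p).u + tp p • (D p).v) := by
    have e1 : (fun p => (D p).u + tp p • (D p).v) =
        (fun p => (D p).u) + (fun p => algebraMap (Kp p) (Q p) (tp p)) * (fun p => (D p).v) := by
      funext p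
      simp [Algebra.smul_def]
    have e2 : X.ι (t • Ds.v) = X.ι (algebraMap KStar Qs (cls tp)) * X.ι Ds.v := by
      rw [Algebra.smul_def, map_mul, cls_rep]
    rw [e1, map_add, e2, X.ι_u, X.ι_v, X.ι_alg tp, ← map_mul, ← map_add]
  have hlne : AE (fun p => (D p).u + tp p • (D p).v ≠ 0) := by
    rw [AE.not_iff, ← ucls_eq_zero, ← hlp]
    exact fun h => hl (X.ι_injective (by rw [h, map_zero]))
  -- the dimension of `W`
  have hWdim : AE (fun p => finrank (Kp p) (WL ((D p).u + tp p • (D p).v) (Gp p) g) =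
      finrank KStar (WL (Ds.u + t • Ds.v) G g)) := by
    have hb1 : AE (fun p => Gp p (g - 1) ≤ (D p).box R (g - 1 + a)) :=
      AE.of_forall (fun p => hGpbox p _)
    have h1 : X.ulim (fun p => WL ((D p).u + tp p • (D p).v) (Gp p) g) =
        WL (Ds.u + t • Ds.v) G g := by
      simp only [WL]
      rw [UFam.ulim_sup hb1, ulim_map hb1 hlp, hlimG]
    have hb : AE (fun p => WL ((D p).u + tp p • (D p).v) (Gp p) g ≤ (D p).box R (g + a)) :=
      AE.of_forall (fun p => (WL_le (hlatp p) (tp p) g).trans (hGpbox p g))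
    have h2 := UFam.ae_finrank_eq (X := X) hb
    rw [h1] at h2
    exact h2
  have hWs : finrank KStar (G g) ≤ finrank KStar (WL (Ds.u + t • Ds.v) G g) + R * N := by
    have h1 := finrank_WL_eq hG.lat t hl (m := g) (by
      intro w hw hw'
      have := hT t htT (g - 1) (by omega) w hw hw'
      have e1 : g - 1 - 1 = g - 2 := by ring
      rwa [e1] at this)
    have h2 := hm0 g (by omega)
    have h3 := hm0 (g - 1) (by omega)
    have h4 := hm0 (g - 2) (by omega)
    have h5 : (finrank KStar (WL (Ds.u + t • Ds.v) G g) : ℚ) + finrank KStar (G (g - 2)) =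
        2 * finrank KStar (G (g - 1)) := by exact_mod_cast h1
    have h6 : (finrank KStar (G g) : ℚ) =
        finrank KStar (WL (Ds.u + t • Ds.v) G g) + (R * N : ℕ) := by
      have h7 : (finrank KStar (WL (Ds.u + t • Ds.v) G g) : ℚ) =
        2 * finrank KStar (G (g - 1)) - finrank KStar (G (g - 2)) := by linarith
      rw [h7, h2, h3, h4]
      push_cast
      ring
    have h8 : finrank KStar (G g) = finrank KStar (WL (Ds.u + t • Ds.v) G g) + R * N := by
      exact_mod_cast h6
    exact h8.le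
  -- window constant
  obtain ⟨C, hC⟩ := hP6 (R * N) b g
  obtain ⟨m1, hgm1, hwin⟩ := window_hp (R * N) b c g C hC
  -- `T`-lattices
  set cN : ℕ := (max c1 0).toNat with hcN
  have hcN' : ((cN : ℕ) : ℤ) = max c1 0 := Int.toNat_of_nonneg (le_max_right _ _)
  have hact : AE (fun p => ∀ i : Fin (cN + 1), ∀ l, ∀ f ∈ (D p).F (i : ℕ),
      f • x l p ∈ Gp p ((i : ℕ) + d l)) := by
    refine AE.all_finite (fun i => AE.all_finite (fun l => ?_))
    have h1 := UFam.ae_qsmul_mem (X := X) (i := ((i : ℕ) : ℤ)) (m := d l + a)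
      (E := fun p => Gp p (d l)) (E' := fun p => Gp p ((i : ℕ) + d l))
      (AE.of_forall (fun p => hGpbox p (d l))) (by
        intro f hf z hz
        rw [hlimG] at hz ⊢
        exact hG.act _ _ f hf z hz)
    exact h1.mono (fun p hp f hf => hp f hf _ (gen_mem l))
  obtain ⟨σ, hσ⟩ := exists_basis_sub hG hGm
  have hfull : AE (fun p => spanK (Q p) (Gp p) = ⊤) := by
    have h1 := UFam.Lim.linInd_Q (X := X) (fun j => hlim (σ j)) hσ
    refine h1.mono (fun p hp => ?_)
    have h2 := hp.span_eq_top_of_card_eq_finrank' (by simp)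
    rw [eq_top_iff, ← h2, Submodule.span_le]
    rintro _ ⟨j, rfl⟩
    exact Submodule.subset_span (Set.mem_iUnion.2 ⟨d (σ j), gen_mem (σ j)⟩)
  have hTlat : AE (fun p => IsTLat (D p) (Gp p)) := by
    refine (hact.and hfull).mono (fun p hp => ⟨hlatp p, ?_, hp.2⟩)
    refine act_of (D p) (c := cN) ?_ hp.1
    intro m hm
    exact hU.gen p m (by omega)
  -- conclusion
  refine ⟨Gp, hTlat, ⟨g - 1, ?_⟩, ⟨g, AE.of_forall hgenp⟩, ⟨a, fun m => AE.of_forall (fun p =>
    hGpbox p m)⟩, hlimG⟩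
  have hP : ∀ m ≥ g - 1, (finrank KStar (G m) : ℚ) = (R * N : ℕ) / 2 * (m : ℚ) ^ 2 + b * m + c :=
    fun m hm => hm0 m (by omega)
  refine (hTlat.and ((hdim g).and ((hdim (g - 1)).and ((hdim m1).and (hWdim.and hlne))))).mono ?_
  rintro p ⟨h1, h2, h3, h4, h5, h6⟩
  have hrat := TData.isRat (D p)
  have hlat0 : IsLat (u0 (D p)) (v0 (D p)) (Gp p) := G_lat0 (D p) (hlatp p)
  have hl0 : u0 (D p) + tp p • v0 (D p) ≠ 0 := by
    intro h0
    apply h6
    exact congrArg (fun z : (D p).K0 => (z : Q p)) h0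
  have hp2 : (finrank (Kp p) (Gp p g) : ℚ) = (R * N : ℕ) / 2 * (g : ℚ) ^ 2 + b * g + c := by
    rw [h2]; exact hP g (by omega)
  have hp3 : (finrank (Kp p) (Gp p (g - 1)) : ℚ) =
      (R * N : ℕ) / 2 * ((g - 1 : ℤ) : ℚ) ^ 2 + b * ((g - 1 : ℤ) : ℚ) + c := by
    rw [h3]; exact hP (g - 1) le_rfl
  have hp4 : (finrank (Kp p) (Gp p m1) : ℚ) = (R * N : ℕ) / 2 * (m1 : ℚ) ^ 2 + b * m1 + c := by
    rw [h4]; exact hP m1 (by omega)
  have hp5 : finrank (Kp p) (Gp p g) ≤
      finrank (Kp p) (WL (u0 (D p) + tp p • v0 (D p)) (Gp p) g) + R * N := by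
    rw [mulK_u0, h2, h5]
    exact hWs
  exact hwin (Kp p) (D p).K0 (Fin R → Q p) (u0 (D p)) (v0 (D p)) (Gp p) hrat hlat0
    (fun m hm e he => hgenp p m hm e he) (tp p) hl0 (hasHP_G (D p) (hU.hp p) h1) hbz hp2 hp3 hp4 hp5

end Crest.Agent.R169.E3
end

-- ▼ part R169/P6
section

/-!
# Row 169, P6: uniform upper bound for the Hilbert function (helper822)

For a lattice `E` of rank `s`, generated from degree `g` on, with linear coefficient `b' ≤ b`:
`dim E m ≤ s/2 m² + b' m + C(s, b, g)` for all `m ≥ g`.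
-/

set_option autoImplicit false

namespace Crest.Agent.R169.P6

open Module

/-! ### numerical part -/

theorem numeric (s : ℕ) (b : ℚ) (g : ℤ) (h : ℤ → ℚ) (hmono : ∀ m, h (m - 1) ≤ h m)
    (hconv : ∀ m, 0 ≤ h m - 2 * h (m - 1) + h (m - 2))
    (hs : ∀ m ≥ g, (s : ℚ) ≤ h m - 2 * h (m - 1) + h (m - 2))
    {b' c' : ℚ} (hHP : ∃ m₀ : ℤ, ∀ m ≥ m₀, h m = s / 2 * (m : ℚ) ^ 2 + b' * m + c')
    (hbot : ∃ m₁ : ℤ, ∀ m ≤ m₁, h m = 0)
    (hstart : ∀ j : ℕ, h (g - j) ≠ 0 → ((j : ℚ) + 1) * (j + 2) / 2 ≤ h g) (hb : b' ≤ b) :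
    ∀ m ≥ g, h m ≤ s / 2 * (m : ℚ) ^ 2 + b' * m +
      (2 * (s * g + b - s / 2) ^ 2 + (|b| + |(s : ℚ) / 2 - s * g|) * |(g : ℚ)|) := by
  obtain ⟨m₀, hm₀⟩ := hHP
  -- Step A
  have hA : ∀ m ≥ g - 1, h m - h (m - 1) ≤ s * m + b' - s / 2 := by
    intro m hm
    have h1 : ∀ j : ℕ, h m - h (m - 1) + s * j ≤ h (m + j) - h (m + j - 1) := by
      intro j
      induction j with
      | zero => simp
      | succ j ih =>
        have h2 := hs (m + j + 1) (by omega)
        have e1 : m + j + 1 - 1 = m + j := by ring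
        have e2 : m + j + 1 - 2 = m + j - 1 := by ring
        rw [e1, e2] at h2
        have e3 : m + ((j + 1 : ℕ) : ℤ) = m + j + 1 := by push_cast; ring
        rw [e3, e1]
        push_cast
        linarith
    obtain ⟨j, hj⟩ : ∃ j : ℕ, m₀ ≤ m + j - 1 := ⟨(m₀ - m + 1).toNat, by omega⟩
    have h2 := h1 j
    rw [hm₀ _ (by omega : m + (j : ℤ) ≥ m₀), hm₀ _ hj] at h2
    push_cast at h2
    linarith
  -- Step B
  have hB : ∀ j : ℕ, h (g + j) ≤ h g + s / 2 * (((g + j : ℤ) : ℚ) ^ 2 - (g : ℚ) ^ 2) + b' * j := by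
    intro j
    induction j with
    | zero => simp
    | succ j ih =>
      have h1 := hA (g + (j + 1 : ℕ)) (by omega)
      have e1 : g + ((j + 1 : ℕ) : ℤ) - 1 = g + j := by push_cast; ring
      rw [e1] at h1
      push_cast at h1 ih ⊢
      linarith
  -- Step C
  have hC1 : ∀ j : ℕ, h (g - j) - h (g - j - 1) ≤ h g - h (g - 1) := by
    intro j
    induction j with
    | zero => simp
    | succ j ih =>
      have h2 := hconv (g - j)
      have e1 : g - ((j + 1 : ℕ) : ℤ) = g - j - 1 := by push_cast; ring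
      have e2 : g - (j : ℤ) - 2 = g - j - 1 - 1 := by ring
      rw [e1]
      rw [e2] at h2
      linarith
  have hG' := hA g (by omega)
  set G' : ℚ := s * g + b' - s / 2 with hG'def
  have hG'0 : 0 ≤ G' := le_trans (by linarith [hmono g]) hG'
  have hC2 : ∀ j : ℕ, h g ≤ j * G' + h (g - j) := by
    intro j
    induction j with
    | zero => simp
    | succ j ih =>
      have h1 := hC1 j
      have e1 : g - ((j + 1 : ℕ) : ℤ) = g - j - 1 := by push_cast; ring
      rw [e1]
      push_cast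
      linarith
  have hex : ∃ j : ℕ, h (g - j) = 0 := by
    obtain ⟨m₁, hm₁⟩ := hbot
    exact ⟨(g - m₁).toNat, hm₁ _ (by omega)⟩
  have hC : h g ≤ 2 * G' ^ 2 := by
    classical
    have hJ := Nat.find_spec hex
    have hJm := fun i (hi : i < Nat.find hex) => Nat.find_min hex hi
    set J := Nat.find hex with hJdef
    have h1 := hC2 J
    rw [hJ, add_zero] at h1
    rcases Nat.eq_zero_or_pos J with h2 | h2
    · rw [h2] at h1
      simp only [Nat.cast_zero, zero_mul] at h1
      have := sq_nonneg G'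
      linarith
    · have h3 := hstart (J - 1) (hJm _ (by omega))
      have e1 : ((J - 1 : ℕ) : ℚ) = (J : ℚ) - 1 := by
        push_cast [h2]; ring
      rw [e1] at h3
      have hJ0 : (0 : ℚ) < J := by exact_mod_cast h2
      have h4 : (J : ℚ) * ((J : ℚ) + 1) / 2 ≤ J * G' := by
        have : (J : ℚ) * ((J : ℚ) + 1) / 2 = ((J : ℚ) - 1 + 1) * ((J : ℚ) - 1 + 2) / 2 := by ring
        linarith
      have h5 : ((J : ℚ) + 1) / 2 ≤ G' := by
        by_contra hcon
        push Not at hcon
        nlinarith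
      nlinarith
  intro m hm
  obtain ⟨j, rfl⟩ : ∃ j : ℕ, m = g + j := ⟨(m - g).toNat, by omega⟩
  have h1 := hB j
  have hlow : (s : ℚ) / 2 - s * g ≤ b' := by linarith
  have habs : |b'| ≤ |b| + |(s : ℚ) / 2 - s * g| := by
    rw [abs_le]
    constructor
    · have h2 := neg_abs_le ((s : ℚ) / 2 - s * g)
      have h3 := abs_nonneg b
      linarith
    · have h2 := le_abs_self b
      have h3 := abs_nonneg ((s : ℚ) / 2 - s * g)
      linarith
  have h4 : -(b' * g) ≤ (|b| + |(s : ℚ) / 2 - s * g|) * |(g : ℚ)| := by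
    calc -(b' * g) ≤ |b' * g| := neg_le_abs _
      _ = |b'| * |(g : ℚ)| := abs_mul _ _
      _ ≤ _ := mul_le_mul_of_nonneg_right habs (abs_nonneg _)
  have h5 : G' ≤ s * g + b - s / 2 := by linarith
  have h6 : G' ^ 2 ≤ (s * g + b - s / 2) ^ 2 := by
    exact pow_le_pow_left₀ hG'0 h5 2
  have hs0 : (0 : ℚ) ≤ s := Nat.cast_nonneg s
  have hg2 := sq_nonneg (g : ℚ)
  push_cast at h1 ⊢
  nlinarith

/-! ### lattice part -/

section

variable {k K V : Type} [Field k] [Field K] [Algebra k K] [AddCommGroup V] [Module k V]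
  [Module K V] [IsScalarTower k K V]

/-- a generic linear form is injective on `gr` in all degrees, for a saturated lattice -/
theorem exists_inj [Infinite k] {u v : K} {E : ℤ → Submodule k V} (hE : IsLat u v E)
    (hs : SAT u v E) :
    ∃ t : k, ∀ m, ∀ w ∈ E m, u • w + t • v • w ∈ E m → w ∈ E (m - 1) := by
  obtain ⟨T, M, h⟩ := P1.generic_l hE
  obtain ⟨t, ht⟩ := Infinite.exists_notMem_finset T
  refine ⟨t, ?_⟩
  have key : ∀ j : ℕ, ∀ m, M ≤ m + j → ∀ w ∈ E m, u • w + t • v • w ∈ E m → w ∈ E (m - 1) := by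
    intro j
    induction j with
    | zero =>
      intro m hm w hw hlw
      exact h t ht m (by simpa using hm) w hw hlw
    | succ j ih =>
      intro m hm w hw hlw
      have h1 : v • w ∈ E (m + 1) := hE.vmul m w hw
      have h2 : u • (v • w) + t • v • (v • w) ∈ E (m + 1) := by
        have := hE.vmul m _ hlw
        rw [smul_add, smul_comm v t, smul_comm v u] at this
        exact this
      have h3 := ih (m + 1) (by push_cast at hm; omega) _ h1 h2
      rw [add_sub_cancel_right] at h3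
      have h4 : u • w ∈ E m := by
        have := (E m).sub_mem hlw ((E m).smul_mem t h3)
        simpa using this
      exact hs m w hw h4 h3
  intro m
  exact key (M - m).toNat m (by omega)

/-- multiplication by an element of `K` -/
noncomputable def mul (k : Type) {K V : Type} [Field k] [Field K] [Algebra k K] [AddCommGroup V]
    [Module k V] [Module K V] [IsScalarTower k K V] (l : K) : V →ₗ[k] V :=
  (LinearMap.lsmul K V l).restrictScalars k

@[simp] theorem mul_apply (l : K) (x : V) : mul k l x = l • x := rfl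

theorem mul_inj {l : K} (hl : l ≠ 0) : Function.Injective (mul k l : V →ₗ[k] V) := by
  intro x y h
  simp only [mul_apply] at h
  exact smul_right_injective V hl h

theorem finrank_map {l : K} (hl : l ≠ 0) (S : Submodule k V) :
    finrank k (S.map (mul k l)) = finrank k S :=
  (LinearEquiv.finrank_eq (Submodule.equivMapOfInjective (mul k l) (mul_inj hl) S)).symm

theorem lform_ne {u v : K} (h : AlgebraicIndependent k ![u, v]) (t : k) :
    u + algebraMap k K t * v ≠ 0 := by
  intro h0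
  have h1 := E4.linearIndependent_monomials h
  have h2 : LinearIndependent k (fun x : Fin 2 => u ^ (![1, 0] x) * v ^ (![0, 1] x)) := by
    have := h1.comp (fun x : Fin 2 => ((![1, 0] x, ![0, 1] x) : ℕ × ℕ)) (by
      intro x y hxy
      fin_cases x <;> fin_cases y <;> simp_all)
    exact this
  rw [Fintype.linearIndependent_iff] at h2
  have h3 := h2 ![1, t] (by
    simp [Fin.sum_univ_two, Algebra.smul_def]
    exact h0) 0
  simp at h3

theorem bound_of_sat [Infinite k] {u v : K} (hu : AlgebraicIndependent k ![u, v])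
    {E E' : ℤ → Submodule k V} (_hE : IsLat u v E) (hE' : IsLat u v E')
    (hle : ∀ m, E m ≤ E' m) (heq : ∃ m₀ : ℤ, ∀ m ≥ m₀, E' m = E m) (hsat : SAT u v E') {g : ℤ}
    (hgen : ∀ m ≥ g, ∀ e ∈ E (m + 1), ∃ x ∈ E m, ∃ y ∈ E m, ∃ z ∈ E m, e = x + u • y + v • z)
    {s : ℕ} {b b' c' : ℚ} (hHP : HasHP E s b' c') (hb : b' ≤ b) :
    ∀ m ≥ g, (finrank k (E m) : ℚ) ≤ s / 2 * (m : ℚ) ^ 2 + b' * m +
      (2 * (s * g + b - s / 2) ^ 2 + (|b| + |(s : ℚ) / 2 - s * g|) * |(g : ℚ)|) := by
  obtain ⟨t, ht⟩ := exists_inj hE' hsat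
  set l : K := u + algebraMap k K t * v with hl
  have hlne : l ≠ 0 := lform_ne hu t
  have hvne : v ≠ 0 := by
    intro h0
    have h1 := E4.linearIndependent_monomials hu
    have := h1.ne_zero (0, 1)
    simp [h0] at this
  have hlw : ∀ w : V, l • w = u • w + t • v • w := by
    intro w
    rw [hl, add_smul, mul_smul, algebraMap_smul]
  have hfin : ∀ m, Module.Finite k (E' m) := hE'.fin
  obtain ⟨m₀, hm₀⟩ := heq
  -- one step
  have hmono1 : ∀ m, E' (m - 1) ≤ E' m := by
    intro m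
    have := hE'.mono (m - 1)
    rwa [sub_add_cancel] at this
  have hlmem : ∀ m, ∀ w ∈ E' (m - 1), l • w ∈ E' m := by
    intro m w hw
    rw [hlw]
    have h1 := hE'.umul _ _ hw
    have h2 := hE'.vmul _ _ hw
    rw [sub_add_cancel] at h1 h2
    exact (E' m).add_mem h1 ((E' m).smul_mem t h2)
  let W : ℤ → Submodule k V := fun m => E' (m - 1) ⊔ (E' (m - 1)).map (mul k l)
  have hWle : ∀ m, W m ≤ E' m := by
    intro m
    refine sup_le (hmono1 m) ?_
    rw [Submodule.map_le_iff_le_comap]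
    intro w hw
    exact hlmem m w hw
  have hWfin : ∀ m, Module.Finite k (W m) := fun m =>
    Submodule.finiteDimensional_of_le (hWle m)
  have hWrank : ∀ m, finrank k (W m) + finrank k (E' (m - 2)) = 2 * finrank k (E' (m - 1)) := by
    intro m
    have h1 : finrank k (W m) + finrank k
        ((E' (m - 1) ⊓ (E' (m - 1)).map (mul k l) : Submodule k V)) =
        finrank k (E' (m - 1)) + finrank k ((E' (m - 1)).map (mul k l)) :=
      Submodule.finrank_sup_add_finrank_inf_eq (E' (m - 1)) ((E' (m - 1)).map (mul k l))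
    have h2 : E' (m - 1) ⊓ (E' (m - 1)).map (mul k l) = (E' (m - 2)).map (mul k l) := by
      apply le_antisymm
      · rintro x ⟨hx1, w, hw, rfl⟩
        refine ⟨w, ?_, rfl⟩
        have hx1' : l • w ∈ E' (m - 1) := hx1
        rw [hlw] at hx1'
        have := ht (m - 1) w hw hx1'
        have e : m - 1 - 1 = m - 2 := by ring
        rwa [e] at this
      · rintro x ⟨w, hw, rfl⟩
        have e : m - 1 - 1 = m - 2 := by ring
        have hw' : w ∈ E' (m - 1 - 1) := by rwa [e]
        exact ⟨hlmem (m - 1) w hw', w, hmono1 (m - 1) hw', rfl⟩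
    rw [h2, finrank_map hlne, finrank_map hlne] at h1
    omega
  -- generation modulo W
  have hvW : ∀ m, ∀ w ∈ W m, v • w ∈ W (m + 1) := by
    intro m w hw
    obtain ⟨a, ha, c, ⟨d, hd, rfl⟩, rfl⟩ := Submodule.mem_sup.1 hw
    rw [smul_add]
    have e : m + 1 - 1 = m - 1 + 1 := by ring
    refine (W (m + 1)).add_mem ?_ ?_
    · apply Submodule.mem_sup_left
      rw [e]
      exact hE'.vmul _ _ ha
    · apply Submodule.mem_sup_right
      refine ⟨v • d, ?_, ?_⟩
      · rw [e]
        exact hE'.vmul _ _ hd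
      · simp only [mul_apply]
        rw [smul_comm]
  have hgenW : ∀ m ≥ g, ∀ j : ℕ, ∀ e ∈ E (m + j), ∃ w ∈ W (m + j), ∃ a ∈ E m,
      e = w + v ^ j • a := by
    intro m hm j
    induction j with
    | zero =>
      intro e he
      exact ⟨0, zero_mem _, e, by simpa using he, by simp⟩
    | succ j ih =>
      intro e he
      have he' : e ∈ E (m + j + 1) := by
        have e1 : m + ((j + 1 : ℕ) : ℤ) = m + j + 1 := by push_cast; ring
        rwa [e1] at he
      obtain ⟨x, hx, y, hy, z, hz, rfl⟩ := hgen (m + j) (by omega) e he'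
      obtain ⟨w, hw, a, ha, hwa⟩ := ih (z - t • y) ((E _).sub_mem hz ((E _).smul_mem t hy))
      have e1 : m + ((j + 1 : ℕ) : ℤ) = m + j + 1 := by push_cast; ring
      refine ⟨x + l • y + v • w, ?_, a, ha, ?_⟩
      · rw [e1]
        refine (W _).add_mem ((W _).add_mem ?_ ?_) (hvW _ _ hw)
        · apply Submodule.mem_sup_left
          rw [add_sub_cancel_right]
          exact hle _ hx
        · apply Submodule.mem_sup_right
          refine ⟨y, ?_, rfl⟩
          rw [add_sub_cancel_right]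
          exact hle _ hy
      · have h1 : v • z = v • (w + v ^ j • a) + t • v • y := by
          rw [← hwa, smul_sub, smul_comm v t]
          abel
        rw [h1, hlw, smul_add, smul_smul, ← pow_succ']
        abel
  -- second difference decreases
  have hD : ∀ m ≥ g, ∀ j : ℕ, m₀ ≤ m + j →
      finrank k (E' (m + j)) + finrank k (W m) ≤ finrank k (W (m + j)) + finrank k (E' m) := by
    intro m hm j hj
    have h1 : E' (m + j) ≤ W (m + j) ⊔ (E' m).map (mul k (v ^ j)) := by
      intro e he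
      rw [hm₀ _ hj] at he
      obtain ⟨w, hw, a, ha, rfl⟩ := hgenW m hm j e he
      exact Submodule.add_mem_sup hw ⟨a, hle _ ha, rfl⟩
    have h2 : (W m).map (mul k (v ^ j)) ≤ W (m + j) ⊓ (E' m).map (mul k (v ^ j)) := by
      refine le_inf ?_ (Submodule.map_mono (hWle m))
      rw [Submodule.map_le_iff_le_comap]
      intro w hw
      rw [Submodule.mem_comap, mul_apply]
      have h3 : ∀ j : ℕ, v ^ j • w ∈ W (m + j) := by
        intro j
        induction j with
        | zero => simpa using hw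
        | succ j ih =>
          have := hvW _ _ ih
          rw [smul_smul, ← pow_succ'] at this
          have e1 : m + ((j + 1 : ℕ) : ℤ) = m + j + 1 := by push_cast; ring
          rwa [e1]
      exact h3 j
    have h4 := Submodule.finrank_sup_add_finrank_inf_eq (W (m + j)) ((E' m).map (mul k (v ^ j)))
    rw [finrank_map (pow_ne_zero j hvne)] at h4
    have h5 : finrank k (E' (m + j)) ≤
        finrank k ((W (m + j) ⊔ (E' m).map (mul k (v ^ j)) : Submodule k V)) :=
      Submodule.finrank_mono h1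
    have h6 : finrank k ((W m).map (mul k (v ^ j))) ≤
        finrank k ((W (m + j) ⊓ (E' m).map (mul k (v ^ j)) : Submodule k V)) :=
      Submodule.finrank_mono h2
    rw [finrank_map (pow_ne_zero j hvne)] at h6
    omega
  obtain ⟨m₁, hm₁⟩ := hHP
  have hHP' : ∀ m ≥ max m₀ m₁, (finrank k (E' m) : ℚ) = s / 2 * (m : ℚ) ^ 2 + b' * m + c' := by
    intro m hm
    rw [hm₀ m ((le_max_left _ _).trans hm)]
    exact hm₁ m ((le_max_right _ _).trans hm)
  have hmain := numeric s b g (fun m => (finrank k (E' m) : ℚ))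
    (fun m => by exact_mod_cast Submodule.finrank_mono (hmono1 m))
    (fun m => by
      have h1 := hWrank m
      have h2 := Submodule.finrank_mono (hWle m)
      have h1' : (finrank k (W m) : ℚ) + finrank k (E' (m - 2)) = 2 * finrank k (E' (m - 1)) := by
        exact_mod_cast h1
      have h2' : (finrank k (W m) : ℚ) ≤ finrank k (E' m) := by exact_mod_cast h2
      linarith)
    (fun m hm => by
      obtain ⟨j, hj⟩ : ∃ j : ℕ, max m₀ m₁ ≤ m + j - 2 :=
        ⟨(max m₀ m₁ - m + 2).toNat, by omega⟩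
      have hj1 : m₀ ≤ m + j := by have := le_max_left m₀ m₁; omega
      have h1 := hD m hm j hj1
      have h2 := hWrank m
      have h3 := hWrank (m + j)
      have h1' : (finrank k (E' (m + j)) : ℚ) + finrank k (W m) ≤
        finrank k (W (m + j)) + finrank k (E' m) := by exact_mod_cast h1
      have h2' : (finrank k (W m) : ℚ) + finrank k (E' (m - 2)) = 2 * finrank k (E' (m - 1)) := by
        exact_mod_cast h2
      have h3' : (finrank k (W (m + j)) : ℚ) + finrank k (E' (m + j - 2)) =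
        2 * finrank k (E' (m + j - 1)) := by exact_mod_cast h3
      rw [hHP' (m + j) (by omega)] at h1'
      rw [hHP' (m + j - 2) hj, hHP' (m + j - 1) (by omega)] at h3'
      push_cast at h1' h3'
      linarith)
    ⟨_, hHP'⟩
    (by
      obtain ⟨m₂, hm₂⟩ := hE'.bot
      exact ⟨m₂, fun m hm => by simp [hm₂ m hm]⟩)
    (fun j hj => by
      -- a nonzero element in degree `g - j`
      have hne : E' (g - j) ≠ ⊥ := by
        intro h0
        apply hj
        simp [h0]
      obtain ⟨e, he, he0⟩ := Submodule.exists_mem_ne_zero_of_ne_bot hne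
      have hmonoj : ∀ i : ℤ, ∀ j : ℕ, E' i ≤ E' (i + j) := by
        intro i j
        induction j with
        | zero => simp
        | succ j ih =>
          refine ih.trans ?_
          have := hE'.mono (i + j)
          rw [add_assoc] at this
          exact_mod_cast this
      obtain ⟨T, hT, hTc⟩ := E4.exists_tri j
      have hli : LinearIndependent k (fun x : T => (u ^ x.1.1 * v ^ x.1.2) • e) := by
        have h1 : LinearIndependent k (fun x : T => u ^ x.1.1 * v ^ x.1.2) :=
          (E4.linearIndependent_monomials hu).comp (fun x : T => x.1) Subtype.val_injective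
        have h2 : LinearMap.ker ((LinearMap.toSpanSingleton K V e).restrictScalars k) = ⊥ := by
          rw [LinearMap.ker_eq_bot]
          intro x y hxy
          simp only [LinearMap.coe_restrictScalars, LinearMap.toSpanSingleton_apply] at hxy
          exact smul_left_injective K he0 hxy
        have h3 := h1.map' _ h2
        exact h3
      have hmem : ∀ x : T, (u ^ x.1.1 * v ^ x.1.2) • e ∈ E' g := by
        rintro ⟨⟨a, d⟩, hx⟩
        have had : a + d ≤ j := hT _ hx
        have h1 : ∀ a : ℕ, ∀ i : ℤ, ∀ e ∈ E' i, u ^ a • e ∈ E' (i + a) := by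
          intro a
          induction a with
          | zero => intro i e he; simpa using he
          | succ a ih =>
            intro i e he
            have := hE'.umul _ _ (ih i e he)
            rw [smul_smul, ← pow_succ'] at this
            rw [add_assoc] at this
            exact_mod_cast this
        have h2 : ∀ b : ℕ, ∀ i : ℤ, ∀ e ∈ E' i, v ^ b • e ∈ E' (i + b) := by
          intro b
          induction b with
          | zero => intro i e he; simpa using he
          | succ b ih =>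
            intro i e he
            have := hE'.vmul _ _ (ih i e he)
            rw [smul_smul, ← pow_succ'] at this
            rw [add_assoc] at this
            exact_mod_cast this
        have h3 := h1 a _ _ (h2 d _ e he)
        rw [smul_smul] at h3
        obtain ⟨c, hc⟩ := Nat.exists_eq_add_of_le had
        have h4 := hmonoj _ c h3
        have h5 : g - (j : ℤ) + (d : ℤ) + a + c = g := by rw [hc]; push_cast; ring
        rw [h5] at h4
        exact h4
      have hli' : LinearIndependent k (fun x : T =>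
          (⟨(u ^ x.1.1 * v ^ x.1.2) • e, hmem x⟩ : E' g)) :=
        LinearIndependent.of_comp (E' g).subtype hli
      have hcard := hli'.fintype_card_le_finrank
      rw [Fintype.card_coe, hTc] at hcard
      have h7 : (dimA j : ℚ) ≤ finrank k (E' g) := by exact_mod_cast hcard
      rw [E4.dimA_cast (by omega)] at h7
      push_cast at h7
      exact h7) hb
  intro m hm
  refine le_trans ?_ (hmain m hm)
  exact_mod_cast Submodule.finrank_mono (hle m)

end

/-- P6, uniform form -/
theorem p6_bound (s : ℕ) (b : ℚ) (g : ℤ) : ∃ C : ℚ, ∀ (k K V : Type) [Field k] [Infinite k]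
    [Field K] [Algebra k K] [AddCommGroup V] [Module k V] [Module K V] [IsScalarTower k K V]
    (u v : K) (E : ℤ → Submodule k V), IsRat k u v → IsLat u v E →
    (∀ m ≥ g, ∀ e ∈ E (m + 1), ∃ x ∈ E m, ∃ y ∈ E m, ∃ z ∈ E m, e = x + u • y + v • z) →
    ∀ b' c' : ℚ, HasHP E s b' c' → b' ≤ b →
      ∀ m ≥ g, (finrank k (E m) : ℚ) ≤ s / 2 * (m : ℚ) ^ 2 + b' * m + C := by
  refine ⟨2 * (s * g + b - s / 2) ^ 2 + (|b| + |(s : ℚ) / 2 - s * g|) * |(g : ℚ)|, ?_⟩
  intro k K V _ _ _ _ _ _ _ _ u v E hK hE hgen b' c' hHP hb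
  obtain ⟨E', -, hE', hle, heq, hsat⟩ := exists_sat hK hE
  exact bound_of_sat hK.indep hE hE' hle heq hsat hgen hHP hb

end Crest.Agent.R169.P6
end

-- ▼ part R169/E4Core
section

/-!
# Row 169, Part E4: transfer of near-semistability (helper822)
-/

set_option autoImplicit false

namespace Crest.Agent.R169.E4

open Module

section

variable {P : Type} (𝒰 : Ultrafilter P)

theorem exists_of_le (𝒰 : Ultrafilter P) {f : P → ℕ} {n : ℕ}
    (h : ∀ᶠ p in (𝒰 : Filter P), f p ≤ n) : ∃ a ≤ n, ∀ᶠ p in (𝒰 : Filter P), f p = a := by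
  induction n with
  | zero => exact ⟨0, le_rfl, h.mono fun p hp => Nat.le_zero.1 hp⟩
  | succ n ih =>
    have h1 : ∀ᶠ p in (𝒰 : Filter P), f p ≤ n ∨ f p = n + 1 := h.mono fun p hp => by omega
    rcases Ultrafilter.eventually_or.1 h1 with h2 | h2
    · obtain ⟨a, ha, h3⟩ := ih h2
      exact ⟨a, by omega, h3⟩
    · exact ⟨n + 1, le_rfl, h2⟩

theorem nss_transfer_core {k : P → Type} {Q : P → Type} [∀ p, Field (k p)]
    [∀ p, Infinite (k p)] [∀ p, Field (Q p)] [∀ p, Algebra (k p) (Q p)]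
    (D : ∀ p, TData (k p) (Q p)) {K QK : Type} [Field K] [Infinite K] [Field QK] [Algebra K QK]
    (Di : TData K QK) {R : ℕ} (G : ℤ → Submodule K (Fin R → QK))
    (Gp : ∀ p, ℤ → Submodule (k p) (Fin R → Q p)) {n : ℕ} {b c : ℚ} (hn : 0 < n)
    (hG : IsLat Di.u Di.v G) (hHP : HasHP G n b c) (hNSS : NSS (Q := QK) G n b)
    (hGp : ∀ᶠ p in (𝒰 : Filter P), IsLat (D p).u (D p).v (Gp p))
    (hHPp : ∀ᶠ p in (𝒰 : Filter P), HasHP (Gp p) n b c)
    (g : ℤ) (hgen : ∀ᶠ p in (𝒰 : Filter P), ∀ m ≥ g, ∀ e ∈ Gp p (m + 1),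
      ∃ x ∈ Gp p m, ∃ y ∈ Gp p m, ∃ z ∈ Gp p m, e = x + (D p).u • y + (D p).v • z)
    (hfin : ∀ m, ∀ᶠ p in (𝒰 : Filter P), finrank (k p) (Gp p m) = finrank K (G m))
    (hinter : ∀ Up : ∀ p, Submodule (Q p) (Fin R → Q p), ∃ Uinf : Submodule QK (Fin R → QK),
      ∀ m, ∀ᶠ p in (𝒰 : Filter P),
        finrank (k p) (interU (Gp p) (Up p) m) = finrank K (interU G Uinf m)) :
    ∀ᶠ p in (𝒰 : Filter P), NSS (Q := Q p) (Gp p) n b := by
  classical
  by_contra hcon
  have hcon1 : ∀ᶠ p in (𝒰 : Filter P), ¬ NSS (Q := Q p) (Gp p) n b :=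
    Ultrafilter.eventually_not.2 hcon
  have hcon2 : ∀ᶠ p in (𝒰 : Filter P), ∃ U : Submodule (Q p) (Fin R → Q p),
      ∃ (n₁ : ℕ) (b₁ c₁ : ℚ), HasHP (interU (Gp p) U) n₁ b₁ c₁ ∧
        (n₁ : ℚ) * (n - n₁) / 2 < b₁ * n - n₁ * b := by
    refine hcon1.mono fun p hp => ?_
    unfold NSS at hp
    push Not at hp
    obtain ⟨U, n₁, b₁, c₁, h1, h2⟩ := hp
    exact ⟨U, n₁, b₁, c₁, h1, h2⟩
  -- choose
  let Up : ∀ p, Submodule (Q p) (Fin R → Q p) := fun p =>
    if h : ∃ U : Submodule (Q p) (Fin R → Q p),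
      ∃ (n₁ : ℕ) (b₁ c₁ : ℚ), HasHP (interU (Gp p) U) n₁ b₁ c₁ ∧
        (n₁ : ℚ) * (n - n₁) / 2 < b₁ * n - n₁ * b then h.choose else ⊥
  have hUp : ∀ᶠ p in (𝒰 : Filter P), ∃ (n₁ : ℕ) (b₁ c₁ : ℚ),
      HasHP (interU (Gp p) (Up p)) n₁ b₁ c₁ ∧
        (n₁ : ℚ) * (n - n₁) / 2 < b₁ * n - n₁ * b := by
    refine hcon2.mono fun p hp => ?_
    have : Up p = hp.choose := dif_pos hp
    rw [this]
    exact hp.choose_spec
  clear_value Up
  let n₁ : P → ℕ := fun p => if h : ∃ (n₁ : ℕ) (b₁ c₁ : ℚ),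
      HasHP (interU (Gp p) (Up p)) n₁ b₁ c₁ ∧
        (n₁ : ℚ) * (n - n₁) / 2 < b₁ * n - n₁ * b then h.choose else 0
  have hn₁ : ∀ᶠ p in (𝒰 : Filter P), ∃ (b₁ c₁ : ℚ),
      HasHP (interU (Gp p) (Up p)) (n₁ p) b₁ c₁ ∧
        (n₁ p : ℚ) * (n - n₁ p) / 2 < b₁ * n - n₁ p * b := by
    refine hUp.mono fun p hp => ?_
    have : n₁ p = hp.choose := dif_pos hp
    rw [this]
    exact hp.choose_spec
  clear_value n₁
  -- n₁ ≤ n
  have hle : ∀ᶠ p in (𝒰 : Filter P), n₁ p ≤ n := by
    filter_upwards [hn₁, hGp, hHPp] with p h1 h2 h3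
    obtain ⟨b₁, c₁, ⟨m₁, hm₁⟩, _⟩ := h1
    obtain ⟨m₂, hm₂⟩ := h3
    have h4 := quad_le (a₁ := (n₁ p : ℚ) / 2) (a₂ := (n : ℚ) / 2) (b₁ := b₁) (b₂ := b)
      (c₁ := c₁) (c₂ := c) (m₀ := max m₁ m₂) (fun m hm => by
        rw [← hm₁ m ((le_max_left _ _).trans hm), ← hm₂ m ((le_max_right _ _).trans hm)]
        have : Module.Finite (k p) (Gp p m) := h2.fin m
        exact_mod_cast Submodule.finrank_mono (inf_le_left : Gp p m ⊓ _ ≤ Gp p m))
    have h5 : (n₁ p : ℚ) ≤ n := by linarith [h4.1]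
    exact_mod_cast h5
  obtain ⟨n₀, hn₀, hn₀p⟩ := exists_of_le 𝒰 hle
  have hn₀b : ∀ᶠ p in (𝒰 : Filter P), ∃ (b₁ c₁ : ℚ),
      HasHP (interU (Gp p) (Up p)) n₀ b₁ c₁ ∧
        (n₀ : ℚ) * (n - n₀) / 2 < b₁ * n - n₀ * b := by
    filter_upwards [hn₁, hn₀p] with p h1 h2
    rwa [h2] at h1
  obtain ⟨Uinf, hUinf⟩ := hinter Up
  -- the critical slope bound
  have hn' : (0 : ℚ) < n := by exact_mod_cast hn
  set β : ℚ := (n₀ * b + (n₀ : ℚ) * (n - n₀) / 2 + 1 / 4) / n with hβ
  have hβn : β * n = n₀ * b + (n₀ : ℚ) * (n - n₀) / 2 + 1 / 4 := by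
    rw [hβ]; field_simp
  obtain ⟨tb, htb⟩ := (two_mul_b hHP)
  have hbound : ∀ᶠ p in (𝒰 : Filter P), ∃ (b₁ c₁ : ℚ),
      HasHP (interU (Gp p) (Up p)) n₀ b₁ c₁ ∧ β ≤ b₁ := by
    refine hn₀b.mono fun p hp => ?_
    obtain ⟨b₁, c₁, h1, h2⟩ := hp
    refine ⟨b₁, c₁, h1, ?_⟩
    obtain ⟨t, ht⟩ := (two_mul_b h1)
    have h3 : (0 : ℚ) < ((t * n - n₀ * tb - n₀ * (n - n₀) : ℤ) : ℚ) := by
      push_cast
      rw [← ht, ← htb]
      linarith
    have h4 : (1 : ℚ) ≤ ((t * n - n₀ * tb - n₀ * (n - n₀) : ℤ) : ℚ) := by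
      have : (0 : ℤ) < (t * n - n₀ * tb - n₀ * (n - n₀) : ℤ) := by exact_mod_cast h3
      exact_mod_cast this
    push_cast at h4
    rw [← ht, ← htb] at h4
    rw [hβ, div_le_iff₀ hn']
    linarith
  obtain ⟨C, hC⟩ := P6.p6_bound (n - n₀) (b - β) g
  have hcastn : ((n - n₀ : ℕ) : ℚ) = (n : ℚ) - n₀ := by push_cast [hn₀]; ring
  -- the two sided estimate for the dimensions in the limit
  have hest : ∀ m : ℤ, max g 0 ≤ m →
      (finrank K (G m) : ℚ) - (((n : ℚ) - n₀) / 2 * (m : ℚ) ^ 2 + (b - β) * m + C)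
        ≤ finrank K (interU G Uinf m) ∧
      (finrank K (interU G Uinf m) : ℚ) + ((n : ℚ) - n₀) * dimA (m - g) ≤ finrank K (G m) := by
    intro m hm
    have hmg : g ≤ m := (le_max_left _ _).trans hm
    have hm0 : 0 ≤ m := (le_max_right _ _).trans hm
    have hall := (((hbound.and hGp).and (hHPp.and hgen)).and ((hfin m).and (hUinf m)))
    obtain ⟨p, ⟨⟨⟨b₁, c₁, h1, h2⟩, h3⟩, ⟨h4, h5⟩⟩, ⟨h6, h7⟩⟩ := hall.exists
    -- quotient lattice over k(u,v)
    have hq : IsLat (D p).u (D p).v (quotU (Gp p) (Up p)) := h3.quotU (Up p)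
    have hqK : IsLat (⟨(D p).u, IntermediateField.subset_adjoin _ _ (by simp)⟩ : (D p).K0)
      (⟨(D p).v, IntermediateField.subset_adjoin _ _ (by simp)⟩ : (D p).K0)
      (quotU (Gp p) (Up p)) := IsLat.restrict (L := (D p).K0) (Q := Q p) hq
    have hqHP := h4.quotU h3 (Up p) h1 hn₀
    have hgenq : ∀ m ≥ g, ∀ e ∈ quotU (Gp p) (Up p) (m + 1),
        ∃ x ∈ quotU (Gp p) (Up p) m, ∃ y ∈ quotU (Gp p) (Up p) m,
        ∃ z ∈ quotU (Gp p) (Up p) m, e = x + (D p).u • y + (D p).v • z := by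
      rintro m hm _ ⟨e, he, rfl⟩
      obtain ⟨x, hx, y, hy, z, hz, rfl⟩ := h5 m hm e he
      exact ⟨_, ⟨x, hx, rfl⟩, _, ⟨y, hy, rfl⟩, _, ⟨z, hz, rfl⟩, by simp⟩
    have hadd := finrank_add h3 (Up p) m
    rw [h6, h7] at hadd
    have hadd' : (finrank K (G m) : ℚ) = finrank K (interU G Uinf m)
        + finrank (k p) (quotU (Gp p) (Up p) m) := by exact_mod_cast hadd
    constructor
    · have hP6 := hC (k p) (D p).K0 _ _ _ (quotU (Gp p) (Up p)) (D p).isRat hqK hgenq
        _ _ hqHP (by linarith) m hmg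
      rw [hcastn] at hP6
      have hm0' : (0 : ℚ) ≤ m := by exact_mod_cast hm0
      nlinarith
    · obtain ⟨b₂, c₂, h8, -, -⟩ := hqK.exists_hasHP (D p).isRat
      have hrk := (hasHP_unique hqHP h8).1
      have hlow := le_finrank_of_gen (K := (D p).K0) (D p).isRat.indep hqK (g := g) hgenq m
      rw [← hrk] at hlow
      have hlow' : (((n - n₀ : ℕ) : ℚ)) * dimA (m - g)
          ≤ finrank (k p) (quotU (Gp p) (Up p) m) := by exact_mod_cast hlow
      rw [hcastn] at hlow'
      linarith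
  -- Hilbert polynomial of the limit
  have hGU : IsLat Di.u Di.v (interU G Uinf) := hG.interU Uinf
  have hGUK : IsLat (⟨Di.u, IntermediateField.subset_adjoin _ _ (by simp)⟩ : Di.K0)
      (⟨Di.v, IntermediateField.subset_adjoin _ _ (by simp)⟩ : Di.K0)
      (interU G Uinf) := IsLat.restrict (L := Di.K0) (Q := QK) hGU
  obtain ⟨b', c', hHP', -, -⟩ := hGUK.exists_hasHP Di.isRat
  set n' := rk Di.K0 (interU G Uinf) with hn'def
  have hHP'' := hHP'
  obtain ⟨m₁, hm₁⟩ := hHP'
  have hHPG := hHP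
  obtain ⟨m₂, hm₂⟩ := hHPG
  have e1 := quad_le (a₁ := (n₀ : ℚ) / 2) (a₂ := (n' : ℚ) / 2) (b₁ := β) (b₂ := b')
    (c₁ := c - C) (c₂ := c') (m₀ := max (max g 0) (max m₁ m₂)) (fun m hm => by
      have h1 := (hest m ((le_max_left _ _).trans hm)).1
      rw [hm₁ m ((le_max_left _ _).trans ((le_max_right _ _).trans hm)),
        hm₂ m ((le_max_right _ _).trans ((le_max_right _ _).trans hm))] at h1
      linarith)
  have e2 := quad_le (a₁ := (n' : ℚ) / 2) (a₂ := (n₀ : ℚ) / 2) (b₁ := b')
    (b₂ := b - ((n : ℚ) - n₀) * (3 / 2 - g))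
    (c₁ := c') (c₂ := c - ((n : ℚ) - n₀) * ((1 - g) * (2 - g) / 2))
    (m₀ := max (max g 0) (max m₁ m₂)) (fun m hm => by
      have h0 : max g 0 ≤ m := (le_max_left _ _).trans hm
      have h1 := (hest m h0).2
      rw [hm₁ m ((le_max_left _ _).trans ((le_max_right _ _).trans hm)),
        hm₂ m ((le_max_right _ _).trans ((le_max_right _ _).trans hm)),
        dimA_cast (by have := (le_max_left g 0).trans h0; omega)] at h1
      push_cast at h1
      linarith)
  have hnn : n' = n₀ := by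
    have h1 : (n' : ℚ) = n₀ := by linarith [e1.1, e2.1]
    exact_mod_cast h1
  have hb' : β ≤ b' := e1.2 (by rw [hnn])
  have hfinal := hNSS Uinf n' b' c' hHP''
  rw [hnn] at hfinal
  nlinarith

end

end Crest.Agent.R169.E4
end

-- ▼ part R169/E4
section

/-!
# Row 169, Part E4: transfer of near-semistability, end statement (helper822)
-/

set_option autoImplicit false

namespace Crest.Agent.R169.E4

open Module

section

variable {Q : PP → Type} [∀ p, Field (Q p)] [∀ p, Algebra (Kp p) (Q p)]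
  {Qs : Type} [Field Qs] [Algebra KStar Qs]
  {D : ∀ p, TData (Kp p) (Q p)} {Ds : TData KStar Qs}

/-- ultralimit of `Q`-subspaces -/
def ulimQ (X : UFam D Ds) {R : ℕ} (Up : ∀ p, Submodule (Q p) (Fin R → Q p)) :
    Submodule Qs (Fin R → Qs) where
  carrier := {y | ∃ x : ∀ p, Fin R → Q p, AE (fun p => x p ∈ Up p) ∧ X.Lim x y}
  add_mem' := by
    rintro y y' ⟨x, hx, hl⟩ ⟨x', hx', hl'⟩
    exact ⟨_, (hx.and hx').mono (fun p hp => (Up p).add_mem hp.1 hp.2), hl.add hl'⟩
  zero_mem' := ⟨_, AE.of_forall (fun p => (Up p).zero_mem), UFam.Lim.zero⟩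
  smul_mem' := by
    rintro q y ⟨x, hx, hl⟩
    obtain ⟨f, hf⟩ := ucls_surjective (Q := Q) (X.ι q)
    exact ⟨_, hx.mono (fun p hp => (Up p).smul_mem (f p) hp), hl.qsmul hf.symm⟩

theorem ulimQ_restrict (X : UFam D Ds) {R : ℕ} (Up : ∀ p, Submodule (Q p) (Fin R → Q p)) :
    (ulimQ X Up).restrictScalars KStar = X.ulim (fun p => (Up p).restrictScalars (Kp p)) := by
  ext y
  exact Iff.rfl

end

theorem main : E4Stmt := by
  intro Q _ _ Qs _ _ D Ds X N bT cT c1 _ R G n b c Gp hG hHP hn hT hNSS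
  have : ∀ p, Infinite (Kp p) := fun p => IsAlgClosed.instInfinite
  have : Infinite KStar := IsAlgClosed.instInfinite
  obtain ⟨g, hg⟩ := hT.gen
  obtain ⟨a, ha⟩ := hT.box
  obtain ⟨m₀, hm₀⟩ := hT.hp
  refine nss_transfer_core (P := PP) UU D Ds G Gp hn hG.lat hHP hNSS
    (AE.mono hT.lat (fun p hp => hp.lat)) (AE.mono hm₀ (fun p hp => ⟨m₀, hp⟩)) g hg ?_ ?_
  · intro m
    have h1 := UFam.ae_finrank_eq (X := X) (m := m + a) (E := fun p => Gp p m) (ha m)
    rw [hT.lim m] at h1
    exact h1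
  · intro Up
    refine ⟨ulimQ X Up, fun m => ?_⟩
    have hb : AE (fun p => interU (Gp p) (Up p) m ≤ (D p).box R (m + a)) :=
      (ha m).mono (fun p hp => inf_le_left.trans hp)
    have h1 := UFam.ae_finrank_eq (X := X) (m := m + a) (E := fun p => interU (Gp p) (Up p) m) hb
    have h2 : X.ulim (fun p => interU (Gp p) (Up p) m) = interU G (ulimQ X Up) m := by
      have h3 := UFam.ulim_inf (X := X) (fun p => Gp p m)
        (fun p => (Up p).restrictScalars (Kp p))
      rw [hT.lim m, ← ulimQ_restrict] at h3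
      exact h3
    rw [h2] at h1
    exact h1

end Crest.Agent.R169.E4
end

-- ▼ part R169/E5
section

/-!
# Row 169, Part E5: the explicit data `D7 (Kp p)` form a uniform family with ultralimit `D7 KStar`

* `E5.X7 : UFam (fun p => D7 (Kp p)) (D7 KStar)`
* `E5.unifT7 : UnifT (fun p => D7 (Kp p)) (D7 KStar) 1715 (-(8575 / 2)) 4802 700`
-/

set_option autoImplicit false

noncomputable section

namespace Crest.Agent.R169

open Crest.R169

instance neZeroKp (p : PP) : NeZero ((7 : ℕ) : Kp p) := by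
  refine ⟨fun h => ?_⟩
  have h1 := (CharP.cast_eq_zero_iff (Kp p) p.val 7).1 h
  have h2 := Nat.le_of_dvd (by norm_num) h1
  have h3 := p.seven_lt
  omega

instance neZeroKStar : NeZero ((7 : ℕ) : KStar) := ⟨by exact_mod_cast (by norm_num : (7 : ℕ) ≠ 0)⟩

namespace E5

/-- the fields `Q_p` -/
abbrev QQ (p : PP) : Type := QField 7 (Kp p)

/-- the field `Q_*` -/
abbrev QS : Type := QField 7 KStar

/-- the structure map `K_* → ∏ Q_p / U` -/
def kap : KStar →+* UProd QQ :=
  Ideal.Quotient.lift nullIdeal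
    (ucls.comp (RingHom.pi fun p => (algebraMap (Kp p) (QQ p)).comp (Pi.evalRingHom _ p)))
    (by
      intro a ha
      have h1 : AE (fun p => a p = 0) := ha
      rw [RingHom.comp_apply, ucls_eq_zero]
      refine h1.mono ?_
      intro p hp
      change algebraMap (Kp p) (QQ p) (a p) = 0
      rw [hp, map_zero])


local instance algU : Algebra KStar (UProd QQ) := kap.toAlgebra

theorem algU_cls (c : ∀ p, Kp p) :
    algebraMap KStar (UProd QQ) (cls c) = ucls (fun p => algebraMap (Kp p) (QQ p) (c p)) := rfl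

theorem cls_smul (c : ∀ p, Kp p) (f : ∀ p, QQ p) :
    cls c • ucls f = ucls (fun p => c p • f p) := by
  rw [Algebra.smul_def, algU_cls, ← map_mul]
  congr 1
  funext p
  rw [Pi.mul_apply, Algebra.smul_def]

/-- images of the generators -/
def zU (j : Fin 5) : UProd QQ := ucls (fun p => algebraMap (ORing 7 (Kp p)) (QQ p) (z 7 (Kp p) j))

theorem zU_rel (j : Fin 5) : zU j ^ 7 * zU (j + 1) ^ 7 = 1 + zU (j + 3) ^ 7 := by
  unfold zU
  rw [← map_pow, ← map_pow, ← map_pow, ← map_mul, ← map_one (ucls (Q := QQ)), ← map_add]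
  congr 1
  funext p
  simp only [Pi.mul_apply, Pi.pow_apply, Pi.add_apply, Pi.one_apply]
  rw [← map_pow, ← map_pow, ← map_pow, ← map_mul, z_rel, map_add, map_one]

/-- the map on the ring `O` -/
def io : ORing 7 KStar →ₐ[KStar] UProd QQ := ORing.lift zU zU_rel

theorem io_z (j : Fin 5) : io (z 7 KStar j) =
    ucls (fun p => algebraMap (ORing 7 (Kp p)) (QQ p) (z 7 (Kp p) j)) :=
  ORing.lift_z _ _ j

theorem io_zm (β : Fin 5 → ℕ) : io (zm 7 KStar β) =
    ucls (fun p => algebraMap (ORing 7 (Kp p)) (QQ p) (zm 7 (Kp p) β)) := by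
  unfold zm
  rw [map_prod]
  simp only [map_pow, io_z]
  simp only [← map_pow ucls]
  rw [← map_prod ucls]
  congr 1
  funext p
  rw [Finset.prod_apply, map_prod]
  simp only [Pi.pow_apply, map_pow]

theorem io_sum {ι : Type} (S : Finset ι) (g : ι → Fin 5 → ℕ) (d : ι → ∀ p, Kp p) :
    io (∑ β ∈ S, cls (d β) • zm 7 KStar (g β)) =
      ucls (fun p => algebraMap (ORing 7 (Kp p)) (QQ p)
        (∑ β ∈ S, d β p • zm 7 (Kp p) (g β))) := by
  rw [map_sum]
  simp only [map_smul, io_zm, cls_smul]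
  rw [← map_sum]
  congr 1
  funext p
  rw [Finset.sum_apply, map_sum]
  refine Finset.sum_congr rfl fun β _ => ?_
  rw [Algebra.smul_def, Algebra.smul_def, map_mul]
  rfl

theorem io_injective : Function.Injective io := by
  rw [injective_iff_map_eq_zero]
  intro x hx
  have h1 : x = ∑ β ∈ ((zBasis 7 KStar).repr x).support,
      cls (rep ((zBasis 7 KStar).repr x β)) • zm 7 KStar β.1 := by
    conv_lhs => rw [← (zBasis 7 KStar).linearCombination_repr x]
    rw [Finsupp.linearCombination_apply, Finsupp.sum]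
    simp
  rw [h1, io_sum, ucls_eq_zero] at hx
  have h2 : ∀ β ∈ ((zBasis 7 KStar).repr x).support, (zBasis 7 KStar).repr x β = 0 := by
    intro β hβ
    rw [← cls_rep ((zBasis 7 KStar).repr x β), cls_eq_zero]
    refine hx.mono ?_
    intro p hp
    have h3 := D7Aux.toQ_injective (n := 7) (k := Kp p) (hp.trans (map_zero _).symm)
    have h4 := linearIndependent_iff'.1 (linearIndependent_zm 7 (Kp p))
    exact h4 _ _ h3 β hβ
  rw [h1]
  exact Finset.sum_eq_zero fun β hβ => by rw [cls_rep, h2 β hβ, zero_smul]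

/-- the embedding `Q_* → ∏ Q_p / U` -/
def iQ : QS →+* UProd QQ := IsFractionRing.lift (A := ORing 7 KStar) (g := io.toRingHom) io_injective

theorem iQ_algebraMap (x : ORing 7 KStar) : iQ (algebraMap (ORing 7 KStar) QS x) = io x :=
  IsFractionRing.lift_algebraMap io_injective x

/-- finite set of exponents -/
def expo (m : ℤ) : Finset (Fin 5 → ℕ) := (finite_weight_le m).toFinset

theorem mem_Fil_iff_sum (k : Type) [Field k] (m : ℤ) (x : ORing 7 k) :
    x ∈ Fil 7 k m ↔ ∃ d : (Fin 5 → ℕ) → k, x = ∑ β ∈ expo m, d β • zm 7 k β := by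
  have h1 : {γ : Fin 5 → ℕ | ∀ i, w i γ ≤ m} = (expo m : Set (Fin 5 → ℕ)) := by
    simp [expo]
  constructor
  · intro hx
    rw [Fil, h1] at hx
    rw [Submodule.mem_span_image_finset_iff_exists_fun] at hx
    obtain ⟨d, hd⟩ := hx
    classical
    refine ⟨fun β => if h : β ∈ expo m then d ⟨β, h⟩ else 0, ?_⟩
    rw [← hd, ← Finset.sum_attach (expo m), Finset.univ_eq_attach]
    refine Finset.sum_congr rfl fun β _ => ?_
    dsimp only
    rw [dif_pos β.2]
  · rintro ⟨d, rfl⟩
    refine Submodule.sum_mem _ fun β hβ => Submodule.smul_mem _ _ (zm_mem_Fil ?_)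
    have : β ∈ (expo m : Set (Fin 5 → ℕ)) := hβ
    rw [← h1] at this
    exact this

/-- **the uniform family** -/
def X7 : UFam (fun p => D7 (Kp p)) (D7 KStar) where
  ι := iQ
  ι_alg := by
    intro c
    rw [IsScalarTower.algebraMap_apply KStar (ORing 7 KStar) QS, iQ_algebraMap, AlgHom.commutes]
    exact algU_cls c
  ι_u := by
    rw [D7_u, iQ_algebraMap]
    unfold uO
    rw [map_add, map_add, io_z, io_z, io_z, ← map_add, ← map_add]
    congr 1
    funext p
    rw [D7_u, uO, map_add, map_add]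
    rfl
  ι_v := by
    rw [D7_v, iQ_algebraMap]
    unfold vO
    rw [map_add, map_add, io_z, io_z, io_z, ← map_add, ← map_add]
    congr 1
    funext p
    rw [D7_v, vO, map_add, map_add]
    rfl
  lim_ex := by
    intro m x hx
    have h1 : AE (fun p => ∃ d : (Fin 5 → ℕ) → Kp p,
        x p = algebraMap (ORing 7 (Kp p)) (QQ p) (∑ β ∈ expo m, d β • zm 7 (Kp p) β)) := by
      refine hx.mono ?_
      rintro p ⟨y, hy, hyx⟩
      obtain ⟨d, hd⟩ := (mem_Fil_iff_sum (Kp p) m y).1 hy
      exact ⟨d, by rw [← hd]; exact hyx.symm⟩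
    obtain ⟨d, hd⟩ := AE.choose (α := fun p => (Fin 5 → ℕ) → Kp p) h1
    refine ⟨algebraMap (ORing 7 KStar) QS (∑ β ∈ expo m, cls (fun p => d p β) • zm 7 KStar β),
      ⟨_, (mem_Fil_iff_sum KStar m _).2 ⟨_, rfl⟩, rfl⟩, ?_⟩
    rw [iQ_algebraMap, io_sum, ucls_eq_iff]
    exact hd.mono (fun p hp => hp.symm)
  rep_ex := by
    rintro m y ⟨y', hy', rfl⟩
    obtain ⟨d, hd⟩ := (mem_Fil_iff_sum KStar m y').1 hy'
    refine ⟨fun p => algebraMap (ORing 7 (Kp p)) (QQ p)
      (∑ β ∈ expo m, rep (d β) p • zm 7 (Kp p) β), fun p => ⟨_,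
        (mem_Fil_iff_sum (Kp p) m _).2 ⟨_, rfl⟩, rfl⟩, ?_⟩
    have h1 : y' = ∑ β ∈ expo m, cls (rep (d β)) • zm 7 KStar β := by simp [hd]
    rw [h1, ← io_sum]
    exact iQ_algebraMap _

theorem unifT7 : UnifT (fun p => D7 (Kp p)) (D7 KStar) 1715 (-(8575 / 2)) 4802 700 where
  N_pos := by norm_num
  hp := fun p => (D7_hilb (Kp p)).hp
  hps := (D7_hilb KStar).hp
  gen := fun p => fun m hm e he => D7_gen (Kp p) m (by exact_mod_cast hm) e he
  gens := fun m hm e he => D7_gen KStar m (by exact_mod_cast hm) e he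

/-- Part E modulo E3 and E4 -/
theorem partE_of' (h3 : E3Stmt) (h4 : E4Stmt) (hs : EScaleStmt) :
    ∀ {R : ℕ} (G : ℤ → Submodule KStar (Fin R → QField 7 KStar))
    (_ : IsTLat (D7 KStar) G) {n : ℕ} {b c : ℚ} (_ : 0 < n) (_ : HasHP G n b c)
    (_ : NSS (Q := QField 7 KStar) G n b) (p0 : ℕ),
    ∃ p : PP, p0 ≤ p.val ∧ ∃ G' : ℤ → Submodule (Kp p) (Fin R → QField 7 (Kp p)),
      IsTLat (D7 (Kp p)) G' ∧ HasHP G' n b c ∧ NSS (Q := QField 7 (Kp p)) G' n b := by
  intro R G hG n b c hn hHP hN p0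
  obtain ⟨p, hp, G', h⟩ := partE_of h3 h4 hs X7 unifT7 R G n b c hn hG hHP hN p0
  exact ⟨p, hp.le, G', h⟩

end E5

end Crest.Agent.R169
end
end

-- ▼ part R169/EScale

/-!
# Row 169, Part E: scaling a `T`-lattice into a box (`EScaleStmt`)
-/

set_option autoImplicit false

namespace Crest.Agent.R169.EScale

open Crest.Agent.R169

variable {k Q : Type} [Field k] [Field Q] [Algebra k Q] (D : TData k Q)

/-- common denominators of finitely many elements -/
theorem exists_denom {ι : Type} (s : Finset ι) (q : ι → Q) :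
    ∃ (l : ℤ), 0 ≤ l ∧ ∃ g ∈ D.F l, g ≠ 0 ∧ ∀ i ∈ s, g * q i ∈ D.F l := by
  classical
  induction s using Finset.induction_on with
  | empty => exact ⟨0, le_rfl, 1, D.one_mem_zero, one_ne_zero, by simp⟩
  | insert a s ha ih =>
    obtain ⟨l, hl, g, hg, hg0, h⟩ := ih
    obtain ⟨m, f, hf, g', hg', hg'0, hq⟩ := D.frac (q a)
    have hm : 0 ≤ m := by
      by_contra hm
      push Not at hm
      rw [D.F_neg m hm, Submodule.mem_bot] at hg'
      exact hg'0 hg'
    refine ⟨l + m, by omega, g * g', D.mul_mem _ _ _ hg _ hg', mul_ne_zero hg0 hg'0, ?_⟩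
    intro i hi
    rw [Finset.mem_insert] at hi
    rcases hi with rfl | hi
    · have : g * g' * q i = g * f := by rw [← hq]; ring
      rw [this]
      exact D.mul_mem _ _ _ hg _ hf
    · have : g * g' * q i = (g * q i) * g' := by ring
      rw [this]
      exact D.mul_mem _ _ _ (h i hi) _ hg'

theorem mono_of_le {V : Type} [AddCommGroup V] [Module k V] {E : ℤ → Submodule k V}
    (h : ∀ m, E m ≤ E (m + 1)) {i j : ℤ} (hij : i ≤ j) : E i ≤ E j := by
  obtain ⟨n, rfl⟩ := Int.le.dest hij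
  clear hij
  induction n with
  | zero => simp
  | succ n ih =>
    refine ih.trans ?_
    have := h (i + n)
    rwa [add_assoc] at this

variable {D} {R : ℕ}

theorem exists_box {G : ℤ → Submodule k (Fin R → Q)} (hG : IsTLat D G) :
    ∃ f : Q, f ≠ 0 ∧ ∃ a : ℤ, ∀ m, ∀ x ∈ G m, f • x ∈ D.box R (m + a) := by
  classical
  obtain ⟨m₁, hm₁⟩ := hG.lat.gen
  obtain ⟨m₀, hm₀⟩ := hG.lat.bot
  have := hG.lat.fin m₁
  let b := Module.finBasis k (G m₁)
  obtain ⟨l, hl, g, hg, hg0, h⟩ := exists_denom D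
    (Finset.univ : Finset (Fin (Module.finrank k (G m₁)) × Fin R))
    (fun ij => (b ij.1 : Fin R → Q) ij.2)
  have h1 : ∀ x ∈ G m₁, g • x ∈ D.box R l := by
    intro x hx
    have hx' : x = ∑ i, b.repr ⟨x, hx⟩ i • (b i : Fin R → Q) := by
      have h2 := b.sum_repr ⟨x, hx⟩
      have h3 := congrArg Subtype.val h2
      simp only [Submodule.coe_sum, Submodule.coe_smul] at h3
      exact h3.symm
    rw [hx', Finset.smul_sum]
    refine Submodule.sum_mem _ (fun i _ => ?_)
    rw [smul_comm]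
    refine Submodule.smul_mem _ _ ?_
    rw [TData.mem_box]
    intro j
    exact h (i, j) (Finset.mem_univ _)
  have h2 : ∀ n : ℕ, ∀ x ∈ G (m₁ + n), g • x ∈ D.box R (l + n) := by
    intro n
    induction n with
    | zero => simpa using h1
    | succ n ih =>
      intro x hx
      have hx' : x ∈ G (m₁ + n + 1) := by
        have : m₁ + ((n + 1 : ℕ) : ℤ) = m₁ + n + 1 := by push_cast; ring
        rwa [this] at hx
      obtain ⟨a, ha, b', hb', c, hc, rfl⟩ := hm₁ (m₁ + n) (by omega) x hx'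
      have e1 : l + ((n + 1 : ℕ) : ℤ) = 1 + (l + n) := by push_cast; ring
      rw [e1, TData.mem_box]
      intro i
      have ha' := TData.mem_box.1 (ih a ha) i
      have hb'' := TData.mem_box.1 (ih b' hb') i
      have hc' := TData.mem_box.1 (ih c hc) i
      have t1 := D.mul_mem 1 _ _ D.one_mem _ ha'
      have t2 := D.mul_mem 1 _ _ D.u_mem _ hb''
      have t3 := D.mul_mem 1 _ _ D.v_mem _ hc'
      have e2 : (g • (a + D.u • b' + D.v • c)) i =
          1 * (g • a) i + D.u * (g • b') i + D.v * (g • c) i := by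
        simp only [Pi.smul_apply, Pi.add_apply, smul_eq_mul]
        ring
      rw [e2]
      exact Submodule.add_mem _ (Submodule.add_mem _ t1 t2) t3
  refine ⟨g, hg0, l + |m₁| + |m₀|, ?_⟩
  intro m x hx
  by_cases hm : m ≤ m₀
  · rw [hm₀ m hm, Submodule.mem_bot] at hx
    rw [hx, smul_zero]
    exact Submodule.zero_mem _
  · push Not at hm
    rw [TData.mem_box]
    intro i
    by_cases hm' : m₁ ≤ m
    · have h3 := h2 (m - m₁).toNat x (by rw [Int.toNat_of_nonneg (by omega)]; convert hx using 2; ring)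
      have h4 := TData.mem_box.1 h3 i
      refine D.F_mono ?_ h4
      rw [Int.toNat_of_nonneg (by omega)]
      have := neg_abs_le m₁
      have := abs_nonneg m₀
      omega
    · push Not at hm'
      have h3 := h1 x (mono_of_le hG.lat.mono hm'.le hx)
      have h4 := TData.mem_box.1 h3 i
      refine D.F_mono ?_ h4
      have := neg_abs_le m₀
      have := abs_nonneg m₁
      omega

/-- scaled family -/
def scl (f : Q) (G : ℤ → Submodule k (Fin R → Q)) : ℤ → Submodule k (Fin R → Q) :=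
  fun m => (G m).map (Algebra.lsmul k k (Fin R → Q) f)

theorem mem_scl {f : Q} {G : ℤ → Submodule k (Fin R → Q)} {m : ℤ} {x : Fin R → Q} :
    x ∈ scl f G m ↔ ∃ y ∈ G m, f • y = x := by
  simp [scl, Submodule.mem_map]

theorem lsmul_inj {f : Q} (hf : f ≠ 0) :
    Function.Injective (Algebra.lsmul k k (Fin R → Q) f) := by
  intro x y hxy
  have : f • x = f • y := hxy
  exact smul_right_injective _ hf this

theorem finrank_scl {f : Q} (hf : f ≠ 0) (G : ℤ → Submodule k (Fin R → Q)) (m : ℤ) :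
    Module.finrank k (scl f G m) = Module.finrank k (G m) :=
  (Submodule.equivMapOfInjective _ (lsmul_inj hf) (G m)).finrank_eq.symm

theorem isTLat_scl {f : Q} (hf : f ≠ 0) {G : ℤ → Submodule k (Fin R → Q)} (hG : IsTLat D G) :
    IsTLat D (scl f G) where
  lat :=
    { mono := fun m => Submodule.map_mono (hG.lat.mono m)
      umul := by
        intro m e he
        obtain ⟨y, hy, rfl⟩ := mem_scl.1 he
        exact mem_scl.2 ⟨D.u • y, hG.lat.umul m y hy, smul_comm _ _ _⟩
      vmul := by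
        intro m e he
        obtain ⟨y, hy, rfl⟩ := mem_scl.1 he
        exact mem_scl.2 ⟨D.v • y, hG.lat.vmul m y hy, smul_comm _ _ _⟩
      fin := by
        intro m
        have := hG.lat.fin m
        exact Module.Finite.equiv (Submodule.equivMapOfInjective _ (lsmul_inj hf) (G m))
      bot := by
        obtain ⟨m₀, h⟩ := hG.lat.bot
        exact ⟨m₀, fun m hm => by rw [scl, h m hm, Submodule.map_bot]⟩
      gen := by
        obtain ⟨m₁, h⟩ := hG.lat.gen
        refine ⟨m₁, fun m hm e he => ?_⟩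
        obtain ⟨y, hy, rfl⟩ := mem_scl.1 he
        obtain ⟨a, ha, b, hb, c, hc, rfl⟩ := h m hm y hy
        refine ⟨f • a, mem_scl.2 ⟨a, ha, rfl⟩, f • b, mem_scl.2 ⟨b, hb, rfl⟩,
          f • c, mem_scl.2 ⟨c, hc, rfl⟩, ?_⟩
        rw [smul_add, smul_add, smul_comm f D.u b, smul_comm f D.v c] }
  act := by
    intro i j g hg e he
    obtain ⟨y, hy, rfl⟩ := mem_scl.1 he
    exact mem_scl.2 ⟨g • y, hG.act i j g hg y hy, smul_comm _ _ _⟩
  full := by
    rw [eq_top_iff, ← hG.full, spanK, Submodule.span_le]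
    intro x hx
    obtain ⟨m, hm⟩ := Set.mem_iUnion.1 hx
    have h1 : f • x ∈ spanK Q (scl f G) :=
      Submodule.subset_span (Set.mem_iUnion.2 ⟨m, mem_scl.2 ⟨x, hm, rfl⟩⟩)
    have h2 := (spanK Q (scl f G)).smul_mem f⁻¹ h1
    rwa [inv_smul_smul₀ hf] at h2

theorem interU_scl {f : Q} (hf : f ≠ 0) (G : ℤ → Submodule k (Fin R → Q))
    (U : Submodule Q (Fin R → Q)) : interU (scl f G) U = scl f (interU G U) := by
  funext m
  ext x
  simp only [interU, Submodule.mem_inf, mem_scl, Submodule.restrictScalars_mem]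
  constructor
  · rintro ⟨⟨y, hy, rfl⟩, hU⟩
    refine ⟨y, ⟨hy, ?_⟩, rfl⟩
    have h2 := U.smul_mem f⁻¹ hU
    rwa [inv_smul_smul₀ hf] at h2
  · rintro ⟨y, ⟨hy, hU⟩, rfl⟩
    exact ⟨⟨y, hy, rfl⟩, U.smul_mem f hU⟩

theorem hasHP_scl {f : Q} (hf : f ≠ 0) {G : ℤ → Submodule k (Fin R → Q)} {n : ℕ} {b c : ℚ} :
    HasHP (scl f G) n b c ↔ HasHP G n b c := by
  simp only [HasHP, finrank_scl hf]

theorem main : EScaleStmt := by
  intro k Q _ _ _ D R G n b c hG hHP hN
  obtain ⟨f, hf, a, h⟩ := exists_box hG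
  refine ⟨scl f G, isTLat_scl hf hG, (hasHP_scl hf).2 hHP, ?_, a, ?_⟩
  · intro U n₁ b₁ c₁ hU
    rw [interU_scl hf, hasHP_scl hf] at hU
    exact hN U n₁ b₁ c₁ hU
  · intro m x hx
    obtain ⟨y, hy, rfl⟩ := mem_scl.1 hx
    exact h m y hy

end Crest.Agent.R169.EScale
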