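import Mathlib

/-!
# Row 169: the graded ring `T = ⊕ F_m X^m` and its completion `R = ∏ F_m X^m`

`Fil k Q` is a multiplicative filtration `F : ℕ → Submodule k Q` of a field `Q` with `F 0 = k`.
`Fil.T` is the Rees-type ring `{p ∈ Q[X] | ∀ m, coeff m p ∈ F m}`,
`Fil.R` is the ring `{f ∈ Q⟦X⟧ | ∀ m, coeff m f ∈ F m}`.
-/

set_option autoImplicit false

noncomputable section

namespace Crest.Agent.R169

open Polynomial

variable (k Q : Type) [Field k] [Field Q] [Algebra k Q]

/-- A multiplicative filtration of the field `Q` by `k`-subspaces, `F 0 = k`. -/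
structure Fil where
  /-- the subspaces -/
  F : ℕ → Submodule k Q
  zero_eq : F 0 = 1
  mul_le : ∀ i j, F i * F j ≤ F (i + j)

variable {k Q}

namespace Fil

variable (𝓕 : Fil k Q)

lemma algebraMap_mem (r : k) : algebraMap k Q r ∈ 𝓕.F 0 := by
  rw [𝓕.zero_eq]
  exact Submodule.algebraMap_mem r

lemma one_mem_zero : (1 : Q) ∈ 𝓕.F 0 := by
  simpa using 𝓕.algebraMap_mem 1

lemma mul_mem {i j : ℕ} {a b : Q} (ha : a ∈ 𝓕.F i) (hb : b ∈ 𝓕.F j) : a * b ∈ 𝓕.F (i + j) :=
  𝓕.mul_le i j (Submodule.mul_mem_mul ha hb)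

lemma pow_mem {i : ℕ} {a : Q} (ha : a ∈ 𝓕.F i) (n : ℕ) : a ^ n ∈ 𝓕.F (n * i) := by
  induction n with
  | zero => simpa using 𝓕.one_mem_zero
  | succ n ih =>
    have := 𝓕.mul_mem ih ha
    rw [pow_succ]
    convert this using 2
    ring

lemma mem_zero_iff {a : Q} : a ∈ 𝓕.F 0 ↔ ∃ r : k, algebraMap k Q r = a := by
  rw [𝓕.zero_eq]
  exact Submodule.mem_one

/-- The graded ring `T = ⊕ F_m X^m` as a subalgebra of `Q[X]`. -/
def T : Subalgebra k Q[X] where
  carrier := {p | ∀ m, p.coeff m ∈ 𝓕.F m}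
  mul_mem' := by
    intro p q hp hq m
    rw [Polynomial.coeff_mul]
    refine Submodule.sum_mem _ fun x hx => ?_
    rw [← Finset.HasAntidiagonal.mem_antidiagonal.mp hx]
    exact 𝓕.mul_mem (hp _) (hq _)
  add_mem' := by
    intro p q hp hq m
    rw [Polynomial.coeff_add]
    exact Submodule.add_mem _ (hp m) (hq m)
  algebraMap_mem' := by
    intro r m
    rw [Polynomial.algebraMap_apply, Polynomial.coeff_C]
    split_ifs with h
    · subst h; exact 𝓕.algebraMap_mem r
    · exact Submodule.zero_mem _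

/-- The complete ring `R = ∏ F_m X^m` as a subalgebra of `Q⟦X⟧`. -/
def R : Subalgebra k (PowerSeries Q) where
  carrier := {f | ∀ m, PowerSeries.coeff m f ∈ 𝓕.F m}
  mul_mem' := by
    intro p q hp hq m
    rw [PowerSeries.coeff_mul]
    refine Submodule.sum_mem _ fun x hx => ?_
    rw [← Finset.HasAntidiagonal.mem_antidiagonal.mp hx]
    exact 𝓕.mul_mem (hp _) (hq _)
  add_mem' := by
    intro p q hp hq m
    rw [map_add]
    exact Submodule.add_mem _ (hp m) (hq m)
  algebraMap_mem' := by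
    intro r m
    rw [PowerSeries.algebraMap_apply, PowerSeries.coeff_C]
    split_ifs with h
    · subst h; exact 𝓕.algebraMap_mem r
    · exact Submodule.zero_mem _



/-- `q X^m` as an element of `T`. -/
def mono (m : ℕ) (q : 𝓕.F m) : 𝓕.T :=
  ⟨monomial m (q : Q), fun n => by
    rw [Polynomial.coeff_monomial]
    split_ifs with h
    · subst h; exact q.2
    · exact Submodule.zero_mem _⟩

@[simp] lemma coe_mono (m : ℕ) (q : 𝓕.F m) : (𝓕.mono m q : Q[X]) = monomial m (q : Q) := rfl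

/-- The homogeneous piece of degree `m` of `T`. -/
def piece (m : ℕ) : Submodule k 𝓕.T where
  carrier := {p | ∀ n, n ≠ m → (p : Q[X]).coeff n = 0}
  add_mem' := by
    intro p q hp hq n hn
    simp [hp n hn, hq n hn]
  zero_mem' := by
    intro n _
    simp
  smul_mem' := by
    intro c p hp n hn
    have : ((c • p : 𝓕.T) : Q[X]) = c • (p : Q[X]) := rfl
    rw [this, Polynomial.coeff_smul, hp n hn, smul_zero]


end Fil

/-- The hypotheses on `F` relative to the two coordinate functions `u v`: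
`F 1` contains `1, u, v`, all `F m` are finite dimensional, `F` is eventually generated by
`1, u, v`, and `u, v` are algebraically independent. -/
structure FilUV (𝓕 : Fil k Q) (u v : Q) : Prop where
  one_mem : (1 : Q) ∈ 𝓕.F 1
  u_mem : u ∈ 𝓕.F 1
  v_mem : v ∈ 𝓕.F 1
  finite : ∀ m, Module.Finite k (𝓕.F m)
  gen : ∃ c : ℕ, ∀ m, c ≤ m → ∀ q ∈ 𝓕.F (m + 1),
    ∃ a ∈ 𝓕.F m, ∃ b ∈ 𝓕.F m, ∃ d ∈ 𝓕.F m, q = a + u * b + v * d
  indep : AlgebraicIndependent k ![u, v]

/-- Property (N): homogeneous almost integrality, i.e. normality of `T`. -/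
def FilNormal (𝓕 : Fil k Q) : Prop :=
  ∀ (q : Q) (m l : ℕ) (c : Q), c ≠ 0 → c ∈ 𝓕.F l → (∀ n, c * q ^ n ∈ 𝓕.F (l + n * m)) → q ∈ 𝓕.F m

end Crest.Agent.R169
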