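import Crest.Agent.R169.Hilb
import Crest.Agent.R169.Bridge
import Crest.Agent.R169.P2
import Crest.Agent.R169.C.SlopeEnd_Mg

-- ▼ part R169/LatBasic
section

/-!
# Basic facts on lattices used by P4 and P5
(owner helper649)
-/

set_option autoImplicit false
set_option linter.unusedSectionVars false

namespace Crest.Agent.R169.LatB

open Module

variable {k K V : Type} [Field k] [Field K] [Algebra k K] [AddCommGroup V] [Module k V]
  [Module K V] {u v : K} {E E' : ℤ → Submodule k V}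

/-- the `K`-span of a lattice is finite dimensional -/
theorem finite_spanK [IsScalarTower k K V] (hE : IsLat u v E) :
    Module.Finite K (spanK K E) := by
  obtain ⟨m₁, hm₁⟩ := hE.gen
  have hmono : ∀ (a : ℤ) (j : ℕ), E a ≤ E (a + j) := by
    intro a j
    induction j with
    | zero => simp
    | succ j ih =>
      refine ih.trans ?_
      have := hE.mono (a + j)
      push_cast
      rwa [← add_assoc]
  have key : ∀ j : ℕ, (E (m₁ + j) : Set V) ⊆ Submodule.span K (E m₁ : Set V) := by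
    intro j
    induction j with
    | zero => simp
    | succ j ih =>
      intro x hx
      have hx' : x ∈ E (m₁ + j + 1) := by
        have h : (m₁ + ((j + 1 : ℕ) : ℤ)) = m₁ + j + 1 := by push_cast; ring
        rw [h] at hx
        exact hx
      obtain ⟨a, ha, b, hb, c, hc, rfl⟩ := hm₁ (m₁ + j) (by omega) x hx'
      exact Submodule.add_mem _ (Submodule.add_mem _ (ih ha) (Submodule.smul_mem _ _ (ih hb)))
        (Submodule.smul_mem _ _ (ih hc))
  have hspan : spanK K E = Submodule.span K (E m₁ : Set V) := by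
    apply le_antisymm
    · refine Submodule.span_le.mpr ?_
      intro x hx
      obtain ⟨m, hm⟩ := Set.mem_iUnion.mp hx
      rcases le_total m m₁ with h | h
      · have := hmono m (m₁ - m).toNat
        have h2 : m + ((m₁ - m).toNat : ℤ) = m₁ := by omega
        rw [h2] at this
        exact Submodule.subset_span (this hm)
      · have := key (m - m₁).toNat
        have h2 : m₁ + ((m - m₁).toNat : ℤ) = m := by omega
        rw [h2] at this
        exact this hm
    · exact Submodule.span_mono (Set.subset_iUnion (fun m => (E m : Set V)) m₁)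
  have := hE.fin m₁
  obtain ⟨s, hs⟩ := (Submodule.fg_top (E m₁)).mp (Module.finite_def.mp this)
  have h2 : Submodule.span K (E m₁ : Set V) = Submodule.span K (s : Set V) := by
    rw [← hs]
    apply le_antisymm
    · refine Submodule.span_le.mpr ?_
      intro x hx
      exact Submodule.span_subset_span k K _ hx
    · exact Submodule.span_mono Submodule.subset_span
  rw [hspan, h2]
  exact Module.Finite.iff_fg.mpr ⟨s, rfl⟩

theorem eq_bot_of_rk_eq_zero [IsScalarTower k K V] (hE : IsLat u v E)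
    (h : rk K E = 0) (m : ℤ) : E m = ⊥ := by
  have := finite_spanK hE
  have h2 : spanK K E = ⊥ := Submodule.finrank_eq_zero.mp h
  rw [eq_bot_iff]
  intro x hx
  have : x ∈ spanK K E := Submodule.subset_span (Set.mem_iUnion.mpr ⟨m, hx⟩)
  rw [h2] at this
  exact this

theorem rk_eq_zero_of_eq_bot (h : ∀ m, E m = ⊥) : rk K E = 0 := by
  have h2 : spanK K E = ⊥ := by
    rw [spanK, Submodule.span_eq_bot]
    intro x hx
    obtain ⟨m, hm⟩ := Set.mem_iUnion.mp hx
    rw [h m] at hm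
    exact hm
  rw [rk, h2]
  exact finrank_bot K V

theorem hasHP_zero (h : ∀ m, E m = ⊥) : HasHP E 0 0 0 := by
  refine ⟨0, fun m _ => ?_⟩
  rw [h m]
  simp

section Sub

variable [IsScalarTower k K V]

theorem interU_top : interU E (⊤ : Submodule K V) = E := by
  funext m
  simp [interU]

theorem interU_interU (U W : Submodule K V) (h : W ≤ U) :
    interU (interU E U) W = interU E W := by
  funext m
  ext x
  simp only [interU, Submodule.mem_inf, Submodule.restrictScalars_mem]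
  constructor
  · rintro ⟨⟨h1, _⟩, h3⟩
    exact ⟨h1, h3⟩
  · rintro ⟨h1, h2⟩
    exact ⟨⟨h1, h h2⟩, h2⟩

theorem interU_quotU (U W : Submodule K V) (U'' : Submodule K (V ⧸ W)) :
    interU (quotU (interU E U) W) U'' = quotU (interU E (U ⊓ U''.comap W.mkQ)) W := by
  funext m
  ext x
  simp only [interU, quotU, Submodule.mem_inf, Submodule.restrictScalars_mem, Submodule.mem_map]
  constructor
  · rintro ⟨⟨y, ⟨h1, h2⟩, rfl⟩, h3⟩
    exact ⟨y, ⟨h1, h2, h3⟩, rfl⟩
  · rintro ⟨y, ⟨h1, h2, h3⟩, rfl⟩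
    exact ⟨⟨y, ⟨h1, h2⟩, rfl⟩, h3⟩

theorem interU_mono {U W : Submodule K V} (h : W ≤ U) (m : ℤ) : interU E W m ≤ interU E U m :=
  inf_le_inf_left _ (fun _ hx => h hx)

/-- the Hilbert polynomial of the quotient `(E ∩ U) / W`. -/
theorem hasHP_sub_quot (hE : IsLat u v E) {U W : Submodule K V} (hWU : W ≤ U)
    {n n₁ : ℕ} {b b₁ c c₁ : ℚ} (h : HasHP (interU E U) n b c)
    (h1 : HasHP (interU E W) n₁ b₁ c₁) (hn : n₁ ≤ n) :
    HasHP (quotU (interU E U) W) (n - n₁) (b - b₁) (c - c₁) := by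
  obtain ⟨m₀, hm₀⟩ := h
  obtain ⟨m₁, hm₁⟩ := h1
  refine ⟨max m₀ m₁, fun m hm => ?_⟩
  have e0 := hm₀ m (le_trans (le_max_left _ _) hm)
  have e1 := hm₁ m (le_trans (le_max_right _ _) hm)
  have e2 := finrank_add (hE.interU U) W m
  rw [interU_interU U W hWU] at e2
  have e3 : (finrank k (interU E U m) : ℚ)
      = finrank k (interU E W m) + finrank k (quotU (interU E U) W m) := by exact_mod_cast e2
  rw [Nat.cast_sub hn]
  linarith

theorem rk_interU_le (hE : IsLat u v E) {U W : Submodule K V} (h : W ≤ U) :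
    rk K (interU E W) ≤ rk K (interU E U) :=
  rk_le_of_le (hE.interU U) (hE.interU W) ⟨0, fun m _ => interU_mono h m⟩

theorem hasHP_interU [Infinite k] (hK : IsRat k u v) (hE : IsLat u v E) (U : Submodule K V) :
    HasHP (interU E U) (rk K (interU E U)) (hb (interU E U)) (hc (interU E U)) :=
  (hE.interU U).hasHP hK

theorem interU_rk_zero [Infinite k] (hK : IsRat k u v) (hE : IsLat u v E) (U : Submodule K V)
    (h : rk K (interU E U) = 0) : hb (interU E U) = 0 ∧ hc (interU E U) = 0 := by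
  have h1 := hasHP_interU hK hE U
  have h2 := hasHP_zero (fun m => eq_bot_of_rk_eq_zero (hE.interU U) h m)
  have := hasHP_unique h1 h2
  exact this.2

end Sub

end Crest.Agent.R169.LatB
end

-- ▼ part R169/P4
section

/-!
# P4: the Bogomolov inequality for stable lattices
(owner helper649)
-/

set_option autoImplicit false
set_option linter.unusedSectionVars false

namespace Crest.Agent.R169.P4

open Module LatB

variable {k K V : Type} [Field k] [Field K] [Algebra k K] [AddCommGroup V] [Module k V]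
  [Module K V] {u v : K} {E E' : ℤ → Submodule k V}

/-! ### numerics -/

/-- the Hilbert polynomial of `A` -/
def PA (m : ℤ) : ℚ := ((m : ℚ) + 1) * (m + 2) / 2

theorem dimA_of_nonneg {m : ℤ} (hm : -2 ≤ m) : (dimA m : ℚ) = PA m := by
  obtain ⟨j, hj⟩ : ∃ j : ℕ, m = (j : ℤ) - 2 := ⟨(m + 2).toNat, by omega⟩
  subst hj
  rcases Nat.eq_zero_or_pos j with h0 | hpos
  · subst h0
    simp [dimA, PA]
  · obtain ⟨i, rfl⟩ : ∃ i, j = i + 1 := ⟨j - 1, by omega⟩
    have h1 : ((((i + 1 : ℕ) : ℤ) - 2) + 1).toNat = i := by omega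
    have h2 : ((((i + 1 : ℕ) : ℤ) - 2) + 2).toNat = i + 1 := by omega
    unfold dimA PA
    rw [h1, h2]
    have h3 : 2 ∣ i * (i + 1) := (Nat.even_mul_succ_self i).two_dvd
    obtain ⟨t, ht⟩ := h3
    rw [ht, Nat.mul_div_cancel_left _ (by norm_num)]
    have h4 : (i : ℚ) * (i + 1) = 2 * t := by exact_mod_cast ht
    push_cast
    linarith

theorem dimA_of_neg {m : ℤ} (hm : m < 0) : dimA m = 0 := by
  have h1 : (m + 1).toNat = 0 := by omega
  simp [dimA, h1]

theorem PA_eq (m : ℤ) : PA m = dimA m + dimA (-m - 3) := by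
  rcases lt_or_ge m (-2) with h | h
  · rw [dimA_of_neg (by omega), dimA_of_nonneg (m := -m - 3) (by omega)]
    simp only [PA]
    push_cast
    ring
  · rw [dimA_of_nonneg h, dimA_of_neg (m := -m - 3) (by omega)]
    simp

theorem poly_unique {a b c a' b' c' : ℚ} {m₀ : ℤ}
    (h : ∀ m ≥ m₀, a * (m : ℚ) ^ 2 + b * m + c = a' * (m : ℚ) ^ 2 + b' * m + c') :
    a = a' ∧ b = b' ∧ c = c' := by
  have h0 := h m₀ le_rfl
  have h1 := h (m₀ + 1) (by omega)
  have h2 := h (m₀ + 2) (by omega)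
  push_cast at h1 h2
  have e1 : a = a' := by nlinarith
  subst e1
  have e2 : b = b' := by nlinarith
  subst e2
  exact ⟨rfl, rfl, by linarith⟩

/-- the numerical identity: `χ = n² + 2nJ`. -/
theorem chi_identity {ι : Type} [Fintype ι] (ε : ι → ℚ) (D : ι → ℤ) {n : ℕ} {b c : ℚ}
    (hn : 0 < n) {m₀ : ℤ}
    (h : ∀ m ≥ m₀, ∑ t, ε t * PA (m - D t) = (n : ℚ) / 2 * (m : ℚ) ^ 2 + b * m + c) :
    ∑ s, ∑ t, ε s * ε t * PA (D s - D t) = (n : ℚ) ^ 2 + 2 * n * Jinv n b c := by
  set N := ∑ t, ε t with hN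
  set S1 := ∑ t, ε t * D t with hS1
  set S2 := ∑ t, ε t * (D t : ℚ) ^ 2 with hS2
  have h1 : ∀ m : ℤ, ∑ t, ε t * PA (m - D t)
      = N / 2 * (m : ℚ) ^ 2 + (3 / 2 * N - S1) * m + (S2 / 2 - 3 / 2 * S1 + N) := by
    intro m
    have : ∀ t, ε t * PA (m - D t) = ε t * ((m : ℚ) ^ 2 / 2 + 3 / 2 * m + 1)
        + ε t * D t * (-(m : ℚ) - 3 / 2) + ε t * (D t : ℚ) ^ 2 * (1 / 2) := by
      intro t
      simp only [PA]
      push_cast
      ring
    rw [Finset.sum_congr rfl fun t _ => this t, Finset.sum_add_distrib, Finset.sum_add_distrib,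
      ← Finset.sum_mul, ← Finset.sum_mul, ← Finset.sum_mul, ← hN, ← hS1, ← hS2]
    ring
  obtain ⟨e1, e2, e3⟩ := poly_unique (m₀ := m₀) (fun m hm => (h1 m).symm.trans (h m hm))
  have e1' : N = n := by linarith
  have h2 : ∑ s, ∑ t, ε s * ε t * PA (D s - D t) = N * S2 - S1 ^ 2 + N ^ 2 := by
    have : ∀ s, ∑ t, ε s * ε t * PA (D s - D t)
        = ε s * (D s : ℚ) ^ 2 * (N / 2) + ε s * D s * (3 / 2 * N - S1)
          + ε s * (S2 / 2 - 3 / 2 * S1 + N) := by
      intro s
      rw [Finset.sum_congr rfl fun t _ => (mul_assoc (ε s) (ε t) _), ← Finset.mul_sum, h1]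
      ring
    rw [Finset.sum_congr rfl fun s _ => this s, Finset.sum_add_distrib, Finset.sum_add_distrib,
      ← Finset.sum_mul, ← Finset.sum_mul, ← Finset.sum_mul, ← hN, ← hS1, ← hS2]
    ring
  rw [h2, e1']
  rw [e1'] at e2 e3
  have hn' : (n : ℚ) ≠ 0 := by exact_mod_cast hn.ne'
  unfold Jinv
  rw [← e2, ← e3]
  field_simp
  ring

/-! ### multiplication by polynomials -/

section Poly

variable [IsScalarTower k K V]

theorem pow_smul_mem (hE : IsFam u v E) {m : ℤ} {x : V} (hx : x ∈ E m) (i j : ℕ) :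
    (u ^ i * v ^ j) • x ∈ E (m + i + j) := by
  induction i with
  | zero =>
    induction j with
    | zero => simpa using hx
    | succ j ih =>
      have h := hE.vmul _ _ ih
      have e1 : m + ((0 : ℕ) : ℤ) + ((j + 1 : ℕ) : ℤ) = m + ((0 : ℕ) : ℤ) + j + 1 := by
        push_cast; ring
      rw [e1]
      have e2 : (u ^ 0 * v ^ (j + 1)) • x = v • (u ^ 0 * v ^ j) • x := by
        rw [smul_smul]; ring_nf
      rw [e2]
      exact h
  | succ i ih =>
    have h := hE.umul _ _ ih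
    have e1 : m + ((i + 1 : ℕ) : ℤ) + (j : ℤ) = m + i + j + 1 := by
      push_cast; ring
    rw [e1]
    have e2 : (u ^ (i + 1) * v ^ j) • x = u • (u ^ i * v ^ j) • x := by
      rw [smul_smul]; ring_nf
    rw [e2]
    exact h

theorem fam_mono (hE : IsFam u v E) {m m' : ℤ} (h : m ≤ m') : E m ≤ E m' := by
  obtain ⟨j, rfl⟩ : ∃ j : ℕ, m' = m + j := ⟨(m' - m).toNat, by omega⟩
  clear h
  induction j with
  | zero => simp
  | succ j ih =>
    refine ih.trans ?_
    have := hE.mono (m + j)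
    push_cast
    rwa [← add_assoc]

theorem polyLE_smul_mem (hE : IsFam u v E) {m m' : ℤ} {x : V} {p : K}
    (hp : p ∈ polyLE k u v m) (hx : x ∈ E m') : p • x ∈ E (m' + m) := by
  refine Submodule.span_induction (p := fun p _ => p • x ∈ E (m' + m)) ?_ ?_ ?_ ?_ hp
  · rintro _ ⟨i, j, hij, rfl⟩
    exact fam_mono hE (by omega) (pow_smul_mem hE hx i j)
  · rw [zero_smul]; exact Submodule.zero_mem _
  · intro a b _ _ ha hb
    rw [add_smul]; exact Submodule.add_mem _ ha hb
  · intro a b _ hb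
    rw [smul_assoc]; exact Submodule.smul_mem _ _ hb

theorem isFam (hE : IsLat u v E) : IsFam u v E := ⟨hE.mono, hE.umul, hE.vmul⟩

end Poly

/-! ### the slope lemma -/

section Slope

variable [IsScalarTower k K V]

theorem finrank_map_add_ker (φ : V →ₗ[K] V) (S : Submodule k V) [Module.Finite k S] :
    finrank k (S.map (φ.restrictScalars k)) +
      finrank k (S ⊓ (LinearMap.ker φ).restrictScalars k : Submodule k V) = finrank k S := by
  have h := LinearMap.finrank_range_add_finrank_ker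
    ((φ.restrictScalars k).domRestrict S)
  have h1 : LinearMap.range ((φ.restrictScalars k).domRestrict S)
      = S.map (φ.restrictScalars k) := by
    rw [LinearMap.range_domRestrict]
  have h2 : (LinearMap.ker ((φ.restrictScalars k).domRestrict S)).map S.subtype
      = S ⊓ (LinearMap.ker φ).restrictScalars k := by
    ext x
    constructor
    · rintro ⟨y, hy, rfl⟩
      refine ⟨y.2, ?_⟩
      exact hy
    · rintro ⟨h1, h2⟩
      exact ⟨⟨x, h1⟩, h2, rfl⟩
  have h3 : finrank k (LinearMap.ker ((φ.restrictScalars k).domRestrict S))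
      = finrank k (S ⊓ (LinearMap.ker φ).restrictScalars k : Submodule k V) := by
    rw [← h2]
    exact (LinearEquiv.finrank_eq
      (Submodule.equivMapOfInjective S.subtype S.injective_subtype _))
  rw [← h1, ← h3]
  exact h

/-- A nonzero degree `a ≤ 0` endomorphism of a stable lattice has `a = 0` and is injective. -/
theorem stable_endo [Infinite k] (hK : IsRat k u v) (hE : IsLat u v E)
    {n : ℕ} {b c : ℚ} (hHP : HasHP E n b c) (hn : 0 < n)
    (hst : ∀ (U : Submodule K V) (n₁ : ℕ) (b₁ c₁ : ℚ), HasHP (interU E U) n₁ b₁ c₁ →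
      0 < n₁ → n₁ < n → b₁ * n < n₁ * b)
    (φ : V →ₗ[K] V) (a : ℤ) (ha : a ≤ 0) (hφ : ∀ m, ∀ x ∈ E m, φ x ∈ E (m + a))
    (hne : ∃ m, ∃ x ∈ E m, φ x ≠ 0) :
    a = 0 ∧ ∀ m, ∀ x ∈ E m, φ x = 0 → x = 0 := by
  have hErk : rk K E = n := (hasHP_unique (hE.hasHP hK) hHP).1
  set U := LinearMap.ker φ with hU
  set n₁ := rk K (interU E U) with hn₁
  set b₁ := hb (interU E U) with hb₁
  set c₁ := hc (interU E U) with hc₁
  have hHP1 : HasHP (interU E U) n₁ b₁ c₁ := hasHP_interU hK hE U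
  have hn₁le : n₁ ≤ n := by
    rw [← hErk]
    exact rk_le_of_le hE (hE.interU U) ⟨0, fun m _ => inf_le_left⟩
  set F : ℤ → Submodule k V := fun m => (E (m - a)).map (φ.restrictScalars k) with hF
  have hFmem : ∀ m x, x ∈ F m ↔ ∃ y ∈ E (m - a), φ y = x := fun m x => Iff.rfl
  have hFE : ∀ m, F m ≤ E m := by
    intro m x hx
    obtain ⟨y, hy, rfl⟩ := (hFmem m x).mp hx
    have := hφ _ y hy
    rwa [sub_add_cancel] at this
  have hFfam : IsFam u v F := by
    refine ⟨?_, ?_, ?_⟩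
    · intro m x hx
      obtain ⟨y, hy, rfl⟩ := (hFmem m x).mp hx
      refine (hFmem _ _).mpr ⟨y, ?_, rfl⟩
      have := hE.mono _ hy
      rwa [show m - a + 1 = m + 1 - a by ring] at this
    · intro m x hx
      obtain ⟨y, hy, rfl⟩ := (hFmem m x).mp hx
      refine (hFmem _ _).mpr ⟨u • y, ?_, by rw [map_smul]⟩
      have := hE.umul _ _ hy
      rwa [show m - a + 1 = m + 1 - a by ring] at this
    · intro m x hx
      obtain ⟨y, hy, rfl⟩ := (hFmem m x).mp hx
      refine (hFmem _ _).mpr ⟨v • y, ?_, by rw [map_smul]⟩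
      have := hE.vmul _ _ hy
      rwa [show m - a + 1 = m + 1 - a by ring] at this
  have hFlat : IsLat u v F := hE.of_le hFfam hFE
  have hFHP : ∃ c' : ℚ, HasHP F (n - n₁) (b - b₁ - a * ((n : ℚ) - n₁)) c' := by
    obtain ⟨m₀, hm₀⟩ := hHP
    obtain ⟨m₁, hm₁⟩ := hHP1
    refine ⟨((n : ℚ) - n₁) / 2 * a ^ 2 - (b - b₁) * a + (c - c₁), max m₀ m₁, fun m hm => ?_⟩
    have e0 := hm₀ (m - a) (by have := le_max_left m₀ m₁; omega)
    have e1 := hm₁ (m - a) (by have := le_max_right m₀ m₁; omega)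
    have := hE.fin (m - a)
    have e2 := finrank_map_add_ker φ (E (m - a))
    have e3 : (finrank k (F m) : ℚ) + finrank k (interU E U (m - a)) = finrank k (E (m - a)) := by
      exact_mod_cast e2
    rw [Nat.cast_sub hn₁le]
    rw [e0, e1] at e3
    push_cast at e3
    linear_combination e3
  obtain ⟨c', hFHP⟩ := hFHP
  have hFrk : rk K F = n - n₁ := (hasHP_unique (hFlat.hasHP hK) hFHP).1
  have hpos : 0 < n - n₁ := by
    rw [Nat.pos_iff_ne_zero]
    intro h0
    rw [h0] at hFrk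
    obtain ⟨m, x, hx, hx0⟩ := hne
    have h1 := eq_bot_of_rk_eq_zero hFlat hFrk (m + a)
    have h2 : φ x ∈ F (m + a) := (hFmem _ _).mpr ⟨x, by rwa [add_sub_cancel_right], rfl⟩
    rw [h1] at h2
    exact hx0 h2
  have hFfin : FiniteDimensional K (spanK K F) := finite_spanK hFlat
  set U' := spanK K F with hU'
  have hFU' : ∀ m, F m ≤ interU E U' m := by
    intro m x hx
    exact ⟨hFE m hx, Submodule.subset_span (Set.mem_iUnion.mpr ⟨m, hx⟩)⟩
  have hU'lat : IsLat u v (interU E U') := hE.interU U'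
  have hspanle : spanK K (interU E U') ≤ U' := by
    refine Submodule.span_le.mpr ?_
    intro x hx
    obtain ⟨m, hm⟩ := Set.mem_iUnion.mp hx
    exact hm.2
  have hrkU' : rk K (interU E U') = n - n₁ := by
    apply le_antisymm
    · rw [← hFrk]
      exact Submodule.finrank_mono hspanle
    · rw [← hFrk]
      exact rk_le_of_le hU'lat hFlat ⟨0, fun m _ => hFU' m⟩
  have hHPU' := hasHP_interU hK hE U'
  rw [hrkU'] at hHPU'
  set b' := hb (interU E U') with hb'
  have hbb' : b - b₁ - a * ((n : ℚ) - n₁) ≤ b' :=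
    (HasHP.mono hU'lat.fin hFHP hHPU' ⟨0, fun m _ => hFU' m⟩).1
  have haq : (a : ℚ) ≤ 0 := by exact_mod_cast ha
  have hnq : (0 : ℚ) < n := by exact_mod_cast hn
  rcases Nat.eq_zero_or_pos n₁ with h0 | h1
  · obtain ⟨hB0, _⟩ := interU_rk_zero hK hE U h0
    have hB0' : b₁ = 0 := hB0
    rw [hB0', h0] at hbb'
    rw [h0] at hHPU'
    have h2 : b' ≤ b := (HasHP.mono hE.fin hHPU' hHP ⟨0, fun m _ => inf_le_left⟩).1
    constructor
    · have h3 : 0 ≤ (a : ℚ) * n := by
        simp only [Nat.cast_zero, sub_zero] at hbb'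
        linarith
      have h4 : 0 ≤ (a : ℚ) := by
        by_contra hcon
        push Not at hcon
        have := mul_neg_of_neg_of_pos hcon hnq
        linarith
      have h5 : (a : ℚ) = 0 := le_antisymm haq h4
      exact_mod_cast h5
    · intro m x hx hx0
      have h3 := eq_bot_of_rk_eq_zero (hE.interU U) h0 m
      have h4 : x ∈ interU E U m := ⟨hx, hx0⟩
      rw [h3] at h4
      exact h4
  · exfalso
    have e1 := hst U n₁ b₁ c₁ hHP1 h1 (by omega)
    have e2 := hst U' (n - n₁) b' _ hHPU' hpos (by omega)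
    rw [Nat.cast_sub hn₁le] at e2
    have hn₁q : (0 : ℚ) ≤ (n : ℚ) - n₁ := by
      have : (n₁ : ℚ) ≤ n := by exact_mod_cast hn₁le
      linarith
    have h5 : (b - b₁ - a * ((n : ℚ) - n₁)) * n ≤ b' * n :=
      mul_le_mul_of_nonneg_right hbb' hnq.le
    have h6 : 0 ≤ -(a : ℚ) * ((n : ℚ) - n₁) * n := by
      have : 0 ≤ -(a : ℚ) := by linarith
      positivity
    nlinarith

/-- an element of the kernel of `⊕ E(d i + a) → ⊕ E(δ j + a)` gives an endomorphism. -/
theorem resol_endo (hE : IsLat u v E) {r s : ℕ} {d : Fin r → ℤ} {e : Fin r → V}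
    {δ : Fin s → ℤ} {f : Fin s → Fin r → K} (hR : IsResol u v E d e δ f) (a : ℤ)
    (g : Fin r → V) (hg : ∀ i, g i ∈ E (d i + a)) (hfg : ∀ j, ∑ i, f j i • g i = 0) :
    ∃ φ : V →ₗ[K] V, (∀ i, φ (e i) = g i) ∧ ∀ m, ∀ x ∈ E m, φ x ∈ E (m + a) := by
  classical
  let π : (Fin r → K) →ₗ[K] V := Fintype.linearCombination K e
  let γ : (Fin r → K) →ₗ[K] V := Fintype.linearCombination K g
  have hπ : ∀ x, π x = ∑ i, x i • e i := fun x => Fintype.linearCombination_apply K e x
  have hγ : ∀ x, γ x = ∑ i, x i • g i := fun x => Fintype.linearCombination_apply K g x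
  have hker : LinearMap.ker π ≤ LinearMap.ker γ := by
    intro x hx
    rw [LinearMap.mem_ker, hπ] at hx
    have h1 := (hR.ker x).mp hx
    have h2 : Submodule.span K (Set.range f) ≤ LinearMap.ker γ := by
      refine Submodule.span_le.mpr ?_
      rintro _ ⟨j, rfl⟩
      change γ (f j) = 0
      rw [hγ]
      exact hfg j
    exact h2 h1
  obtain ⟨σ, hσ⟩ : ∃ σ : LinearMap.range π →ₗ[K] (Fin r → K),
      π.rangeRestrict ∘ₗ σ = LinearMap.id :=
    LinearMap.exists_rightInverse_of_surjective _ (LinearMap.range_rangeRestrict π)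
  obtain ⟨φ, hφ⟩ := LinearMap.exists_extend (γ ∘ₗ σ)
  have hφπ : ∀ x, φ (π x) = γ x := by
    intro x
    have h1 : φ (π x) = γ (σ ⟨π x, LinearMap.mem_range_self π x⟩) := by
      have := LinearMap.congr_fun hφ ⟨π x, LinearMap.mem_range_self π x⟩
      simpa using this
    rw [h1]
    have h2 : π (σ ⟨π x, LinearMap.mem_range_self π x⟩) = π x := by
      have := LinearMap.congr_fun hσ ⟨π x, LinearMap.mem_range_self π x⟩
      exact congrArg Subtype.val this
    have h3 : σ ⟨π x, LinearMap.mem_range_self π x⟩ - x ∈ LinearMap.ker γ := by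
      apply hker
      rw [LinearMap.mem_ker, map_sub, h2, sub_self]
    rw [LinearMap.mem_ker, map_sub, sub_eq_zero] at h3
    exact h3
  refine ⟨φ, fun i => ?_, fun m x hx => ?_⟩
  · have h1 : π (Pi.single i 1) = e i := by
      rw [hπ, Finset.sum_eq_single i]
      · simp
      · intro j _ hj
        simp [Pi.single_eq_of_ne hj]
      · simp
    have h2 : γ (Pi.single i 1) = g i := by
      rw [hγ, Finset.sum_eq_single i]
      · simp
      · intro j _ hj
        simp [Pi.single_eq_of_ne hj]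
      · simp
    rw [← h1, hφπ, h2]
  · obtain ⟨c, hc, rfl⟩ := (hR.mem_iff m x).mp hx
    have h1 : φ (∑ i, c i • e i) = ∑ i, c i • g i := by
      rw [← hπ, hφπ, hγ]
    rw [h1]
    refine Submodule.sum_mem _ fun i _ => ?_
    have := polyLE_smul_mem (isFam hE) (hc i) (hg i)
    rwa [show d i + a + (m - d i) = m + a by ring] at this

/-- the space of degree `a` endomorphisms in coordinates -/
def endoSpace (E : ℤ → Submodule k V) {r s : ℕ} (d : Fin r → ℤ) (f : Fin s → Fin r → K) (a : ℤ) :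
    Submodule k (∀ i, E (d i + a)) where
  carrier := {g | ∀ j, ∑ i, f j i • (g i : V) = 0}
  zero_mem' := by
    intro j
    simp
  add_mem' := by
    intro g g' hg hg' j
    have h1 := hg j
    have h2 := hg' j
    simp only [Pi.add_apply, Submodule.coe_add, smul_add, Finset.sum_add_distrib]
    rw [h1, h2, add_zero]
  smul_mem' := by
    intro c g hg j
    have h1 := hg j
    simp only [Pi.smul_apply, Submodule.coe_smul]
    have : ∑ i, f j i • c • (g i : V) = c • ∑ i, f j i • (g i : V) := by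
      rw [Finset.smul_sum]
      refine Finset.sum_congr rfl fun i _ => ?_
      rw [smul_comm]
    rw [this, h1, smul_zero]

theorem mem_endoSpace {r s : ℕ} {d : Fin r → ℤ} {f : Fin s → Fin r → K} {a : ℤ}
    (g : ∀ i, E (d i + a)) : g ∈ endoSpace E d f a ↔ ∀ j, ∑ i, f j i • (g i : V) = 0 := Iff.rfl

theorem finrank_endoSpace (hE : IsLat u v E) {r s : ℕ} {d : Fin r → ℤ}
    {δ : Fin s → ℤ} {f : Fin s → Fin r → K} (hf : ∀ j i, f j i ∈ polyLE k u v (δ j - d i))
    (a : ℤ) :
    ∑ i, finrank k (E (d i + a)) ≤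
      finrank k (endoSpace E d f a) + ∑ j, finrank k (E (δ j + a)) := by
  have hfin := hE.fin
  let Ψ : (∀ i, E (d i + a)) →ₗ[k] (∀ j, E (δ j + a)) :=
    { toFun := fun g j => ⟨∑ i, f j i • (g i : V), Submodule.sum_mem _ fun i _ => by
        have := polyLE_smul_mem (isFam hE) (hf j i) (g i).2
        rwa [show d i + a + (δ j - d i) = δ j + a by ring] at this⟩
      map_add' := by
        intro g g'
        funext j
        apply Subtype.ext
        simp only [Pi.add_apply, Submodule.coe_add, smul_add, Finset.sum_add_distrib]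
      map_smul' := by
        intro c g
        funext j
        apply Subtype.ext
        simp only [Pi.smul_apply, Submodule.coe_smul, RingHom.id_apply]
        rw [Finset.smul_sum]
        refine Finset.sum_congr rfl fun i _ => ?_
        rw [smul_comm] }
  have hker : LinearMap.ker Ψ = endoSpace E d f a := by
    ext g
    rw [LinearMap.mem_ker, mem_endoSpace]
    constructor
    · intro h j
      have := congrFun h j
      exact congrArg Subtype.val this
    · intro h
      funext j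
      apply Subtype.ext
      exact h j
  have h1 := LinearMap.finrank_range_add_finrank_ker Ψ
  have h2 : finrank k (LinearMap.range Ψ) ≤ finrank k (∀ j, E (δ j + a)) :=
    Submodule.finrank_le _
  rw [Module.finrank_pi_fintype] at h1 h2
  rw [hker] at h1
  omega

/-- Endomorphisms of a stable lattice are scalars. -/
theorem stable_endo_zero [IsAlgClosed k] (hK : IsRat k u v) (hE : IsLat u v E)
    {n : ℕ} {b c : ℚ} (hHP : HasHP E n b c) (hn : 0 < n)
    (hst : ∀ (U : Submodule K V) (n₁ : ℕ) (b₁ c₁ : ℚ), HasHP (interU E U) n₁ b₁ c₁ →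
      0 < n₁ → n₁ < n → b₁ * n < n₁ * b)
    (φ : V →ₗ[K] V) (hφ : ∀ m, ∀ x ∈ E m, φ x ∈ E m) :
    ∃ t : k, ∀ m, ∀ x ∈ E m, φ x = t • x := by
  have : Infinite k := IsAlgClosed.instInfinite
  have hErk : rk K E = n := (hasHP_unique (hE.hasHP hK) hHP).1
  obtain ⟨m, hm⟩ : ∃ m, E m ≠ ⊥ := by
    by_contra hcon
    push Not at hcon
    have := rk_eq_zero_of_eq_bot (K := K) hcon
    omega
  have hfin := hE.fin m
  have hnt : Nontrivial (E m) := Submodule.nontrivial_iff_ne_bot.mpr hm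
  let T : Module.End k (E m) := (φ.restrictScalars k).restrict (hφ m)
  obtain ⟨t, ht⟩ := Module.End.exists_eigenvalue T
  obtain ⟨w, hw⟩ := ht.exists_hasEigenvector
  have hw1 : φ (w : V) = t • (w : V) := by
    have := hw.apply_eq_smul
    exact congrArg Subtype.val this
  have hw0 : (w : V) ≠ 0 := by
    intro h
    exact hw.2 (Subtype.ext h)
  refine ⟨t, ?_⟩
  by_contra hcon
  push Not at hcon
  obtain ⟨m', x, hx, hxne⟩ := hcon
  let ψ : V →ₗ[K] V := φ - (algebraMap k K t) • LinearMap.id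
  have hψ : ∀ y, ψ y = φ y - t • y := by
    intro y
    simp only [ψ, LinearMap.sub_apply, LinearMap.smul_apply, LinearMap.id_apply]
    rw [IsScalarTower.algebraMap_smul]
  have key := stable_endo hK hE hHP hn hst ψ 0 le_rfl (by
    intro m x hx
    rw [hψ, add_zero]
    exact Submodule.sub_mem _ (hφ m x hx) (Submodule.smul_mem _ _ hx)) ⟨m', x, hx, by
      rw [hψ]
      exact sub_ne_zero.mpr hxne⟩
  exact hw0 (key.2 m w w.2 (by rw [hψ, hw1, sub_self]))

/-- P4 for saturated lattices. -/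
theorem bogomolov_sat [IsAlgClosed k] (hK : IsRat k u v) (hE : IsLat u v E)
    (hs : SAT u v E)
    {n : ℕ} {b c : ℚ} (hHP : HasHP E n b c) (hn : 0 < n)
    (hst : ∀ (U : Submodule K V) (n₁ : ℕ) (b₁ c₁ : ℚ), HasHP (interU E U) n₁ b₁ c₁ →
      0 < n₁ → n₁ < n → b₁ * n < n₁ * b) :
    (n : ℚ) ^ 2 + 2 * n * Jinv n b c ≤ 1 := by
  have : Infinite k := IsAlgClosed.instInfinite
  have hfin := hE.fin
  obtain ⟨r, s, d, e, δ, f, hR⟩ := exists_resol hK hE hs
  -- combined index
  let ε : Fin r ⊕ Fin s → ℚ := Sum.elim (fun _ => 1) (fun _ => -1)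
  let D : Fin r ⊕ Fin s → ℤ := Sum.elim d δ
  have hdim : ∀ m, (finrank k (E m) : ℚ) = ∑ t, ε t * dimA (m - D t) := by
    intro m
    have h1 : (finrank k (E m) : ℚ) + ∑ j, (dimA (m - δ j) : ℚ) = ∑ i, (dimA (m - d i) : ℚ) := by
      exact_mod_cast hR.dim m
    rw [Fintype.sum_sum_type]
    simp only [ε, D, Sum.elim_inl, Sum.elim_inr, one_mul, neg_mul, Finset.sum_neg_distrib]
    linarith
  -- endomorphisms of degree 0 and -3
  have h0 : finrank k (endoSpace E d f 0) ≤ 1 := by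
    let e0 : endoSpace E d f 0 := ⟨fun i => ⟨e i, by rw [add_zero]; exact hR.e_mem i⟩, by
      rw [mem_endoSpace]
      intro j
      exact (hR.ker (f j)).mpr (Submodule.subset_span ⟨j, rfl⟩)⟩
    refine finrank_le_one e0 ?_
    rintro ⟨g, hg⟩
    obtain ⟨φ, hφ1, hφ2⟩ := resol_endo hE hR 0 (fun i => (g i : V)) (fun i => (g i).2)
      ((mem_endoSpace g).mp hg)
    obtain ⟨t, ht⟩ := stable_endo_zero hK hE hHP hn hst φ (fun m x hx => by
      have := hφ2 m x hx
      rwa [add_zero] at this)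
    refine ⟨t, ?_⟩
    apply Subtype.ext
    funext i
    apply Subtype.ext
    change t • e i = (g i : V)
    rw [← hφ1 i, ht (d i) (e i) (hR.e_mem i)]
  have h3 : finrank k (endoSpace E d f (-3)) = 0 := by
    have : endoSpace E d f (-3) = ⊥ := by
      rw [eq_bot_iff]
      intro g hg
      obtain ⟨φ, hφ1, hφ2⟩ := resol_endo hE hR (-3) (fun i => (g i : V)) (fun i => (g i).2)
        ((mem_endoSpace g).mp hg)
      rw [Submodule.mem_bot]
      funext i
      apply Subtype.ext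
      change (g i : V) = 0
      by_contra hne
      have := (stable_endo hK hE hHP hn hst φ (-3) (by norm_num) hφ2
        ⟨d i, e i, hR.e_mem i, by rw [hφ1]; exact hne⟩).1
      norm_num at this
    rw [this]
    exact finrank_bot k _
  -- the two inequalities
  have hX : ∀ a, (∑ s, ∑ t, ε s * ε t * (dimA (D s - D t + a) : ℚ))
      ≤ finrank k (endoSpace E d f a) := by
    intro a
    have h1 := finrank_endoSpace hE hR.f_mem a
    have h2 : (∑ i, (finrank k (E (d i + a)) : ℚ)) ≤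
      finrank k (endoSpace E d f a) + ∑ j, (finrank k (E (δ j + a)) : ℚ) := by exact_mod_cast h1
    have h4 : ∀ s, ∑ t, ε s * ε t * (dimA (D s - D t + a) : ℚ)
        = ε s * finrank k (E (D s + a)) := by
      intro s
      rw [hdim, Finset.mul_sum]
      refine Finset.sum_congr rfl fun t _ => ?_
      rw [show D s + a - D t = D s - D t + a by ring]
      ring
    rw [Finset.sum_congr rfl fun s _ => h4 s, Fintype.sum_sum_type]
    change ∑ i, (1 : ℚ) * (finrank k (E (d i + a)) : ℚ)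
      + ∑ j, (-1 : ℚ) * (finrank k (E (δ j + a)) : ℚ) ≤ _
    simp only [one_mul, neg_mul, Finset.sum_neg_distrib]
    linarith
  have hX0 := hX 0
  have hX3 := hX (-3)
  rw [h3] at hX3
  have h0q : (finrank k (endoSpace E d f 0) : ℚ) ≤ 1 := by exact_mod_cast h0
  -- the sum
  have hsum : ∑ s, ∑ t, ε s * ε t * PA (D s - D t)
      = (∑ s, ∑ t, ε s * ε t * (dimA (D s - D t + 0) : ℚ))
        + ∑ s, ∑ t, ε s * ε t * (dimA (D s - D t + (-3)) : ℚ) := by
    have h5 : ∑ s, ∑ t, ε s * ε t * (dimA (D s - D t + (-3)) : ℚ)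
        = ∑ s, ∑ t, ε s * ε t * (dimA (-(D s - D t) - 3) : ℚ) := by
      rw [Finset.sum_comm]
      refine Finset.sum_congr rfl fun s _ => Finset.sum_congr rfl fun t _ => ?_
      rw [show D t - D s + (-3) = -(D s - D t) - 3 by ring]
      ring
    rw [h5, ← Finset.sum_add_distrib]
    refine Finset.sum_congr rfl fun s _ => ?_
    rw [← Finset.sum_add_distrib]
    refine Finset.sum_congr rfl fun t _ => ?_
    rw [PA_eq, add_zero]
    ring
  -- the Hilbert polynomial
  obtain ⟨m₀, hm₀⟩ := hHP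
  obtain ⟨M, hM⟩ : ∃ M : ℤ, ∀ t, D t ≤ M := by
    obtain ⟨M, hM⟩ := (Set.finite_range D).bddAbove
    exact ⟨M, fun t => hM ⟨t, rfl⟩⟩
  have hchi := chi_identity ε D hn (m₀ := max m₀ M) (b := b) (c := c) (fun m hm => by
    rw [← hm₀ m (le_trans (le_max_left _ _) hm), hdim]
    refine Finset.sum_congr rfl fun t _ => ?_
    have h6 : M ≤ m := le_trans (le_max_right _ _) hm
    rw [dimA_of_nonneg (by have := hM t; omega)])
  rw [← hchi, hsum]
  have : ((0 : ℕ) : ℚ) = 0 := Nat.cast_zero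
  linarith

theorem hasHP_congr {E E' : ℤ → Submodule k V} (h : ∃ m₀ : ℤ, ∀ m ≥ m₀, E' m = E m)
    {n : ℕ} {b c : ℚ} (hHP : HasHP E n b c) : HasHP E' n b c := by
  obtain ⟨m₀, hm₀⟩ := h
  obtain ⟨m₁, hm₁⟩ := hHP
  refine ⟨max m₀ m₁, fun m hm => ?_⟩
  rw [hm₀ m (le_trans (le_max_left _ _) hm)]
  exact hm₁ m (le_trans (le_max_right _ _) hm)

/-- P4 (Bogomolov): a stable lattice has `n² + 2nJ ≤ 1`. -/
theorem bogomolov [IsAlgClosed k] (hK : IsRat k u v) (hE : IsLat u v E)
    {n : ℕ} {b c : ℚ} (hHP : HasHP E n b c) (hn : 0 < n)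
    (hst : ∀ (U : Submodule K V) (n₁ : ℕ) (b₁ c₁ : ℚ), HasHP (interU E U) n₁ b₁ c₁ →
      0 < n₁ → n₁ < n → b₁ * n < n₁ * b) :
    (n : ℚ) ^ 2 + 2 * n * Jinv n b c ≤ 1 := by
  have : Infinite k := IsAlgClosed.instInfinite
  obtain ⟨E', _, hE', _, ⟨m₀, hm₀⟩, hsat⟩ := exists_sat hK hE
  refine bogomolov_sat hK hE' hsat (hasHP_congr ⟨m₀, hm₀⟩ hHP) hn ?_
  intro U n₁ b₁ c₁ h h1 h2
  refine hst U n₁ b₁ c₁ (hasHP_congr ⟨m₀, fun m hm => ?_⟩ h) h1 h2
  simp only [interU, hm₀ m hm]

end Slope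

end Crest.Agent.R169.P4
end

-- ▼ part R169/P5
section

/-!
# P5: the bound for `J` in terms of the slopes of sub- and quotient lattices
(owner helper649)
-/

set_option autoImplicit false

namespace Crest.Agent.R169.P5

open Module LatB

variable {k K V : Type} [Field k] [Field K] [Algebra k K] [AddCommGroup V] [Module k V]
  [Module K V] {u v : K} {E E' : ℤ → Submodule k V}

/-- a nonempty bounded below set of rationals with bounded denominators has a minimum -/
theorem exists_min_of_discrete (S : Set ℚ) (hS : S.Nonempty) (D : ℕ) (hD : 0 < D)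
    (hint : ∀ q ∈ S, ∃ t : ℤ, (D : ℚ) * q = t) (α : ℚ) (hα : ∀ q ∈ S, α ≤ q) :
    ∃ z ∈ S, ∀ q ∈ S, z ≤ q := by
  have hD' : (0 : ℚ) < D := by exact_mod_cast hD
  obtain ⟨q₀, hq₀⟩ := hS
  obtain ⟨t₀, ht₀⟩ := hint q₀ hq₀
  obtain ⟨lb, hlb1, hlb2⟩ := Int.exists_least_of_bdd
    (P := fun t : ℤ => ∃ q ∈ S, (D : ℚ) * q = t)
    ⟨⌊(D : ℚ) * α⌋, by
      rintro t ⟨q, hq, hqt⟩
      have h1 : (D : ℚ) * α ≤ t := by
        rw [← hqt]
        exact mul_le_mul_of_nonneg_left (hα q hq) hD'.le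
      have h2 : ((⌊(D : ℚ) * α⌋ : ℤ) : ℚ) ≤ t := (Int.floor_le _).trans h1
      exact_mod_cast h2⟩ ⟨t₀, q₀, hq₀, ht₀⟩
  obtain ⟨z, hz, hzt⟩ := hlb1
  refine ⟨z, hz, fun q hq => ?_⟩
  obtain ⟨t, ht⟩ := hint q hq
  have h1 : lb ≤ t := hlb2 t ⟨q, hq, ht⟩
  have h2 : (lb : ℚ) ≤ t := by exact_mod_cast h1
  rw [← hzt, ← ht] at h2
  exact le_of_mul_le_mul_left h2 hD'

theorem jinv_nonpos_of_le_one {n : ℕ} {J : ℚ} (hn : 0 < n) (h : (n : ℚ) ^ 2 + 2 * n * J ≤ 1) :
    J ≤ 0 := by
  have h1 : (1 : ℚ) ≤ n := by exact_mod_cast hn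
  by_contra hJ
  push Not at hJ
  have : (0 : ℚ) < 2 * n * J := by positivity
  nlinarith

/-- The numerical step: `n = n₁ + n₂`, quotient of slope `z` with `J₂ ≤ 0`. -/
theorem jinv_step {n₁ n₂ : ℕ} (h1 : 0 < n₁) (h2 : 0 < n₂) (b₁ b₂ c₁ c₂ α β : ℚ)
    (hJ1 : Jinv n₁ b₁ c₁ ≤ n₁ / 2 * (β - b₁ / n₁) * (b₁ / n₁ - b₂ / n₂))
    (hJ2 : Jinv n₂ b₂ c₂ ≤ 0) (hβ : (b₁ + b₂) ≤ β * (n₁ + n₂)) (hα : α ≤ b₂ / n₂) :
    Jinv (n₁ + n₂) (b₁ + b₂) (c₁ + c₂) ≤ (n₁ + n₂ : ℚ) / 2 * (β - (b₁ + b₂) / (n₁ + n₂))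
      * ((b₁ + b₂) / (n₁ + n₂) - α) := by
  have p1 : (0 : ℚ) < n₁ := by exact_mod_cast h1
  have p2 : (0 : ℚ) < n₂ := by exact_mod_cast h2
  have p3 : (0 : ℚ) < n₁ + n₂ := by positivity
  obtain ⟨z₁, hz₁⟩ : ∃ z, z = b₁ / n₁ := ⟨_, rfl⟩
  obtain ⟨z₂, hz₂⟩ : ∃ z, z = b₂ / n₂ := ⟨_, rfl⟩
  obtain ⟨z, hz⟩ : ∃ z, z = (b₁ + b₂) / (n₁ + n₂ : ℚ) := ⟨_, rfl⟩
  have e1 : b₁ = z₁ * n₁ := by rw [hz₁]; field_simp
  have e2 : b₂ = z₂ * n₂ := by rw [hz₂]; field_simp
  have e3 : b₁ + b₂ = z * (n₁ + n₂) := by rw [hz]; field_simp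
  have hadd := jinv_add n₁ n₂ b₁ b₂ c₁ c₂ h1 h2
  rw [← hz, ← hz₁, ← hz₂] at hadd
  rw [← hz₁, ← hz₂] at hJ1
  rw [← hz₂] at hα
  rw [← hz]
  have hb : z ≤ β := by
    rw [e3] at hβ
    exact le_of_mul_le_mul_right hβ p3
  have e4 : z₁ * n₁ + z₂ * n₂ = z * (n₁ + n₂) := by rw [← e1, ← e2, e3]
  -- identity: n₁(z₁-z)^2 + n₂(z₂-z)^2 + n₁(β-z₁)(z₁-z₂) = n (β - z)(z - z₂)
  have key : (n₁ : ℚ) / 2 * (β - z₁) * (z₁ - z₂) + n₁ / 2 * (z₁ - z) ^ 2
      + n₂ / 2 * (z₂ - z) ^ 2 = (n₁ + n₂ : ℚ) / 2 * (β - z) * (z - z₂) := by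
    have e5 : z = (z₁ * n₁ + z₂ * n₂) / (n₁ + n₂) := by
      rw [e4]; field_simp
    rw [e5]
    field_simp
    ring
  have mono : (n₁ + n₂ : ℚ) / 2 * (β - z) * (z - z₂) ≤ (n₁ + n₂ : ℚ) / 2 * (β - z) * (z - α) := by
    apply mul_le_mul_of_nonneg_left
    · linarith
    · have : 0 ≤ β - z := by linarith
      positivity
  linarith

section Main

variable [IsScalarTower k K V]

/-- the main induction for P5 -/
theorem jinv_le_aux [IsAlgClosed k] (hK : IsRat k u v) (hE : IsLat u v E) :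
    ∀ r : ℕ, 0 < r → ∀ U : Submodule K V, rk K (interU E U) = r → ∀ β α : ℚ,
    (∀ W ≤ U, 0 < rk K (interU E W) → hb (interU E W) ≤ β * rk K (interU E W)) →
    (∀ W ≤ U, rk K (interU E W) < rk K (interU E U) →
      α * ((rk K (interU E U) : ℚ) - rk K (interU E W)) ≤ hb (interU E U) - hb (interU E W)) →
    Jinv (rk K (interU E U)) (hb (interU E U)) (hc (interU E U)) ≤
      (rk K (interU E U) : ℚ) / 2 * (β - hb (interU E U) / rk K (interU E U))
        * (hb (interU E U) / rk K (interU E U) - α) := by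
  have : Infinite k := IsAlgClosed.instInfinite
  set N : Submodule K V → ℕ := fun U => rk K (interU E U) with hN
  set B : Submodule K V → ℚ := fun U => hb (interU E U) with hB
  set C : Submodule K V → ℚ := fun U => hc (interU E U) with hC
  have hHP : ∀ U, HasHP (interU E U) (N U) (B U) (C U) := fun U => hasHP_interU hK hE U
  have hNmono : ∀ {U W : Submodule K V}, W ≤ U → N W ≤ N U := fun h => rk_interU_le hE h
  have hN0 : N ⊥ = 0 := rk_eq_zero_of_eq_bot (fun m => by
    rw [eq_bot_iff]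
    rintro x ⟨_, hx⟩
    exact hx)
  intro r
  induction r using Nat.strong_induction_on with
  | _ r ih =>
  intro hr U hU β α hβ hα
  change N U = r at hU
  change ∀ W ≤ U, 0 < N W → B W ≤ β * N W at hβ
  change ∀ W ≤ U, N W < N U → α * ((N U : ℚ) - N W) ≤ B U - B W at hα
  change Jinv (N U) (B U) (C U) ≤ (N U : ℚ) / 2 * (β - B U / N U) * (B U / N U - α)
  have hNU : 0 < N U := hU ▸ hr
  -- the set of slopes of quotients
  let S : Set ℚ := {q | ∃ W ≤ U, N W < N U ∧ q = (B U - B W) / ((N U : ℚ) - N W)}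
  have hpos : ∀ W, N W < N U → (0 : ℚ) < (N U : ℚ) - N W := by
    intro W hW
    have : (N W : ℚ) < N U := by exact_mod_cast hW
    linarith
  obtain ⟨z, hzS, hzmin⟩ := exists_min_of_discrete S
    ⟨_, ⊥, bot_le, by rw [hN0]; exact hNU, rfl⟩ (2 * (N U).factorial) (by positivity)
    (by
      rintro q ⟨W, hW, hlt, rfl⟩
      obtain ⟨b₁, c₁, h1, ⟨t1, ht1⟩, _⟩ := (hE.interU U).exists_hasHP hK
      obtain ⟨b₂, c₂, h2, ⟨t2, ht2⟩, _⟩ := (hE.interU W).exists_hasHP hK
      have e1 : b₁ = B U := (hasHP_unique h1 (hHP U)).2.1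
      have e2 : b₂ = B W := (hasHP_unique h2 (hHP W)).2.1
      rw [e1] at ht1
      rw [e2] at ht2
      have hd : (N U - N W) ∣ (N U).factorial :=
        Nat.dvd_factorial (by omega) (Nat.sub_le _ _)
      obtain ⟨c, hc⟩ := hd
      refine ⟨c * (t1 - t2), ?_⟩
      have h3 : ((N U - N W : ℕ) : ℚ) = (N U : ℚ) - N W := by
        rw [Nat.cast_sub hlt.le]
      have h4 := hpos W hlt
      have h5 : ((N U).factorial : ℚ) = ((N U : ℚ) - N W) * c := by
        rw [hc]; push_cast; rw [h3]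
      push_cast
      rw [h5, ← ht1, ← ht2]
      field_simp)
    α (by
      rintro q ⟨W, hW, hlt, rfl⟩
      have h4 := hpos W hlt
      rw [le_div_iff₀ h4]
      exact hα W hW hlt)
  -- among minimal slopes, minimal rank of the quotient
  have hex : ∃ m : ℕ, ∃ W ≤ U, N W < N U ∧ z = (B U - B W) / ((N U : ℚ) - N W) ∧ N U - N W = m := by
    obtain ⟨W, hW, hlt, hz⟩ := hzS
    exact ⟨_, W, hW, hlt, hz, rfl⟩
  classical
  obtain ⟨W, hWU, hlt, hz, hWm⟩ := Nat.find_spec hex
  have hmin2 : ∀ W' ≤ U, N W' < N U → z = (B U - B W') / ((N U : ℚ) - N W') →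
      N U - N W ≤ N U - N W' := by
    intro W' hW' hlt' hz'
    rw [hWm]
    exact Nat.find_min' hex ⟨W', hW', hlt', hz', rfl⟩
  have hposW := hpos W hlt
  have hzeq : z * ((N U : ℚ) - N W) = B U - B W := by
    rw [hz]; field_simp
  have hzle : ∀ W' ≤ U, N W' < N U → z * ((N U : ℚ) - N W') ≤ B U - B W' := by
    intro W' hW' hlt'
    have := hzmin _ ⟨W', hW', hlt', rfl⟩
    rwa [le_div_iff₀ (hpos W' hlt')] at this
  have hzlt : ∀ W' ≤ U, N W' < N U → N W < N W' → z * ((N U : ℚ) - N W') < B U - B W' := by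
    intro W' hW' hlt' hlt2
    refine lt_of_le_of_ne (hzle W' hW' hlt') ?_
    intro heq
    have h4 := hpos W' hlt'
    have : z = (B U - B W') / ((N U : ℚ) - N W') := by
      rw [← heq]; field_simp
    have := hmin2 W' hW' hlt' this
    omega
  have hαz : α ≤ z := by
    rw [hz, le_div_iff₀ hposW]
    exact hα W hWU hlt
  have hβU : B U ≤ β * N U := hβ U le_rfl hNU
  -- the quotient lattice
  have hQ : IsLat u v (quotU (interU E U) W) := (hE.interU U).quotU W
  have hQHP : HasHP (quotU (interU E U) W) (N U - N W) (B U - B W) (C U - C W) :=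
    hasHP_sub_quot hE hWU (hHP U) (hHP W) hlt.le
  have hcast : ((N U - N W : ℕ) : ℚ) = (N U : ℚ) - N W := by rw [Nat.cast_sub hlt.le]
  have hbog := P4.bogomolov hK hQ hQHP (by omega) (by
    intro U'' n₁ b₁ c₁ h1 h2 h3
    rw [interU_quotU] at h1
    have hW' : W ≤ U ⊓ U''.comap W.mkQ := by
      refine le_inf hWU ?_
      intro x hx
      rw [Submodule.mem_comap]
      have : W.mkQ x = 0 := by rwa [Submodule.mkQ_apply, Submodule.Quotient.mk_eq_zero]
      rw [this]
      exact Submodule.zero_mem _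
    have h4 := hasHP_sub_quot hE hW' (hHP _) (hHP W) (hNmono hW')
    obtain ⟨e1, e2, e3⟩ := hasHP_unique h1 h4
    have hle : N W ≤ N (U ⊓ U''.comap W.mkQ) := hNmono hW'
    have hlt' : N (U ⊓ U''.comap W.mkQ) < N U := by omega
    have h5 := hzlt _ inf_le_left hlt' (by omega)
    have hp1 : (0 : ℚ) < n₁ := by exact_mod_cast h2
    have e1' : (n₁ : ℚ) = N (U ⊓ U''.comap W.mkQ) - N W := by
      rw [e1, Nat.cast_sub hle]
    rw [hcast, e2, ← hzeq]
    have h6 : B (U ⊓ U''.comap W.mkQ) - B W < n₁ * z := by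
      rw [e1']
      linarith
    calc (B (U ⊓ U''.comap W.mkQ) - B W) * ((N U : ℚ) - N W)
        < (n₁ * z) * ((N U : ℚ) - N W) := mul_lt_mul_of_pos_right h6 hposW
      _ = n₁ * (z * ((N U : ℚ) - N W)) := by ring)
  have hJ2 : Jinv (N U - N W) (B U - B W) (C U - C W) ≤ 0 :=
    jinv_nonpos_of_le_one (by omega) hbog
  rcases Nat.eq_zero_or_pos (N W) with hW0 | hWpos
  · -- `E ∩ W = 0`
    obtain ⟨hB0, hC0⟩ := interU_rk_zero hK hE W hW0
    have hB0' : B W = 0 := hB0
    have hC0' : C W = 0 := hC0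
    rw [hW0, hB0', hC0'] at hJ2
    simp only [Nat.sub_zero, sub_zero] at hJ2
    rw [hW0, hB0'] at hz
    simp only [Nat.cast_zero, sub_zero] at hz
    have hNU' : (0 : ℚ) < N U := by exact_mod_cast hNU
    rw [← hz]
    have h1 : 0 ≤ β - z := by
      have : z ≤ β := by rw [hz, div_le_iff₀ hNU']; exact hβU
      linarith
    have h2 : 0 ≤ z - α := by linarith
    have : 0 ≤ (N U : ℚ) / 2 * (β - z) * (z - α) := by positivity
    linarith
  · -- induction
    have hJ1 := ih (N W) (by omega) hWpos W rfl β z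
      (fun W' hW' h => hβ W' (hW'.trans hWU) h)
      (fun W' hW' h => by
        change N W' < N W at h
        change z * ((N W : ℚ) - N W') ≤ B W - B W'
        have := hzle W' (hW'.trans hWU) (h.trans hlt)
        linarith)
    change Jinv (N W) (B W) (C W) ≤ (N W : ℚ) / 2 * (β - B W / N W) * (B W / N W - z) at hJ1
    have h2 : 0 < N U - N W := by omega
    have hz' : z = (B U - B W) / ((N U - N W : ℕ) : ℚ) := by rw [hcast]; exact hz
    have hstep := jinv_step hWpos h2 (B W) (B U - B W) (C W) (C U - C W) α β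
      (by rw [← hz']; exact hJ1) hJ2 (by
        rw [hcast]
        have : (N W : ℚ) + (N U - N W) = N U := by ring
        rw [this]
        linarith) (by rw [← hz']; exact hαz)
    have e1 : N W + (N U - N W) = N U := by omega
    have e2 : B W + (B U - B W) = B U := by ring
    have e3 : C W + (C U - C W) = C U := by ring
    have e4 : ((N W : ℕ) : ℚ) + ((N U - N W : ℕ) : ℚ) = N U := by rw [hcast]; ring
    rw [e1, e2, e3, e4] at hstep
    exact hstep

/-- P5: slopes of all sublattices `≤ ζ + s₁`, of all quotients `≥ ζ - s₂` imply `J ≤ n s₁ s₂/2`. -/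
theorem jinv_le [IsAlgClosed k] (hK : IsRat k u v) (hE : IsLat u v E)
    {n : ℕ} {b c : ℚ} (hHP : HasHP E n b c) (hn : 0 < n) (s₁ s₂ : ℚ)
    (h₁ : ∀ (U : Submodule K V) (n₁ : ℕ) (b₁ c₁ : ℚ), HasHP (interU E U) n₁ b₁ c₁ →
      b₁ * n - n₁ * b ≤ s₁ * n₁ * n)
    (h₂ : ∀ (U : Submodule K V) (n₁ : ℕ) (b₁ c₁ : ℚ), HasHP (interU E U) n₁ b₁ c₁ →
      b₁ * n - n₁ * b ≤ s₂ * (n - n₁) * n) :
    Jinv n b c ≤ n / 2 * s₁ * s₂ := by
  have : Infinite k := IsAlgClosed.instInfinite
  have htop : HasHP (interU E (⊤ : Submodule K V)) n b c := by rw [interU_top]; exact hHP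
  obtain ⟨e1, e2, e3⟩ := hasHP_unique htop (hasHP_interU hK hE ⊤)
  have hn' : (0 : ℚ) < n := by exact_mod_cast hn
  have key := jinv_le_aux hK hE n hn ⊤ e1.symm (b / n + s₁) (b / n - s₂)
    (by
      intro W _ hW
      have h := h₁ W _ _ _ (hasHP_interU hK hE W)
      have h3 : hb (interU E W) * n ≤ ((b / n + s₁) * rk K (interU E W)) * n := by
        have : ((b / n + s₁) * rk K (interU E W)) * n
            = rk K (interU E W) * b + s₁ * rk K (interU E W) * n := by field_simp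
        rw [this]
        linarith
      exact le_of_mul_le_mul_right h3 hn')
    (by
      intro W _ hW
      have h := h₂ W _ _ _ (hasHP_interU hK hE W)
      rw [← e1, ← e2]
      have h3 : ((b / n - s₂) * ((n : ℚ) - rk K (interU E W))) * n
          ≤ (b - hb (interU E W)) * n := by
        have : ((b / n - s₂) * ((n : ℚ) - rk K (interU E W))) * n
            = b * n - rk K (interU E W) * b - s₂ * (n - rk K (interU E W)) * n := by
          field_simp
        rw [this]
        linarith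
      exact le_of_mul_le_mul_right h3 hn')
  rw [← e1, ← e2, ← e3] at key
  have : (n : ℚ) / 2 * (b / n + s₁ - b / n) * (b / n - (b / n - s₂)) = n / 2 * s₁ * s₂ := by ring
  rw [this] at key
  exact key

end Main

end Crest.Agent.R169.P5
end

-- ▼ part R169/LatStmts

/-!
# Part P: umbrella file, everything is PROVED (sorry-free).
P1 = Hilb.lean (helper132), P2, P3 (helper272), P4, P5, Bridge (helper649).
-/

set_option autoImplicit false

namespace Crest.Agent.R169

variable {k K V : Type} [Field k] [Field K] [Algebra k K] [AddCommGroup V] [Module k V]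
  [Module K V] {u v : K} {E : ℤ → Submodule k V}


/-- P5: slopes of all sublattices `≤ ζ + s₁`, of all quotients `≥ ζ - s₂` imply `J ≤ n s₁ s₂/2`. -/
theorem jinv_le [IsScalarTower k K V] [IsAlgClosed k] (hK : IsRat k u v) (hE : IsLat u v E)
    {n : ℕ} {b c : ℚ} (hHP : HasHP E n b c) (hn : 0 < n) (s₁ s₂ : ℚ)
    (h₁ : ∀ (U : Submodule K V) (n₁ : ℕ) (b₁ c₁ : ℚ), HasHP (interU E U) n₁ b₁ c₁ →
      b₁ * n - n₁ * b ≤ s₁ * n₁ * n)
    (h₂ : ∀ (U : Submodule K V) (n₁ : ℕ) (b₁ c₁ : ℚ), HasHP (interU E U) n₁ b₁ c₁ →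
      b₁ * n - n₁ * b ≤ s₂ * (n - n₁) * n) :
    Jinv n b c ≤ n / 2 * s₁ * s₂ := P5.jinv_le hK hE hHP hn s₁ s₂ h₁ h₂

end Crest.Agent.R169
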