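import Mathlib
import Crest.Agent.R169.ADefs
import Crest.Agent.R169.Iface
import Crest.Agent.R169.PackNoeth

-- ▼ part R169/QReg
section

/-!
Row 169, module `QReg`: regular sequences are quasi-regular (for modules), proved by an elementary
induction; final form for a regular sequence of length three.
-/

set_option autoImplicit false

namespace Crest.Agent.R169

open RingTheory.Sequence

section General

variable {R M : Type*} [CommRing R] [AddCommGroup M] [Module R M]

/-- `gr_I M` is free on the "monomials" `e j a` over `M / I M`. -/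
structure QR (M : Type*) {R : Type*} [CommRing R] [AddCommGroup M] [Module R M]
    (I : Ideal R) (ι : ℕ → Type) [∀ j, Fintype (ι j)] (e : ∀ j, ι j → R) : Prop where
  mem : ∀ j a, e j a ∈ I ^ j
  span : ∀ j, ∀ m ∈ I ^ j • (⊤ : Submodule R M), ∃ w : ι j → M, m = ∑ a, e j a • w a
  inj : ∀ j (w : ι j → M), ∑ a, e j a • w a ∈ I ^ (j + 1) • (⊤ : Submodule R M) →
    ∀ a, w a ∈ I • (⊤ : Submodule R M)

theorem qr_decomp (I : Ideal R) (c : R) (ν : ℕ) :
    ∀ m ∈ (I ⊔ Ideal.span {c}) ^ ν • (⊤ : Submodule R M), ∃ f : ℕ → M,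
      (∀ j, f j ∈ I ^ j • (⊤ : Submodule R M)) ∧ (∀ j, ν < j → f j = 0) ∧
      m = ∑ j ∈ Finset.range (ν + 1), c ^ (ν - j) • f j := by
  induction ν with
  | zero =>
    intro m _
    refine ⟨fun j => if j = 0 then m else 0, ?_, ?_, ?_⟩
    · intro j
      by_cases hj : j = 0
      · subst hj; simp
      · simp [hj]
    · intro j hj
      simp [Nat.pos_iff_ne_zero.mp hj]
    · simp
  | succ ν ih =>
    intro m hm
    rw [pow_succ', Submodule.mul_smul] at hm
    refine Submodule.smul_induction_on hm ?_ ?_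
    · intro a ha n hn
      obtain ⟨f, hf1, hf2, hf3⟩ := ih n hn
      obtain ⟨i, hi, b, hb, rfl⟩ := Submodule.mem_sup.mp ha
      obtain ⟨r, rfl⟩ := Ideal.mem_span_singleton'.mp hb
      refine ⟨fun j => r • f j + (if j = 0 then 0 else i • f (j - 1)), ?_, ?_, ?_⟩
      · intro j
        refine Submodule.add_mem _ (Submodule.smul_mem _ _ (hf1 j)) ?_
        by_cases hj : j = 0
        · simp [hj]
        · obtain ⟨j, rfl⟩ := Nat.exists_eq_succ_of_ne_zero hj
          simp only [Nat.succ_eq_add_one, Nat.add_eq_zero_iff, one_ne_zero, and_false, if_false,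
            Nat.add_sub_cancel]
          rw [pow_succ', Submodule.mul_smul]
          exact Submodule.smul_mem_smul hi (hf1 j)
      · intro j hj
        have h1 : f j = 0 := hf2 j (by omega)
        have h2 : f (j - 1) = 0 := hf2 (j - 1) (by omega)
        simp [h1, h2]
      · simp only [smul_add]
        rw [Finset.sum_add_distrib, Finset.sum_range_succ, hf2 (ν + 1) (by omega), smul_zero,
          smul_zero, add_zero, Finset.sum_range_succ' (fun j => c ^ (ν + 1 - j) •
            (if j = 0 then (0 : M) else i • f (j - 1)))]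
        simp only [if_true, smul_zero, add_zero, Nat.add_eq_zero_iff, one_ne_zero, and_false,
          if_false, Nat.add_sub_cancel, Nat.add_sub_add_right]
        rw [hf3, add_smul, add_comm, Finset.smul_sum, Finset.smul_sum]
        congr 1
        · refine Finset.sum_congr rfl fun j hj => ?_
          have hj' : j ≤ ν := by simpa [Nat.lt_succ_iff] using hj
          rw [smul_smul, smul_smul, Nat.succ_sub hj', pow_succ]
          congr 1
          ring
        · refine Finset.sum_congr rfl fun j hj => ?_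
          rw [smul_smul, smul_smul, mul_comm]
    · intro x y hx hy
      obtain ⟨f, hf1, hf2, hf3⟩ := hx
      obtain ⟨g, hg1, hg2, hg3⟩ := hy
      refine ⟨fun j => f j + g j, fun j => Submodule.add_mem _ (hf1 j) (hg1 j), ?_, ?_⟩
      · intro j hj
        simp only [hf2 j hj, hg2 j hj, add_zero]
      · rw [hf3, hg3, ← Finset.sum_add_distrib]
        simp only [smul_add]

/-- cancellation of `c` in the filtration. -/
theorem QR.cancel {I : Ideal R} {ι : ℕ → Type} [∀ j, Fintype (ι j)] {e : ∀ j, ι j → R}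
    (h : QR M I ι e) (c : R)
    (hc : ∀ m : M, c • m ∈ I • (⊤ : Submodule R M) → m ∈ I • (⊤ : Submodule R M)) (ν : ℕ) :
    ∀ y : M, c • y ∈ I ^ ν • (⊤ : Submodule R M) → y ∈ I ^ ν • (⊤ : Submodule R M) := by
  induction ν with
  | zero => intro y _; simp
  | succ ν ih =>
    intro y hy
    have h1 : y ∈ I ^ ν • (⊤ : Submodule R M) := by
      apply ih
      exact Submodule.smul_mono_left (Ideal.pow_le_pow_right (Nat.le_succ ν)) hy
    obtain ⟨w, rfl⟩ := h.span ν y h1
    have h2 : ∑ a, e ν a • (c • w a) ∈ I ^ (ν + 1) • (⊤ : Submodule R M) := by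
      convert hy using 1
      rw [Finset.smul_sum]
      exact Finset.sum_congr rfl fun a _ => smul_comm _ _ _
    have h3 := h.inj ν _ h2
    rw [pow_succ, Submodule.mul_smul]
    exact Submodule.sum_mem _ fun a _ => Submodule.smul_mem_smul (h.mem ν a) (hc _ (h3 a))

theorem qr_core (I : Ideal R) (c : R)
    (hS : ∀ ν : ℕ, ∀ y : M, c • y ∈ I ^ ν • (⊤ : Submodule R M) →
      y ∈ I ^ ν • (⊤ : Submodule R M)) (ν : ℕ) :
    ∀ f : ℕ → M, (∀ j, f j ∈ I ^ j • (⊤ : Submodule R M)) →
      ∑ j ∈ Finset.range (ν + 1), c ^ (ν - j) • f j ∈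
        (I ⊔ Ideal.span {c}) ^ (ν + 1) • (⊤ : Submodule R M) →
      ∀ j ≤ ν, ∃ g ∈ I ^ j • (⊤ : Submodule R M),
        f j - c • g ∈ I ^ (j + 1) • (⊤ : Submodule R M) := by
  induction ν with
  | zero =>
    intro f hf h j hj
    obtain rfl : j = 0 := by omega
    obtain ⟨g, hg1, _, hg3⟩ := qr_decomp I c (0 + 1) _ h
    refine ⟨g 0, hg1 0, ?_⟩
    have h1 : f 0 = c • g 0 + g 1 := by
      simpa [Finset.sum_range_succ] using hg3
    rw [h1, add_sub_cancel_left]
    exact hg1 1
  | succ ν ih =>
    intro f hf h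
    obtain ⟨g, hg1, _, hg3⟩ := qr_decomp I c (ν + 1 + 1) _ h
    set hh : ℕ → M := fun j => f j - c • g j with hhdef
    set Y : M := ∑ j ∈ Finset.range (ν + 1), c ^ (ν - j) • hh j with hY
    have hhm : ∀ j, hh j ∈ I ^ j • (⊤ : Submodule R M) := fun j =>
      Submodule.sub_mem _ (hf j) (Submodule.smul_mem _ _ (hg1 j))
    -- `c • Y + hh (ν+1) = g (ν+2)`
    have key : c • Y + hh (ν + 1) = g (ν + 1 + 1) := by
      have e1 : ∑ j ∈ Finset.range (ν + 1 + 1), c ^ (ν + 1 - j) • hh j = g (ν + 1 + 1) := by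
        simp only [hhdef, smul_sub]
        rw [Finset.sum_sub_distrib, hg3, Finset.sum_range_succ _ (ν + 1 + 1)]
        simp only [Nat.sub_self, pow_zero, one_smul]
        rw [add_comm, add_sub_assoc, ← Finset.sum_sub_distrib]
        rw [Finset.sum_eq_zero, add_zero]
        intro j hj
        have hj' : j ≤ ν + 1 := by simpa [Nat.lt_succ_iff] using hj
        rw [smul_smul, Nat.succ_sub hj', pow_succ, sub_self]
      rw [← e1, Finset.sum_range_succ, Nat.sub_self, pow_zero, one_smul, hY, Finset.smul_sum]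
      congr 1
      refine Finset.sum_congr rfl fun j hj => ?_
      have hj' : j ≤ ν := by simpa [Nat.lt_succ_iff] using hj
      rw [smul_smul, Nat.succ_sub hj', pow_succ']
    have hYm : Y ∈ I ^ (ν + 1) • (⊤ : Submodule R M) := by
      apply hS
      rw [eq_sub_of_add_eq key]
      refine Submodule.sub_mem _ ?_ (hhm _)
      exact Submodule.smul_mono_left (Ideal.pow_le_pow_right (Nat.le_succ _)) (hg1 _)
    intro j hj
    rcases Nat.lt_or_ge ν j with hj' | hj'
    · obtain rfl : j = ν + 1 := by omega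
      refine ⟨g (ν + 1) - Y, Submodule.sub_mem _ (hg1 _) hYm, ?_⟩
      have : f (ν + 1) - c • (g (ν + 1) - Y) = g (ν + 1 + 1) := by
        rw [← key, smul_sub]
        simp only [hhdef]
        abel
      rw [this]
      exact hg1 _
    · obtain ⟨g', hg', hg''⟩ := ih hh hhm (by
        refine Submodule.smul_mono_left ?_ hYm
        exact Ideal.pow_right_mono le_sup_left _) j hj'
      refine ⟨g j + g', Submodule.add_mem _ (hg1 j) hg', ?_⟩
      have : f j - c • (g j + g') = hh j - c • g' := by
        rw [smul_add]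
        simp only [hhdef]
        abel
      rw [this]
      exact hg''

/-- the index types of the next step -/
@[reducible] def qrι (ι : ℕ → Type) (ν : ℕ) : Type := Σ j : Fin (ν + 1), ι j

/-- Adding one more element at the END of a regular sequence. -/
theorem QR.step {I : Ideal R} {ι : ℕ → Type} [∀ j, Fintype (ι j)] {e : ∀ j, ι j → R}
    (h : QR M I ι e) (c : R)
    (hc : ∀ m : M, c • m ∈ I • (⊤ : Submodule R M) → m ∈ I • (⊤ : Submodule R M)) :
    QR M (I ⊔ Ideal.span {c}) (qrι ι) (fun ν p => c ^ (ν - (p.1 : ℕ)) * e p.1 p.2) where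
  mem := by
    intro ν ⟨j, a⟩
    have hj : (j : ℕ) ≤ ν := Nat.lt_succ_iff.mp j.2
    have h1 : (I ⊔ Ideal.span {c}) ^ ν =
        (I ⊔ Ideal.span {c}) ^ (ν - (j : ℕ)) * (I ⊔ Ideal.span {c}) ^ (j : ℕ) := by
      rw [← pow_add, Nat.sub_add_cancel hj]
    rw [h1]
    refine Ideal.mul_mem_mul ?_ (Ideal.pow_right_mono le_sup_left _ (h.mem j a))
    exact Ideal.pow_mem_pow (Ideal.mem_sup_right (Ideal.mem_span_singleton_self c)) _
  span := by
    intro ν m hm
    obtain ⟨f, hf1, _, hf3⟩ := qr_decomp I c ν m hm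
    choose w hw using fun j => h.span j (f j) (hf1 j)
    refine ⟨fun p => w p.1 p.2, ?_⟩
    rw [Fintype.sum_sigma, hf3, ← Fin.sum_univ_eq_sum_range (fun j => c ^ (ν - j) • f j)]
    refine Finset.sum_congr rfl fun j _ => ?_
    rw [hw (j : ℕ), Finset.smul_sum]
    refine Finset.sum_congr rfl fun a _ => ?_
    rw [smul_smul]
  inj := by
    intro ν w hw
    let f : ℕ → M := fun j => if hj : j < ν + 1 then ∑ a, e j a • w ⟨⟨j, hj⟩, a⟩ else 0
    have hf : ∀ j, f j ∈ I ^ j • (⊤ : Submodule R M) := by
      intro j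
      by_cases hj : j < ν + 1
      · simp only [f, dif_pos hj]
        exact Submodule.sum_mem _ fun a _ => Submodule.smul_mem_smul (h.mem j a) trivial
      · simp only [f, dif_neg hj]
        exact zero_mem _
    have hsum : ∑ j ∈ Finset.range (ν + 1), c ^ (ν - j) • f j ∈
        (I ⊔ Ideal.span {c}) ^ (ν + 1) • (⊤ : Submodule R M) := by
      convert hw using 1
      rw [Fintype.sum_sigma, ← Fin.sum_univ_eq_sum_range (fun j => c ^ (ν - j) • f j)]
      refine Finset.sum_congr rfl fun j _ => ?_
      have : f j = ∑ a, e j a • w ⟨j, a⟩ := by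
        simp only [f, dif_pos j.2]
      rw [this, Finset.smul_sum]
      refine Finset.sum_congr rfl fun a _ => ?_
      rw [smul_smul]
    rintro ⟨j, a⟩
    obtain ⟨g, hg1, hg2⟩ := qr_core I c (h.cancel c hc) ν f hf hsum j (Nat.lt_succ_iff.mp j.2)
    obtain ⟨g', rfl⟩ := h.span j g hg1
    have h1 : ∑ a, e j a • (w ⟨j, a⟩ - c • g' a) ∈ I ^ ((j : ℕ) + 1) • (⊤ : Submodule R M) := by
      convert hg2 using 1
      simp only [f, dif_pos j.2, smul_sub]
      rw [Finset.sum_sub_distrib, Finset.smul_sum]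
      congr 1
      exact Finset.sum_congr rfl fun a _ => smul_comm _ _ _
    have h2 := h.inj j _ h1 a
    have h3 : w ⟨j, a⟩ = (w ⟨j, a⟩ - c • g' a) + c • g' a := by abel
    rw [h3]
    refine Submodule.add_mem _ (Submodule.smul_mono_left le_sup_left h2) ?_
    exact Submodule.smul_mem_smul (Ideal.mem_sup_right (Ideal.mem_span_singleton_self c)) trivial

/-- The first step. -/
theorem QR.single (x : R) (hx : IsSMulRegular M x) :
    QR M (Ideal.span {x}) (fun _ => Unit) (fun j _ => x ^ j) where
  mem := fun j _ => Ideal.pow_mem_pow (Ideal.mem_span_singleton_self x) _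
  span := by
    intro j m hm
    rw [Ideal.span_singleton_pow, Submodule.ideal_span_singleton_smul,
      Submodule.mem_smul_pointwise_iff_exists] at hm
    obtain ⟨m', _, rfl⟩ := hm
    exact ⟨fun _ => m', by simp⟩
  inj := by
    intro j w hw a
    rw [Ideal.span_singleton_pow, Submodule.ideal_span_singleton_smul,
      Submodule.mem_smul_pointwise_iff_exists] at hw
    obtain ⟨m', _, hm'⟩ := hw
    have h1 : x ^ j • (x • m') = x ^ j • w a := by
      rw [smul_smul, ← pow_succ, hm']
      simp
    have h2 : x • m' = w a := (hx.pow j) h1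
    rw [← h2]
    exact Submodule.smul_mem_smul (Ideal.mem_span_singleton_self x) trivial

/-- exponents `(b, c)` with `b + c ≤ j` -/
def tri (j : ℕ) : Finset (ℕ × ℕ) :=
  (Finset.range (j + 1) ×ˢ Finset.range (j + 1)).filter fun p => p.1 + p.2 ≤ j

theorem mem_tri {j : ℕ} {p : ℕ × ℕ} : p ∈ tri j ↔ p.1 + p.2 ≤ j := by
  simp only [tri, Finset.mem_filter, Finset.mem_product, Finset.mem_range]
  omega

/-- the sum over the iterated index set -/
theorem sum_qrι_qrι {α : Type*} [AddCommMonoid α] (ν : ℕ) (F : ℕ → ℕ → ℕ → α) :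
    ∑ p : qrι (qrι fun _ => Unit) ν, F p.1 (p.2.1) ν =
      ∑ p ∈ tri ν, F (ν - p.2) (ν - p.1 - p.2) ν := by
  rw [Fintype.sum_sigma]
  simp_rw [Fintype.sum_sigma]
  simp only [Finset.univ_unique, Finset.sum_const, Finset.card_singleton, one_smul]
  rw [Fin.sum_univ_eq_sum_range (fun j => ∑ i : Fin (j + 1), F j i ν)]
  have : ∀ j, ∑ i : Fin (j + 1), F j i ν = ∑ i ∈ Finset.range (j + 1), F j i ν := fun j =>
    Fin.sum_univ_eq_sum_range (fun i => F j i ν) (j + 1)
  simp_rw [this]
  rw [Finset.sum_sigma']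
  refine Finset.sum_nbij' (fun p => (p.1 - p.2, ν - p.1)) (fun p => ⟨ν - p.2, ν - p.1 - p.2⟩)
    ?_ ?_ ?_ ?_ ?_
  · rintro ⟨j, i⟩ h
    simp only [Finset.mem_sigma, Finset.mem_range] at h
    rw [mem_tri]
    dsimp only
    omega
  · rintro ⟨b, c⟩ h
    rw [mem_tri] at h
    simp only [Finset.mem_sigma, Finset.mem_range]
    dsimp only at h
    omega
  · rintro ⟨j, i⟩ h
    simp only [Finset.mem_sigma, Finset.mem_range] at h
    have h1 : ν - (ν - j) = j := by omega
    have h2 : ν - (j - i) - (ν - j) = i := by omega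
    simp only [h1, h2]
  · rintro ⟨b, c⟩ h
    rw [mem_tri] at h
    dsimp only at h ⊢
    rw [Prod.mk.injEq]
    omega
  · rintro ⟨j, i⟩ h
    simp only [Finset.mem_sigma, Finset.mem_range] at h
    have h1 : ν - (ν - j) = j := by omega
    have h2 : ν - (j - i) - (ν - j) = i := by omega
    simp only [h1, h2]


theorem ideal3_eq (x : Fin 3 → R) :
    Ideal.span (Set.range x) = (Ideal.span {x 0} ⊔ Ideal.span {x 1}) ⊔ Ideal.span {x 2} := by
  rw [← Ideal.span_union, ← Ideal.span_union]
  congr 1
  ext z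
  simp only [Set.mem_range, Set.union_singleton, Set.mem_insert_iff, Set.mem_singleton_iff]
  constructor
  · rintro ⟨i, rfl⟩
    fin_cases i <;> simp
  · rintro (rfl | rfl | rfl)
    exacts [⟨2, rfl⟩, ⟨1, rfl⟩, ⟨0, rfl⟩]

theorem qr_triple (x : Fin 3 → R) (hx : IsWeaklyRegular M [x 0, x 1, x 2]) :
    QR M (Ideal.span (Set.range x)) (qrι (qrι fun _ => Unit))
      (fun ν p => x 2 ^ (ν - (p.1 : ℕ)) * (x 1 ^ ((p.1 : ℕ) - (p.2.1 : ℕ)) * x 0 ^ (p.2.1 : ℕ))) := by
  rw [ideal3_eq]
  rw [isWeaklyRegular_iff] at hx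
  have h0 : IsSMulRegular M (x 0) := by
    have := hx 0 (by simp)
    have e : (Ideal.ofList (List.take 0 [x 0, x 1, x 2]) • (⊤ : Submodule R M)) = ⊥ := by simp
    intro m m' h
    have h1 := this (a₁ := Submodule.Quotient.mk m) (a₂ := Submodule.Quotient.mk m')
      (by
        change Submodule.Quotient.mk (x 0 • m) = Submodule.Quotient.mk (x 0 • m')
        exact congrArg _ h)
    rw [Submodule.Quotient.eq, e, Submodule.mem_bot, sub_eq_zero] at h1
    exact h1
  have gen : ∀ (N : Submodule R M) (c : R), IsSMulRegular (M ⧸ N) c →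
      ∀ m : M, c • m ∈ N → m ∈ N := by
    intro N c hc m hm
    rw [← Submodule.Quotient.mk_eq_zero] at hm ⊢
    rw [Submodule.Quotient.mk_smul] at hm
    exact hc.right_eq_zero_of_smul hm
  have h1 := gen _ _ (hx 1 (by simp))
  have h2 := gen _ _ (hx 2 (by simp))
  have e1 : Ideal.ofList (List.take 1 [x 0, x 1, x 2]) = Ideal.span {x 0} := by
    simp
  have e2 : Ideal.ofList (List.take 2 [x 0, x 1, x 2]) = Ideal.span {x 0} ⊔ Ideal.span {x 1} := by
    simp
  rw [e1] at h1
  rw [e2] at h2
  exact ((QR.single (x 0) h0).step (x 1) h1).step (x 2) h2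

/-- **Spanning**. -/
theorem qreg_span (x : Fin 3 → R) (hx : IsWeaklyRegular M [x 0, x 1, x 2]) (j : ℕ) (m : M)
    (hm : m ∈ Ideal.span (Set.range x) ^ j • (⊤ : Submodule R M)) :
    ∃ w : ℕ × ℕ → M, m = ∑ p ∈ tri j, (x 0 ^ (j - p.1 - p.2) * x 1 ^ p.1 * x 2 ^ p.2) • w p := by
  obtain ⟨w, hw⟩ := (qr_triple x hx).span j m hm
  let W : ℕ → ℕ → M := fun a b => if h : ∃ (ha : a < j + 1), b < a + 1 then
    w ⟨⟨a, h.1⟩, ⟨⟨b, h.2⟩, ()⟩⟩ else 0
  refine ⟨fun p => W (j - p.2) (j - p.1 - p.2), ?_⟩
  rw [hw]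
  have h1 := sum_qrι_qrι j (fun a b ν => (x 2 ^ (ν - a) * (x 1 ^ (a - b) * x 0 ^ b)) • W a b)
  refine Eq.trans ?_ (h1.trans ?_)
  · refine Finset.sum_congr rfl ?_
    rintro ⟨a, b, u⟩ _
    have : W a b = w ⟨a, b, u⟩ := by
      simp only [W]
      rw [dif_pos ⟨a.2, b.2⟩]
    simp only [this]
  · refine Finset.sum_congr rfl ?_
    rintro ⟨b, c⟩ hp
    rw [mem_tri] at hp
    dsimp only at hp ⊢
    have h2 : j - (j - c) = c := by omega
    have h3 : j - c - (j - b - c) = b := by omega
    rw [h2, h3]
    congr 1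
    ring

/-- **Quasi-regularity**. -/
theorem qreg_inj (x : Fin 3 → R) (hx : IsWeaklyRegular M [x 0, x 1, x 2]) (j : ℕ)
    (w : ℕ × ℕ → M)
    (hw : ∑ p ∈ tri j, (x 0 ^ (j - p.1 - p.2) * x 1 ^ p.1 * x 2 ^ p.2) • w p ∈
      Ideal.span (Set.range x) ^ (j + 1) • (⊤ : Submodule R M)) :
    ∀ p ∈ tri j, w p ∈ Ideal.span (Set.range x) • (⊤ : Submodule R M) := by
  have h1 := sum_qrι_qrι j (fun a b ν => (x 2 ^ (ν - a) * (x 1 ^ (a - b) * x 0 ^ b)) •
    w (a - b, ν - a))
  have h2 : ∑ p ∈ tri j, (x 0 ^ (j - p.1 - p.2) * x 1 ^ p.1 * x 2 ^ p.2) • w p =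
      ∑ p ∈ tri j, (x 2 ^ (j - (j - p.2)) * (x 1 ^ ((j - p.2) - (j - p.1 - p.2)) *
        x 0 ^ (j - p.1 - p.2))) • w ((j - p.2) - (j - p.1 - p.2), j - (j - p.2)) := by
    refine Finset.sum_congr rfl ?_
    rintro ⟨b, c⟩ hp
    rw [mem_tri] at hp
    dsimp only at hp ⊢
    have h2 : j - (j - c) = c := by omega
    have h3 : j - c - (j - b - c) = b := by omega
    rw [h2, h3]
    congr 1
    ring
  rw [h2, ← h1] at hw
  rintro ⟨b, c⟩ hp
  rw [mem_tri] at hp
  dsimp only at hp
  have h3 := (qr_triple x hx).inj j (fun p => w ((p.1 : ℕ) - (p.2.1 : ℕ), j - (p.1 : ℕ))) hw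
    ⟨⟨j - c, by omega⟩, ⟨⟨j - b - c, by simp only; omega⟩, ()⟩⟩
  have h4 : j - c - (j - b - c) = b := by omega
  have h5 : j - (j - c) = c := by omega
  simpa only [h4, h5] using h3

end General

end Crest.Agent.R169
end

-- ▼ part R169/GrFreeOf
section

/-!
Row 169: `GrFree D M n` from the weak regularity of `X, Xu, Xv` on `M`.
-/

set_option autoImplicit false

namespace Crest.Agent.R169

open RingTheory.Sequence

theorem card_tri (j : ℕ) : (tri j).card = dimA j := by
  have h1 := sum_qrι_qrι (α := ℕ) j (fun _ _ _ => 1)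
  have h0 : (tri j).card = ∑ p : qrι (qrι fun _ => Unit) j, 1 := by
    rw [Finset.card_eq_sum_ones]
    exact h1.symm
  rw [h0, Fintype.sum_sigma]
  simp only [Finset.sum_const, Finset.card_univ, smul_eq_mul, mul_one, Fintype.card_sigma,
    Fintype.card_unit, Fintype.card_fin]
  rw [Fin.sum_univ_eq_sum_range (fun j => j + 1)]
  unfold dimA
  have h2 : (((j : ℤ) + 1).toNat) = j + 1 := by omega
  have h3 : (((j : ℤ) + 2).toNat) = j + 2 := by omega
  rw [h2, h3]
  have h4 := Finset.sum_range_id_mul_two (j + 2)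
  have h5 : ∑ i ∈ Finset.range (j + 2), i = ∑ i ∈ Finset.range (j + 1), (i + 1) := by
    rw [Finset.sum_range_succ']
    simp
  rw [h5] at h4
  have h6 : j + 2 - 1 = j + 1 := by omega
  rw [h6, mul_comm (j + 2)] at h4
  rw [← h4, Nat.mul_div_cancel _ (by norm_num)]

section

variable {k Q : Type} [Field k] [Field Q] [Algebra k Q] (D : TData k Q)
variable (M : Type) [AddCommGroup M] [Module D.Ttot M] [Module k M] [IsScalarTower k D.Ttot M]

/-- the triple `X, Xu, Xv` -/
noncomputable def TData.xs : Fin 3 → D.Ttot := ![D.x0, D.x1, D.x2]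

theorem TData.mI_eq : D.mI = Ideal.span (Set.range D.xs) := by
  unfold TData.mI TData.xs
  congr 1
  ext z
  simp only [Set.mem_insert_iff, Set.mem_singleton_iff, Set.mem_range]
  constructor
  · rintro (rfl | rfl | rfl)
    exacts [⟨0, rfl⟩, ⟨1, rfl⟩, ⟨2, rfl⟩]
  · rintro ⟨i, rfl⟩
    fin_cases i <;> simp

/-- `w ↦ ∑ x^p w_p` -/
noncomputable def evT (j : ℕ) : (tri j → M) →ₗ[k] M where
  toFun w := ∑ p : tri j, (D.x0 ^ (j - p.1.1 - p.1.2) * D.x1 ^ p.1.1 * D.x2 ^ p.1.2) • w p
  map_add' w w' := by
    simp only [Pi.add_apply, smul_add]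
    rw [Finset.sum_add_distrib]
  map_smul' c w := by
    simp only [Pi.smul_apply, RingHom.id_apply, Finset.smul_sum]
    exact Finset.sum_congr rfl fun p _ => smul_comm _ _ _

theorem evT_mem (j : ℕ) (w : tri j → M) : evT D M j w ∈ D.mp M j := by
  have hj : ((j : ℤ).toNat) = j := Int.toNat_natCast j
  unfold TData.mp
  rw [Submodule.restrictScalars_mem, hj]
  unfold evT
  refine Submodule.sum_mem _ fun p _ => Submodule.smul_mem_smul ?_ trivial
  have hp := mem_tri.mp p.2
  have h1 : j = (j - p.1.1 - p.1.2) + p.1.1 + p.1.2 := by omega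
  have h0 : D.mI ^ j = D.mI ^ (j - p.1.1 - p.1.2) * D.mI ^ p.1.1 * D.mI ^ p.1.2 := by
    rw [← pow_add, ← pow_add, ← h1]
  rw [h0]
  refine Ideal.mul_mem_mul (Ideal.mul_mem_mul ?_ ?_) ?_ <;> refine Ideal.pow_mem_pow ?_ _ <;>
    refine Ideal.subset_span ?_ <;> simp

/-- **Interface with Part A.** If `X, Xu, Xv` is weakly regular on `M` and `M/(X,Xu,Xv)M` is
finite dimensional and nonzero, then `GrFree`. -/
theorem grFree_of_isWeaklyRegular (h : IsWeaklyRegular M [D.x0, D.x1, D.x2])
    [Module.Finite k (M ⧸ (D.mI • (⊤ : Submodule D.Ttot M)))]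
    [Nontrivial (M ⧸ (D.mI • (⊤ : Submodule D.Ttot M)))] :
    GrFree D M (Module.finrank k (M ⧸ (D.mI • (⊤ : Submodule D.Ttot M)))) := by
  refine ⟨Module.finrank_pos, fun j => ?_⟩
  have hj : ((j : ℤ).toNat) = j := Int.toNat_natCast j
  have hj1 : (((j : ℤ) + 1).toNat) = j + 1 := by omega
  -- the two surjections
  let Φ : (tri j → M) →ₗ[k] ↥(D.mp M j) ⧸ (D.mp M (j + 1)).submoduleOf (D.mp M j) :=
    (Submodule.mkQ _).comp ((evT D M j).codRestrict (D.mp M j) (evT_mem D M j))
  let Ψ : (tri j → M) →ₗ[k] (tri j → (M ⧸ (D.mI • (⊤ : Submodule D.Ttot M)))) :=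
    LinearMap.pi fun p => ((Submodule.mkQ (D.mI • (⊤ : Submodule D.Ttot M))).restrictScalars k).comp
      (LinearMap.proj p)
  have hΦs : Function.Surjective Φ := by
    intro y
    obtain ⟨⟨m, hm⟩, rfl⟩ := Submodule.mkQ_surjective _ y
    have hm' : m ∈ Ideal.span (Set.range D.xs) ^ j • (⊤ : Submodule D.Ttot M) := by
      unfold TData.mp at hm
      rwa [Submodule.restrictScalars_mem, hj, D.mI_eq] at hm
    obtain ⟨w, hw⟩ := qreg_span D.xs h j m hm'
    refine ⟨fun p => w p, ?_⟩
    have : (evT D M j).codRestrict (D.mp M j) (evT_mem D M j) (fun p => w p) = ⟨m, hm⟩ := by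
      apply Subtype.ext
      rw [LinearMap.codRestrict_apply]
      refine Eq.trans ?_ hw.symm
      exact Finset.sum_coe_sort (tri j) (fun p => (D.x0 ^ (j - p.1 - p.2) * D.x1 ^ p.1 *
        D.x2 ^ p.2) • w p)
    simp only [Φ, LinearMap.comp_apply, this]
  have hΨs : Function.Surjective Ψ := by
    intro y
    choose w hw using fun p => Submodule.mkQ_surjective _ (y p)
    refine ⟨w, ?_⟩
    funext p
    exact hw p
  have hker : LinearMap.ker Φ = LinearMap.ker Ψ := by
    ext w
    rw [LinearMap.mem_ker, LinearMap.mem_ker]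
    have h1 : Φ w = 0 ↔ evT D M j w ∈ Ideal.span (Set.range D.xs) ^ (j + 1) •
        (⊤ : Submodule D.Ttot M) := by
      simp only [Φ, LinearMap.comp_apply, Submodule.mkQ_apply, Submodule.Quotient.mk_eq_zero]
      rw [Submodule.submoduleOf, Submodule.mem_comap, Submodule.subtype_apply,
        LinearMap.codRestrict_apply]
      unfold TData.mp
      rw [Submodule.restrictScalars_mem, hj1, D.mI_eq]
    have h2 : Ψ w = 0 ↔ ∀ p, w p ∈ (D.mI • (⊤ : Submodule D.Ttot M)) := by
      rw [funext_iff]
      refine forall_congr' fun p => ?_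
      exact Submodule.Quotient.mk_eq_zero _
    rw [h1, h2]
    constructor
    · intro h3 p
      have h4 : ∑ p ∈ tri j, (D.xs 0 ^ (j - p.1 - p.2) * D.xs 1 ^ p.1 * D.xs 2 ^ p.2) •
          (if hp : p ∈ tri j then w ⟨p, hp⟩ else 0) ∈
          Ideal.span (Set.range D.xs) ^ (j + 1) • (⊤ : Submodule D.Ttot M) := by
        convert h3 using 1
        rw [← Finset.sum_coe_sort]
        refine Finset.sum_congr rfl fun p _ => ?_
        rw [dif_pos p.2]
        rfl
      have h5 := qreg_inj D.xs h j _ h4 p p.2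
      rw [dif_pos p.2] at h5
      rw [D.mI_eq]
      exact h5
    · intro h3
      unfold evT
      refine Submodule.sum_mem _ fun p _ => ?_
      rw [pow_succ, Submodule.mul_smul]
      refine Submodule.smul_mem_smul ?_ (by rw [← D.mI_eq]; exact h3 p)
      rw [← D.mI_eq]
      have hp := mem_tri.mp p.2
      have h1 : j = (j - p.1.1 - p.1.2) + p.1.1 + p.1.2 := by omega
      have h0 : D.mI ^ j = D.mI ^ (j - p.1.1 - p.1.2) * D.mI ^ p.1.1 * D.mI ^ p.1.2 := by
        rw [← pow_add, ← pow_add, ← h1]
      rw [h0]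
      refine Ideal.mul_mem_mul (Ideal.mul_mem_mul ?_ ?_) ?_ <;> refine Ideal.pow_mem_pow ?_ _ <;>
        refine Ideal.subset_span ?_ <;> simp
  let e1 := Φ.quotKerEquivOfSurjective hΦs
  let e2 := Ψ.quotKerEquivOfSurjective hΨs
  have e3 : ((tri j → M) ⧸ LinearMap.ker Φ) ≃ₗ[k] ((tri j → M) ⧸ LinearMap.ker Ψ) :=
    Submodule.quotEquivOfEq _ _ hker
  have h6 : grdim (D.mp M) (j : ℤ) =
      Module.finrank k (tri j → (M ⧸ (D.mI • (⊤ : Submodule D.Ttot M)))) := by
    unfold grdim
    exact ((e1.symm.trans e3).trans e2).finrank_eq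
  have : Module.Free k (M ⧸ (D.mI • (⊤ : Submodule D.Ttot M))) := Module.Free.of_divisionRing k _
  rw [h6, Module.finrank_pi_fintype, Finset.sum_const, Finset.card_univ, Fintype.card_coe,
    card_tri, smul_eq_mul, mul_comm]

end

end Crest.Agent.R169
end

-- ▼ part R169/Depth
section

/-!
Row 169, module `Depth` (F8): from a regular sequence in the maximal ideal of a Noetherian local
algebra over an infinite field to a regular sequence inside a given finite dimensional subspace
generating an ideal primary to the maximal ideal.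
-/

set_option autoImplicit false

namespace Crest.Agent.R169

open RingTheory.Sequence CategoryTheory Abelian Limits Pointwise

section Gen

variable {k R : Type} [Field k] [Infinite k] [CommRing R] [IsLocalRing R] [IsNoetherianRing R]
  [Algebra k R]


omit [IsLocalRing R] [IsNoetherianRing R] in
theorem ext_quot (N M : ModuleCat.{0} R) (n : ℕ)
    (h : ∀ i < n + 1, Subsingleton (Ext N M i)) (x : R) (hx : IsSMulRegular M x) :
    ∀ i < n, Subsingleton (Ext N (ModuleCat.of R (QuotSMulTop x M)) i) := by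
  intro i hi
  have zero1 := AddCommGrpCat.isZero_of_iff_subsingleton.mpr (h i (by omega))
  have zero2 := AddCommGrpCat.isZero_of_iff_subsingleton.mpr (h (i + 1) (by omega))
  exact AddCommGrpCat.subsingleton_of_isZero <| ShortComplex.Exact.isZero_of_both_zeros
    ((Ext.covariant_sequence_exact₃' N hx.smulShortComplex_shortExact) i (i + 1) rfl)
    (zero1.eq_zero_of_src _) (zero2.eq_zero_of_tgt _)




end Gen

end Crest.Agent.R169
end

-- ▼ part R169/Depth2
section

/-!
Row 169, module `Depth2`: in a Noetherian local ring, if a finite module `M` has a regular sequence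
of length `n` in the maximal ideal, then any `n` elements `x₁..xₙ` of the maximal ideal generating an
`𝔪`-primary ideal form themselves an `M`-regular sequence.
-/

set_option autoImplicit false

namespace Crest.Agent.R169

open RingTheory.Sequence CategoryTheory Abelian Limits Pointwise

variable {R : Type} [CommRing R] [IsLocalRing R] [IsNoetherianRing R]

/-- `dim R/P ≥ depth M` for every associated prime `P` of `M`. -/
theorem length_le_ringKrullDim_of_mem_ass (rs : List R)
    (hrs : ∀ r ∈ rs, r ∈ IsLocalRing.maximalIdeal R) :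
    ∀ (M : Type) [AddCommGroup M] [Module R M] [Module.Finite R M], IsRegular M rs →
      ∀ P ∈ associatedPrimes R M, (rs.length : WithBot ℕ∞) ≤ ringKrullDim (R ⧸ P) := by
  induction rs with
  | nil =>
    intro M _ _ _ _ P hP
    have : P.IsPrime := hP.isPrime
    have : Nontrivial (R ⧸ P) := Ideal.Quotient.nontrivial_iff.mpr (Ideal.IsPrime.ne_top this)
    simpa using ringKrullDim_nonneg_of_nontrivial (R := R ⧸ P)
  | cons a rs ih =>
    intro M _ _ _ h P hP
    rw [isRegular_cons_iff] at h
    have ha : a ∈ IsLocalRing.maximalIdeal R := hrs a (by simp)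
    have hPp : P.IsPrime := hP.isPrime
    -- `a ∉ P`
    have haP : a ∉ P := by
      intro haP
      have : a ∈ (⋃ p ∈ associatedPrimes R M, (p : Set R)) := by
        simp only [Set.mem_iUnion]
        exact ⟨P, hP, haP⟩
      rw [biUnion_associatedPrimes_eq_compl_regular] at this
      exact this h.1
    -- `N = M[P]`
    let N : Submodule R M := Submodule.torsionBySet R M (P : Set R)
    have hNne : N ≠ ⊥ := by
      obtain ⟨_, x, hx⟩ := (isAssociatedPrime_iff.mp hP)
      intro hN
      have hxN : x ∈ N := by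
        rw [Submodule.mem_torsionBySet_iff]
        intro r
        have h3 : (r : R) ∈ (⊥ : Submodule R M).colon {x} := hx ▸ r.2
        rw [Submodule.mem_colon_singleton] at h3
        simpa using h3
      rw [hN, Submodule.mem_bot] at hxN
      subst hxN
      apply hPp.ne_top
      rw [hx]
      simp
    have hNa : ¬ (N ≤ Ideal.span {a} • N) := by
      intro hle
      apply hNne
      refine Submodule.eq_bot_of_le_smul_of_le_jacobson_bot (Ideal.span {a}) N
        (IsNoetherian.noetherian N) hle ?_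
      refine le_trans ?_ (IsLocalRing.maximalIdeal_le_jacobson _)
      rw [Ideal.span_singleton_le_iff_mem]
      exact ha
    obtain ⟨n0, hn0, hn0'⟩ := Set.not_subset.mp hNa
    have hmem : n0 ∉ a • (⊤ : Submodule R M) := by
      intro hm
      rw [Submodule.mem_smul_pointwise_iff_exists] at hm
      obtain ⟨m, _, rfl⟩ := hm
      apply hn0'
      rw [SetLike.mem_coe, Submodule.ideal_span_singleton_smul]
      refine Submodule.smul_mem_pointwise_smul _ _ _ ?_
      rw [Submodule.mem_torsionBySet_iff]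
      intro r
      rw [SetLike.mem_coe, Submodule.mem_torsionBySet_iff] at hn0
      have h4 := hn0 r
      rw [smul_comm] at h4
      exact h.1.right_eq_zero_of_smul h4
    let n1 : QuotSMulTop a M := Submodule.Quotient.mk n0
    have hn1 : n1 ≠ 0 := by
      intro h0
      exact hmem ((Submodule.Quotient.mk_eq_zero _).mp h0)
    obtain ⟨P1, hP1, hle⟩ := exists_le_isAssociatedPrime_of_isNoetherianRing R n1 hn1
    have hPP1 : P ≤ P1 := by
      intro r hr
      apply hle
      rw [Submodule.mem_colon_singleton]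
      rw [SetLike.mem_coe, Submodule.mem_torsionBySet_iff] at hn0
      have h4 : r • n0 = 0 := hn0 ⟨r, hr⟩
      have : r • n1 = Submodule.Quotient.mk (r • n0) := rfl
      rw [this, h4]
      simp
    have haP1 : a ∈ P1 := by
      apply hle
      rw [Submodule.mem_colon_singleton]
      have : a • n1 = Submodule.Quotient.mk (a • n0) := rfl
      rw [this, Submodule.mem_bot, Submodule.Quotient.mk_eq_zero]
      exact Submodule.smul_mem_pointwise_smul _ _ _ trivial
    have h5 := ih (fun r hr => hrs r (by simp [hr])) (QuotSMulTop a M) h.2 P1 hP1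
    have h6 : ringKrullDim (R ⧸ P1) + 1 ≤ ringKrullDim (R ⧸ P) := by
      refine ringKrullDim_succ_le_of_surjective (Ideal.Quotient.factor hPP1)
        (Ideal.Quotient.factor_surjective hPP1) (r := Ideal.Quotient.mk P a) ?_ ?_
      · rw [mem_nonZeroDivisors_iff_ne_zero]
        intro h0
        exact haP (Ideal.Quotient.eq_zero_iff_mem.mp h0)
      · rw [Ideal.Quotient.factor_mk]
        exact Ideal.Quotient.eq_zero_iff_mem.mpr haP1
    refine le_trans ?_ h6
    rw [List.length_cons, Nat.cast_add, Nat.cast_one]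
    gcongr

/-- Krull's height theorem in the form needed. -/
theorem ringKrullDim_quotient_le (P : Ideal R) [P.IsPrime] (ys : List R)
    (hys : ∀ y ∈ ys, y ∈ IsLocalRing.maximalIdeal R) (s : ℕ)
    (h : IsLocalRing.maximalIdeal R ^ s ≤ P ⊔ Ideal.ofList ys) :
    ringKrullDim (R ⧸ P) ≤ (ys.length : WithBot ℕ∞) := by
  classical
  have hne : Nontrivial (R ⧸ P) := Ideal.Quotient.nontrivial_iff.mpr (Ideal.IsPrime.ne_top ‹_›)
  have hloc : IsLocalRing (R ⧸ P) :=
    IsLocalRing.of_surjective' (Ideal.Quotient.mk P) Ideal.Quotient.mk_surjective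
  rw [← IsLocalRing.maximalIdeal_height_eq_ringKrullDim]
  have hmap : (IsLocalRing.maximalIdeal R).map (Ideal.Quotient.mk P) =
      IsLocalRing.maximalIdeal (R ⧸ P) :=
    IsLocalRing.map_maximalIdeal_of_surjective _ Ideal.Quotient.mk_surjective
  set t : Finset (R ⧸ P) := (ys.map (Ideal.Quotient.mk P)).toFinset with ht
  have hcard : t.card ≤ ys.length := by
    refine (List.toFinset_card_le _).trans ?_
    simp
  have hspan : (Ideal.span (t : Set (R ⧸ P))) = (Ideal.ofList ys).map (Ideal.Quotient.mk P) := by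
    rw [Ideal.map_ofList, Ideal.ofList, ht]
    congr 1
    ext z
    simp
  have hmin : IsLocalRing.maximalIdeal (R ⧸ P) ∈ (Ideal.span (t : Set (R ⧸ P))).minimalPrimes := by
    refine ⟨⟨inferInstance, ?_⟩, ?_⟩
    · rw [hspan, ← hmap]
      apply Ideal.map_mono
      rw [Ideal.ofList, Ideal.span_le]
      intro y hy
      exact hys y hy
    · rintro q ⟨hq, hq2⟩ _
      have h1 : IsLocalRing.maximalIdeal (R ⧸ P) ^ s ≤ q := by
        rw [← hmap, ← Ideal.map_pow]
        refine (Ideal.map_mono h).trans ?_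
        rw [Ideal.map_sup, ← hspan, Ideal.map_quotient_self, bot_sup_eq]
        exact hq2
      exact hq.le_of_pow_le h1
  have h2 := Ideal.height_le_card_of_mem_minimalPrimes_span_finset hmin
  have h3 : (IsLocalRing.maximalIdeal (R ⧸ P)).height ≤ (ys.length : ℕ∞) :=
    h2.trans (by exact_mod_cast hcard)
  exact_mod_cast h3

theorem isRegular_of_ext (n : ℕ) : ∀ (xs : List R), xs.length = n →
    (∀ x ∈ xs, x ∈ IsLocalRing.maximalIdeal R) →
    ∀ (M : Type) [AddCommGroup M] [Module R M] [Module.Finite R M] [Nontrivial M]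
      (J : Ideal R), (∀ j ∈ J, ∀ m : M, j • m = 0) → ∀ s : ℕ,
      IsLocalRing.maximalIdeal R ^ s ≤ J ⊔ Ideal.ofList xs →
      (∀ i < n, Subsingleton (Ext (ModuleCat.of R (R ⧸ IsLocalRing.maximalIdeal R))
        (ModuleCat.of R M) i)) → IsRegular M xs := by
  induction n with
  | zero =>
    intro xs hxs _ M _ _ _ _ J _ s _ _
    rw [List.length_eq_zero_iff] at hxs
    subst hxs
    exact IsRegular.nil R M
  | succ n ih =>
    intro xs hxs hxm M _ _ _ _ J hJ s hs hext
    obtain ⟨x, ys, rfl⟩ := List.exists_cons_of_length_eq_add_one hxs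
    have hlen : ys.length = n := by simpa using hxs
    have hx : x ∈ IsLocalRing.maximalIdeal R := hxm x (by simp)
    have hys : ∀ y ∈ ys, y ∈ IsLocalRing.maximalIdeal R := fun y hy => hxm y (by simp [hy])
    have hlt : IsLocalRing.maximalIdeal R • (⊤ : Submodule R (ModuleCat.of R M)) < ⊤ := by
      refine lt_top_iff_ne_top.mpr (fun h => ?_)
      have := Submodule.eq_bot_of_le_smul_of_le_jacobson_bot (IsLocalRing.maximalIdeal R)
        (⊤ : Submodule R M) Module.Finite.fg_top (le_of_eq h.symm)
        (IsLocalRing.maximalIdeal_le_jacobson _)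
      exact top_ne_bot this
    obtain ⟨rs, hrl, hrm, hrr⟩ := ModuleCat.exists_isRegular_of_exists_subsingleton_ext
      (IsLocalRing.maximalIdeal R) (n + 1) (ModuleCat.of R M) hlt
      (ModuleCat.of R (R ⧸ IsLocalRing.maximalIdeal R))
      (by rw [Module.support_eq_zeroLocus, Ideal.annihilator_quotient]) hext
    have hxreg : IsSMulRegular M x := by
      by_contra hcon
      have : x ∈ (⋃ p ∈ associatedPrimes R M, (p : Set R)) := by
        rw [biUnion_associatedPrimes_eq_compl_regular]
        exact hcon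
      simp only [Set.mem_iUnion] at this
      obtain ⟨P, hP, hxP⟩ := this
      have hPp : P.IsPrime := hP.isPrime
      have hJP : J ≤ P := by
        obtain ⟨_, y, hy⟩ := (isAssociatedPrime_iff.mp hP)
        intro j hj
        rw [hy, Submodule.mem_colon_singleton, hJ j hj y]
        exact zero_mem _
      have h1 := length_le_ringKrullDim_of_mem_ass rs hrm M hrr P hP
      have h2 := ringKrullDim_quotient_le P ys hys s (hs.trans (by
        rw [Ideal.ofList_cons, ← sup_assoc]
        refine sup_le_sup_right (sup_le hJP ?_) _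
        rwa [Ideal.span_singleton_le_iff_mem]))
      have h3 := h1.trans h2
      rw [hrl, hlen] at h3
      have h4 : n + 1 ≤ n := by exact_mod_cast h3
      omega
    have hnt : Nontrivial (QuotSMulTop x M) := nontrivial_quotSMulTop_of_mem_maximalIdeal M hx
    refine IsRegular.cons hxreg (ih ys hlen hys (QuotSMulTop x M) (J ⊔ Ideal.span {x}) ?_ s ?_
      (ext_quot _ (ModuleCat.of R M) n hext x hxreg))
    · intro j hj m
      obtain ⟨m, rfl⟩ := Submodule.mkQ_surjective _ m
      obtain ⟨a, ha, b, hb, rfl⟩ := Submodule.mem_sup.mp hj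
      obtain ⟨c, rfl⟩ := Ideal.mem_span_singleton'.mp hb
      rw [← map_smul, add_smul, hJ a ha, zero_add, Submodule.mkQ_apply,
        Submodule.Quotient.mk_eq_zero, mul_comm, mul_smul]
      exact Submodule.smul_mem_pointwise_smul _ _ _ trivial
    · rw [sup_assoc, ← Ideal.ofList_cons]
      exact hs

/-- **F8, second form.** If the finite module `M` over the Noetherian local ring `R` has a regular
sequence in the maximal ideal whose length equals that of the list `xs`, and `xs` generates an
`𝔪`-primary ideal (contained in `𝔪`), then `xs` itself is `M`-regular. -/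
theorem isRegular_of_primary (xs : List R) (hx : ∀ x ∈ xs, x ∈ IsLocalRing.maximalIdeal R)
    (s : ℕ) (hs : IsLocalRing.maximalIdeal R ^ s ≤ Ideal.ofList xs)
    (M : Type) [AddCommGroup M] [Module R M] [Module.Finite R M]
    (rs : List R) (hlen : rs.length = xs.length)
    (hrs : ∀ r ∈ rs, r ∈ IsLocalRing.maximalIdeal R)
    (hreg : IsRegular M rs) : IsRegular M xs := by
  have hnt : Nontrivial M := hreg.nontrivial
  have hlt : IsLocalRing.maximalIdeal R • (⊤ : Submodule R (ModuleCat.of R M)) < ⊤ := by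
    refine lt_top_iff_ne_top.mpr (fun h => ?_)
    have := Submodule.eq_bot_of_le_smul_of_le_jacobson_bot (IsLocalRing.maximalIdeal R)
      (⊤ : Submodule R M) Module.Finite.fg_top (le_of_eq h.symm)
      (IsLocalRing.maximalIdeal_le_jacobson _)
    exact top_ne_bot this
  have hext : ∀ i < xs.length,
      Subsingleton (Ext (ModuleCat.of R (R ⧸ IsLocalRing.maximalIdeal R))
      (ModuleCat.of R M) i) := by
    have h := ModuleCat.subsingleton_ext_of_exists_isRegular (IsLocalRing.maximalIdeal R)
      (ModuleCat.of R (R ⧸ IsLocalRing.maximalIdeal R))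
      (by
        rw [Module.support_eq_zeroLocus, Ideal.annihilator_quotient])
      (ModuleCat.of R M) hlt rs hrs hreg
    rw [hlen] at h
    exact h
  exact isRegular_of_ext xs.length xs rfl hx M ⊥ (by
    intro j hj m
    rw [Ideal.mem_bot] at hj
    rw [hj, zero_smul]) s (by simpa using hs) hext

end Crest.Agent.R169
end

-- ▼ part R169/PackMod

/-!
Row 169, module `PackMod`: module glue.  A finite module with a regular sequence of length three in
the maximal ideal over a Noetherian local ring `B` receiving `T = D.Ttot` (with `X, Xu, Xv`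
generating an ideal primary to the maximal ideal) gives a `GrFree` module over `T`.
-/

set_option autoImplicit false

noncomputable section

namespace Crest.Agent.R169

open RingTheory.Sequence Pointwise Polynomial

section Quot

variable {k B : Type} [Field k] [CommRing B] [IsLocalRing B] [IsNoetherianRing B] [Algebra k B]

/-- `B = (finite dimensional) + 𝔪^s`. -/
theorem exists_finset_pow (hres : ∀ b : B, ∃ r : k, b - algebraMap k B r ∈ IsLocalRing.maximalIdeal B)
    (s : ℕ) : ∃ S : Set B, S.Finite ∧ ∀ b : B, ∃ a ∈ Submodule.span k S,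
      b - a ∈ IsLocalRing.maximalIdeal B ^ s := by
  induction s with
  | zero => exact ⟨∅, Set.finite_empty, fun b => ⟨0, zero_mem _, by simp⟩⟩
  | succ s ih =>
    obtain ⟨S, hS, h⟩ := ih
    obtain ⟨G, hG⟩ := (isNoetherianRing_iff_ideal_fg B).mp ‹_› (IsLocalRing.maximalIdeal B ^ s)
    refine ⟨S ∪ G, hS.union G.finite_toSet, fun b => ?_⟩
    obtain ⟨a, ha, hb⟩ := h b
    rw [← hG] at hb
    have key : ∀ y ∈ Submodule.span B (G : Set B), ∃ a ∈ Submodule.span k (S ∪ (G : Set B)),
        y - a ∈ IsLocalRing.maximalIdeal B ^ (s + 1) := by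
      intro y hy
      induction hy using Submodule.span_induction with
      | mem g hg =>
        exact ⟨g, Submodule.subset_span (Set.mem_union_right _ hg), by simp⟩
      | zero => exact ⟨0, zero_mem _, by simp⟩
      | add x y _ _ hx hy =>
        obtain ⟨a, ha, h1⟩ := hx
        obtain ⟨b, hb, h2⟩ := hy
        refine ⟨a + b, Submodule.add_mem _ ha hb, ?_⟩
        have := Ideal.add_mem _ h1 h2
        convert this using 1
        ring
      | smul c x hx' hx =>
        obtain ⟨a, ha, h1⟩ := hx
        obtain ⟨r, hr⟩ := hres c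
        refine ⟨r • a, Submodule.smul_mem _ _ ha, ?_⟩
        have h2 : (c - algebraMap k B r) * x ∈ IsLocalRing.maximalIdeal B ^ (s + 1) := by
          rw [pow_succ']
          refine Ideal.mul_mem_mul hr ?_
          rw [← hG]
          exact hx'
        have h3 : algebraMap k B r * (x - a) ∈ IsLocalRing.maximalIdeal B ^ (s + 1) :=
          Ideal.mul_mem_left _ _ h1
        have := Ideal.add_mem _ h2 h3
        convert this using 1
        rw [smul_eq_mul, Algebra.smul_def]
        ring
    obtain ⟨a', ha', h'⟩ := key _ hb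
    refine ⟨a + a', Submodule.add_mem _ (Submodule.span_mono Set.subset_union_left ha) ha', ?_⟩
    convert h' using 1
    ring

end Quot

section Main

variable {k Q : Type} [Field k] [Field Q] [Algebra k Q]

/-- **Module glue.** -/
theorem not_isRegular_of_noMCM (D : TData k Q) (hno : NoMCM D)
    (B : Type) [CommRing B] [IsLocalRing B] [IsNoetherianRing B] (f : D.Ttot →+* B)
    (h0 : f D.x0 ∈ IsLocalRing.maximalIdeal B) (h1 : f D.x1 ∈ IsLocalRing.maximalIdeal B)
    (h2 : f D.x2 ∈ IsLocalRing.maximalIdeal B) (s : ℕ)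
    (hs : IsLocalRing.maximalIdeal B ^ s ≤ Ideal.span {f D.x0, f D.x1, f D.x2})
    (hres : ∀ b : B, ∃ r : k, b - f (algebraMap k D.Ttot r) ∈ IsLocalRing.maximalIdeal B)
    (M : Type) [AddCommGroup M] [Module B M] (hMfin : Module.Finite B M)
    (rs : List B) (hlen : rs.length = 3)
    (hrs : ∀ r ∈ rs, r ∈ IsLocalRing.maximalIdeal B) : ¬ IsRegular M rs := by
  intro hreg
  classical
  let algB : Algebra k B := (f.comp (algebraMap k D.Ttot)).toAlgebra
  let algT : Algebra D.Ttot B := f.toAlgebra
  let modT : Module D.Ttot M := Module.compHom M f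
  let modk : Module k M := Module.compHom M (f.comp (algebraMap k D.Ttot))
  have tow1 : IsScalarTower k D.Ttot M := by
    refine ⟨fun a t m => ?_⟩
    change f (a • t) • m = f (algebraMap k D.Ttot a) • (f t • m)
    rw [smul_smul, ← map_mul, Algebra.smul_def]
  have tow2 : IsScalarTower D.Ttot B M := by
    refine ⟨fun t b m => ?_⟩
    change (f t * b) • m = f t • (b • m)
    rw [mul_smul]
  have tow3 : IsScalarTower k B M := by
    refine ⟨fun t b m => ?_⟩
    change (f (algebraMap k D.Ttot t) * b) • m = f (algebraMap k D.Ttot t) • (b • m)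
    rw [mul_smul]
  have hsmulT : ∀ (t : D.Ttot) (m : M), t • m = f t • m := fun _ _ => rfl
  -- regularity over `B`
  have hofl : Ideal.ofList [f D.x0, f D.x1, f D.x2] = Ideal.span {f D.x0, f D.x1, f D.x2} := by
    rw [Ideal.ofList]
    congr 1
    ext z
    simp
  have hregB : IsRegular M [f D.x0, f D.x1, f D.x2] := by
    refine isRegular_of_primary _ ?_ s (by rw [hofl]; exact hs) M rs (by simpa using hlen) hrs hreg
    intro x hx
    simp only [List.mem_cons, List.not_mem_nil, or_false] at hx
    rcases hx with rfl | rfl | rfl <;> assumption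
  have hregT : IsWeaklyRegular M [D.x0, D.x1, D.x2] := by
    rw [← isWeaklyRegular_map_algebraMap_iff (S := B)]
    exact hregB.toIsWeaklyRegular
  -- `I_B M ⊆ m_I M`
  have hIB : ∀ y ∈ (Ideal.span {f D.x0, f D.x1, f D.x2} • (⊤ : Submodule B M)),
      y ∈ (D.mI • (⊤ : Submodule D.Ttot M)) := by
    intro y hy
    refine Submodule.smul_induction_on hy ?_ ?_
    · intro b hb m _
      induction hb using Submodule.span_induction generalizing m with
      | mem x hx =>
        simp only [Set.mem_insert_iff, Set.mem_singleton_iff] at hx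
        rcases hx with rfl | rfl | rfl
        · rw [← hsmulT]
          exact Submodule.smul_mem_smul (Ideal.subset_span (by simp)) trivial
        · rw [← hsmulT]
          exact Submodule.smul_mem_smul (Ideal.subset_span (by simp)) trivial
        · rw [← hsmulT]
          exact Submodule.smul_mem_smul (Ideal.subset_span (by simp)) trivial
      | zero => rw [zero_smul]; exact zero_mem _
      | add x y _ _ hx hy =>
        rw [add_smul]
        exact Submodule.add_mem _ (hx m trivial) (hy m trivial)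
      | smul c x _ hx =>
        rw [smul_eq_mul, mul_comm, mul_smul]
        exact hx (c • m) trivial
    · intro x y hx hy
      exact Submodule.add_mem _ hx hy
  -- finite dimensionality
  have hfin : Module.Finite k (M ⧸ (D.mI • (⊤ : Submodule D.Ttot M))) := by
    obtain ⟨S, hS, hSpan⟩ := exists_finset_pow (k := k) (B := B) hres s
    obtain ⟨W, hW⟩ := hMfin.fg_top
    have hfinite : (Set.image2 (fun (b : B) (w : M) => b • w) S (W : Set M)).Finite :=
      hS.image2 _ W.finite_toSet
    have hw : ∀ (w : M), w ∈ (W : Set M) → ∀ a ∈ Submodule.span k S,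
        a • w ∈ Submodule.span k (Set.image2 (fun (b : B) (w : M) => b • w) S (W : Set M)) := by
      intro w hw a ha
      induction ha using Submodule.span_induction with
      | mem x hx => exact Submodule.subset_span ⟨x, hx, w, hw, rfl⟩
      | zero => rw [zero_smul]; exact zero_mem _
      | add x y _ _ hx hy => rw [add_smul]; exact Submodule.add_mem _ hx hy
      | smul c x _ hx => rw [smul_assoc]; exact Submodule.smul_mem _ c hx
    have hk : ∀ m : M, ∃ a ∈ Submodule.span k (Set.image2 (fun (b : B) (w : M) => b • w) S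
        (W : Set M)), m - a ∈ (D.mI • (⊤ : Submodule D.Ttot M)) := by
      intro m
      have hm : m ∈ Submodule.span B (W : Set M) := by rw [hW]; trivial
      obtain ⟨b, _, hb⟩ := Submodule.mem_span_finset.mp hm
      choose a ha ha' using fun w : M => hSpan (b w)
      refine ⟨∑ w ∈ W, a w • w, Submodule.sum_mem _ fun w hw' => hw w hw' _ (ha w), ?_⟩
      rw [← hb, ← Finset.sum_sub_distrib]
      refine Submodule.sum_mem _ fun w _ => ?_
      rw [← sub_smul]
      exact hIB _ (Submodule.smul_mem_smul (hs (ha' w)) trivial)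
    have hfd : Module.Finite k (Submodule.span k (Set.image2 (fun (b : B) (w : M) => b • w) S
        (W : Set M))) := FiniteDimensional.span_of_finite k hfinite
    refine Module.Finite.of_surjective
      (((Submodule.mkQ (D.mI • (⊤ : Submodule D.Ttot M))).restrictScalars k).comp
        (Submodule.subtype (Submodule.span k (Set.image2 (fun (b : B) (w : M) => b • w) S
        (W : Set M))))) ?_
    intro y
    obtain ⟨m, rfl⟩ := Submodule.mkQ_surjective _ y
    obtain ⟨a, ha, h⟩ := hk m
    refine ⟨⟨a, ha⟩, ?_⟩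
    symm
    exact (Submodule.Quotient.eq _).mpr h
  have hntM : Nontrivial M := hreg.nontrivial
  have hnt : Nontrivial (M ⧸ (D.mI • (⊤ : Submodule D.Ttot M))) := by
    rw [Submodule.Quotient.nontrivial_iff]
    intro htop
    have hle : ∀ y ∈ (D.mI • (⊤ : Submodule D.Ttot M)),
        y ∈ (IsLocalRing.maximalIdeal B • (⊤ : Submodule B M)) := by
      intro y hy
      refine Submodule.smul_induction_on hy ?_ ?_
      · intro t ht m _
        rw [hsmulT]
        refine Submodule.smul_mem_smul ?_ trivial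
        have : D.mI ≤ (IsLocalRing.maximalIdeal B).comap f := by
          unfold TData.mI
          rw [Ideal.span_le]
          rintro x (rfl | rfl | rfl)
          exacts [h0, h1, h2]
        exact this ht
      · intro x y hx hy
        exact Submodule.add_mem _ hx hy
    have h3 : (⊤ : Submodule B M) ≤ IsLocalRing.maximalIdeal B • (⊤ : Submodule B M) := by
      intro y _
      exact hle y (by rw [htop]; trivial)
    have h4 := Submodule.eq_bot_of_le_smul_of_le_jacobson_bot (IsLocalRing.maximalIdeal B)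
      (⊤ : Submodule B M) Module.Finite.fg_top h3 (IsLocalRing.maximalIdeal_le_jacobson _)
    exact top_ne_bot h4
  exact hno M _ (grFree_of_isWeaklyRegular D M hregT)

/-- the hypotheses `FilUV` of the packaging hold for every `TData`. -/
theorem TData.filUV (D : TData k Q) : FilUV D.toFil D.u D.v where
  one_mem := by
    have := D.one_mem
    change (1 : Q) ∈ D.F ((1 : ℕ) : ℤ)
    exact_mod_cast this
  u_mem := by
    have := D.u_mem
    change D.u ∈ D.F ((1 : ℕ) : ℤ)
    exact_mod_cast this
  v_mem := by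
    have := D.v_mem
    change D.v ∈ D.F ((1 : ℕ) : ℤ)
    exact_mod_cast this
  finite := fun m => D.lat.fin m
  gen := by
    obtain ⟨m₁, h⟩ := D.lat.gen
    refine ⟨m₁.toNat, fun m hm q hq => ?_⟩
    have hq' : q ∈ D.F ((m : ℤ) + 1) := by
      have : q ∈ D.F ((m + 1 : ℕ) : ℤ) := hq
      exact_mod_cast this
    obtain ⟨a, ha, b, hb, c, hc, e⟩ := h m (by omega) q hq'
    exact ⟨a, ha, b, hb, c, hc, by simpa [smul_eq_mul] using e⟩
  indep := D.indep


/-- the ideal of elements of `T` of order `≥ n` -/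
def TData.ordT (D : TData k Q) (n : ℕ) : Ideal D.Ttot where
  carrier := {p | ∀ m, m < n → (p : Q[X]).coeff m = 0}
  add_mem' := by
    intro f g hf hg m hm
    have h1 : ((f + g : D.Ttot) : Q[X]) = (f : Q[X]) + (g : Q[X]) := rfl
    rw [h1, Polynomial.coeff_add, hf m hm, hg m hm, add_zero]
  zero_mem' := by
    intro m _
    exact Polynomial.coeff_zero m
  smul_mem' := by
    intro c f hf m hm
    have h1 : ((c • f : D.Ttot) : Q[X]) = (c : Q[X]) * (f : Q[X]) := rfl
    rw [h1, Polynomial.coeff_mul]
    refine Finset.sum_eq_zero fun x hx => ?_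
    have := Finset.HasAntidiagonal.mem_antidiagonal.mp hx
    rw [hf x.2 (by omega), mul_zero]

theorem TData.mem_ordT {D : TData k Q} {n : ℕ} {p : D.Ttot} :
    p ∈ D.ordT n ↔ ∀ m, m < n → (p : Q[X]).coeff m = 0 := Iff.rfl

theorem TData.pow_ordT_le (D : TData k Q) (n : ℕ) : D.ordT 1 ^ n ≤ D.ordT n := by
  induction n with
  | zero => intro f _ m hm; omega
  | succ n ih =>
    rw [pow_succ, Ideal.mul_le]
    intro f hf g hg m hm
    have h1 : ((f * g : D.Ttot) : Q[X]) = (f : Q[X]) * (g : Q[X]) := rfl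
    rw [h1, Polynomial.coeff_mul]
    refine Finset.sum_eq_zero fun x hx => ?_
    have := Finset.HasAntidiagonal.mem_antidiagonal.mp hx
    rcases Nat.lt_or_ge x.1 n with h2 | h2
    · rw [ih hf x.1 h2, zero_mul]
    · rw [hg x.2 (by omega), mul_zero]

theorem TData.exists_ordT_le (D : TData k Q) : ∃ c : ℕ, D.ordT c ≤ D.mI := by
  obtain ⟨c, hc⟩ := D.filUV.gen
  refine ⟨c + 1, fun p hp => ?_⟩
  have hmono : ∀ (m : ℕ) (q : D.toFil.F (m + 1)), c ≤ m → D.toFil.mono (m + 1) q ∈ D.mI := by
    intro m q hm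
    obtain ⟨a, ha, b, hb, d, hd, e⟩ := hc m hm q q.2
    have e' : D.toFil.mono (m + 1) q = Fil.xT D.filUV * D.toFil.mono m ⟨a, ha⟩ +
        Fil.yT D.filUV * D.toFil.mono m ⟨b, hb⟩ + Fil.zT D.filUV * D.toFil.mono m ⟨d, hd⟩ := by
      simp only [Fil.xT, Fil.yT, Fil.zT]
      rw [Fil.mono_mul_mono, Fil.mono_mul_mono, Fil.mono_mul_mono]
      apply Subtype.ext
      simp only [Subalgebra.coe_add, Fil.coe_mono, e]
      rw [← map_add, ← map_add, one_mul, add_comm 1 m]
    have hx0 : Fil.xT D.filUV ∈ D.mI := Ideal.subset_span (Or.inl rfl)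
    have hx1 : Fil.yT D.filUV ∈ D.mI := Ideal.subset_span (Or.inr (Or.inl rfl))
    have hx2 : Fil.zT D.filUV ∈ D.mI := Ideal.subset_span (Or.inr (Or.inr rfl))
    rw [e']
    exact Ideal.add_mem D.mI (Ideal.add_mem D.mI (Ideal.mul_mem_right _ D.mI hx0)
      (Ideal.mul_mem_right _ D.mI hx1)) (Ideal.mul_mem_right _ D.mI hx2)
  have hsum := D.toFil.sum_mono p
  rw [hsum]
  refine Ideal.sum_mem _ fun m hm => ?_
  have hm' : c + 1 ≤ m := by
    by_contra hlt
    exact (Polynomial.mem_support_iff.mp hm) (hp m (by omega))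
  obtain ⟨n, rfl⟩ : ∃ n, m = n + 1 := ⟨m - 1, by omega⟩
  exact hmono n _ (by omega)

/-- Module glue for an abstract localization of `T` at the irrelevant ideal. -/
theorem glueLoc (D : TData k Q) (hno : NoMCM D) (I : Ideal D.Ttot) [I.IsPrime]
    (hI : ∀ p : D.Ttot, p ∈ I ↔ (p : Q[X]).coeff 0 = 0)
    (B : Type) [CommRing B] [Algebra D.Ttot B] [IsLocalization.AtPrime B I] [IsLocalRing B] :
    ∀ (M : Type) [AddCommGroup M] [Module B M],
      Module.Finite B M → Nontrivial M →
        ∀ rs : List B, rs.length = 3 →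
          (∀ r ∈ rs, r ∈ IsLocalRing.maximalIdeal B) →
          ¬ IsRegular M rs := by
  intro M _ _ hfin _ rs hlen hrs
  have hT : IsNoetherianRing D.Ttot := Fil.isNoetherianRing_T D.filUV
  have hN : IsNoetherianRing B :=
    IsLocalization.isNoetherianRing I.primeCompl _ hT
  have hIord : I = D.ordT 1 := by
    ext p
    rw [hI, TData.mem_ordT]
    constructor
    · intro h m hm
      obtain rfl : m = 0 := by omega
      exact h
    · intro h
      exact h 0 (by omega)
  have hmap : I.map (algebraMap D.Ttot B) =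
      IsLocalRing.maximalIdeal B :=
    IsLocalization.AtPrime.map_eq_maximalIdeal I B
  have hxI : D.mI ≤ I := by
    unfold TData.mI
    rw [Ideal.span_le]
    rintro x (rfl | rfl | rfl) <;> rw [SetLike.mem_coe, hI]
    · change (Polynomial.monomial 1 (1 : Q)).coeff 0 = 0
      rw [Polynomial.coeff_monomial, if_neg one_ne_zero]
    · change (Polynomial.monomial 1 D.u).coeff 0 = 0
      rw [Polynomial.coeff_monomial, if_neg one_ne_zero]
    · change (Polynomial.monomial 1 D.v).coeff 0 = 0
      rw [Polynomial.coeff_monomial, if_neg one_ne_zero]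
  have hmem : ∀ x ∈ D.mI, algebraMap D.Ttot B x ∈
      IsLocalRing.maximalIdeal B := by
    intro x hx
    rw [← hmap]
    exact Ideal.mem_map_of_mem _ (hxI hx)
  obtain ⟨c, hc⟩ := D.exists_ordT_le
  refine not_isRegular_of_noMCM D hno B
    (algebraMap D.Ttot B)
    (hmem _ (Ideal.subset_span (by simp))) (hmem _ (Ideal.subset_span (by simp)))
    (hmem _ (Ideal.subset_span (by simp))) c ?_ ?_ M hfin rs hlen hrs
  · rw [← hmap, ← Ideal.map_pow]
    have h1 : I ^ c ≤ D.mI := by
      rw [hIord]
      exact (D.pow_ordT_le c).trans hc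
    refine (Ideal.map_mono h1).trans ?_
    unfold TData.mI
    rw [Ideal.map_span, Set.image_insert_eq, Set.image_insert_eq, Set.image_singleton]
  · -- residue field
    have hconst : ∀ t : D.Ttot, ∃ r : k, t - algebraMap k D.Ttot r ∈ I := by
      intro t
      obtain ⟨r, hr⟩ := D.toFil.exists_const t
      refine ⟨r, ?_⟩
      rw [hI]
      exact D.toFil.mem_irr.mp hr
    intro b
    obtain ⟨⟨t, w⟩, hb⟩ := IsLocalization.surj I.primeCompl b
    obtain ⟨r, hr⟩ := hconst t
    obtain ⟨r', hr'⟩ := hconst w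
    have hr'0 : r' ≠ 0 := by
      rintro rfl
      apply w.2
      simpa using hr'
    refine ⟨r / r', ?_⟩
    -- `b * w = t`, so `(b - r/r') * w = t - (r/r') w ∈ 𝔪`
    have hw : IsUnit (algebraMap D.Ttot B w) :=
      IsLocalization.map_units _ w
    have key : (b - algebraMap D.Ttot B (algebraMap k D.Ttot (r / r'))) *
        algebraMap D.Ttot B w =
        algebraMap D.Ttot B
          (t - algebraMap k D.Ttot (r / r') * (w : D.Ttot)) := by
      rw [sub_mul, hb, map_sub, map_mul]
    refine (Ideal.mul_unit_mem_iff_mem _ hw).mp ?_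
    rw [key, ← hmap]
    apply Ideal.mem_map_of_mem
    have e : t - algebraMap k D.Ttot (r / r') * (w : D.Ttot) =
        (t - algebraMap k D.Ttot r) - algebraMap k D.Ttot (r / r') *
          ((w : D.Ttot) - algebraMap k D.Ttot r') := by
      rw [mul_sub, ← map_mul, div_mul_cancel₀ _ hr'0]
      ring
    change t - algebraMap k D.Ttot (r / r') * (w : D.Ttot) ∈ I
    rw [e]
    exact Ideal.sub_mem _ hr (Ideal.mul_mem_left _ _ hr')

/-- **Module glue for `T_𝔪`** (S0257). -/
theorem glueT (D : TData k Q) (hno : NoMCM D) (I : Ideal D.Ttot) [I.IsPrime]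
    (hI : ∀ p : D.Ttot, p ∈ I ↔ (p : Q[X]).coeff 0 = 0) :
    ∀ (M : Type) [AddCommGroup M] [Module (Localization.AtPrime I) M],
      Module.Finite (Localization.AtPrime I) M → Nontrivial M →
        ∀ rs : List (Localization.AtPrime I), rs.length = 3 →
          (∀ r ∈ rs, r ∈ IsLocalRing.maximalIdeal (Localization.AtPrime I)) →
          ¬ IsRegular M rs :=
  glueLoc D hno I hI (Localization.AtPrime I)

/-- the inclusion `T → R` -/
def TData.toR (D : TData k Q) : D.Ttot →+* D.toFil.R :=
  ((Polynomial.coeToPowerSeries.ringHom (R := Q)).comp D.Ttot.val.toRingHom).codRestrict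
    D.toFil.R.toSubring (fun p m => by
      have : PowerSeries.coeff m ((p : Q[X]) : PowerSeries Q) = (p : Q[X]).coeff m :=
        Polynomial.coeff_coe _ _
      change PowerSeries.coeff m ((p : Q[X]) : PowerSeries Q) ∈ D.F m
      rw [this]
      exact p.2 m)

theorem TData.co_toR (D : TData k Q) (p : D.Ttot) (m : ℕ) :
    D.toFil.co (D.toR p) m = (p : Q[X]).coeff m :=
  Polynomial.coeff_coe _ _

/-- **Module glue for the completion `R`** (S0256). -/
theorem glueR (D : TData k Q) (hno : NoMCM D) :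
    ∀ (M : Type) [AddCommGroup M] [Module D.toFil.R M], Module.Finite D.toFil.R M →
      Nontrivial M → ∀ rs : List D.toFil.R, rs.length = 3 →
          (∀ r ∈ rs, r ∈ IsLocalRing.maximalIdeal D.toFil.R) → ¬ IsRegular M rs := by
  intro M _ _ hfin _ rs hlen hrs
  have hN : IsNoetherianRing D.toFil.R := Fil.isNoetherianRing_R D.filUV
  have e0 : D.toR D.x0 = D.toFil.hom 1 ⟨1, D.filUV.one_mem⟩ := by
    refine D.toFil.R_ext fun m => ?_
    rw [D.co_toR, Fil.co_hom]
    change (Polynomial.monomial 1 (1 : Q)).coeff m = _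
    rw [Polynomial.coeff_monomial]
    simp only [eq_comm]
  have e1 : D.toR D.x1 = D.toFil.hom 1 ⟨D.u, D.filUV.u_mem⟩ := by
    refine D.toFil.R_ext fun m => ?_
    rw [D.co_toR, Fil.co_hom]
    change (Polynomial.monomial 1 D.u).coeff m = _
    rw [Polynomial.coeff_monomial]
    simp only [eq_comm]
  have e2 : D.toR D.x2 = D.toFil.hom 1 ⟨D.v, D.filUV.v_mem⟩ := by
    refine D.toFil.R_ext fun m => ?_
    rw [D.co_toR, Fil.co_hom]
    change (Polynomial.monomial 1 D.v).coeff m = _
    rw [Polynomial.coeff_monomial]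
    simp only [eq_comm]
  have hxyz : Fil.xyzR D.filUV = Ideal.span {D.toR D.x0, D.toR D.x1, D.toR D.x2} := by
    rw [e0, e1, e2]
    rfl
  have hle := Fil.xyzR_le D.filUV
  obtain ⟨c, hc⟩ := Fil.exists_ordIdeal_le D.filUV
  refine not_isRegular_of_noMCM D hno D.toFil.R D.toR ?_ ?_ ?_ (c + 1) ?_ ?_ M hfin rs hlen hrs
  · apply hle
    rw [hxyz]
    exact Ideal.subset_span (by simp)
  · apply hle
    rw [hxyz]
    exact Ideal.subset_span (by simp)
  · apply hle
    rw [hxyz]
    exact Ideal.subset_span (by simp)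
  · rw [← hxyz]
    have h1 := hc 1
    rw [pow_one] at h1
    refine le_trans ?_ h1
    rw [Fil.maximalIdeal_eq]
    exact D.toFil.pow_ordIdeal_le (c + 1)
  · intro b
    obtain ⟨r, hr⟩ := D.toFil.mem_zero_iff.mp (D.toFil.co_mem b 0)
    refine ⟨r, ?_⟩
    rw [Fil.mem_maximalIdeal, Fil.co_sub, D.co_toR, ← hr]
    change algebraMap k Q r - (Polynomial.C (algebraMap k Q r)).coeff 0 = 0
    rw [Polynomial.coeff_C_zero, sub_self]

end Main

end Crest.Agent.R169
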