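import Crest.Agent.R169.PackDefs

-- ▼ part R169/PackT
section

/-!
# Row 169: basic structure of `T` (grading, irrelevant ideal)
-/

set_option autoImplicit false

noncomputable section

namespace Crest.Agent.R169

open Polynomial DirectSum

variable {k Q : Type} [Field k] [Field Q] [Algebra k Q]

namespace Fil

variable (𝓕 : Fil k Q)

instance : IsDomain 𝓕.T := inferInstance
instance : IsDomain 𝓕.R := inferInstance


/-- The degree `m` part of `p ∈ T`. -/
def part (m : ℕ) (p : 𝓕.T) : 𝓕.piece m :=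
  ⟨𝓕.mono m ⟨(p : Q[X]).coeff m, p.2 m⟩, by
    intro n hn
    simp [Polynomial.coeff_monomial, Ne.symm hn]⟩

@[simp] lemma coe_part (m : ℕ) (p : 𝓕.T) :
    (((𝓕.part m p : 𝓕.piece m) : 𝓕.T) : Q[X]) = monomial m ((p : Q[X]).coeff m) := rfl

lemma part_of_mem {m : ℕ} {p : 𝓕.T} (hp : p ∈ 𝓕.piece m) : ((𝓕.part m p : 𝓕.piece m) : 𝓕.T) = p := by
  apply Subtype.ext
  ext n
  rw [coe_part, Polynomial.coeff_monomial]
  split_ifs with h
  · rw [h]
  · exact (hp n (Ne.symm h)).symm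

lemma part_of_mem_ne {m n : ℕ} (hmn : m ≠ n) {p : 𝓕.T} (hp : p ∈ 𝓕.piece m) :
    𝓕.part n p = 0 := by
  apply Subtype.ext
  apply Subtype.ext
  rw [coe_part, hp n (Ne.symm hmn)]
  simp

/-- The decomposition map. -/
def decompFun (p : 𝓕.T) : ⨁ i, 𝓕.piece i :=
  DirectSum.mk (fun i => 𝓕.piece i) (p : Q[X]).support (fun m => 𝓕.part m p)

lemma decompFun_apply (p : 𝓕.T) (m : ℕ) : 𝓕.decompFun p m = 𝓕.part m p := by
  classical
  unfold decompFun
  by_cases h : m ∈ (p : Q[X]).support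
  · rw [DirectSum.mk_apply_of_mem h]
  · rw [DirectSum.mk_apply_of_notMem h]
    rw [Polynomial.notMem_support_iff] at h
    symm
    apply Subtype.ext
    apply Subtype.ext
    rw [coe_part, h]
    simp

/-- The decomposition map as an additive hom. -/
def decomp : 𝓕.T →+ ⨁ i, 𝓕.piece i where
  toFun := 𝓕.decompFun
  map_zero' := by
    refine DFinsupp.ext fun m => ?_
    rw [decompFun_apply]
    apply Subtype.ext
    apply Subtype.ext
    rw [coe_part]
    simp
  map_add' := by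
    intro p q
    refine DFinsupp.ext fun m => ?_
    rw [DirectSum.add_apply, decompFun_apply, decompFun_apply, decompFun_apply]
    apply Subtype.ext
    apply Subtype.ext
    simp

lemma decomp_apply (p : 𝓕.T) (m : ℕ) : 𝓕.decomp p m = 𝓕.part m p := 𝓕.decompFun_apply p m

instance : GradedAlgebra 𝓕.piece where
  one_mem := by
    intro n hn
    simp [Polynomial.coeff_one, hn]
  mul_mem := by
    intro i j p q hp hq n hn
    rw [show ((p * q : 𝓕.T) : Q[X]) = (p : Q[X]) * (q : Q[X]) from rfl, Polynomial.coeff_mul]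
    refine Finset.sum_eq_zero fun x hx => ?_
    have hx' := Finset.HasAntidiagonal.mem_antidiagonal.mp hx
    by_cases h1 : x.1 = i
    · have h2 : x.2 ≠ j := by
        rintro rfl
        apply hn
        omega
      rw [hq _ h2, mul_zero]
    · rw [hp _ h1, zero_mul]
  decompose' := 𝓕.decomp
  left_inv := by
    classical
    intro p
    apply Subtype.ext
    ext n
    have : (DirectSum.coeAddMonoidHom 𝓕.piece) (𝓕.decomp p) =
        ∑ m ∈ (p : Q[X]).support, ((𝓕.part m p : 𝓕.piece m) : 𝓕.T) := by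
      rw [DirectSum.coeAddMonoidHom_eq_dfinsuppSum, DFinsupp.sum]
      refine Finset.sum_subset_zero_on_sdiff ?_ ?_ ?_
      · intro m hm
        rw [DFinsupp.mem_support_iff] at hm
        by_contra h
        rw [Polynomial.notMem_support_iff] at h
        apply hm
        rw [decomp_apply]
        apply Subtype.ext
        apply Subtype.ext
        rw [coe_part, h]
        simp
      · intro m hm
        rw [Finset.mem_sdiff, DFinsupp.notMem_support_iff] at hm
        rw [decomp_apply] at hm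
        rw [hm.2]
        rfl
      · intro m _
        rw [decomp_apply]
    rw [this]
    rw [AddSubmonoidClass.coe_finsetSum]
    simp only [coe_part, Polynomial.finsetSum_coeff, Polynomial.coeff_monomial]
    rw [Finset.sum_ite_eq']
    split_ifs with h
    · rfl
    · exact (Polynomial.notMem_support_iff.mp h).symm
  right_inv := by
    intro x
    induction x using DirectSum.induction_on with
    | zero => simp
    | of i y =>
      rw [DirectSum.coeAddMonoidHom_of]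
      refine DFinsupp.ext fun m => ?_
      change 𝓕.decomp _ m = _
      rw [decomp_apply]
      by_cases h : i = m
      · subst h
        rw [DirectSum.of_eq_same]
        apply Subtype.ext
        exact 𝓕.part_of_mem y.2
      · rw [DirectSum.of_eq_of_ne _ _ _ (Ne.symm h)]
        exact 𝓕.part_of_mem_ne h y.2
    | add x y hx hy => rw [map_add, map_add, hx, hy]

lemma decompose_apply (p : 𝓕.T) (m : ℕ) : DirectSum.decompose 𝓕.piece p m = 𝓕.part m p :=
  𝓕.decomp_apply p m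

/-- The irrelevant ideal `T₊`. -/
abbrev irr : Ideal 𝓕.T := (HomogeneousIdeal.irrelevant 𝓕.piece).toIdeal

lemma mem_irr {p : 𝓕.T} : p ∈ 𝓕.irr ↔ (p : Q[X]).coeff 0 = 0 := by
  change GradedRing.proj 𝓕.piece 0 p = 0 ↔ _
  rw [GradedRing.proj_apply, decompose_apply]
  constructor
  · intro h
    have h2 : ((((𝓕.part 0 p : 𝓕.piece 0) : 𝓕.T) : Q[X])).coeff 0 = 0 := by rw [h]; simp
    simpa using h2
  · intro h
    apply Subtype.ext
    rw [coe_part, h]
    simp

lemma exists_const (p : 𝓕.T) : ∃ r : k, p - algebraMap k 𝓕.T r ∈ 𝓕.irr := by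
  obtain ⟨r, hr⟩ := 𝓕.mem_zero_iff.mp (p.2 0)
  refine ⟨r, 𝓕.mem_irr.mpr ?_⟩
  rw [show ((p - algebraMap k 𝓕.T r : 𝓕.T) : Q[X]) = (p : Q[X]) - C (algebraMap k Q r) from rfl]
  simp [hr]


instance isMaximal_irr : 𝓕.irr.IsMaximal := by
  rw [Ideal.isMaximal_iff]
  refine ⟨?_, ?_⟩
  · rw [mem_irr]
    simp
  · intro J p hle hp hpJ
    obtain ⟨r, hr⟩ := 𝓕.exists_const p
    have hr0 : r ≠ 0 := by
      rintro rfl
      rw [map_zero, sub_zero] at hr
      exact hp hr
    have h1 : algebraMap k 𝓕.T r ∈ J := by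
      have := J.sub_mem hpJ (hle hr)
      simpa using this
    have h2 := J.mul_mem_left (algebraMap k 𝓕.T r⁻¹) h1
    rw [← map_mul, inv_mul_cancel₀ hr0, map_one] at h2
    exact h2

lemma bijective_algebraMap_quot : Function.Bijective (algebraMap k (𝓕.T ⧸ 𝓕.irr)) := by
  refine ⟨(algebraMap k (𝓕.T ⧸ 𝓕.irr)).injective, ?_⟩
  intro x
  obtain ⟨p, rfl⟩ := Ideal.Quotient.mk_surjective x
  obtain ⟨r, hr⟩ := 𝓕.exists_const p
  refine ⟨r, ?_⟩
  symm
  exact (Ideal.Quotient.mk_eq_mk_iff_sub_mem _ _).mpr hr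

end Fil

end Crest.Agent.R169
end
end

-- ▼ part R169/PackR

/-!
# Row 169: the complete local ring `R = ∏ F_m X^m`
-/

set_option autoImplicit false

noncomputable section

namespace Crest.Agent.R169

open Polynomial

variable {k Q : Type} [Field k] [Field Q] [Algebra k Q]

namespace Fil

variable (𝓕 : Fil k Q)

/-- coefficient of `f ∈ R` -/
def co (f : 𝓕.R) (m : ℕ) : Q := PowerSeries.coeff m (f : PowerSeries Q)

lemma co_mem (f : 𝓕.R) (m : ℕ) : 𝓕.co f m ∈ 𝓕.F m := f.2 m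

lemma R_ext {f g : 𝓕.R} (h : ∀ m, 𝓕.co f m = 𝓕.co g m) : f = g :=
  Subtype.ext (PowerSeries.ext h)

@[simp] lemma co_zero (m : ℕ) : 𝓕.co 0 m = 0 := by simp [co]
@[simp] lemma co_add (f g : 𝓕.R) (m : ℕ) : 𝓕.co (f + g) m = 𝓕.co f m + 𝓕.co g m := by simp [co]
@[simp] lemma co_sub (f g : 𝓕.R) (m : ℕ) : 𝓕.co (f - g) m = 𝓕.co f m - 𝓕.co g m := by simp [co]
@[simp] lemma co_neg (f : 𝓕.R) (m : ℕ) : 𝓕.co (-f) m = - 𝓕.co f m := by simp [co]
lemma co_one (m : ℕ) : 𝓕.co 1 m = if m = 0 then 1 else 0 := by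
  simp [co, PowerSeries.coeff_one]
lemma co_mul (f g : 𝓕.R) (m : ℕ) :
    𝓕.co (f * g) m = ∑ x ∈ Finset.HasAntidiagonal.antidiagonal m, 𝓕.co f x.1 * 𝓕.co g x.2 := by
  simp [co, PowerSeries.coeff_mul]
lemma co_algebraMap (r : k) (m : ℕ) :
    𝓕.co (algebraMap k 𝓕.R r) m = if m = 0 then algebraMap k Q r else 0 := by
  have : ((algebraMap k 𝓕.R r : 𝓕.R) : PowerSeries Q) = algebraMap k (PowerSeries Q) r := rfl
  rw [co, this, PowerSeries.algebraMap_apply, PowerSeries.coeff_C]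
lemma co_sum {ι : Type} (s : Finset ι) (f : ι → 𝓕.R) (m : ℕ) :
    𝓕.co (∑ i ∈ s, f i) m = ∑ i ∈ s, 𝓕.co (f i) m := by
  classical
  induction s using Finset.induction_on with
  | empty => simp
  | insert a s ha ih => rw [Finset.sum_insert ha, Finset.sum_insert ha, co_add, ih]

/-- Build an element of `R` from its coefficients. -/
def mkR (a : ∀ m, 𝓕.F m) : 𝓕.R :=
  ⟨PowerSeries.mk (fun m => (a m : Q)), fun m => by rw [PowerSeries.coeff_mk]; exact (a m).2⟩

@[simp] lemma co_mkR (a : ∀ m, 𝓕.F m) (m : ℕ) : 𝓕.co (𝓕.mkR a) m = a m := by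
  simp [co, mkR]

/-- `q X^m` in `R`. -/
def hom (m : ℕ) (q : 𝓕.F m) : 𝓕.R :=
  ⟨PowerSeries.monomial m (q : Q), fun n => by
    rw [PowerSeries.coeff_monomial]
    split_ifs with h
    · subst h; exact q.2
    · exact Submodule.zero_mem _⟩

lemma co_hom (m : ℕ) (q : 𝓕.F m) (n : ℕ) : 𝓕.co (𝓕.hom m q) n = if n = m then (q : Q) else 0 := by
  simp [co, hom, PowerSeries.coeff_monomial]

lemma co_hom_mul (m : ℕ) (q : 𝓕.F m) (f : 𝓕.R) (n : ℕ) :
    𝓕.co (𝓕.hom m q * f) n = if m ≤ n then (q : Q) * 𝓕.co f (n - m) else 0 := by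
  rw [co_mul]
  simp only [co_hom]
  split_ifs with h
  · rw [Finset.sum_eq_single (m, n - m)]
    · simp
    · intro b hb hb'
      have := Finset.HasAntidiagonal.mem_antidiagonal.mp hb
      split_ifs with h1
      · exfalso
        apply hb'
        ext
        · exact h1
        · simp only
          omega
      · simp
    · intro hb
      exfalso
      apply hb
      rw [Finset.HasAntidiagonal.mem_antidiagonal]
      simp only
      omega
  · refine Finset.sum_eq_zero fun b hb => ?_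
    have := Finset.HasAntidiagonal.mem_antidiagonal.mp hb
    split_ifs with h1
    · exfalso; omega
    · simp

/-- Elements of order `≥ n`. -/
def ordIdeal (n : ℕ) : Ideal 𝓕.R where
  carrier := {f | ∀ m, m < n → 𝓕.co f m = 0}
  add_mem' := by
    intro f g hf hg m hm
    rw [co_add, hf m hm, hg m hm, add_zero]
  zero_mem' := by
    intro m _
    simp
  smul_mem' := by
    intro c f hf m hm
    rw [smul_eq_mul, co_mul]
    refine Finset.sum_eq_zero fun x hx => ?_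
    have := Finset.HasAntidiagonal.mem_antidiagonal.mp hx
    rw [hf x.2 (by omega), mul_zero]



lemma mul_mem_ordIdeal {m n : ℕ} {f g : 𝓕.R} (hf : f ∈ 𝓕.ordIdeal m) (hg : g ∈ 𝓕.ordIdeal n) :
    f * g ∈ 𝓕.ordIdeal (m + n) := by
  intro i hi
  rw [co_mul]
  refine Finset.sum_eq_zero fun x hx => ?_
  have := Finset.HasAntidiagonal.mem_antidiagonal.mp hx
  by_cases h : x.1 < m
  · rw [hf _ h, zero_mul]
  · rw [hg x.2 (by omega), mul_zero]

lemma hom_mem_ordIdeal (m : ℕ) (q : 𝓕.F m) : 𝓕.hom m q ∈ 𝓕.ordIdeal m := by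
  intro i hi
  rw [co_hom, if_neg (by omega)]

lemma eq_zero_of_forall_mem_ordIdeal {f : 𝓕.R} (h : ∀ n, f ∈ 𝓕.ordIdeal n) : f = 0 :=
  𝓕.R_ext fun m => by rw [co_zero]; exact h (m + 1) m (Nat.lt_succ_self m)

lemma pow_ordIdeal_le (n : ℕ) : (𝓕.ordIdeal 1) ^ n ≤ 𝓕.ordIdeal n := by
  induction n with
  | zero => intro f _ m hm; omega
  | succ n ih =>
    rw [pow_succ, Ideal.mul_le]
    intro f hf g hg
    exact 𝓕.mul_mem_ordIdeal (ih hf) hg

lemma isUnit_of_co_ne_zero {f : 𝓕.R} (h : 𝓕.co f 0 ≠ 0) : IsUnit f := by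
  have hc : PowerSeries.constantCoeff (f : PowerSeries Q) ≠ 0 := by
    rwa [← PowerSeries.coeff_zero_eq_constantCoeff_apply]
  have hinv : (PowerSeries.constantCoeff (f : PowerSeries Q))⁻¹ ∈ 𝓕.F 0 := by
    obtain ⟨r, hr⟩ := 𝓕.mem_zero_iff.mp (𝓕.co_mem f 0)
    rw [co, PowerSeries.coeff_zero_eq_constantCoeff_apply] at hr
    rw [← hr, ← map_inv₀]
    exact 𝓕.algebraMap_mem _
  have key : ∀ n, PowerSeries.coeff n ((f : PowerSeries Q)⁻¹) ∈ 𝓕.F n := by
    intro n
    induction n using Nat.strong_induction_on with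
    | _ n ih =>
      rw [PowerSeries.coeff_inv]
      split_ifs with h0
      · rw [h0]; exact hinv
      · have : (-(PowerSeries.constantCoeff (f : PowerSeries Q))⁻¹ *
            ∑ x ∈ Finset.HasAntidiagonal.antidiagonal n, if x.2 < n then PowerSeries.coeff x.1 (f : PowerSeries Q) *
              PowerSeries.coeff x.2 ((f : PowerSeries Q)⁻¹) else 0) ∈ 𝓕.F (0 + n) := by
          refine 𝓕.mul_mem (Submodule.neg_mem _ hinv) (Submodule.sum_mem _ fun x hx => ?_)
          have hx' := Finset.HasAntidiagonal.mem_antidiagonal.mp hx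
          split_ifs with h1
          · rw [← hx']
            exact 𝓕.mul_mem (f.2 _) (ih _ h1)
          · exact Submodule.zero_mem _
        rwa [zero_add] at this
  refine IsUnit.of_mul_eq_one ⟨(f : PowerSeries Q)⁻¹, key⟩ ?_
  apply Subtype.ext
  exact PowerSeries.mul_inv_cancel _ hc

lemma isUnit_iff {f : 𝓕.R} : IsUnit f ↔ 𝓕.co f 0 ≠ 0 := by
  refine ⟨fun h h0 => ?_, 𝓕.isUnit_of_co_ne_zero⟩
  obtain ⟨g, hg⟩ := h.exists_right_inv
  have := congrArg (fun x => 𝓕.co x 0) hg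
  simp only [co_mul, co_one] at this
  simp [h0] at this

instance : IsLocalRing 𝓕.R := by
  refine IsLocalRing.of_nonunits_add fun a b ha hb => ?_
  rw [mem_nonunits_iff, isUnit_iff, not_not] at *
  rw [co_add, ha, hb, add_zero]

lemma maximalIdeal_eq : IsLocalRing.maximalIdeal 𝓕.R = 𝓕.ordIdeal 1 := by
  ext f
  rw [IsLocalRing.mem_maximalIdeal, mem_nonunits_iff, isUnit_iff, not_not]
  constructor
  · intro h m hm
    have : m = 0 := by omega
    rw [this]; exact h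
  · intro h
    exact h 0 (by omega)

lemma mem_maximalIdeal {f : 𝓕.R} : f ∈ IsLocalRing.maximalIdeal 𝓕.R ↔ 𝓕.co f 0 = 0 := by
  rw [IsLocalRing.mem_maximalIdeal, mem_nonunits_iff, isUnit_iff, not_not]

lemma bijective_algebraMap_residue :
    Function.Bijective (algebraMap k (IsLocalRing.ResidueField 𝓕.R)) := by
  refine ⟨(algebraMap k (IsLocalRing.ResidueField 𝓕.R)).injective, ?_⟩
  intro x
  obtain ⟨f, rfl⟩ := IsLocalRing.residue_surjective x
  obtain ⟨r, hr⟩ := 𝓕.mem_zero_iff.mp (𝓕.co_mem f 0)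
  refine ⟨r, ?_⟩
  have h1 : algebraMap k (IsLocalRing.ResidueField 𝓕.R) r =
      IsLocalRing.residue 𝓕.R (algebraMap k 𝓕.R r) := rfl
  rw [h1, ← sub_eq_zero, ← map_sub, IsLocalRing.residue_eq_zero_iff, mem_maximalIdeal, co_sub,
    co_algebraMap, if_pos rfl, hr, sub_self]

variable {𝓕} {u v : Q}

/-- the ideal `(X, uX, vX)` of `R` -/
def xyzR (h : FilUV 𝓕 u v) : Ideal 𝓕.R :=
  Ideal.span {𝓕.hom 1 ⟨1, h.one_mem⟩, 𝓕.hom 1 ⟨u, h.u_mem⟩, 𝓕.hom 1 ⟨v, h.v_mem⟩}

lemma xyzR_le (h : FilUV 𝓕 u v) : xyzR h ≤ IsLocalRing.maximalIdeal 𝓕.R := by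
  rw [xyzR, maximalIdeal_eq, Ideal.span_le]
  rintro f (rfl | rfl | rfl) <;> exact 𝓕.hom_mem_ordIdeal _ _

lemma exists_gen (h : FilUV 𝓕 u v) : ∃ c : ℕ, ∀ m, c ≤ m →
    𝓕.ordIdeal (m + 1) ≤ xyzR h * 𝓕.ordIdeal m := by
  obtain ⟨c, hc⟩ := h.gen
  refine ⟨c, fun m hm f hf => ?_⟩
  have hc' : ∀ n, ∀ q : 𝓕.F (n + 1), m ≤ n → ∃ a b d : 𝓕.F n, (q : Q) = a + u * b + v * d := by
    intro n q hn
    obtain ⟨a, ha, b, hb, d, hd, h1⟩ := hc n (hm.trans hn) q q.2
    exact ⟨⟨a, ha⟩, ⟨b, hb⟩, ⟨d, hd⟩, h1⟩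
  have hc'' : ∀ n, ∃ a b d : 𝓕.F n, (m ≤ n → 𝓕.co f (n + 1) = a + u * b + v * d) ∧
      (n < m → a = 0 ∧ b = 0 ∧ d = 0) := by
    intro n
    by_cases hn : m ≤ n
    · obtain ⟨a, b, d, h1⟩ := hc' n ⟨𝓕.co f (n + 1), 𝓕.co_mem f _⟩ hn
      exact ⟨a, b, d, fun _ => h1, fun h2 => by omega⟩
    · exact ⟨0, 0, 0, fun h2 => absurd h2 hn, fun _ => ⟨rfl, rfl, rfl⟩⟩
  choose a b d h1 h2 using hc''
  have hf' : f = 𝓕.hom 1 ⟨1, h.one_mem⟩ * 𝓕.mkR a + 𝓕.hom 1 ⟨u, h.u_mem⟩ * 𝓕.mkR b +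
      𝓕.hom 1 ⟨v, h.v_mem⟩ * 𝓕.mkR d := by
    refine 𝓕.R_ext fun n => ?_
    rw [co_add, co_add, co_hom_mul, co_hom_mul, co_hom_mul]
    rcases n with _ | n
    · simp only [nonpos_iff_eq_zero, one_ne_zero, if_false, add_zero]
      exact hf 0 (by omega)
    · simp only [Nat.le_add_left, if_true, Nat.add_sub_cancel, co_mkR, one_mul]
      by_cases hn : m ≤ n
      · exact h1 n hn
      · obtain ⟨e1, e2, e3⟩ := h2 n (by omega)
        rw [e1, e2, e3, hf (n + 1) (by omega)]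
        simp
  have ha : 𝓕.mkR a ∈ 𝓕.ordIdeal m := fun n hn => by rw [co_mkR, (h2 n hn).1]; rfl
  have hb : 𝓕.mkR b ∈ 𝓕.ordIdeal m := fun n hn => by rw [co_mkR, (h2 n hn).2.1]; rfl
  have hd : 𝓕.mkR d ∈ 𝓕.ordIdeal m := fun n hn => by rw [co_mkR, (h2 n hn).2.2]; rfl
  rw [hf']
  refine Ideal.add_mem _ (Ideal.add_mem _ ?_ ?_) ?_
  · exact Ideal.mul_mem_mul (Ideal.subset_span (by simp)) ha
  · exact Ideal.mul_mem_mul (Ideal.subset_span (by simp)) hb
  · exact Ideal.mul_mem_mul (Ideal.subset_span (by simp)) hd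

lemma exists_ordIdeal_le (h : FilUV 𝓕 u v) : ∃ c : ℕ, ∀ n, 𝓕.ordIdeal (c + n) ≤ xyzR h ^ n := by
  obtain ⟨c, hc⟩ := exists_gen h
  refine ⟨c, fun n => ?_⟩
  have : ∀ n, 𝓕.ordIdeal (c + n) ≤ xyzR h ^ n * 𝓕.ordIdeal c := by
    intro n
    induction n with
    | zero => simp
    | succ n ih =>
      refine (hc (c + n) (by omega)).trans ?_
      rw [pow_succ', mul_assoc]
      exact Ideal.mul_mono_right ih
  exact (this n).trans Ideal.mul_le_left

lemma exists_ordIdeal_le_pow (h : FilUV 𝓕 u v) :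
    ∃ c : ℕ, ∀ n, 𝓕.ordIdeal (c + n) ≤ IsLocalRing.maximalIdeal 𝓕.R ^ n := by
  obtain ⟨c, hc⟩ := exists_ordIdeal_le h
  exact ⟨c, fun n => (hc n).trans (Ideal.pow_right_mono (xyzR_le h) n)⟩

lemma isAdicComplete_R (h : FilUV 𝓕 u v) :
    IsAdicComplete (IsLocalRing.maximalIdeal 𝓕.R) 𝓕.R := by
  have hpow : ∀ n, IsLocalRing.maximalIdeal 𝓕.R ^ n ≤ 𝓕.ordIdeal n := by
    intro n
    rw [maximalIdeal_eq]
    exact 𝓕.pow_ordIdeal_le n
  obtain ⟨c, hc⟩ := exists_ordIdeal_le_pow h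
  refine { haus' := ?_, prec' := ?_ }
  · intro x hx
    refine 𝓕.eq_zero_of_forall_mem_ordIdeal fun n => ?_
    have := hx n
    rw [SModEq.zero, smul_eq_mul, Ideal.mul_top] at this
    exact hpow n this
  · intro f hf
    have hf' : ∀ {m n}, m ≤ n → f m - f n ∈ 𝓕.ordIdeal m := by
      intro m n hmn
      have := hf hmn
      rw [SModEq.sub_mem, smul_eq_mul, Ideal.mul_top] at this
      exact hpow m this
    refine ⟨𝓕.mkR (fun m => ⟨𝓕.co (f (m + 1)) m, 𝓕.co_mem _ _⟩), fun n => ?_⟩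
    rw [SModEq.sub_mem, smul_eq_mul, Ideal.mul_top]
    have e : f n - 𝓕.mkR (fun m => ⟨𝓕.co (f (m + 1)) m, 𝓕.co_mem _ _⟩) =
        (f n - f (c + n)) + (f (c + n) - 𝓕.mkR (fun m => ⟨𝓕.co (f (m + 1)) m, 𝓕.co_mem _ _⟩)) := by
      ring
    rw [e]
    refine Ideal.add_mem _ ?_ (hc n ?_)
    · have := hf (show n ≤ c + n by omega)
      rwa [SModEq.sub_mem, smul_eq_mul, Ideal.mul_top] at this
    · intro m hm
      rw [co_sub, co_mkR]
      have := hf' (show m + 1 ≤ c + n by omega) m (Nat.lt_succ_self m)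
      rw [co_sub] at this
      rw [sub_eq_zero] at this ⊢
      exact this.symm

end Fil

end Crest.Agent.R169
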