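import Mathlib
import Crest.Agent.R169.PackR
import Crest.Agent.R169.PackNoeth
import Crest.Agent.R169.Iface
import Crest.Agent.R169.PackNormal
import Crest.Agent.R169.PackMod

-- ▼ part R169/DimGrowth
section

/-! Row 169 (helper506): a Noetherian local `k`-algebra whose quotients grow faster than
quadratically has Krull dimension at least three. -/

set_option autoImplicit false

namespace Crest.Agent.R169.DimGrowth

open IsLocalRing

section

variable {k S : Type} [Field k] [CommRing S] [Algebra k S]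

/-- The `n`-th power of `(a,b)` is spanned by the monomials of degree `n`. -/
lemma span_pair_pow_le (a b : S) (n : ℕ) :
    Ideal.span {a, b} ^ n ≤ Ideal.span (Set.range fun i : Fin (n + 1) => a ^ (i : ℕ) * b ^ (n - i)) := by
  induction n with
  | zero =>
    rw [pow_zero, Ideal.one_eq_top, top_le_iff, Ideal.eq_top_iff_one]
    refine Ideal.subset_span ⟨0, ?_⟩
    simp
  | succ n ih =>
    rw [pow_succ]
    refine (Ideal.mul_mono_left ih).trans ?_
    rw [Ideal.span_mul_span', Ideal.span_le]
    rintro _ ⟨_, ⟨i, rfl⟩, y, hy, rfl⟩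
    simp only [Set.mem_insert_iff, Set.mem_singleton_iff] at hy
    rcases hy with rfl | rfl
    · refine Ideal.subset_span ⟨⟨i + 1, by omega⟩, ?_⟩
      simp only [Nat.add_sub_add_right]
      ring
    · refine Ideal.subset_span ⟨⟨i, by omega⟩, ?_⟩
      simp only
      rw [Nat.sub_add_comm (by omega), pow_succ]
      ring

lemma exists_span_sup_pow (a b : S) (W : Finset S)
    (hW : (⊤ : Submodule k S) ≤ Submodule.span k (W : Set S) ⊔
      (Ideal.span {a, b}).restrictScalars k) (n : ℕ) :
    ∃ B : Finset S, B.card ≤ W.card * n ^ 2 ∧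
      (⊤ : Submodule k S) ≤ Submodule.span k (B : Set S) ⊔
        (Ideal.span {a, b} ^ n).restrictScalars k := by
  classical
  induction n with
  | zero =>
    refine ⟨∅, by simp, ?_⟩
    rw [pow_zero, Ideal.one_eq_top]
    intro x _
    exact Submodule.mem_sup_right (by simp)
  | succ n ih =>
    obtain ⟨B, hB, hB2⟩ := ih
    let B' : Finset S := (Finset.univ ×ˢ W).image
      fun p : Fin (n + 1) × S => a ^ (p.1 : ℕ) * b ^ (n - p.1) * p.2
    refine ⟨B ∪ B', ?_, ?_⟩
    · have h1 : B'.card ≤ (n + 1) * W.card := by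
        refine Finset.card_image_le.trans ?_
        rw [Finset.card_product, Finset.card_univ, Fintype.card_fin]
      have h2 := Finset.card_union_le B B'
      nlinarith
    · have hJ : (Ideal.span {a, b} ^ n).restrictScalars k ≤
          Submodule.span k (B' : Set S) ⊔ (Ideal.span {a, b} ^ (n + 1)).restrictScalars k := by
        intro x hx
        have hx' := span_pair_pow_le a b n hx
        refine Submodule.span_induction (p := fun x _ => x ∈ Submodule.span k (B' : Set S) ⊔
          (Ideal.span {a, b} ^ (n + 1)).restrictScalars k) ?_ ?_ ?_ ?_ (?_ : x ∈ Submodule.span k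
            {y | ∃ (i : Fin (n + 1)) (r : S), y = a ^ (i : ℕ) * b ^ (n - i) * r})
        · rintro _ ⟨i, r, rfl⟩
          have hr := hW (Submodule.mem_top (x := r))
          obtain ⟨w, hw, y, hy, rfl⟩ := Submodule.mem_sup.mp hr
          rw [mul_add]
          refine Submodule.add_mem _ (Submodule.mem_sup_left ?_) (Submodule.mem_sup_right ?_)
          · have : Submodule.span k (W : Set S) ≤ (Submodule.span k (B' : Set S)).comap
              (LinearMap.mulLeft k (a ^ (i : ℕ) * b ^ (n - i))) := by
              rw [Submodule.span_le]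
              intro w hw
              refine Submodule.subset_span ?_
              simp only [B', Finset.coe_image, Set.mem_image, Finset.mem_coe, Finset.mem_product,
                Finset.mem_univ, true_and, Prod.exists]
              exact ⟨i, w, hw, rfl⟩
            exact this hw
          · change _ ∈ Ideal.span {a, b} ^ (n + 1)
            rw [pow_succ]
            refine Ideal.mul_mem_mul ?_ hy
            have h3 : a ^ (i : ℕ) ∈ Ideal.span {a, b} ^ (i : ℕ) :=
              Ideal.pow_mem_pow (Ideal.subset_span (by simp)) _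
            have h4 : b ^ (n - (i : ℕ)) ∈ Ideal.span {a, b} ^ (n - (i : ℕ)) :=
              Ideal.pow_mem_pow (Ideal.subset_span (by simp)) _
            have := Ideal.mul_mem_mul h3 h4
            rwa [← pow_add, Nat.add_sub_cancel' (by omega)] at this
        · exact Submodule.zero_mem _
        · intro x y _ _ hx hy; exact Submodule.add_mem _ hx hy
        · intro c x _ hx; exact Submodule.smul_mem _ c hx
        · refine Submodule.span_induction (p := fun x _ => x ∈ Submodule.span k
            {y | ∃ (i : Fin (n + 1)) (r : S), y = a ^ (i : ℕ) * b ^ (n - i) * r})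
            ?_ ?_ ?_ ?_ hx'
          · rintro _ ⟨i, rfl⟩
            exact Submodule.subset_span ⟨i, 1, by simp⟩
          · exact Submodule.zero_mem _
          · intro x y _ _ hx hy; exact Submodule.add_mem _ hx hy
          · intro c x _ hx
            refine Submodule.span_induction (p := fun x _ => c • x ∈ Submodule.span k
              {y | ∃ (i : Fin (n + 1)) (r : S), y = a ^ (i : ℕ) * b ^ (n - i) * r})
              ?_ ?_ ?_ ?_ hx
            · rintro _ ⟨i, r, rfl⟩
              exact Submodule.subset_span ⟨i, c * r, by rw [smul_eq_mul]; ring⟩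
            · rw [smul_zero]; exact Submodule.zero_mem _
            · intro x y _ _ hx hy; rw [smul_add]; exact Submodule.add_mem _ hx hy
            · intro d x _ hx; rw [smul_comm]; exact Submodule.smul_mem _ d hx
      refine hB2.trans (sup_le ?_ ?_)
      · refine le_trans (Submodule.span_mono ?_) le_sup_left
        simp
      · refine hJ.trans (sup_le ?_ le_sup_right)
        refine le_trans (Submodule.span_mono ?_) le_sup_left
        simp

/-- **Growth criterion** for `3 ≤ dim`. -/
theorem three_le_ringKrullDim [IsNoetherianRing S] [IsLocalRing S] (L : ℕ → Submodule k S)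
    (hL : ∀ n, (maximalIdeal S ^ n).restrictScalars k ≤ L n)
    (hfin : ∀ K : ℕ, ∃ W : Finset S, (⊤ : Submodule k S) ≤ Submodule.span k (W : Set S) ⊔
      (maximalIdeal S ^ K).restrictScalars k)
    (hgrow : ∀ C : ℕ, ∃ n : ℕ, ∀ B : Finset S, B.card ≤ C * n ^ 2 →
      ¬ (⊤ : Submodule k S) ≤ Submodule.span k (B : Set S) ⊔ L n) :
    3 ≤ ringKrullDim S := by
  classical
  by_contra hlt
  obtain ⟨s, hs, hcard⟩ := (maximalIdeal S).exists_finset_card_eq_height_of_isNoetherianRing
  have hle2 : s.card ≤ 2 := by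
    rw [← IsLocalRing.maximalIdeal_height_eq_ringKrullDim, ← hcard] at hlt
    by_contra h
    apply hlt
    have h3 : 3 ≤ s.card := by omega
    have h4 : (3 : ℕ∞) ≤ (s.card : ℕ∞) := by exact_mod_cast h3
    exact WithBot.coe_le_coe.mpr h4
  -- two generators
  obtain ⟨a, b, hab⟩ : ∃ a b : S, Ideal.span (s : Set S) = Ideal.span {a, b} := by
    interval_cases hc : s.card
    · rw [Finset.card_eq_zero] at hc
      subst hc
      refine ⟨0, 0, ?_⟩
      simp
    · obtain ⟨a, rfl⟩ := Finset.card_eq_one.mp hc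
      exact ⟨a, a, by simp⟩
    · obtain ⟨a, b, -, rfl⟩ := Finset.card_eq_two.mp hc
      exact ⟨a, b, by simp⟩
  rw [hab] at hs
  have hrad : maximalIdeal S ≤ (Ideal.span {a, b}).radical := by
    rw [Ideal.radical_eq_sInf]
    refine le_sInf ?_
    rintro p ⟨hp, hpp⟩
    exact hs.2 ⟨hpp, hp⟩ (IsLocalRing.le_maximalIdeal hpp.ne_top)
  obtain ⟨K, hK⟩ := Ideal.exists_pow_le_of_le_radical_of_fg hrad
    (IsNoetherian.noetherian (maximalIdeal S))
  have hJm : Ideal.span {a, b} ≤ maximalIdeal S := hs.1.2
  obtain ⟨W, hW⟩ := hfin K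
  have hW' : (⊤ : Submodule k S) ≤ Submodule.span k (W : Set S) ⊔
      (Ideal.span {a, b}).restrictScalars k :=
    hW.trans (sup_le_sup_left (fun x hx => hK hx) _)
  obtain ⟨n, hn⟩ := hgrow W.card
  obtain ⟨B, hB, hB2⟩ := exists_span_sup_pow a b W hW' n
  refine hn B hB (hB2.trans (sup_le_sup_left (le_trans ?_ (hL n)) _))
  intro x hx
  exact Ideal.pow_right_mono hJm n hx

end

end Crest.Agent.R169.DimGrowth
end

-- ▼ part R169/PackDimR
section

/-! Row 169 (helper506): `ringKrullDim 𝓕.R = 3`. -/

set_option autoImplicit false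

noncomputable section

namespace Crest.Agent.R169.PackDimR

open Polynomial Crest.Agent.R169 Crest.Agent.R169.Fil Crest.Agent.R169.DimGrowth

variable {k Q : Type} [Field k] [Field Q] [Algebra k Q]

/-- the monomials `u^i v^j` are linearly independent. -/
lemma linearIndependent_uv {u v : Q} (h : AlgebraicIndependent k ![u, v]) :
    LinearIndependent k (fun p : ℕ × ℕ => u ^ p.1 * v ^ p.2) := by
  have h1 : LinearIndependent k (fun s : Fin 2 →₀ ℕ => MvPolynomial.monomial (R := k) s 1) := by
    have := (MvPolynomial.basisMonomials (Fin 2) k).linearIndependent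
    simpa using this
  have h2 := h1.map' (MvPolynomial.aeval ![u, v] : MvPolynomial (Fin 2) k →ₐ[k] Q).toLinearMap
    (LinearMap.ker_eq_bot.mpr h)
  let e : ℕ × ℕ → (Fin 2 →₀ ℕ) := fun p => Finsupp.equivFunOnFinite.symm ![p.1, p.2]
  have he : Function.Injective e := by
    intro p q hpq
    have h3 : ![p.1, p.2] = ![q.1, q.2] := Finsupp.equivFunOnFinite.symm.injective hpq
    have h0 := congrFun h3 0
    have h4 := congrFun h3 1
    simp at h0 h4
    exact Prod.ext h0 h4
  have h5 := h2.comp e he
  have h6 : (((MvPolynomial.aeval ![u, v] : MvPolynomial (Fin 2) k →ₐ[k] Q).toLinearMap ∘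
      fun s : Fin 2 →₀ ℕ => MvPolynomial.monomial (R := k) s 1) ∘ e) =
      fun p : ℕ × ℕ => u ^ p.1 * v ^ p.2 := by
    funext p
    simp [e, MvPolynomial.aeval_monomial, Finsupp.prod_fintype, Fin.prod_univ_two]
  rw [← h6]
  exact h5

variable {𝓕 : Fil k Q} {u v : Q}

lemma F_mono (h : FilUV 𝓕 u v) {m n : ℕ} (hmn : m ≤ n) : 𝓕.F m ≤ 𝓕.F n := by
  obtain ⟨d, rfl⟩ := Nat.exists_eq_add_of_le hmn
  intro q hq
  have h1 : (1 : Q) ∈ 𝓕.F d := by
    have := 𝓕.pow_mem h.one_mem d
    simpa using this
  simpa using 𝓕.mul_mem hq h1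

lemma uv_mem (h : FilUV 𝓕 u v) {i j m : ℕ} (hm : i + j ≤ m) : u ^ i * v ^ j ∈ 𝓕.F m := by
  have h1 := 𝓕.pow_mem h.u_mem i
  have h2 := 𝓕.pow_mem h.v_mem j
  have h3 := 𝓕.mul_mem h1 h2
  rw [mul_one, mul_one] at h3
  exact F_mono h hm h3

/-- the truncation map to coefficients. -/
def trunc (𝓕 : Fil k Q) (n : ℕ) : 𝓕.R →ₗ[k] (Fin n → Q) where
  toFun f i := 𝓕.co f i
  map_add' f g := by ext i; simp
  map_smul' c f := by
    ext i
    simp only [co, RingHom.id_apply, Pi.smul_apply]
    rfl

lemma trunc_eq_zero {n : ℕ} {f : 𝓕.R} (hf : f ∈ 𝓕.ordIdeal n) : trunc 𝓕 n f = 0 := by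
  ext i
  exact hf i i.2

/-- growth: finitely many elements of `R` (few compared with `n²`) do not span the monomials
modulo order `n`. -/
lemma growth (h : FilUV 𝓕 u v) (C : ℕ) : ∃ n : ℕ, ∀ B : Finset 𝓕.R, B.card ≤ C * n ^ 2 →
    ∃ (i j m : ℕ) (hij : i + j ≤ m), 𝓕.hom m ⟨u ^ i * v ^ j, uv_mem h hij⟩ ∉
      Submodule.span k (B : Set 𝓕.R) ⊔ (𝓕.ordIdeal n).restrictScalars k := by
  classical
  set N : ℕ := 9 * C + 1 with hN
  refine ⟨3 * N, fun B hB => ?_⟩
  by_contra hcon
  push Not at hcon
  -- the independent family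
  let y : Fin N × (Fin N × Fin N) → (Fin (3 * N) → Q) := fun p =>
    Pi.single (⟨2 * N + p.1, by omega⟩ : Fin (3 * N)) (u ^ (p.2.1 : ℕ) * v ^ (p.2.2 : ℕ))
  have hyind : LinearIndependent k y := by
    have h0 := linearIndependent_uv h.indep
    have h1 : LinearIndependent k (fun q : Fin N × Fin N => u ^ (q.1 : ℕ) * v ^ (q.2 : ℕ)) :=
      h0.comp (fun q : Fin N × Fin N => ((q.1 : ℕ), (q.2 : ℕ))) (by
        intro a b hab
        simp only [Prod.mk.injEq] at hab
        exact Prod.ext (Fin.ext hab.1) (Fin.ext hab.2))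
    rw [Fintype.linearIndependent_iff]
    intro g hg p
    have h2 := congrFun hg ⟨2 * N + p.1, by omega⟩
    rw [Finset.sum_apply, Pi.zero_apply] at h2
    have h3 : ∑ q : Fin N × Fin N, g (p.1, q) • (u ^ (q.1 : ℕ) * v ^ (q.2 : ℕ)) = 0 := by
      rw [Fintype.sum_prod_type] at h2
      rw [Finset.sum_eq_single p.1] at h2
      · rw [← h2]
        refine Finset.sum_congr rfl fun q _ => ?_
        simp [y]
      · intro l _ hl
        refine Finset.sum_eq_zero fun q _ => ?_
        have hne : (⟨2 * N + p.1, by omega⟩ : Fin (3 * N)) ≠ ⟨2 * N + l, by omega⟩ := by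
          intro h4
          apply hl
          rw [Fin.mk.injEq] at h4
          ext; omega
        have : y (l, q) ⟨2 * N + p.1, by omega⟩ = 0 := Pi.single_eq_of_ne hne _
        rw [Pi.smul_apply, this, smul_zero]
      · intro h4; exact absurd (Finset.mem_univ _) h4
    exact Fintype.linearIndependent_iff.mp h1 (fun q => g (p.1, q)) h3 p.2
  have hyspan : Set.range y ≤ Submodule.span k ((B.image (trunc 𝓕 (3 * N)) : Finset _) :
      Set (Fin (3 * N) → Q)) := by
    rintro _ ⟨p, rfl⟩
    have h1 := hcon p.2.1 p.2.2 (2 * N + p.1) (by omega)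
    obtain ⟨w, hw, z, hz, hwz⟩ := Submodule.mem_sup.mp h1
    have h2 : y p = trunc 𝓕 (3 * N) w := by
      have h3 := congrArg (trunc 𝓕 (3 * N)) hwz
      rw [map_add, trunc_eq_zero hz, add_zero] at h3
      rw [h3]
      ext l
      simp only [y, trunc, LinearMap.coe_mk, AddHom.coe_mk, co_hom, Pi.single_apply]
      by_cases hl : l = ⟨2 * N + p.1, by omega⟩
      · subst hl; simp
      · rw [if_neg hl, if_neg]
        intro h4
        apply hl
        ext
        exact h4
    rw [h2]
    have h4 : Submodule.span k (B : Set 𝓕.R) ≤ (Submodule.span k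
        ((B.image (trunc 𝓕 (3 * N)) : Finset _) : Set (Fin (3 * N) → Q))).comap
        (trunc 𝓕 (3 * N)) := by
      rw [Submodule.span_le]
      intro b hb
      refine Submodule.subset_span ?_
      rw [Finset.coe_image]
      exact ⟨b, hb, rfl⟩
    exact h4 hw
  have hcard := linearIndependent_le_span_aux' y hyind _ hyspan
  have hc2 : (B.image (trunc 𝓕 (3 * N))).card ≤ B.card := Finset.card_image_le
  simp only [Fintype.card_prod, Fintype.card_fin, Finset.coe_sort_coe, Fintype.card_coe] at hcard
  have hfin : N * (N * N) ≤ C * (3 * N) ^ 2 := hcard.trans (hc2.trans hB)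
  have hNpos : 0 < N := by omega
  have h6 : N * (N * N) ≤ (9 * C) * (N * N) := by nlinarith
  have h7 : N ≤ 9 * C := Nat.le_of_mul_le_mul_right h6 (by positivity)
  omega

lemma exists_finset_ord (h : FilUV 𝓕 u v) (n : ℕ) : ∃ W : Finset 𝓕.R,
    (⊤ : Submodule k 𝓕.R) ≤ Submodule.span k (W : Set 𝓕.R) ⊔
      (𝓕.ordIdeal n).restrictScalars k := by
  classical
  induction n with
  | zero =>
    refine ⟨∅, fun f _ => Submodule.mem_sup_right ?_⟩
    intro m hm
    omega
  | succ n ih =>
    obtain ⟨W, hW⟩ := ih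
    have := h.finite n
    obtain ⟨s, hs⟩ := Module.Finite.fg_top (R := k) (M := 𝓕.F n)
    let L : 𝓕.F n →ₗ[k] 𝓕.R :=
      { toFun := fun q => 𝓕.hom n q
        map_add' := fun a b => by
          refine 𝓕.R_ext fun m => ?_
          rw [co_add, co_hom, co_hom, co_hom]
          split_ifs <;> simp
        map_smul' := fun c a => by
          refine 𝓕.R_ext fun m => ?_
          have : 𝓕.co (c • 𝓕.hom n a) m = c • 𝓕.co (𝓕.hom n a) m := rfl
          rw [RingHom.id_apply, this, co_hom, co_hom]
          split_ifs <;> simp }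
    refine ⟨W ∪ s.image L, hW.trans (sup_le ?_ ?_)⟩
    · refine le_trans (Submodule.span_mono ?_) le_sup_left
      simp
    · intro f hf
      have h1 : L ⟨𝓕.co f n, 𝓕.co_mem f n⟩ ∈ Submodule.span k (s.image L : Set 𝓕.R) := by
        rw [Finset.coe_image, Submodule.span_image, hs]
        exact ⟨_, trivial, rfl⟩
      have h2 : f - L ⟨𝓕.co f n, 𝓕.co_mem f n⟩ ∈ 𝓕.ordIdeal (n + 1) := by
        intro m hm
        have : 𝓕.co (L ⟨𝓕.co f n, 𝓕.co_mem f n⟩) m = if m = n then 𝓕.co f n else 0 :=
          𝓕.co_hom n _ m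
        rw [co_sub, this]
        split_ifs with hmn
        · subst hmn; simp
        · rw [sub_zero]; exact hf m (by omega)
      rw [← add_sub_cancel (L ⟨𝓕.co f n, 𝓕.co_mem f n⟩) f]
      refine Submodule.add_mem _ (Submodule.mem_sup_left ?_) (Submodule.mem_sup_right h2)
      refine Submodule.span_mono ?_ h1
      simp

theorem ringKrullDim_R (h : FilUV 𝓕 u v) : ringKrullDim 𝓕.R = 3 := by
  classical
  have := isNoetherianRing_R h
  apply le_antisymm
  · rw [← IsLocalRing.maximalIdeal_height_eq_ringKrullDim (R := 𝓕.R)]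
    have hmin : IsLocalRing.maximalIdeal 𝓕.R ∈ (xyzR h).minimalPrimes := by
      refine ⟨⟨(IsLocalRing.maximalIdeal.isMaximal _).isPrime, xyzR_le h⟩, ?_⟩
      rintro q ⟨hq, hIq⟩ -
      obtain ⟨c, hc⟩ := exists_ordIdeal_le h
      have h1 : IsLocalRing.maximalIdeal 𝓕.R ^ (c + 1) ≤ q := by
        refine le_trans ?_ hIq
        rw [maximalIdeal_eq]
        exact (𝓕.pow_ordIdeal_le (c + 1)).trans ((hc 1).trans (by rw [pow_one]))
      exact Ideal.IsPrime.le_of_pow_le h1
    have h1 := Ideal.height_le_card_of_mem_minimalPrimes_span (Set.toFinite _) hmin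
    have h2 : ({𝓕.hom 1 ⟨1, h.one_mem⟩, 𝓕.hom 1 ⟨u, h.u_mem⟩, 𝓕.hom 1 ⟨v, h.v_mem⟩} :
        Set 𝓕.R).ncard ≤ 3 := by
      refine (Set.ncard_insert_le _ _).trans ?_
      refine Nat.succ_le_succ ((Set.ncard_insert_le _ _).trans ?_)
      rw [Set.ncard_singleton]
    have h3 : (IsLocalRing.maximalIdeal 𝓕.R).height ≤ (3 : ℕ∞) :=
      h1.trans (by exact_mod_cast h2)
    exact WithBot.coe_le_coe.mpr h3
  · refine three_le_ringKrullDim (k := k) (fun n => (𝓕.ordIdeal n).restrictScalars k) ?_ ?_ ?_
    · intro n f hf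
      have : f ∈ IsLocalRing.maximalIdeal 𝓕.R ^ n := hf
      rw [maximalIdeal_eq] at this
      exact 𝓕.pow_ordIdeal_le n this
    · intro K
      obtain ⟨c, hc⟩ := exists_ordIdeal_le_pow h
      obtain ⟨W, hW⟩ := exists_finset_ord h (c + K)
      exact ⟨W, hW.trans (sup_le_sup_left (fun f hf => hc K hf) _)⟩
    · intro C
      obtain ⟨n, hn⟩ := growth h C
      refine ⟨n, fun B hB hle => ?_⟩
      obtain ⟨i, j, m, hij, hnot⟩ := hn B hB
      exact hnot (hle trivial)

end Crest.Agent.R169.PackDimR
end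
end

-- ▼ part R169/Pack256

/-! Row 169 (helper506): packaging of S0256 (the complete local ring). -/

set_option autoImplicit false

noncomputable section

namespace Crest.Agent.R169.Pack256

open Crest.Agent.R169 Crest.Agent.R169.Fil

variable {k Q : Type} [Field k] [Field Q] [Algebra k Q]

/-- the filtration of a datum satisfies the `FilUV` hypotheses -/
theorem filUV (D : TData k Q) : FilUV D.toFil D.u D.v where
  one_mem := D.one_mem
  u_mem := D.u_mem
  v_mem := D.v_mem
  finite := fun m => D.lat.fin m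
  gen := by
    obtain ⟨m₁, h⟩ := D.lat.gen
    refine ⟨m₁.toNat, fun m hm q hq => ?_⟩
    have hm' : (m : ℤ) ≥ m₁ := by omega
    have hq' : q ∈ D.F ((m : ℤ) + 1) := by
      have : ((m + 1 : ℕ) : ℤ) = (m : ℤ) + 1 := by push_cast; ring
      rw [← this]
      exact hq
    obtain ⟨a, ha, b, hb, c, hc, e⟩ := h m hm' q hq'
    exact ⟨a, ha, b, hb, c, hc, e⟩
  indep := D.indep

/-- S0256 from the module statement over the complete ring. -/
theorem pack256_of (e : ℂ ≃+* k) (D : TData k Q) (hN : FilNormal D.toFil)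
    (hglue : ∀ (M : Type) [AddCommGroup M] [Module D.toFil.R M], Module.Finite D.toFil.R M →
      Nontrivial M → ∀ rs : List D.toFil.R, rs.length = 3 →
        (∀ r ∈ rs, r ∈ IsLocalRing.maximalIdeal D.toFil.R) →
          ¬ RingTheory.Sequence.IsRegular M rs) :
    ∃ (R : Type) (_ : CommRing R) (_ : IsLocalRing R) (_ : Algebra ℂ R),
      IsDomain R ∧ IsNoetherianRing R ∧ IsIntegrallyClosed R ∧
      IsAdicComplete (IsLocalRing.maximalIdeal R) R ∧ ringKrullDim R = 3 ∧
      Function.Bijective (algebraMap ℂ (IsLocalRing.ResidueField R)) ∧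
      ∀ (M : Type) [AddCommGroup M] [Module R M], Module.Finite R M → Nontrivial M →
        ∀ rs : List R, rs.length = 3 → (∀ r ∈ rs, r ∈ IsLocalRing.maximalIdeal R) →
          ¬ RingTheory.Sequence.IsRegular M rs := by
  have h := filUV D
  let algC : Algebra ℂ D.toFil.R :=
    ((algebraMap k D.toFil.R).comp (e : ℂ →+* k)).toAlgebra
  refine ⟨D.toFil.R, inferInstance, inferInstance, algC, inferInstance, isNoetherianRing_R h,
    PackNormal.isIntegrallyClosed_R D.toFil hN, isAdicComplete_R h, PackDimR.ringKrullDim_R h, ?_,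
    fun M _ _ => hglue M⟩
  have h1 : (algebraMap ℂ (IsLocalRing.ResidueField D.toFil.R) : ℂ → _) =
      (algebraMap k (IsLocalRing.ResidueField D.toFil.R)) ∘ e := by
    funext c
    rfl
  rw [h1]
  exact D.toFil.bijective_algebraMap_residue.comp e.bijective

/-- packaging of S0256 -/
theorem pack256 (e : ℂ ≃+* k) (D : TData k Q) (hN : FilNormal D.toFil) (hno : NoMCM D) :
    ∃ (R : Type) (_ : CommRing R) (_ : IsLocalRing R) (_ : Algebra ℂ R),
      IsDomain R ∧ IsNoetherianRing R ∧ IsIntegrallyClosed R ∧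
      IsAdicComplete (IsLocalRing.maximalIdeal R) R ∧ ringKrullDim R = 3 ∧
      Function.Bijective (algebraMap ℂ (IsLocalRing.ResidueField R)) ∧
      ∀ (M : Type) [AddCommGroup M] [Module R M], Module.Finite R M → Nontrivial M →
        ∀ rs : List R, rs.length = 3 → (∀ r ∈ rs, r ∈ IsLocalRing.maximalIdeal R) →
          ¬ RingTheory.Sequence.IsRegular M rs :=
  pack256_of e D hN (glueR D hno)

end Crest.Agent.R169.Pack256
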