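import Crest.Agent.R169.C.Slope
import Crest.Agent.R169.Flag1
import Crest.Agent.R169.A1
import Crest.Agent.R169.Defs
import Crest.Agent.R169.ADefs
import Crest.Agent.R169.PackMod
import Crest.Agent.R169.PackNoeth
import Crest.Agent.R169.Pack256

-- ▼ part R169/C/C3Whole
section

/-!
Row 169, Part D step (5) (helper461): C3 for all subspaces from C3 for whole lattices, by additivity
along `ψ : Q^R → Q^R''` with kernel `U` and its Frobenius twist.
-/

set_option autoImplicit false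
set_option linter.unusedSectionVars false

namespace Crest.Agent.R169.C3W

open Module Flag1 PC

section Twist

variable {k Q : Type} [Field k] [Field Q] [Algebra k Q] {D : TData k Q} {p : ℕ}
  [Fact p.Prime] [CharP Q p] {R S : ℕ}

/-- Frobenius twist of a linear map. -/
noncomputable def twist (p : ℕ) {R S : ℕ} (ψ : (Fin R → Q) →ₗ[Q] (Fin S → Q)) :
    (Fin R → Q) →ₗ[Q] (Fin S → Q) :=
  LinearMap.pi fun s => lphi p ((LinearMap.proj s) ∘ₗ ψ)

theorem twist_phi (ψ : (Fin R → Q) →ₗ[Q] (Fin S → Q)) (w : Fin R → Q) :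
    twist p ψ (phi p w) = phi p (ψ w) := by
  funext s
  unfold twist
  rw [LinearMap.pi_apply, lphi_phi, phi_apply]
  rfl

theorem mapT_frobPull (ψ : (Fin R → Q) →ₗ[Q] (Fin S → Q)) (G : ℤ → Submodule k (Fin R → Q)) :
    mapT (twist p ψ) (frobPull D p G) = frobPull D p (mapT ψ G) := by
  funext m
  unfold mapT frobPull
  rw [Submodule.map_span]
  congr 1
  ext x
  constructor
  · rintro ⟨_, ⟨j, f, hf, g, hg, rfl⟩, rfl⟩
    refine ⟨j, f, hf, ψ g, ⟨g, hg, rfl⟩, ?_⟩
    rw [LinearMap.restrictScalars_apply, map_smul, twist_phi]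
  · rintro ⟨j, f, hf, _, ⟨g, hg, rfl⟩, rfl⟩
    refine ⟨f • phi p g, ⟨j, f, hf, g, hg, rfl⟩, ?_⟩
    rw [LinearMap.restrictScalars_apply, map_smul, twist_phi]
    rfl

theorem phi_single (i : Fin R) : phi p (Pi.single i (1 : Q) : Fin R → Q) = Pi.single i 1 := by
  funext j
  rw [phi_apply]
  by_cases hij : j = i
  · subst hij; simp
  · simp [Pi.single_eq_of_ne hij, (Fact.out : p.Prime).ne_zero]

theorem phi_sub (a b : Fin R → Q) : phi p (a - b) = phi p a - phi p b :=
  map_sub (frobVec p (Fin R)) a b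

theorem eq_sum_phi (w : Fin R → Q) :
    w = ∑ i, w i • phi p (Pi.single i (1 : Q) : Fin R → Q) := by
  funext j
  simp only [phi_single]
  simp [Finset.sum_apply, Pi.single_apply]


/-- the kernel of the Frobenius twist is the Frobenius pull-back of the kernel. -/
theorem ker_twist {ψ : (Fin R → Q) →ₗ[Q] (Fin S → Q)} {σ : (Fin S → Q) →ₗ[Q] (Fin R → Q)}
    (h : ∀ x, ψ (σ x) = x) {U : Submodule Q (Fin R → Q)} (hU : LinearMap.ker ψ = U) :
    LinearMap.ker (twist p ψ) = frobSub p U := by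
  apply le_antisymm
  · intro w hw
    rw [LinearMap.mem_ker] at hw
    have h1 : twist p σ (twist p ψ w) = 0 := by rw [hw, map_zero]
    have h2 : w = ∑ i, w i • phi p ((Pi.single i (1 : Q) : Fin R → Q)
        - σ (ψ (Pi.single i (1 : Q) : Fin R → Q))) := by
      have h3 : twist p σ (twist p ψ w) =
          ∑ i, w i • phi p (σ (ψ (Pi.single i (1 : Q) : Fin R → Q))) := by
        conv_lhs => rw [eq_sum_phi (p := p) w]
        rw [map_sum, map_sum]
        refine Finset.sum_congr rfl fun i _ => ?_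
        rw [map_smul, map_smul, twist_phi, twist_phi]
      have h4 : w - twist p σ (twist p ψ w) = w := by rw [h1, sub_zero]
      conv_lhs => rw [← h4, h3]
      conv_lhs => rw [eq_sum_phi (p := p) w]
      rw [← Finset.sum_sub_distrib]
      refine Finset.sum_congr rfl fun i _ => ?_
      rw [phi_sub, smul_sub]
      congr 2
      rw [← eq_sum_phi (p := p) w]
    rw [h2]
    refine Submodule.sum_mem _ fun i _ => Submodule.smul_mem _ _ (Submodule.subset_span
      ⟨_, ?_, rfl⟩)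
    rw [SetLike.mem_coe, ← hU, LinearMap.mem_ker, map_sub, h, sub_self]
  · unfold frobSub
    rw [Submodule.span_le]
    rintro _ ⟨u, hu, rfl⟩
    rw [SetLike.mem_coe, LinearMap.mem_ker, twist_phi]
    rw [SetLike.mem_coe, ← hU, LinearMap.mem_ker] at hu
    rw [hu]
    exact phi_zero

end Twist

section HP

variable {k Q V V' : Type} [Field k] [Field Q] [Algebra k Q] [AddCommGroup V] [Module k V]
  [Module Q V] [IsScalarTower k Q V] [AddCommGroup V'] [Module k V'] [Module Q V']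
  [IsScalarTower k Q V']

theorem finrank_interU (G : ℤ → Submodule k V) (hfin : ∀ m, Module.Finite k (G m))
    (ψ : V →ₗ[Q] V') {U : Submodule Q V} (hU : LinearMap.ker ψ = U) (m : ℤ) :
    finrank k (mapT ψ G m) + finrank k (interU G U m) = finrank k (G m) := by
  have := hfin m
  have h := finrank_map_add' (G m) (ψ.restrictScalars k)
  have h1 : LinearMap.ker (ψ.restrictScalars k) = U.restrictScalars k := by
    rw [← hU]
    rfl
  rw [h1] at h
  exact h

/-- Hilbert polynomial of the intersection with a kernel. -/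
theorem hasHP_interU (G : ℤ → Submodule k V) (hfin : ∀ m, Module.Finite k (G m))
    (ψ : V →ₗ[Q] V') {U : Submodule Q V} (hU : LinearMap.ker ψ = U) {n n₂ d : ℕ} {b c b₂ c₂ : ℚ}
    (h : HasHP G n b c) (h₂ : HasHP (mapT ψ G) n₂ b₂ c₂) (hd : n = n₂ + d) :
    HasHP (interU G U) d (b - b₂) (c - c₂) := by
  obtain ⟨m0, hm0⟩ := h
  obtain ⟨m1, hm1⟩ := h₂
  refine ⟨max m0 m1, fun m hm => ?_⟩
  have e0 := hm0 m (le_trans (le_max_left _ _) hm)
  have e1 := hm1 m (le_trans (le_max_right _ _) hm)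
  have e2 := finrank_interU G hfin ψ hU m
  have e3 : (finrank k (mapT ψ G m) : ℚ) + finrank k (interU G U m) = finrank k (G m) := by
    exact_mod_cast e2
  subst hd
  push_cast at e0
  linarith

end HP

/-- **Step (5)**: C3 for all subspaces, from C3 for whole lattices. -/
theorem c3_of_whole {k Q : Type} [Field k] [Field Q] [Algebra k Q] (D : TData k Q) (p N : ℕ)
    (bT : ℚ) [Fact p.Prime] [CharP k p] (hN : 0 < N)
    (hw : ∀ (R : ℕ) (G : ℤ → Submodule k (Fin R → Q)), IsTLat D G →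
      ∃ b c b' c' : ℚ, HasHP G (N * R) b c ∧ HasHP (frobPull D p G) (N * R) b' c' ∧
        b' = R * bT + p * (b - R * bT)) : C3 D p N bT := by
  haveI : CharP Q p := charP_of_injective_algebraMap (algebraMap k Q).injective p
  intro R G hG U n₁ b₁ c₁ h₁
  set S := finrank Q ((Fin R → Q) ⧸ U) with hS
  let e : ((Fin R → Q) ⧸ U) ≃ₗ[Q] (Fin S → Q) := (Module.finBasis Q ((Fin R → Q) ⧸ U)).equivFun
  let ψ : (Fin R → Q) →ₗ[Q] (Fin S → Q) := e.toLinearMap ∘ₗ U.mkQ
  have hker : LinearMap.ker ψ = U := by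
    rw [LinearMap.ker_comp, LinearEquiv.ker, Submodule.comap_bot, Submodule.ker_mkQ]
  have hsurj : Function.Surjective ψ := e.surjective.comp (Submodule.mkQ_surjective U)
  obtain ⟨σ, hσ⟩ := ψ.exists_rightInverse_of_surjective (LinearMap.range_eq_top.2 hsurj)
  have hσ' : ∀ x, ψ (σ x) = x := fun x => LinearMap.congr_fun hσ x
  have hdim : R = S + finrank Q U := by
    have := Submodule.finrank_quotient_add_finrank U
    rw [Module.finrank_fin_fun] at this
    exact this.symm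
  obtain ⟨b, c, b', c', hb, hb', hbb⟩ := hw R G hG
  obtain ⟨b₂, c₂, b₂', c₂', hb₂, hb₂', hbb₂⟩ := hw S (mapT ψ G) (isTLat_mapT hG ψ hsurj)
  have hd : N * R = N * S + N * finrank Q U := by rw [← mul_add, ← hdim]
  have h3 := hasHP_interU G hG.lat.fin ψ hker hb hb₂ hd
  obtain ⟨rfl, rfl, rfl⟩ := hasHP_unique h₁ h3
  rw [← mapT_frobPull] at hb₂'
  have h4 := hasHP_interU (frobPull D p G) (frobPull_fin D hG) (twist p ψ)
    (ker_twist (p := p) hσ' hker) hb' hb₂' hd
  refine ⟨c' - c₂', ?_⟩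
  have hN' : (N : ℚ) ≠ 0 := by exact_mod_cast hN.ne'
  have hR : (R : ℚ) = S + finrank Q U := by exact_mod_cast hdim
  have h5 : ((N * finrank Q U : ℕ) : ℚ) * (bT / N) = finrank Q U * bT := by
    push_cast
    field_simp
  have h6 : b' - b₂' = ((N * finrank Q U : ℕ) : ℚ) * (bT / N)
      + p * ((b - b₂) - ((N * finrank Q U : ℕ) : ℚ) * (bT / N)) := by
    rw [h5, hbb, hbb₂, hR]
    ring
  rwa [h6] at h4

end Crest.Agent.R169.C3W
end

-- ▼ part R169/A2a
section

/-!
# Row 169, Part A, step A2 (owner helper592), first half: the dimension count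
-/

set_option autoImplicit false

namespace Crest.Agent.R169

open Module

namespace A2

variable {k Q : Type} [Field k] [Field Q] [Algebra k Q] (D : TData k Q)
variable {M : Type} [AddCommGroup M] [Module D.Ttot M] [Module k M] [IsScalarTower k D.Ttot M]
variable {n : ℕ} {w : Fin n → M}

/-- the isomorphism `(A_j)^n ≃ mp j / mp (j+1)` -/
noncomputable def frmQ (w : Fin n → M) (j : ℕ) : (Fin n → polyLE k D.u D.v (j : ℤ)) →ₗ[k]
    (↥(D.mp M (j : ℤ)) ⧸ (D.mp M ((j : ℤ) + 1)).submoduleOf (D.mp M (j : ℤ))) :=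
  ((D.mp M ((j : ℤ) + 1)).submoduleOf (D.mp M (j : ℤ))).mkQ ∘ₗ
      (frm D w j).codRestrict (D.mp M (j : ℤ)) (frm_mem D w j)

theorem frmQ_bij (hw : IsFrame D w) (j : ℕ) : Function.Bijective (frmQ D w j) := by
  constructor
  · rw [injective_iff_map_eq_zero]
    intro f hf
    apply hw.inj j f
    change Submodule.Quotient.mk _ = _ at hf
    rw [Submodule.Quotient.mk_eq_zero, mem_subOf] at hf
    exact hf
  · intro x
    obtain ⟨⟨y, hy⟩, rfl⟩ := Submodule.mkQ_surjective _ x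
    obtain ⟨f, hf⟩ := hw.surj j y hy
    refine ⟨f, ?_⟩
    change Submodule.Quotient.mk _ = Submodule.Quotient.mk _
    rw [Submodule.Quotient.eq, mem_subOf]
    have := Submodule.neg_mem _ hf
    rw [neg_sub] at this
    exact this

/-- the symbol of an element of `mp j` -/
noncomputable def symL (hw : IsFrame D w) (j : ℕ) :
    ↥(D.mp M (j : ℤ)) →ₗ[k] (Fin n → polyLE k D.u D.v (j : ℤ)) :=
  (LinearEquiv.ofBijective (frmQ D w j) (frmQ_bij D hw j)).symm.toLinearMap ∘ₗ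
    ((D.mp M ((j : ℤ) + 1)).submoduleOf (D.mp M (j : ℤ))).mkQ

theorem symL_spec (hw : IsFrame D w) (j : ℕ) (y : ↥(D.mp M (j : ℤ))) :
    (y : M) - frm D w j (symL D hw j y) ∈ D.mp M ((j : ℤ) + 1) := by
  have h1 : frmQ D w j (symL D hw j y) =
      ((D.mp M ((j : ℤ) + 1)).submoduleOf (D.mp M (j : ℤ))).mkQ y := by
    unfold symL
    rw [LinearMap.comp_apply]
    exact LinearEquiv.apply_symm_apply (LinearEquiv.ofBijective (frmQ D w j) (frmQ_bij D hw j)) _
  change Submodule.Quotient.mk _ = Submodule.Quotient.mk _ at h1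
  rw [Submodule.Quotient.eq, mem_subOf] at h1
  have := Submodule.neg_mem _ h1
  rw [← neg_sub]
  exact this

theorem symL_eq_zero (hw : IsFrame D w) (j : ℕ) (y : ↥(D.mp M (j : ℤ))) :
    symL D hw j y = 0 ↔ (y : M) ∈ D.mp M ((j : ℤ) + 1) := by
  constructor
  · intro h
    have := symL_spec D hw j y
    rwa [h, map_zero, sub_zero] at this
  · intro h
    have h1 := symL_spec D hw j y
    have h2 := Submodule.sub_mem _ h h1
    rw [sub_sub_cancel] at h2
    exact hw.inj j _ h2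

theorem symL_frm (hw : IsFrame D w) (j : ℕ) (f : Fin n → polyLE k D.u D.v (j : ℤ))
    (h : frm D w j f ∈ D.mp M (j : ℤ)) : symL D hw j ⟨frm D w j f, h⟩ = f := by
  have h1 := symL_spec D hw j ⟨frm D w j f, h⟩
  simp only at h1
  rw [← map_sub] at h1
  have h2 := hw.inj j _ h1
  exact (sub_eq_zero.mp h2).symm

/-- the space of leading forms of `Y` in degree `j` -/
noncomputable def lead (w : Fin n → M) (Y : Submodule k M) (j : ℕ) :
    Submodule k (Fin n → polyLE k D.u D.v (j : ℤ)) :=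
  (Y ⊔ D.mp M ((j : ℤ) + 1)).comap (frm D w j)


theorem qdim_lead_aux (hw : IsFrame D w) (Y : Submodule k M) (j : ℕ) :
    ∃ φ : ↥(Y ⊓ D.mp M (j : ℤ)) →ₗ[k] (Fin n → polyLE k D.u D.v (j : ℤ)),
      (∀ a, φ a = 0 ↔ (a : M) ∈ Y ⊓ D.mp M ((j : ℤ) + 1)) ∧ LinearMap.range φ = lead D w Y j := by
  refine ⟨symL D hw j ∘ₗ Submodule.inclusion inf_le_right, ?_, ?_⟩
  · intro a
    rw [LinearMap.comp_apply, symL_eq_zero]
    constructor
    · intro h; exact ⟨a.2.1, h⟩
    · intro h; exact h.2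
  · ext f
    constructor
    · rintro ⟨a, rfl⟩
      have h1 := symL_spec D hw j (Submodule.inclusion inf_le_right a)
      have h2 := Submodule.sub_mem (Y ⊔ D.mp M ((j : ℤ) + 1))
        (Submodule.mem_sup_left a.2.1) (Submodule.mem_sup_right h1)
      change _ ∈ Y ⊔ D.mp M ((j : ℤ) + 1)
      simp only [Submodule.coe_inclusion, sub_sub_cancel] at h2
      exact h2
    · intro hf
      change frm D w j f ∈ Y ⊔ D.mp M ((j : ℤ) + 1) at hf
      obtain ⟨y, hy, z, hz, hyz⟩ := Submodule.mem_sup.mp hf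
      have hy' : y ∈ D.mp M (j : ℤ) := by
        have : y = frm D w j f - z := by rw [← hyz]; abel
        rw [this]
        exact Submodule.sub_mem _ (frm_mem D w j f) (mp_anti D (by omega) hz)
      refine ⟨⟨y, hy, hy'⟩, ?_⟩
      rw [LinearMap.comp_apply]
      have e1 : (Submodule.inclusion (inf_le_right : Y ⊓ D.mp M (j : ℤ) ≤ D.mp M (j : ℤ))
          ⟨y, hy, hy'⟩) = (⟨frm D w j f, frm_mem D w j f⟩ : ↥(D.mp M (j : ℤ))) -
            ⟨z, mp_anti D (by omega) hz⟩ := by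
        apply Subtype.ext
        change y = frm D w j f - z
        rw [← hyz]; abel
      rw [e1, map_sub, symL_frm, (symL_eq_zero D hw j _).mpr hz, sub_zero]

theorem qdim_lead (hw : IsFrame D w) (Y : Submodule k M) (j : ℕ) :
    qdim (Y ⊓ D.mp M (j : ℤ)) (Y ⊓ D.mp M ((j : ℤ) + 1)) = finrank k (lead D w Y j) := by
  obtain ⟨φ, h1, h2⟩ := qdim_lead_aux D hw Y j
  rw [qdim_eq_finrank_range φ h1, h2]

theorem qfin_lead (hw : IsFrame D w) (Y : Submodule k M) (j : ℕ) :
    Module.Finite k (↥(Y ⊓ D.mp M (j : ℤ)) ⧸ (Y ⊓ D.mp M ((j : ℤ) + 1)).submoduleOf _) := by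
  obtain ⟨φ, h1, h2⟩ := qdim_lead_aux D hw Y j
  have := poly_finite D j
  have : Module.Finite k (LinearMap.range φ) := inferInstance
  exact qfin_of_range φ h1

theorem inf_anti (Y : Submodule k M) {i j : ℤ} (h : i ≤ j) : Y ⊓ D.mp M j ≤ Y ⊓ D.mp M i :=
  inf_le_inf_left _ (mp_anti D h)

theorem qdim_chain (hw : IsFrame D w) (Y : Submodule k M) (L : ℕ) :
    Module.Finite k (↥(Y ⊓ D.mp M (0 : ℤ)) ⧸ (Y ⊓ D.mp M (L : ℤ)).submoduleOf _) ∧
    qdim (Y ⊓ D.mp M (0 : ℤ)) (Y ⊓ D.mp M (L : ℤ)) =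
      ∑ j ∈ Finset.range L, finrank k (lead D w Y j) := by
  induction L with
  | zero =>
    constructor
    · exact qfin_of_range (0 : _ →ₗ[k] k) (by intro a; simp)
    · simpa using qdim_self _
  | succ L ih =>
    obtain ⟨ih1, ih2⟩ := ih
    have f1 := qfin_lead D hw Y L
    have e : (((L + 1 : ℕ) : ℤ)) = (L : ℤ) + 1 := by push_cast; ring
    rw [e]
    have l1 : Y ⊓ D.mp M (L : ℤ) ≤ Y ⊓ D.mp M (0 : ℤ) := inf_anti D Y (by omega)
    have l2 : Y ⊓ D.mp M ((L : ℤ) + 1) ≤ Y ⊓ D.mp M (L : ℤ) := inf_anti D Y (by omega)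
    have f2 := qfin_ext l1 l2 ih1 f1
    refine ⟨f2, ?_⟩
    rw [qdim_add l1 l2, ih2, qdim_lead D hw, Finset.sum_range_succ]

theorem qdim_mp (hw : IsFrame D w) (Y : Submodule k M) (L : ℕ) (hY : D.mp M (L : ℤ) ≤ Y) :
    Module.Finite k (↥Y ⧸ (D.mp M (L : ℤ)).submoduleOf Y) ∧
    qdim Y (D.mp M (L : ℤ)) = ∑ j ∈ Finset.range L, finrank k (lead D w Y j) := by
  have h := qdim_chain D hw Y L
  have e1 : Y ⊓ D.mp M (0 : ℤ) = Y := by rw [mp_nonpos D le_rfl, inf_top_eq]
  have e2 : Y ⊓ D.mp M (L : ℤ) = D.mp M (L : ℤ) := inf_eq_right.mpr hY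
  rw [e1, e2] at h
  exact h

/-- the filtration of `A^n` in degree `m`: leading forms of `FM (m + d)` -/
noncomputable def NL (w : Fin n → M) (FM : ℤ → Submodule k M) (d : ℤ) (j : ℕ) :
    Submodule k (Fin n → polyLE k D.u D.v (j : ℤ)) :=
  lead D w (FM (j + d)) j

/-- the dimension formula for `gr` of a good filtration, first form -/
theorem grdim_formula (hw : IsFrame D w) {FM : ℤ → Submodule k M} (h : IsGoodFilt D FM)
    (l : ℤ) (L : ℕ) (hL : D.mp M (L : ℤ) ≤ FM (l + 1)) :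
    (grdim FM l : ℤ) = ∑ j ∈ Finset.range L,
      ((finrank k (NL D w FM (l - j) j) : ℤ) - finrank k (NL D w FM (l + 1 - j) j)) := by
  have hL' : D.mp M (L : ℤ) ≤ FM l := hL.trans (h.anti l)
  obtain ⟨f1, h1⟩ := qdim_mp D hw (FM l) L hL'
  obtain ⟨f2, h2⟩ := qdim_mp D hw (FM (l + 1)) L hL
  have h3 := qdim_add (h.anti l) hL
  have h4 : grdim FM l = _ := grdim_eq FM l
  rw [Finset.sum_sub_distrib]
  have e1 : ∑ j ∈ Finset.range L, (finrank k (NL D w FM (l - j) j) : ℤ) =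
      qdim (FM l) (D.mp M (L : ℤ)) := by
    rw [h1]
    push_cast
    refine Finset.sum_congr rfl fun j _ => ?_
    unfold NL
    have : (j : ℤ) + (l - j) = l := by ring
    rw [this]
  have e2 : ∑ j ∈ Finset.range L, (finrank k (NL D w FM (l + 1 - j) j) : ℤ) =
      qdim (FM (l + 1)) (D.mp M (L : ℤ)) := by
    rw [h2]
    push_cast
    refine Finset.sum_congr rfl fun j _ => ?_
    unfold NL
    have : (j : ℤ) + (l + 1 - j) = l + 1 := by ring
    rw [this]
  rw [e1, e2]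
  push_cast [h4]
  omega

theorem NL_top {FM : ℤ → Submodule k M} {c : ℕ}
    (hc : ∀ j : ℤ, D.mp M (j + c) ≤ FM j ∧ FM j ≤ D.mp M (j - c)) (d : ℤ) (hd : d ≤ -c) (j : ℕ) :
    NL D w FM d j = ⊤ := by
  rw [eq_top_iff]
  intro f _
  change frm D w j f ∈ FM ((j : ℤ) + d) ⊔ D.mp M ((j : ℤ) + 1)
  apply Submodule.mem_sup_left
  apply (hc _).1
  exact mp_anti D (by omega) (frm_mem D w j f)

theorem NL_bot (hw : IsFrame D w) {FM : ℤ → Submodule k M} {c : ℕ}
    (hc : ∀ j : ℤ, D.mp M (j + c) ≤ FM j ∧ FM j ≤ D.mp M (j - c)) (d : ℤ) (hd : (c : ℤ) < d)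
    (j : ℕ) : NL D w FM d j = ⊥ := by
  rw [eq_bot_iff]
  intro f hf
  change frm D w j f ∈ FM ((j : ℤ) + d) ⊔ D.mp M ((j : ℤ) + 1) at hf
  have h1 : FM ((j : ℤ) + d) ≤ D.mp M ((j : ℤ) + 1) :=
    (hc _).2.trans (mp_anti D (by omega))
  rw [sup_eq_right.mpr h1] at hf
  rw [Submodule.mem_bot]
  exact hw.inj j f hf

/-- the dimension formula for `gr` of a good filtration, final form -/
theorem grdim_formula' (hw : IsFrame D w) {FM : ℤ → Submodule k M} (h : IsGoodFilt D FM) {c : ℕ}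
    (hc : ∀ j : ℤ, D.mp M (j + c) ≤ FM j ∧ FM j ≤ D.mp M (j - c)) (l : ℕ) (hl : c ≤ l) :
    (grdim FM (l : ℤ) : ℤ) = ∑ e ∈ Finset.range (2 * c + 1),
      ((finrank k (NL D w FM ((e : ℤ) - c) (l + c - e)) : ℤ) -
        finrank k (NL D w FM ((e : ℤ) + 1 - c) (l + c - e))) := by
  have h1 := grdim_formula D hw h (l : ℤ) (l + 1 + c) (by
    have := (hc ((l : ℤ) + 1)).1
    exact_mod_cast this)
  rw [h1]
  -- only `j ∈ [l - c, l + c]` contribute
  have hsub : (Finset.Icc (l - c) (l + c)) ⊆ Finset.range (l + 1 + c) := by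
    intro j hj
    rw [Finset.mem_Icc] at hj
    rw [Finset.mem_range]
    omega
  rw [← Finset.sum_subset hsub]
  · refine (Finset.sum_bij' (fun (e : ℕ) _ => l + c - e) (fun (j : ℕ) _ => l + c - j) ?_ ?_ ?_ ?_ ?_).symm
    · intro e he
      rw [Finset.mem_range] at he
      rw [Finset.mem_Icc]
      omega
    · intro j hj
      rw [Finset.mem_Icc] at hj
      rw [Finset.mem_range]
      omega
    · intro e he
      rw [Finset.mem_range] at he
      omega
    · intro j hj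
      rw [Finset.mem_Icc] at hj
      omega
    · intro e he
      rw [Finset.mem_range] at he
      have e1 : (l : ℤ) - ((l + c - e : ℕ) : ℤ) = (e : ℤ) - c := by omega
      have e2 : (l : ℤ) + 1 - ((l + c - e : ℕ) : ℤ) = (e : ℤ) + 1 - c := by omega
      rw [e1, e2]
  · intro j hj hj'
    rw [Finset.mem_range] at hj
    rw [Finset.mem_Icc] at hj'
    have h3 : j < l - c := by omega
    rw [NL_bot D hw hc _ (by omega), NL_bot D hw hc _ (by omega)]
    simp

end A2

end Crest.Agent.R169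
end

-- ▼ part R169/AAbel
section

/-!
# Row 169, Part A2: Abel summation (pure arithmetic) (helper914)
-/

set_option autoImplicit false

namespace Crest.Agent.R169.AAbel

open Finset

/-- `(Σ r_e)² ≤ 2n Σ r_e (e + 1/2)` if `0 ≤ r_e ≤ n`. -/
theorem sq_sum_le (n : ℚ) (r : ℕ → ℚ) (h0 : ∀ e, 0 ≤ r e) (hn : ∀ e, r e ≤ n) (M : ℕ) :
    (∑ e ∈ range M, r e) ^ 2 ≤ 2 * n * ∑ e ∈ range M, r e * ((e : ℚ) + 1 / 2) := by
  induction M with
  | zero => simp
  | succ M ih =>
    rw [sum_range_succ, sum_range_succ]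
    set S := ∑ e ∈ range M, r e with hS
    have h1 : S ≤ n * M := by
      rw [hS]
      calc ∑ e ∈ range M, r e ≤ ∑ _e ∈ range M, n := sum_le_sum (fun e _ => hn e)
        _ = n * M := by rw [sum_const, card_range, nsmul_eq_mul, mul_comm]
    have h2 := mul_le_mul_of_nonneg_right h1 (h0 M)
    have h3 := mul_le_mul_of_nonneg_right (hn M) (h0 M)
    nlinarith

/-- the telescoping/Abel summation step at a fixed `l` -/
theorem abel_sum (P : ℕ → ℚ → ℚ) (M : ℕ) (l : ℚ) :
    ∑ e ∈ range (M + 1), (P e (l - e) - P (e + 1) (l - e))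
      = P 0 l - P (M + 1) (l - M) + ∑ e ∈ range M, (P (e + 1) (l - (e + 1)) - P (e + 1) (l - e)) := by
  induction M with
  | zero => simp
  | succ M ih =>
    rw [sum_range_succ, ih, sum_range_succ]
    push_cast
    ring

/-- the coefficient computation and the inequality `J ≥ 0`.
`H e m` (`e = d + c`) is the Hilbert function of `N^(d)`. -/
theorem jinv_nonneg_of_abel {n : ℕ} (hn : 0 < n) (M : ℕ) (r : ℕ → ℕ) (β γ : ℕ → ℚ)
    (hrn : ∀ e, r e ≤ n) (hβ : ∀ e, β e ≤ 3 / 2 * r e)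
    (h0 : r 0 = n ∧ β 0 = 3 / 2 * n ∧ γ 0 = n)
    (hM : r (M + 1) = 0 ∧ β (M + 1) = 0 ∧ γ (M + 1) = 0) (a : ℤ) (h : ℤ → ℚ)
    (hh : ∃ l₀ : ℤ, ∀ l ≥ l₀, h l = ∑ e ∈ range (M + 1),
      (((r e : ℚ) / 2 * ((l : ℚ) + a - e) ^ 2 + β e * ((l : ℚ) + a - e) + γ e)
        - ((r (e + 1) : ℚ) / 2 * ((l : ℚ) + a - e) ^ 2 + β (e + 1) * ((l : ℚ) + a - e)
          + γ (e + 1)))) :
    ∃ b c : ℚ, (∃ l₀ : ℤ, ∀ l ≥ l₀, h l = (n : ℚ) / 2 * (l : ℚ) ^ 2 + b * l + c) ∧
      0 ≤ Jinv n b c := by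
  obtain ⟨l₀, hl₀⟩ := hh
  have hn' : (0 : ℚ) < n := by exact_mod_cast hn
  set S1 : ℚ := ∑ e ∈ range M, (r (e + 1) : ℚ) with hS1
  set S2 : ℚ := ∑ e ∈ range M, (r (e + 1) : ℚ) * ((e : ℚ) + 1) with hS2
  set B : ℚ := ∑ e ∈ range M, β (e + 1) with hB
  -- the explicit polynomial
  have key : ∀ l ≥ l₀, h l = (n : ℚ) / 2 * (l : ℚ) ^ 2 + (n * a + 3 / 2 * n - S1) * l
      + (n / 2 * a ^ 2 + 3 / 2 * n * a + n - a * S1 + S2 - S1 / 2 - B) := by
    intro l hl
    rw [hl₀ l hl]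
    have e1 := abel_sum (fun e x => (r e : ℚ) / 2 * x ^ 2 + β e * x + γ e) M ((l : ℚ) + a)
    beta_reduce at e1
    rw [e1, h0.1, h0.2.1, h0.2.2, hM.1, hM.2.1, hM.2.2]
    have e2 : ∀ e ∈ range M,
        (((r (e + 1) : ℚ) / 2 * ((l : ℚ) + a - (e + 1)) ^ 2 + β (e + 1) * ((l : ℚ) + a - (e + 1))
          + γ (e + 1)) - ((r (e + 1) : ℚ) / 2 * ((l : ℚ) + a - e) ^ 2
          + β (e + 1) * ((l : ℚ) + a - e) + γ (e + 1)))
        = -((l : ℚ) + a) * r (e + 1) + (r (e + 1) : ℚ) * ((e : ℚ) + 1) - r (e + 1) / 2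
          - β (e + 1) := by
      intro e _
      ring
    rw [sum_congr rfl e2, sum_sub_distrib, sum_sub_distrib, sum_add_distrib, ← mul_sum,
      ← sum_div, ← hS1, ← hS2, ← hB]
    push_cast
    ring
  refine ⟨_, _, ⟨l₀, key⟩, ?_⟩
  have h1 : S1 ^ 2 ≤ 2 * n * ∑ e ∈ range M, (r (e + 1) : ℚ) * ((e : ℚ) + 1 / 2) :=
    sq_sum_le n (fun e => (r (e + 1) : ℚ)) (fun e => by positivity)
      (fun e => by exact_mod_cast hrn (e + 1)) M
  have h2 : ∑ e ∈ range M, (r (e + 1) : ℚ) * ((e : ℚ) + 1 / 2) = S2 - S1 / 2 := by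
    rw [hS2, hS1, sum_div, ← sum_sub_distrib]
    refine sum_congr rfl (fun e _ => ?_)
    ring
  have h3 : B ≤ 3 / 2 * S1 := by
    rw [hB, hS1, mul_sum]
    exact sum_le_sum (fun e _ => hβ (e + 1))
  rw [h2] at h1
  unfold Jinv
  have h4 : (n * (a : ℚ) + 3 / 2 * n - S1) ^ 2 / (2 * (n : ℚ))
      = n / 2 * (a + 3 / 2) ^ 2 - (a + 3 / 2) * S1 + S1 ^ 2 / (2 * n) := by
    field_simp
    ring
  rw [h4]
  have h5 : S1 ^ 2 / (2 * (n : ℚ)) ≤ S2 - S1 / 2 := by
    rw [div_le_iff₀ (by positivity)]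
    linarith
  linarith

end Crest.Agent.R169.AAbel
end

-- ▼ part R169/A3
section

/-!
# Row 169, Part A3: a good filtration with minimal `J` is near-semistable (helper914)
-/

set_option autoImplicit false
set_option linter.unusedSectionVars false

namespace Crest.Agent.R169

open Module

namespace A3

section LA

theorem finrank_map_add {F X Y : Type*} [Field F] [AddCommGroup X] [Module F X] [AddCommGroup Y]
    [Module F Y] (S : Submodule F X) [FiniteDimensional F S] (f : X →ₗ[F] Y) :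
    finrank F (S.map f) + finrank F ↥(S ⊓ LinearMap.ker f) = finrank F S := by
  have h := LinearMap.finrank_range_add_finrank_ker (f.domRestrict S)
  have h1 : LinearMap.range (f.domRestrict S) = S.map f := by
    rw [LinearMap.domRestrict, LinearMap.range_comp, Submodule.range_subtype]
  have h2 : LinearMap.ker (f.domRestrict S) = (LinearMap.ker f).comap S.subtype := by
    rw [LinearMap.domRestrict, LinearMap.ker_comp]
  have h3 : finrank F ↥((LinearMap.ker f).comap S.subtype) = finrank F ↥(S ⊓ LinearMap.ker f) := by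
    rw [← Submodule.map_comap_subtype S (LinearMap.ker f)]
    exact (Submodule.finrank_map_subtype_eq S _).symm
  rw [h1, h2, h3] at h
  exact h

variable {F X Y : Type*} [Field F] [AddCommGroup X] [Module F X] [AddCommGroup Y] [Module F Y]

/-- `dim A/B` from a linear map on `A` with kernel `B`. -/
theorem quot_eq_range (A B : Submodule F X) (g : ↥A →ₗ[F] Y)
    (hg : ∀ a : A, g a = 0 ↔ (a : X) ∈ B) :
    finrank F (↥A ⧸ B.submoduleOf A) = finrank F (LinearMap.range g) := by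
  have hk : B.submoduleOf A = LinearMap.ker g := by
    ext a
    rw [LinearMap.mem_ker, hg a]
    rfl
  rw [hk]
  exact LinearEquiv.finrank_eq g.quotKerEquivRange

theorem quot_finite (A B : Submodule F X) (g : ↥A →ₗ[F] Y)
    (hg : ∀ a : A, g a = 0 ↔ (a : X) ∈ B) [FiniteDimensional F (LinearMap.range g)] :
    FiniteDimensional F (↥A ⧸ B.submoduleOf A) := by
  have hk : B.submoduleOf A = LinearMap.ker g := by
    ext a
    rw [LinearMap.mem_ker, hg a]
    rfl
  rw [hk]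
  exact Module.Finite.equiv g.quotKerEquivRange.symm

/-- additivity of the codimension in a chain `B ≤ C ≤ A`. -/
theorem quot_add (A B C : Submodule F X) (hBC : B ≤ C) (hCA : C ≤ A)
    [h1 : FiniteDimensional F (↥A ⧸ C.submoduleOf A)]
    [h2 : FiniteDimensional F (↥C ⧸ B.submoduleOf C)] :
    finrank F (↥A ⧸ B.submoduleOf A)
      = finrank F (↥A ⧸ C.submoduleOf A) + finrank F (↥C ⧸ B.submoduleOf C) := by
  -- the map `C → A / B`
  let ι : ↥C →ₗ[F] ↥A ⧸ B.submoduleOf A :=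
    (B.submoduleOf A).mkQ.comp (Submodule.inclusion hCA)
  -- the map `A / B → A / C`
  let π : (↥A ⧸ B.submoduleOf A) →ₗ[F] ↥A ⧸ C.submoduleOf A :=
    Submodule.mapQ _ _ LinearMap.id (by
      intro a ha
      exact hBC ha)
  have hι : ∀ c : C, ι c = 0 ↔ (c : X) ∈ B := by
    intro c
    change (B.submoduleOf A).mkQ (Submodule.inclusion hCA c) = 0 ↔ _
    rw [Submodule.mkQ_apply, Submodule.Quotient.mk_eq_zero]
    rfl
  have e1 := quot_eq_range C B ι hι
  have hker : LinearMap.ker π = LinearMap.range ι := by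
    ext x
    obtain ⟨a, rfl⟩ := Submodule.mkQ_surjective _ x
    rw [LinearMap.mem_ker, LinearMap.mem_range]
    change (C.submoduleOf A).mkQ a = 0 ↔ _
    rw [Submodule.mkQ_apply, Submodule.Quotient.mk_eq_zero]
    constructor
    · intro ha
      exact ⟨⟨a, ha⟩, rfl⟩
    · rintro ⟨c, hc⟩
      have hc' : (B.submoduleOf A).mkQ (Submodule.inclusion hCA c)
        = (B.submoduleOf A).mkQ a := hc
      rw [Submodule.mkQ_apply, Submodule.mkQ_apply, Submodule.Quotient.eq] at hc'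
      have h3 : ((Submodule.inclusion hCA c : A) : X) - (a : X) ∈ B := hc'
      have h4 : (a : X) = (c : X) - ((c : X) - (a : X)) := by abel
      change (a : X) ∈ C
      rw [h4]
      exact C.sub_mem c.2 (hBC h3)
  have hsurj : Function.Surjective π := by
    intro x
    obtain ⟨a, rfl⟩ := Submodule.mkQ_surjective _ x
    exact ⟨(B.submoduleOf A).mkQ a, rfl⟩
  have hrange : LinearMap.range π = ⊤ := LinearMap.range_eq_top.2 hsurj
  have hfr : FiniteDimensional F (LinearMap.range ι) := by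
    have hk : B.submoduleOf C = LinearMap.ker ι := by
      ext a
      rw [LinearMap.mem_ker, hι a]
      rfl
    rw [hk] at h2
    exact Module.Finite.equiv ι.quotKerEquivRange
  have hfk : FiniteDimensional F (LinearMap.ker π) := by rw [hker]; exact hfr
  have hfin : FiniteDimensional F (↥A ⧸ B.submoduleOf A) := by
    have hq : FiniteDimensional F ((↥A ⧸ B.submoduleOf A) ⧸ LinearMap.ker π) := by
      have : FiniteDimensional F (LinearMap.range π) := by
        rw [hrange]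
        exact Module.Finite.equiv (Submodule.topEquiv).symm
      exact Module.Finite.equiv π.quotKerEquivRange.symm
    exact Module.Finite.of_submodule_quotient (LinearMap.ker π)
  have e2 := LinearMap.finrank_range_add_finrank_ker π
  rw [hrange, hker, ← e1, finrank_top] at e2
  exact e2.symm

end LA

section

variable {k Q : Type} [Field k] [Field Q] [Algebra k Q] (D : TData k Q)
variable (M : Type) [AddCommGroup M] [Module D.Ttot M] [Module k M] [IsScalarTower k D.Ttot M]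

theorem mp_anti {i j : ℤ} (h : i ≤ j) : D.mp M j ≤ D.mp M i := by
  intro x hx
  have h1 : D.mI ^ j.toNat ≤ D.mI ^ i.toNat := Ideal.pow_le_pow_right (by omega)
  exact Submodule.smul_mono_left h1 hx

variable {M}

/-- the modified filtration -/
noncomputable def newF {R : ℕ} (FM : ℤ → Submodule k M)
    (σ : ∀ j : ℤ, ↥(FM j) →ₗ[k] (Fin R → Q)) (U : Submodule Q (Fin R → Q)) :
    ℤ → Submodule k M :=
  fun j => ((U.restrictScalars k).comap (σ j)).map (FM j).subtype

theorem mem_newF {R : ℕ} {FM : ℤ → Submodule k M}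
    {σ : ∀ j : ℤ, ↥(FM j) →ₗ[k] (Fin R → Q)} {U : Submodule Q (Fin R → Q)} {j : ℤ} {w : M} :
    w ∈ newF FM σ U j ↔ ∃ h : w ∈ FM j, σ j ⟨w, h⟩ ∈ U := by
  constructor
  · rintro ⟨x, hx, rfl⟩
    exact ⟨x.2, hx⟩
  · rintro ⟨h, hx⟩
    exact ⟨⟨w, h⟩, hx, rfl⟩

theorem newF_le {R : ℕ} {FM : ℤ → Submodule k M}
    {σ : ∀ j : ℤ, ↥(FM j) →ₗ[k] (Fin R → Q)} {U : Submodule Q (Fin R → Q)} (j : ℤ) :
    newF FM σ U j ≤ FM j := by
  intro w hw
  obtain ⟨h, _⟩ := mem_newF.1 hw
  exact h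

theorem le_newF {R : ℕ} {FM : ℤ → Submodule k M} {E : ℤ → Submodule k (Fin R → Q)}
    {σ : ∀ j : ℤ, ↥(FM j) →ₗ[k] (Fin R → Q)} (h : IsGoodFilt D FM) (hσ : IsSymb D FM E σ)
    (U : Submodule Q (Fin R → Q)) (j : ℤ) :
    FM (j + 1) ≤ newF FM σ U j := by
  intro w hw
  rw [mem_newF]
  refine ⟨h.anti j hw, ?_⟩
  have : σ j ⟨w, h.anti j hw⟩ = 0 := (hσ.ker j _).2 hw
  rw [this]
  exact U.zero_mem

theorem newF_good {R : ℕ} {FM : ℤ → Submodule k M} {E : ℤ → Submodule k (Fin R → Q)}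
    {σ : ∀ j : ℤ, ↥(FM j) →ₗ[k] (Fin R → Q)} (h : IsGoodFilt D FM) (hσ : IsSymb D FM E σ)
    (U : Submodule Q (Fin R → Q)) : IsGoodFilt D (newF FM σ U) where
  anti j := (newF_le (j + 1)).trans (le_newF D h hσ U j)
  act i f hf j w hw := by
    rw [mem_newF] at hw ⊢
    obtain ⟨hw1, hw2⟩ := hw
    have h1 := h.act i f hf j w hw1
    refine ⟨h1, ?_⟩
    rw [hσ.act i f hf j ⟨w, hw1⟩ h1]
    exact U.smul_mem f hw2
  bdd := by
    obtain ⟨c, hc⟩ := h.bdd
    refine ⟨c + 1, fun j => ⟨?_, ?_⟩⟩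
    · refine le_trans ?_ (le_newF D h hσ U j)
      refine le_trans (le_of_eq ?_) (hc (j + 1)).1
      congr 1
      push_cast
      ring
    · refine (newF_le j).trans ((hc j).2.trans ?_)
      apply mp_anti
      push_cast
      linarith
  tf i f hf hf0 j w hw hfw := by
    rw [mem_newF] at hfw
    obtain ⟨h1, h2⟩ := hfw
    have hw1 : w ∈ FM (j + 1) := h.tf i f hf hf0 j w (newF_le j hw) h1
    rw [mem_newF]
    refine ⟨hw1, ?_⟩
    have h3 : (i : ℤ) + (j + 1) = i + j + 1 := by ring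
    have h4 : D.mono i f hf • w ∈ FM (i + (j + 1)) := by rw [h3]; exact h1
    have h5 := hσ.act i f hf (j + 1) ⟨w, hw1⟩ h4
    have h6 : ∀ (a b : ℤ) (hab : a = b) (x : M) (ha : x ∈ FM a) (hb : x ∈ FM b),
        σ a ⟨x, ha⟩ = σ b ⟨x, hb⟩ := by
      intro a b hab x ha hb
      subst hab
      rfl
    have h7 : f • σ (j + 1) ⟨w, hw1⟩ ∈ U := by
      rw [← h5, h6 _ _ h3 _ h4 h1]
      exact h2
    have h8 := U.smul_mem f⁻¹ h7
    rwa [smul_smul, inv_mul_cancel₀ hf0, one_smul] at h8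

/-- (A3) -/
theorem A3 (n : ℕ) (hG : GrFree D M n) (FM : ℤ → Submodule k M)
    (h : IsGoodFilt D FM) (b c : ℚ) (hHP : HasGrHP FM n b c)
    (hmin : ∀ (FM' : ℤ → Submodule k M), IsGoodFilt D FM' → ∀ b' c' : ℚ, HasGrHP FM' n b' c' →
      Jinv n b c ≤ Jinv n b' c')
    (R : ℕ) (E : ℤ → Submodule k (Fin R → Q)) (σ : ∀ j : ℤ, ↥(FM j) →ₗ[k] (Fin R → Q))
    (hσ : IsSymb D FM E σ) : HasHP E n b c ∧ NSS (Q := Q) E n b := by
  have hn : (0 : ℚ) < n := by exact_mod_cast hG.1
  have hfinE : ∀ m, Module.Finite k (E m) := hσ.lat.lat.fin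
  -- `dim E m = grdim FM m`
  have hE : ∀ m, grdim FM m = finrank k (E m) := by
    intro m
    rw [grdim, quot_eq_range (FM m) (FM (m + 1)) (σ m) (hσ.ker m), hσ.range m]
  have hHPE : HasHP E n b c := by
    obtain ⟨m₀, hm₀⟩ := hHP
    refine ⟨m₀, fun m hm => ?_⟩
    rw [← hE m]
    exact hm₀ m hm
  refine ⟨hHPE, ?_⟩
  intro U n₁ b₁ c₁ h₁
  -- the dimension formula
  have hdim : ∀ m, grdim (newF FM σ U) m + finrank k (interU E U (m + 1))
      = finrank k (interU E U m) + finrank k (E (m + 1)) := by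
    intro m
    -- first piece
    let g1 : ↥(newF FM σ U m) →ₗ[k] (Fin R → Q) :=
      (σ m).comp (Submodule.inclusion (newF_le m))
    have hg1 : ∀ a : newF FM σ U m, g1 a = 0 ↔ (a : M) ∈ FM (m + 1) := by
      intro a
      exact hσ.ker m _
    have hr1 : LinearMap.range g1 = interU E U m := by
      ext x
      rw [interU, Submodule.mem_inf, Submodule.restrictScalars_mem, hσ.range m]
      constructor
      · rintro ⟨a, rfl⟩
        obtain ⟨h1, h2⟩ := mem_newF.1 a.2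
        exact ⟨⟨_, rfl⟩, h2⟩
      · rintro ⟨⟨w, rfl⟩, h2⟩
        exact ⟨⟨w.1, mem_newF.2 ⟨w.2, h2⟩⟩, rfl⟩
    -- second piece
    let g2 : ↥(FM (m + 1)) →ₗ[k] ((Fin R → Q) ⧸ U) :=
      (U.mkQ.restrictScalars k).comp (σ (m + 1))
    have hg2 : ∀ a : FM (m + 1), g2 a = 0 ↔ (a : M) ∈ newF FM σ U (m + 1) := by
      intro a
      change U.mkQ (σ (m + 1) a) = 0 ↔ _
      rw [Submodule.mkQ_apply, Submodule.Quotient.mk_eq_zero, mem_newF]
      exact ⟨fun h => ⟨a.2, h⟩, fun ⟨_, h⟩ => h⟩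
    have hr2 : LinearMap.range g2 = (E (m + 1)).map (U.mkQ.restrictScalars k) := by
      rw [LinearMap.range_comp, hσ.range (m + 1)]
    have hk2 : E (m + 1) ⊓ LinearMap.ker (U.mkQ.restrictScalars k) = interU E U (m + 1) := by
      ext x
      rw [interU, Submodule.mem_inf, Submodule.mem_inf, Submodule.restrictScalars_mem,
        LinearMap.mem_ker]
      have : (U.mkQ.restrictScalars k) x = 0 ↔ x ∈ U := by
        change U.mkQ x = 0 ↔ _
        rw [Submodule.mkQ_apply, Submodule.Quotient.mk_eq_zero]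
      rw [this]
    have f1 : FiniteDimensional k (LinearMap.range g1) := by
      rw [hr1]
      have : Module.Finite k (E m) := hfinE m
      exact Submodule.finiteDimensional_of_le (S₂ := E m) inf_le_left
    have f2 : FiniteDimensional k (LinearMap.range g2) := by
      rw [hr2]
      have : Module.Finite k (E (m + 1)) := hfinE (m + 1)
      infer_instance
    have q1 : FiniteDimensional k
        (↥(newF FM σ U m) ⧸ (FM (m + 1)).submoduleOf (newF FM σ U m)) :=
      quot_finite _ _ g1 hg1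
    have q2 : FiniteDimensional k
        (↥(FM (m + 1)) ⧸ (newF FM σ U (m + 1)).submoduleOf (FM (m + 1))) :=
      quot_finite _ _ g2 hg2
    have e0 := quot_add (newF FM σ U m) (newF FM σ U (m + 1)) (FM (m + 1))
      (newF_le (m + 1)) (le_newF D h hσ U m)
    have e1 := quot_eq_range _ _ g1 hg1
    have e2 := quot_eq_range _ _ g2 hg2
    have : Module.Finite k (E (m + 1)) := hfinE (m + 1)
    have e3 := finrank_map_add (E (m + 1)) (U.mkQ.restrictScalars k)
    rw [hk2] at e3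
    rw [hr1] at e1
    rw [hr2] at e2
    rw [grdim, e0, e1, e2]
    omega
  have hnew : HasGrHP (newF FM σ U) n (b + n - n₁) (c + b + n / 2 - n₁ / 2 - b₁) := by
    obtain ⟨m₀, hm₀⟩ := hHPE
    obtain ⟨m₁, hm₁⟩ := h₁
    refine ⟨max m₀ m₁, fun m hm => ?_⟩
    have h0 := hm₀ (m + 1) (by have := le_max_left m₀ m₁; omega)
    have h1 := hm₁ m (by have := le_max_right m₀ m₁; omega)
    have h2 := hm₁ (m + 1) (by have := le_max_right m₀ m₁; omega)
    have h3 : (grdim (newF FM σ U) m : ℚ) + finrank k (interU E U (m + 1))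
      = finrank k (interU E U m) + finrank k (E (m + 1)) := by exact_mod_cast hdim m
    rw [h0, h1, h2] at h3
    push_cast at h3
    linear_combination h3
  have key := hmin _ (newF_good D h hσ U) _ _ hnew
  unfold Jinv at key
  have h5 : b ^ 2 / (2 * (n : ℚ)) * (2 * n) = b ^ 2 := by field_simp
  have h6 : (b + n - n₁) ^ 2 / (2 * (n : ℚ)) * (2 * n) = (b + n - n₁) ^ 2 := by field_simp
  have h7 : (c - b ^ 2 / (2 * (n : ℚ))) * (2 * n)
      ≤ (c + b + n / 2 - n₁ / 2 - b₁ - (b + n - n₁) ^ 2 / (2 * (n : ℚ))) * (2 * n) := by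
    apply mul_le_mul_of_nonneg_right _ (by linarith)
    linarith
  rw [sub_mul, h5, sub_mul _ ((b + n - n₁) ^ 2 / (2 * (n : ℚ))), h6] at h7
  nlinarith

end

end A3

end Crest.Agent.R169
end

-- ▼ part R169/AMin
section

/-!
# Row 169, Part A: discreteness of `J` and assembly of Part A from A1, A2, A4 (helper914)
-/

set_option autoImplicit false
set_option linter.unusedSectionVars false

namespace Crest.Agent.R169

open Module

namespace AMin

/-- integrality of the coefficients of an integer valued quadratic polynomial. -/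
theorem integrality {n : ℕ} {b c : ℚ} {m₀ : ℤ}
    (h : ∀ m ≥ m₀, ∃ a : ℕ, (a : ℚ) = n / 2 * (m : ℚ) ^ 2 + b * m + c) :
    (∃ z : ℤ, 2 * b = z) ∧ ∃ z : ℤ, c = z := by
  -- choose an even `m ≥ m₀`
  set m : ℤ := 2 * (|m₀| + 1) with hm
  have hm1 : m ≥ m₀ := by
    have := le_abs_self m₀
    have := abs_nonneg m₀
    omega
  obtain ⟨a0, h0⟩ := h m hm1
  obtain ⟨a1, h1⟩ := h (m + 1) (by omega)
  obtain ⟨t, ht⟩ : ∃ t : ℤ, m = 2 * t := ⟨|m₀| + 1, hm⟩
  have e1 : (2 : ℚ) * b = ((2 * (a1 : ℤ) - 2 * a0 - n * (2 * m + 1) : ℤ) : ℚ) := by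
    push_cast at h0 h1 ⊢
    linear_combination 2 * h0 - 2 * h1
  refine ⟨⟨_, e1⟩, ?_⟩
  refine ⟨(a0 : ℤ) - n * (2 * t ^ 2) - (2 * (a1 : ℤ) - 2 * a0 - n * (2 * m + 1)) * t, ?_⟩
  have h0' := h0
  rw [ht] at h0' e1
  push_cast at h0' e1 ⊢
  rw [ht]
  push_cast
  linear_combination -h0' - (t : ℚ) * e1

theorem jinv_discrete {n : ℕ} (hn : 0 < n) {b c : ℚ} (hb : ∃ z : ℤ, 2 * b = z)
    (hc : ∃ z : ℤ, c = z) : ∃ z : ℤ, 8 * n * Jinv n b c = z := by
  obtain ⟨x, hx⟩ := hb
  obtain ⟨y, hy⟩ := hc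
  have hn' : (n : ℚ) ≠ 0 := by exact_mod_cast hn.ne'
  refine ⟨8 * n * y - x ^ 2 + (n : ℤ) ^ 2, ?_⟩
  unfold Jinv
  have h1 : b ^ 2 / (2 * (n : ℚ)) * (2 * n) = b ^ 2 := by field_simp
  have h2 : (x : ℚ) ^ 2 = 4 * b ^ 2 := by rw [← hx]; ring
  push_cast
  rw [h2, ← hy]
  linear_combination (-4) * h1

/-- a nonempty set of pairs `(b, c)` with `8 n J ∈ ℤ` and `J ≥ 0` has a minimum of `J`. -/
theorem exists_min {n : ℕ} (hn : 0 < n) (P : ℚ → ℚ → Prop) (hne : ∃ b c, P b c)
    (hint : ∀ b c, P b c → ∃ z : ℤ, 8 * n * Jinv n b c = z)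
    (hpos : ∀ b c, P b c → 0 ≤ Jinv n b c) :
    ∃ b c, P b c ∧ ∀ b' c', P b' c' → Jinv n b c ≤ Jinv n b' c' := by
  classical
  have hn' : (0 : ℚ) < 8 * n := by
    have : (0 : ℚ) < n := by exact_mod_cast hn
    linarith
  have key : ∀ b c, P b c → ∃ a : ℕ, 8 * n * Jinv n b c = (a : ℚ) := by
    intro b c hP
    obtain ⟨z, hz⟩ := hint b c hP
    have h1 : (0 : ℚ) ≤ z := by
      rw [← hz]
      exact mul_nonneg hn'.le (hpos b c hP)
    have h2 : 0 ≤ z := by exact_mod_cast h1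
    refine ⟨z.toNat, ?_⟩
    rw [hz]
    have : ((z.toNat : ℤ) : ℚ) = (z : ℚ) := by rw [Int.toNat_of_nonneg h2]
    exact_mod_cast this.symm
  have hex : ∃ a : ℕ, ∃ b c, P b c ∧ 8 * n * Jinv n b c = (a : ℚ) := by
    obtain ⟨b, c, hP⟩ := hne
    obtain ⟨a, ha⟩ := key b c hP
    exact ⟨a, b, c, hP, ha⟩
  obtain ⟨b, c, hP, hbc⟩ := Nat.find_spec hex
  refine ⟨b, c, hP, fun b' c' hP' => ?_⟩
  obtain ⟨a', ha'⟩ := key b' c' hP'
  have h3 : Nat.find hex ≤ a' := Nat.find_min' hex ⟨b', c', hP', ha'⟩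
  have h4 : 8 * n * Jinv n b c ≤ 8 * n * Jinv n b' c' := by
    rw [hbc, ha']
    exact_mod_cast h3
  exact le_of_mul_le_mul_left h4 hn'

section

variable {k Q : Type} [Field k] [Field Q] [Algebra k Q] (D : TData k Q)
variable (M : Type) [AddCommGroup M] [Module D.Ttot M] [Module k M] [IsScalarTower k D.Ttot M]

/-- assembly of Part A. -/
theorem partA_of (n : ℕ) (hG : GrFree D M n)
    (hA1 : ∃ FM : ℤ → Submodule k M, IsGoodFilt D FM)
    (hA2 : ∀ FM : ℤ → Submodule k M, IsGoodFilt D FM →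
      ∃ b c : ℚ, HasGrHP FM n b c ∧ 0 ≤ Jinv n b c)
    (hA4 : ∀ FM : ℤ → Submodule k M, IsGoodFilt D FM → ∀ b c : ℚ, HasGrHP FM n b c →
      ∃ R : ℕ, 0 < R ∧ ∃ (E : ℤ → Submodule k (Fin R → Q))
        (σ : ∀ j : ℤ, ↥(FM j) →ₗ[k] (Fin R → Q)), IsSymb D FM E σ) :
    ∃ R : ℕ, 0 < R ∧ ∃ G : ℤ → Submodule k (Fin R → Q), IsTLat D G ∧
      ∃ b c : ℚ, HasHP G n b c ∧ 0 ≤ Jinv n b c ∧ NSS (Q := Q) G n b := by
  have hn : 0 < n := hG.1
  let P : ℚ → ℚ → Prop := fun b c =>
    (∃ FM : ℤ → Submodule k M, IsGoodFilt D FM ∧ HasGrHP FM n b c) ∧ 0 ≤ Jinv n b c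
  have hne : ∃ b c, P b c := by
    obtain ⟨FM, hFM⟩ := hA1
    obtain ⟨b, c, h1, h2⟩ := hA2 FM hFM
    exact ⟨b, c, ⟨FM, hFM, h1⟩, h2⟩
  have hint : ∀ b c, P b c → ∃ z : ℤ, 8 * n * Jinv n b c = z := by
    rintro b c ⟨⟨FM, -, m₀, hm₀⟩, -⟩
    have := integrality (n := n) (b := b) (c := c) (m₀ := m₀)
      (fun m hm => ⟨grdim FM m, hm₀ m hm⟩)
    exact jinv_discrete hn this.1 this.2
  obtain ⟨b, c, ⟨⟨FM, hFM, hHP⟩, hJ⟩, hmin⟩ := exists_min hn P hne hint (fun b c h => h.2)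
  -- uniqueness of the value of J on a filtration is not needed: use A2 and minimality
  have hmin' : ∀ (FM' : ℤ → Submodule k M), IsGoodFilt D FM' → ∀ b' c' : ℚ,
      HasGrHP FM' n b' c' → Jinv n b c ≤ Jinv n b' c' := by
    intro FM' hFM' b' c' h'
    obtain ⟨b₂, c₂, h₂, hJ₂⟩ := hA2 FM' hFM'
    -- the coefficients are unique
    have huniq : b' = b₂ ∧ c' = c₂ := by
      obtain ⟨m₁, hm₁⟩ := h'
      obtain ⟨m₂, hm₂⟩ := h₂
      set m := max m₁ m₂ with hm
      have e1 := hm₁ m (le_max_left _ _)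
      have e2 := hm₂ m (le_max_right _ _)
      have e3 := hm₁ (m + 1) (by have := le_max_left m₁ m₂; omega)
      have e4 := hm₂ (m + 1) (by have := le_max_right m₁ m₂; omega)
      push_cast at e1 e2 e3 e4
      have hb : b' = b₂ := by linear_combination e1 - e2 - e3 + e4
      refine ⟨hb, ?_⟩
      rw [hb] at e1
      linear_combination e2 - e1
    rw [huniq.1, huniq.2]
    exact hmin b₂ c₂ ⟨⟨FM', hFM', h₂⟩, hJ₂⟩
  obtain ⟨R, hR, E, σ, hσ⟩ := hA4 FM hFM b c hHP
  obtain ⟨h1, h2⟩ := A3.A3 D n hG FM hFM b c hHP hmin' R E σ hσ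
  exact ⟨R, hR, E, hσ.lat, b, c, h1, hJ, h2⟩

end

end AMin

end Crest.Agent.R169
end

-- ▼ part R169/Pack257
section

/-!
Row 169, module `Pack257`: assembly of S0257 from `NoMCM` and the dimension statements
(`ℂ`-algebra structure through `e : ℂ ≃+* k`).
-/

set_option autoImplicit false

noncomputable section

namespace Crest.Agent.R169.Pack257

open Polynomial DirectSum

variable {k Q : Type} [Field k] [Field Q] [Algebra k Q]

/-- the `ℂ`-algebra structure -/
@[reducible] def algC (e : ℂ ≃+* k) (𝓕 : Fil k Q) : Algebra ℂ 𝓕.T :=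
  ((algebraMap k 𝓕.T).comp e.toRingHom).toAlgebra

/-- the `ℂ`-grading -/
def gr (e : ℂ ≃+* k) (𝓕 : Fil k Q) : letI := algC e 𝓕; ℕ → Submodule ℂ 𝓕.T :=
  letI := algC e 𝓕
  fun m =>
  { carrier := (𝓕.piece m : Set 𝓕.T)
    add_mem' := fun ha hb => (𝓕.piece m).add_mem ha hb
    zero_mem' := (𝓕.piece m).zero_mem
    smul_mem' := by
      intro c x hx
      have h1 : c • x = (e c) • x := by
        rw [Algebra.smul_def, Algebra.smul_def]
        rfl
      rw [h1]
      exact (𝓕.piece m).smul_mem _ hx }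


/-- identity on values -/
def ide (e : ℂ ≃+* k) (𝓕 : Fil k Q) (m : ℕ) :
    letI := algC e 𝓕
    ↥(𝓕.piece m) →+ ↥(gr e 𝓕 m) :=
  letI := algC e 𝓕
  { toFun := fun p => ⟨p.1, p.2⟩
    map_zero' := rfl
    map_add' := fun _ _ => rfl }

/-- the graded algebra structure -/
@[reducible] def grAlg (e : ℂ ≃+* k) (𝓕 : Fil k Q) :
    letI := algC e 𝓕
    GradedAlgebra (gr e 𝓕) := by
  letI := algC e 𝓕
  refine
  { one_mem := SetLike.GradedOne.one_mem (A := 𝓕.piece)
    mul_mem := fun i j _ _ ha hb => SetLike.GradedMul.mul_mem (A := 𝓕.piece) ha hb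
    decompose' := fun p => DirectSum.map (ide e 𝓕) (DirectSum.decompose 𝓕.piece p)
    left_inv := ?_
    right_inv := ?_ }
  · intro p
    have key : ∀ x : ⨁ i, 𝓕.piece i,
        (DirectSum.coeAddMonoidHom (gr e 𝓕)) (DirectSum.map (ide e 𝓕) x) =
          (DirectSum.coeAddMonoidHom 𝓕.piece) x := by
      intro x
      induction x using DirectSum.induction_on with
      | zero => simp
      | of i y =>
        rw [DirectSum.map_of, DirectSum.coeAddMonoidHom_of, DirectSum.coeAddMonoidHom_of]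
        rfl
      | add x y hx hy => rw [map_add, map_add, map_add, hx, hy]
    rw [key]
    exact DirectSum.Decomposition.left_inv p
  · intro x
    induction x using DirectSum.induction_on with
    | zero => simp
    | of i y =>
      rw [DirectSum.coeAddMonoidHom_of]
      have h1 : DirectSum.decompose 𝓕.piece (y : 𝓕.T) =
          DirectSum.of (fun i => 𝓕.piece i) i ⟨y.1, y.2⟩ :=
        DirectSum.decompose_of_mem 𝓕.piece (x := (y : 𝓕.T)) y.2
      change DirectSum.map (ide e 𝓕) (DirectSum.decompose 𝓕.piece (y : 𝓕.T)) = _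
      rw [h1, DirectSum.map_of]
      rfl
    | add x y hx hy =>
      change DirectSum.map (ide e 𝓕) (DirectSum.decompose 𝓕.piece _) = _
      rw [map_add, DirectSum.decompose_add, map_add]
      exact congrArg₂ (· + ·) hx hy

theorem mem_irrelevant (e : ℂ ≃+* k) (𝓕 : Fil k Q) (p : 𝓕.T) :
    letI := algC e 𝓕
    letI := grAlg e 𝓕
    p ∈ (HomogeneousIdeal.irrelevant (gr e 𝓕)).toIdeal ↔ (p : Q[X]).coeff 0 = 0 := by
  let i1 := algC e 𝓕
  let i2 := grAlg e 𝓕
  rw [← 𝓕.mem_irr]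
  change GradedRing.proj (gr e 𝓕) 0 p = 0 ↔ GradedRing.proj 𝓕.piece 0 p = 0
  rw [GradedRing.proj_apply, GradedRing.proj_apply]
  have h1 : DirectSum.decompose (gr e 𝓕) p =
      DirectSum.map (ide e 𝓕) (DirectSum.decompose 𝓕.piece p) := rfl
  rw [h1, DirectSum.map_apply]
  rfl

theorem irrelevant_eq (e : ℂ ≃+* k) (𝓕 : Fil k Q) :
    letI := algC e 𝓕
    letI := grAlg e 𝓕
    (HomogeneousIdeal.irrelevant (gr e 𝓕)).toIdeal = 𝓕.irr := by
  let i1 := algC e 𝓕
  let i2 := grAlg e 𝓕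
  ext p
  rw [𝓕.mem_irr]
  exact mem_irrelevant e 𝓕 p

theorem finiteType (e : ℂ ≃+* k) (𝓕 : Fil k Q) {u v : Q} (h : FilUV 𝓕 u v) :
    letI := algC e 𝓕
    Algebra.FiniteType ℂ 𝓕.T := by
  let i1 := algC e 𝓕
  have h1 : (algebraMap k 𝓕.T).FiniteType := by
    rw [RingHom.finiteType_algebraMap]
    exact Fil.finiteType_T h
  have h2 : (e.toRingHom).FiniteType := RingHom.FiniteType.of_surjective _ e.surjective
  exact h1.comp h2

theorem bijective (e : ℂ ≃+* k) (𝓕 : Fil k Q) (I : Ideal 𝓕.T) (hI : I = 𝓕.irr) :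
    letI := algC e 𝓕
    Function.Bijective (algebraMap ℂ (𝓕.T ⧸ I)) := by
  subst hI
  let i1 := algC e 𝓕
  have : (algebraMap ℂ (𝓕.T ⧸ 𝓕.irr) : ℂ → 𝓕.T ⧸ 𝓕.irr) =
      (algebraMap k (𝓕.T ⧸ 𝓕.irr)) ∘ e := rfl
  rw [this]
  exact 𝓕.bijective_algebraMap_quot.comp e.bijective

/-- **Packaging of S0257** from the dimension facts. -/
theorem pack257_of (e : ℂ ≃+* k) (D : TData k Q) (hno : NoMCM D)
    (hdim : ringKrullDim D.Ttot = 3)
    (hloc : ∀ (I : Ideal D.Ttot) [I.IsPrime], (∀ p : D.Ttot, p ∈ I ↔ (p : Q[X]).coeff 0 = 0) →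
      ringKrullDim (Localization.AtPrime I) = 3) :
    ∃ (T : Type) (_ : CommRing T) (_ : Algebra ℂ T) (𝒜 : ℕ → Submodule ℂ T) (_ : GradedAlgebra 𝒜)
      (_ : (HomogeneousIdeal.irrelevant 𝒜).toIdeal.IsMaximal),
      Algebra.FiniteType ℂ T ∧ IsDomain T ∧ ringKrullDim T = 3 ∧
      Function.Bijective (algebraMap ℂ (T ⧸ (HomogeneousIdeal.irrelevant 𝒜).toIdeal)) ∧
      ringKrullDim (Localization.AtPrime (HomogeneousIdeal.irrelevant 𝒜).toIdeal) = 3 ∧
      ∀ (M : Type) [AddCommGroup M] [Module (Localization.AtPrime (HomogeneousIdeal.irrelevant 𝒜).toIdeal) M],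
        Module.Finite (Localization.AtPrime (HomogeneousIdeal.irrelevant 𝒜).toIdeal) M → Nontrivial M →
        ∀ rs : List (Localization.AtPrime (HomogeneousIdeal.irrelevant 𝒜).toIdeal), rs.length = 3 →
          (∀ r ∈ rs, r ∈ IsLocalRing.maximalIdeal (Localization.AtPrime (HomogeneousIdeal.irrelevant 𝒜).toIdeal)) →
          ¬ RingTheory.Sequence.IsRegular M rs := by
  let i1 := algC e D.toFil
  let i2 := grAlg e D.toFil
  have hirr := irrelevant_eq e D.toFil
  have hmax : (HomogeneousIdeal.irrelevant (gr e D.toFil)).toIdeal.IsMaximal := by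
    rw [hirr]
    exact D.toFil.isMaximal_irr
  have hprime : (HomogeneousIdeal.irrelevant (gr e D.toFil)).toIdeal.IsPrime := hmax.isPrime
  refine ⟨D.toFil.T, inferInstance, i1, gr e D.toFil, i2, hmax, finiteType e D.toFil D.filUV,
    inferInstance, hdim, bijective e D.toFil _ hirr, ?_, ?_⟩
  · exact @hloc (HomogeneousIdeal.irrelevant (gr e D.toFil)).toIdeal hprime
      (fun p => mem_irrelevant e D.toFil p)
  · exact @glueT _ _ _ _ _ D hno (HomogeneousIdeal.irrelevant (gr e D.toFil)).toIdeal hprime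
      (fun p => mem_irrelevant e D.toFil p)

end Crest.Agent.R169.Pack257
end
end

-- ▼ part R169/PackDim
section

/-!
# Row 169: Krull dimensions of `T`, `T_𝔪` and `R`
-/

set_option autoImplicit false

noncomputable section

namespace Crest.Agent.R169

open Polynomial

namespace PackDim

variable (k : Type) [Field k]

/-- the homogenisation map `k[x₀,x₁,x₂] → k[a,b][X]`, `x₀ ↦ X`, `x₁ ↦ aX`, `x₂ ↦ bX`. -/
def theta : MvPolynomial (Fin 3) k →ₐ[k] (MvPolynomial (Fin 2) k)[X] :=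
  MvPolynomial.aeval ![Polynomial.X, Polynomial.C (MvPolynomial.X 0) * Polynomial.X,
    Polynomial.C (MvPolynomial.X 1) * Polynomial.X]

/-- exponents of the dehomogenised monomial -/
def fs (s : Fin 3 →₀ ℕ) : Fin 2 →₀ ℕ := Finsupp.equivFunOnFinite.symm ![s 1, s 2]

@[simp] lemma fs_zero (s : Fin 3 →₀ ℕ) : fs s 0 = s 1 := rfl
@[simp] lemma fs_one (s : Fin 3 →₀ ℕ) : fs s 1 = s 2 := rfl

lemma theta_monomial (s : Fin 3 →₀ ℕ) (r : k) :
    theta k (MvPolynomial.monomial s r) =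
      Polynomial.monomial (s 0 + s 1 + s 2) (MvPolynomial.monomial (fs s) r) := by
  rw [theta, MvPolynomial.aeval_monomial, Finsupp.prod_fintype _ _ (fun i => pow_zero _),
    Fin.prod_univ_three]
  simp only [Matrix.cons_val_zero, Matrix.cons_val_one, Matrix.cons_val_two, Matrix.head_cons,
    Matrix.tail_cons]
  rw [MvPolynomial.monomial_eq, Finsupp.prod_fintype _ _ (fun i => pow_zero _), Fin.prod_univ_two,
    fs_zero, fs_one, ← Polynomial.C_mul_X_pow_eq_monomial]
  have : algebraMap k (MvPolynomial (Fin 2) k)[X] r = Polynomial.C (MvPolynomial.C r) := rfl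
  rw [this]
  simp only [map_mul, map_pow]
  ring

lemma coeff_theta (P : MvPolynomial (Fin 3) k) (s : Fin 3 →₀ ℕ) :
    MvPolynomial.coeff (fs s) ((theta k P).coeff (s 0 + s 1 + s 2)) = MvPolynomial.coeff s P := by
  classical
  induction P using MvPolynomial.induction_on' with
  | monomial t r =>
    rw [theta_monomial, Polynomial.coeff_monomial, MvPolynomial.coeff_monomial]
    by_cases h : t = s
    · subst h; simp
    · rw [if_neg h]
      split_ifs with h1
      · rw [MvPolynomial.coeff_monomial, if_neg]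
        intro h2
        apply h
        have e1 : t 1 = s 1 := by simpa using congrArg (fun f => f 0) h2
        have e2 : t 2 = s 2 := by simpa using congrArg (fun f => f 1) h2
        ext i
        fin_cases i
        · change t 0 = s 0
          omega
        · exact e1
        · exact e2
      · simp
  | add p q hp hq =>
    rw [map_add, Polynomial.coeff_add, MvPolynomial.coeff_add, MvPolynomial.coeff_add, hp, hq]

lemma theta_injective : Function.Injective (theta k) := by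
  rw [injective_iff_map_eq_zero]
  intro P hP
  ext s
  rw [← coeff_theta, hP]
  simp

/-- the prime `(x_0, …, x_{j-1})` of `k[x₀,x₁,x₂]` as the kernel of an endomorphism -/
def ev (j : ℕ) : MvPolynomial (Fin 3) k →ₐ[k] MvPolynomial (Fin 3) k :=
  MvPolynomial.aeval fun i : Fin 3 => if i.val < j then 0 else MvPolynomial.X i

/-- the prime ideal -/
def pr (j : ℕ) : Ideal (MvPolynomial (Fin 3) k) := RingHom.ker (ev k j)

instance (j : ℕ) : (pr k j).IsPrime := RingHom.ker_isPrime _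

lemma ev_X (j : ℕ) (i : Fin 3) :
    ev k j (MvPolynomial.X i) = if i.val < j then 0 else MvPolynomial.X i := by
  rw [ev, MvPolynomial.aeval_X]

lemma ev_comp (j : ℕ) : (ev k (j + 1)).comp (ev k j) = ev k (j + 1) := by
  apply MvPolynomial.algHom_ext
  intro i
  rw [AlgHom.comp_apply, ev_X]
  split_ifs with h
  · rw [map_zero, ev_X, if_pos (by omega)]
  · rfl

lemma pr_le (j : ℕ) : pr k j ≤ pr k (j + 1) := by
  intro x hx
  rw [pr, RingHom.mem_ker] at hx ⊢
  rw [← ev_comp, AlgHom.comp_apply, hx, map_zero]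

lemma X_mem_pr (j : ℕ) (i : Fin 3) : MvPolynomial.X i ∈ pr k j ↔ i.val < j := by
  rw [pr, RingHom.mem_ker, ev_X]
  split_ifs with h
  · simp [h]
  · simp [h, MvPolynomial.X_ne_zero]

lemma pr_zero : pr k 0 = ⊥ := by
  rw [pr, eq_bot_iff]
  intro x hx
  have : ev k 0 = AlgHom.id k _ := by
    apply MvPolynomial.algHom_ext
    intro i
    rw [ev_X, if_neg (by omega)]
    rfl
  rw [RingHom.mem_ker] at hx
  rw [this] at hx
  exact hx

lemma pr_ne (j : ℕ) (hj : j < 3) : pr k j ≠ pr k (j + 1) := by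
  intro h
  have h1 : MvPolynomial.X (⟨j, hj⟩ : Fin 3) ∈ pr k (j + 1) := (X_mem_pr k _ _).mpr (by simp)
  rw [← h, X_mem_pr] at h1
  simp at h1

end PackDim

open PackDim

variable {k Q : Type} [Field k] [Field Q] [Algebra k Q]

namespace Fil

variable {𝓕 : Fil k Q} {u v : Q}

/-- `k[x₀,x₁,x₂] → T` -/
def psi (h : FilUV 𝓕 u v) : MvPolynomial (Fin 3) k →ₐ[k] 𝓕.T :=
  MvPolynomial.aeval ![xT h, yT h, zT h]

@[simp] lemma psi_X0 (h : FilUV 𝓕 u v) : psi h (MvPolynomial.X 0) = xT h := by simp [psi]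
@[simp] lemma psi_X1 (h : FilUV 𝓕 u v) : psi h (MvPolynomial.X 1) = yT h := by simp [psi]
@[simp] lemma psi_X2 (h : FilUV 𝓕 u v) : psi h (MvPolynomial.X 2) = zT h := by simp [psi]

lemma coe_psi (h : FilUV 𝓕 u v) (P : MvPolynomial (Fin 3) k) :
    ((psi h P : 𝓕.T) : Q[X]) =
      Polynomial.map (MvPolynomial.aeval ![u, v] : MvPolynomial (Fin 2) k →ₐ[k] Q).toRingHom
        (theta k P) := by
  have : (𝓕.T.val).comp (psi h) =
      (Polynomial.mapAlgHom (MvPolynomial.aeval ![u, v] : MvPolynomial (Fin 2) k →ₐ[k] Q)).comp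
        (theta k) := by
    apply MvPolynomial.algHom_ext
    intro i
    fin_cases i
    · simp [psi, theta, xT, mono, Polynomial.X]
    · simp [psi, theta, yT, mono, Polynomial.C_mul_X_eq_monomial]
    · simp [psi, theta, zT, mono, Polynomial.C_mul_X_eq_monomial]
  exact DFunLike.congr_fun this P

lemma psi_injective (h : FilUV 𝓕 u v) : Function.Injective (psi h) := by
  intro P P' hPP
  have h1 := congrArg (fun t : 𝓕.T => (t : Q[X])) hPP
  simp only [coe_psi] at h1
  exact theta_injective k (Polynomial.map_injective _ h.indep h1)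

lemma range_psi (h : FilUV 𝓕 u v) : (psi h).range = A h := by
  rw [A, psi, ← Algebra.adjoin_range_eq_range_aeval]
  congr 1
  ext t
  simp only [Set.mem_range, Fin.exists_fin_succ, Set.mem_insert_iff, Set.mem_singleton_iff]
  simp [eq_comm]

set_option maxHeartbeats 400000 in
lemma psi_finite (h : FilUV 𝓕 u v) : (psi h).toRingHom.Finite := by
  letI : Algebra (MvPolynomial (Fin 3) k) 𝓕.T := (psi h).toRingHom.toAlgebra
  change Module.Finite (MvPolynomial (Fin 3) k) 𝓕.T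
  obtain ⟨S, hS⟩ := (finite_A h).fg_top
  refine ⟨⟨S, ?_⟩⟩
  rw [eq_top_iff]
  intro t _
  have ht : t ∈ Submodule.span (A h) (S : Set 𝓕.T) := by rw [hS]; trivial
  induction ht using Submodule.span_induction with
  | mem x hx => exact Submodule.subset_span hx
  | zero => exact Submodule.zero_mem _
  | add x y _ _ hx hy => exact Submodule.add_mem _ (hx trivial) (hy trivial)
  | smul a x _ hx =>
    obtain ⟨a, ha⟩ := a
    rw [← range_psi h] at ha
    obtain ⟨P, hP⟩ := ha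
    have : (P • x : 𝓕.T) = a * x := by
      rw [Algebra.smul_def]
      congr 1
    have h2 := Submodule.smul_mem (Submodule.span (MvPolynomial (Fin 3) k) (S : Set 𝓕.T)) P
      (hx trivial)
    rw [this] at h2
    exact h2

lemma mono_mem_of_le (h : FilUV 𝓕 u v) {P : Ideal 𝓕.T} (hx : xT h ∈ P) (hy : yT h ∈ P)
    (hz : zT h ∈ P) : ∃ c : ℕ, ∀ m (q : 𝓕.F m), c ≤ m → 𝓕.mono m q ∈ P := by
  obtain ⟨c, hc⟩ := h.gen
  refine ⟨c + 1, fun m q hm => ?_⟩
  obtain ⟨n, rfl⟩ : ∃ n, m = n + 1 := ⟨m - 1, by omega⟩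
  obtain ⟨a, ha, b, hb, d, hd, hq⟩ := hc n (by omega) q q.2
  have e : 𝓕.mono (n + 1) q = 𝓕.mono n ⟨a, ha⟩ * xT h +
      𝓕.mono n ⟨b, hb⟩ * yT h + 𝓕.mono n ⟨d, hd⟩ * zT h := by
    simp only [xT, yT, zT]
    rw [mono_mul_mono, mono_mul_mono, mono_mul_mono]
    apply Subtype.ext
    simp only [Subalgebra.coe_add, coe_mono, hq]
    rw [← map_add, ← map_add, mul_one, mul_comm u b, mul_comm v d]
  rw [e]
  exact P.add_mem (P.add_mem (P.mul_mem_left _ hx) (P.mul_mem_left _ hy)) (P.mul_mem_left _ hz)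

lemma irr_le_of_prime (h : FilUV 𝓕 u v) {P : Ideal 𝓕.T} [P.IsPrime] (hx : xT h ∈ P)
    (hy : yT h ∈ P) (hz : zT h ∈ P) : 𝓕.irr ≤ P := by
  obtain ⟨c, hc⟩ := mono_mem_of_le h hx hy hz
  intro p hp
  rw [𝓕.sum_mono p]
  refine Ideal.sum_mem _ fun m hm => ?_
  have hm0 : m ≠ 0 := by
    rintro rfl
    rw [Polynomial.mem_support_iff] at hm
    exact hm ((𝓕.mem_irr).mp hp)
  have hpow : ∀ n, ∃ q' : 𝓕.F (n * m), (𝓕.mono m ⟨(p : Q[X]).coeff m, p.2 m⟩) ^ n =
      𝓕.mono (n * m) q' := by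
    intro n
    refine ⟨⟨((p : Q[X]).coeff m) ^ n, 𝓕.pow_mem (p.2 m) n⟩, ?_⟩
    apply Subtype.ext
    rw [SubmonoidClass.coe_pow, coe_mono, coe_mono, Polynomial.monomial_pow, mul_comm]
  obtain ⟨q', hq'⟩ := hpow c
  refine Ideal.IsPrime.mem_of_pow_mem ‹P.IsPrime› c ?_
  rw [hq']
  exact hc _ _ (Nat.le_mul_of_pos_right c (Nat.pos_of_ne_zero hm0))


theorem three_le_height_irr (h : FilUV 𝓕 u v) : 3 ≤ (𝓕.irr).height := by
  letI : Algebra (MvPolynomial (Fin 3) k) 𝓕.T := (psi h).toRingHom.toAlgebra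
  haveI : Module.Finite (MvPolynomial (Fin 3) k) 𝓕.T := psi_finite h
  haveI : Algebra.IsIntegral (MvPolynomial (Fin 3) k) 𝓕.T := inferInstance
  have hmap : ∀ P, algebraMap (MvPolynomial (Fin 3) k) 𝓕.T P = psi h P := fun _ => rfl
  -- going up
  have step : ∀ (j : ℕ), j < 3 → ∀ I : Ideal 𝓕.T, I.IsPrime →
      I.comap (algebraMap (MvPolynomial (Fin 3) k) 𝓕.T) = pr k j →
      ∃ J : Ideal 𝓕.T, J.IsPrime ∧ I < J ∧
        J.comap (algebraMap (MvPolynomial (Fin 3) k) 𝓕.T) = pr k (j + 1) := by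
    intro j hj I hI hc
    obtain ⟨J, hIJ, hJ, hJc⟩ := Ideal.exists_ideal_over_prime_of_isIntegral (pr k (j + 1)) I
      (by rw [hc]; exact pr_le k j)
    refine ⟨J, hJ, lt_of_le_of_ne hIJ ?_, hJc⟩
    rintro rfl
    exact pr_ne k j hj (hc.symm.trans hJc)
  have h0 : (⊥ : Ideal 𝓕.T).comap (algebraMap (MvPolynomial (Fin 3) k) 𝓕.T) = pr k 0 := by
    rw [pr_zero, ← RingHom.ker_eq_comap_bot]
    exact (RingHom.injective_iff_ker_eq_bot _).mp (psi_injective h)
  obtain ⟨P1, hP1, hl1, hc1⟩ := step 0 (by norm_num) ⊥ Ideal.isPrime_bot h0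
  obtain ⟨P2, hP2, hl2, hc2⟩ := step 1 (by norm_num) P1 hP1 hc1
  obtain ⟨P3, hP3, hl3, hc3⟩ := step 2 (by norm_num) P2 hP2 hc2
  have hmem : ∀ i : Fin 3, psi h (MvPolynomial.X i) ∈ P3 := by
    intro i
    have : MvPolynomial.X i ∈ pr k 3 := (X_mem_pr k 3 i).mpr i.2
    rw [← hc3] at this
    exact this
  have hle : 𝓕.irr ≤ P3 := irr_le_of_prime h (by simpa using hmem 0) (by simpa using hmem 1)
    (by simpa using hmem 2)
  have heq : 𝓕.irr = P3 := (inferInstance : 𝓕.irr.IsMaximal).eq_of_le hP3.ne_top hle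
  rw [heq]
  have a1 := Ideal.height_add_one_le_of_lt_of_isPrime (I := (⊥ : Ideal 𝓕.T)) hl1
  have a2 := Ideal.height_add_one_le_of_lt_of_isPrime hl2
  have a3 := Ideal.height_add_one_le_of_lt_of_isPrime hl3
  rw [Ideal.height_bot] at a1
  calc (3 : ℕ∞) = 0 + 1 + 1 + 1 := by norm_num
    _ ≤ P1.height + 1 + 1 := by gcongr
    _ ≤ P2.height + 1 := by gcongr
    _ ≤ P3.height := a3

theorem ringKrullDim_T_le (h : FilUV 𝓕 u v) : ringKrullDim 𝓕.T ≤ 3 := by
  letI : Algebra (MvPolynomial (Fin 3) k) 𝓕.T := (psi h).toRingHom.toAlgebra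
  haveI : Module.Finite (MvPolynomial (Fin 3) k) 𝓕.T := psi_finite h
  haveI : Algebra.IsIntegral (MvPolynomial (Fin 3) k) 𝓕.T := inferInstance
  have h3 : ringKrullDim (MvPolynomial (Fin 3) k) = 3 := by
    rw [MvPolynomial.ringKrullDim_of_isNoetherianRing, ringKrullDim_eq_zero_of_field]
    simp
  rw [← h3]
  refine Order.krullDim_le_of_strictMono
    (fun P : PrimeSpectrum 𝓕.T => PrimeSpectrum.comap
      (algebraMap (MvPolynomial (Fin 3) k) 𝓕.T) P) ?_
  intro P P' hPP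
  haveI := P.2
  exact Ideal.IsIntegral.comap_lt_comap (R := MvPolynomial (Fin 3) k) (I := P.asIdeal)
    (J := P'.asIdeal) hPP

theorem height_irr (h : FilUV 𝓕 u v) : (𝓕.irr).height = 3 := by
  apply le_antisymm _ (three_le_height_irr h)
  have h1 : (((𝓕.irr).height : ℕ∞) : WithBot ℕ∞) ≤ ((3 : ℕ∞) : WithBot ℕ∞) :=
    Ideal.height_le_ringKrullDim_of_isPrime.trans (ringKrullDim_T_le h)
  exact WithBot.coe_le_coe.mp h1

theorem ringKrullDim_T (h : FilUV 𝓕 u v) : ringKrullDim 𝓕.T = 3 := by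
  apply le_antisymm (ringKrullDim_T_le h)
  have h1 : (((𝓕.irr).height : ℕ∞) : WithBot ℕ∞) ≤ ringKrullDim 𝓕.T :=
    Ideal.height_le_ringKrullDim_of_isPrime
  rw [height_irr h] at h1
  exact h1

theorem ringKrullDim_localization (h : FilUV 𝓕 u v) :
    ringKrullDim (Localization.AtPrime 𝓕.irr) = 3 := by
  rw [IsLocalization.AtPrime.ringKrullDim_eq_height 𝓕.irr (Localization.AtPrime 𝓕.irr),
    height_irr h]
  rfl

end Fil

end Crest.Agent.R169
end
end

-- ▼ part R169/PackDimD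
section

/-!
# Row 169: Krull dimensions for `TData`
-/

set_option autoImplicit false

noncomputable section

namespace Crest.Agent.R169.PackDimD

open Polynomial Crest.Agent.R169

variable {k Q : Type} [Field k] [Field Q] [Algebra k Q]

theorem ringKrullDim_Ttot (D : TData k Q) : ringKrullDim D.Ttot = 3 :=
  Fil.ringKrullDim_T (TData.filUV D)

theorem ringKrullDim_loc (D : TData k Q) (I : Ideal D.Ttot) [I.IsPrime]
    (hI : ∀ p : D.Ttot, p ∈ I ↔ (p : Q[X]).coeff 0 = 0) :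
    ringKrullDim (Localization.AtPrime I) = 3 := by
  have e : I = D.toFil.irr := by
    ext p
    rw [hI p]
    exact (D.toFil.mem_irr).symm
  subst e
  exact Fil.ringKrullDim_localization (TData.filUV D)

end Crest.Agent.R169.PackDimD
end
end

-- ▼ part R169/PackFinal

/-!
Row 169, module `PackFinal`: `pack256` and `pack257` exactly in the form of `Skeleton.lean`.
-/

set_option autoImplicit false

noncomputable section

namespace Crest.Agent.R169.PackFinal

variable {k Q : Type} [Field k] [Field Q] [Algebra k Q]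

theorem pack256 (e : ℂ ≃+* k) (D : TData k Q) (hN : FilNormal D.toFil) (hno : NoMCM D) :
    ∃ (R : Type) (_ : CommRing R) (_ : IsLocalRing R) (_ : Algebra ℂ R),
      IsDomain R ∧ IsNoetherianRing R ∧ IsIntegrallyClosed R ∧
      IsAdicComplete (IsLocalRing.maximalIdeal R) R ∧ ringKrullDim R = 3 ∧
      Function.Bijective (algebraMap ℂ (IsLocalRing.ResidueField R)) ∧
      ∀ (M : Type) [AddCommGroup M] [Module R M], Module.Finite R M → Nontrivial M →
        ∀ rs : List R, rs.length = 3 → (∀ r ∈ rs, r ∈ IsLocalRing.maximalIdeal R) →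
          ¬ RingTheory.Sequence.IsRegular M rs :=
  Pack256.pack256_of e D hN (glueR D hno)

theorem pack257 (e : ℂ ≃+* k) (D : TData k Q) (hno : NoMCM D) :
    ∃ (T : Type) (_ : CommRing T) (_ : Algebra ℂ T) (𝒜 : ℕ → Submodule ℂ T) (_ : GradedAlgebra 𝒜)
      (_ : (HomogeneousIdeal.irrelevant 𝒜).toIdeal.IsMaximal),
      Algebra.FiniteType ℂ T ∧ IsDomain T ∧ ringKrullDim T = 3 ∧
      Function.Bijective (algebraMap ℂ (T ⧸ (HomogeneousIdeal.irrelevant 𝒜).toIdeal)) ∧
      ringKrullDim (Localization.AtPrime (HomogeneousIdeal.irrelevant 𝒜).toIdeal) = 3 ∧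
      ∀ (M : Type) [AddCommGroup M] [Module (Localization.AtPrime (HomogeneousIdeal.irrelevant 𝒜).toIdeal) M],
        Module.Finite (Localization.AtPrime (HomogeneousIdeal.irrelevant 𝒜).toIdeal) M → Nontrivial M →
        ∀ rs : List (Localization.AtPrime (HomogeneousIdeal.irrelevant 𝒜).toIdeal), rs.length = 3 →
          (∀ r ∈ rs, r ∈ IsLocalRing.maximalIdeal (Localization.AtPrime (HomogeneousIdeal.irrelevant 𝒜).toIdeal)) →
          ¬ RingTheory.Sequence.IsRegular M rs :=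
  Pack257.pack257_of e D hno (PackDimD.ringKrullDim_Ttot D)
    (fun I _ hI => PackDimD.ringKrullDim_loc D I hI)

end Crest.Agent.R169.PackFinal
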