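import Crest.Agent.R169.Frob
import Crest.Agent.R169.PlaceBasic
import Crest.Agent.R169.C.Frob
import Crest.Agent.R169.TBasic
import Crest.Agent.R169.Flag1
import Crest.Agent.R169.ColenFinal
import Crest.Agent.R169.Hilb
import Crest.Agent.R169.Bridge

-- ▼ part R169/DNum
section

/-!
# Row 169, PART D: numerics of the shape of `G` and of its Frobenius pull-back (owner helper862)
-/

set_option autoImplicit false
set_option maxHeartbeats 400000

namespace Crest.Agent.R169.DNum

open Module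

variable {k Q : Type} [Field k] [Field Q] [Algebra k Q]

/-- sum of the elements of a multiset of integers, in `ℚ` -/
def s1 (X : Multiset ℤ) : ℚ := (X.map (fun x : ℤ => (x : ℚ))).sum

/-- sum of the squares -/
def s2 (X : Multiset ℤ) : ℚ := (X.map (fun x : ℤ => (x : ℚ) ^ 2)).sum

theorem msum_hp {D : TData k Q} {N : ℕ} {bT cT : ℚ} (hT : HasHP D.F N bT cT) (X : Multiset ℤ) :
    ∃ m₀ : ℤ, ∀ m ≥ m₀, (((X.map fun x => finrank k (D.F (m + x))).sum : ℕ) : ℚ) =
      (X.card * N / 2) * (m : ℚ) ^ 2 + (N * s1 X + X.card * bT) * m +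
        (N / 2 * s2 X + bT * s1 X + X.card * cT) := by
  induction X using Multiset.induction_on with
  | empty =>
    refine ⟨0, fun m _ => ?_⟩
    simp [s1, s2]
  | cons a X ih =>
    obtain ⟨m₀, h0⟩ := ih
    obtain ⟨m₁, h1⟩ := hT
    refine ⟨max m₀ (m₁ - a), fun m hm => ?_⟩
    have h2 := h0 m (le_trans (le_max_left _ _) hm)
    have h3 := h1 (m + a) (by have := le_trans (le_max_right _ _) hm; omega)
    rw [Multiset.map_cons, Multiset.sum_cons, Nat.cast_add, h2, h3]
    simp only [s1, s2, Multiset.map_cons, Multiset.sum_cons, Multiset.card_cons]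
    push_cast
    ring

/-- dilation of a multiset of shifts -/
theorem s1_smul (p : ℤ) (X : Multiset ℤ) : s1 (X.map fun x => p * x) = p * s1 X := by
  unfold s1
  rw [Multiset.map_map, ← Multiset.sum_map_mul_left]
  congr 1
  apply Multiset.map_congr rfl
  intro x _
  simp

theorem s2_smul (p : ℤ) (X : Multiset ℤ) : s2 (X.map fun x => p * x) = (p : ℚ) ^ 2 * s2 X := by
  unfold s2
  rw [Multiset.map_map, ← Multiset.sum_map_mul_left]
  congr 1
  apply Multiset.map_congr rfl
  intro x _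
  simp [mul_pow]

/-- Common shape of a lattice and of its Frobenius pull-back. -/
def Shape (D : TData k Q) (p : ℕ) {R : ℕ} (G W : ℤ → Submodule k (Fin R → Q)) : Prop :=
  ∃ (M : ℕ) (X : Multiset ℤ) (e e' : ℕ) (m₀ : ℤ), 0 < M ∧ X.card = M * R ∧ e' ≤ p ^ 2 * e ∧
    ∀ m ≥ m₀, M * finrank k (G m) + e = (X.map fun x => finrank k (D.F (m + x))).sum ∧
      M * finrank k (W m) + e' = (X.map fun x => finrank k (D.F (m + p * x))).sum

theorem whole_of_shape {D : TData k Q} {p N : ℕ} {bT cT : ℚ} (hT : HilbT D N bT cT) {R : ℕ}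
    (hR : 0 < R) {G W : ℤ → Submodule k (Fin R → Q)} (h : Shape D p G W) :
    ∃ b c b' c' : ℚ, HasHP G (N * R) b c ∧ HasHP W (N * R) b' c' ∧
      b' = R * bT + p * (b - R * bT) ∧
      (p : ℚ) ^ 2 * (Jinv (N * R) b c - R * Jinv N bT cT) + R * Jinv N bT cT
        ≤ Jinv (N * R) b' c' := by
  obtain ⟨M, X, e, e', m₀, hM, hX, he, hd⟩ := h
  obtain ⟨m₁, h1⟩ := msum_hp hT.hp X
  obtain ⟨m₂, h2⟩ := msum_hp hT.hp (X.map fun x => (p : ℤ) * x)
  have hMQ : (0 : ℚ) < M := by exact_mod_cast hM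
  have hRQ : (0 : ℚ) < R := by exact_mod_cast hR
  have hNQ : (0 : ℚ) < N := by exact_mod_cast hT.pos
  have hXQ : (X.card : ℚ) = M * R := by rw [hX]; push_cast; ring
  refine ⟨(N * s1 X + M * R * bT) / M, (N / 2 * s2 X + bT * s1 X + M * R * cT - e) / M,
    (N * (p * s1 X) + M * R * bT) / M,
    (N / 2 * ((p : ℚ) ^ 2 * s2 X) + bT * (p * s1 X) + M * R * cT - e') / M, ?_, ?_, ?_, ?_⟩
  · refine ⟨max m₀ m₁, fun m hm => ?_⟩
    have h3 := (hd m (le_trans (le_max_left _ _) hm)).1
    have h4 := h1 m (le_trans (le_max_right _ _) hm)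
    rw [← h3, hXQ] at h4
    push_cast at h4 ⊢
    field_simp
    linear_combination 2 * h4
  · refine ⟨max m₀ m₂, fun m hm => ?_⟩
    have h3 := (hd m (le_trans (le_max_left _ _) hm)).2
    have h4 := h2 m (le_trans (le_max_right _ _) hm)
    rw [Multiset.map_map] at h4
    have h5 : ((X.map ((fun x => finrank k (D.F (m + x))) ∘ fun x => (p : ℤ) * x)).sum) =
        M * finrank k (W m) + e' := by
      rw [h3]; rfl
    rw [h5, Multiset.card_map, hXQ, s1_smul, s2_smul] at h4
    push_cast at h4 ⊢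
    field_simp
    linear_combination 2 * h4
  · field_simp
    ring
  · have heQ : (e' : ℚ) ≤ (p : ℚ) ^ 2 * e := by exact_mod_cast he
    have key : Jinv (N * R) ((N * (p * s1 X) + M * R * bT) / M)
        ((N / 2 * ((p : ℚ) ^ 2 * s2 X) + bT * (p * s1 X) + M * R * cT - e') / M) -
        ((p : ℚ) ^ 2 * (Jinv (N * R) ((N * s1 X + M * R * bT) / M)
          ((N / 2 * s2 X + bT * s1 X + M * R * cT - e) / M) - R * Jinv N bT cT) +
          R * Jinv N bT cT) = ((p : ℚ) ^ 2 * e - e') / M := by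
      unfold Jinv
      push_cast
      field_simp
      ring
    have h6 : 0 ≤ ((p : ℚ) ^ 2 * e - e') / M := div_nonneg (by linarith) hMQ.le
    linarith

end Crest.Agent.R169.DNum
end

-- ▼ part R169/DShape
section

/-!
# Row 169, PART D: the shape of a `T`-lattice and its Frobenius pull-back (owner helper862)
-/

set_option autoImplicit false
set_option maxHeartbeats 400000

namespace Crest.Agent.R169.DShape

open Module

section Elem

theorem quad_bdd {α β γ C : ℚ} {m₀ : ℤ}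
    (h : ∀ m : ℤ, m ≥ m₀ → |α * (m : ℚ) ^ 2 + β * m + γ| ≤ C) : α = 0 ∧ β = 0 := by
  have hB : ∀ m : ℤ, m ≥ max m₀ 1 → |2 * α * (m : ℚ) ^ 2| ≤ 3 * C + |γ| := by
    intro m hm
    have hm0 : m ≥ m₀ := le_trans (le_max_left _ _) hm
    have hm1 : (1 : ℤ) ≤ m := le_trans (le_max_right _ _) hm
    have h1 := h m hm0
    have h2 := h (2 * m) (by omega)
    have e : 2 * α * (m : ℚ) ^ 2 = (α * ((2 * m : ℤ) : ℚ) ^ 2 + β * ((2 * m : ℤ) : ℚ) + γ) -
        2 * (α * (m : ℚ) ^ 2 + β * m + γ) + γ := by push_cast; ring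
    rw [e]
    have h3 := abs_add_le ((α * ((2 * m : ℤ) : ℚ) ^ 2 + β * ((2 * m : ℤ) : ℚ) + γ) -
        2 * (α * (m : ℚ) ^ 2 + β * m + γ)) γ
    have h4 := abs_sub (α * ((2 * m : ℤ) : ℚ) ^ 2 + β * ((2 * m : ℤ) : ℚ) + γ)
      (2 * (α * (m : ℚ) ^ 2 + β * m + γ))
    have h5 : |2 * (α * (m : ℚ) ^ 2 + β * m + γ)| ≤ 2 * C := by
      rw [abs_mul, abs_two]; linarith
    linarith
  have hα : α = 0 := by
    by_contra hne
    have hpos : 0 < |2 * α| := abs_pos.mpr (by positivity)
    obtain ⟨n, hn⟩ := exists_nat_gt ((3 * C + |γ|) / |2 * α|)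
    set m : ℤ := max (max m₀ 1) n with hm
    have h1 := hB m (le_max_left _ _)
    have h2 : (n : ℚ) ≤ m := by
      have : (n : ℤ) ≤ m := le_max_right _ _
      exact_mod_cast this
    have h3 : (1 : ℚ) ≤ m := by
      have : (1 : ℤ) ≤ m := le_trans (le_max_right _ _) (le_max_left _ _)
      exact_mod_cast this
    rw [abs_mul, abs_of_nonneg (by positivity : (0 : ℚ) ≤ (m : ℚ) ^ 2)] at h1
    rw [div_lt_iff₀ hpos] at hn
    have h4 : (m : ℚ) ≤ (m : ℚ) ^ 2 := by nlinarith
    have h5 : |2 * α| * n ≤ |2 * α| * (m : ℚ) ^ 2 :=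
      mul_le_mul_of_nonneg_left (h2.trans h4) hpos.le
    linarith
  refine ⟨hα, ?_⟩
  by_contra hne
  have hpos : 0 < |β| := abs_pos.mpr hne
  obtain ⟨n, hn⟩ := exists_nat_gt ((C + |γ|) / |β|)
  set m : ℤ := max (max m₀ 1) n with hm
  have h1 := h m (le_trans (le_max_left _ _) (le_max_left _ _))
  have h2 : (n : ℚ) ≤ m := by
    have : (n : ℤ) ≤ m := le_max_right _ _
    exact_mod_cast this
  rw [div_lt_iff₀ hpos] at hn
  have h3 : |β * m| ≤ C + |γ| := by
    have e : β * m = (α * (m : ℚ) ^ 2 + β * m + γ) - γ := by rw [hα]; ring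
    rw [e]
    exact (abs_sub _ _).trans (by linarith)
  rw [abs_mul] at h3
  have h4 : |β| * n ≤ |β| * |(m : ℚ)| :=
    mul_le_mul_of_nonneg_left (h2.trans (le_abs_self _)) hpos.le
  linarith

/-- two quadratic functions with bounded nonnegative difference differ by a constant -/
theorem eventually_const {f g : ℤ → ℕ} {a b c a' b' c' : ℚ} {C : ℕ} {m₀ : ℤ}
    (hf : ∀ m ≥ m₀, (f m : ℚ) = a * (m : ℚ) ^ 2 + b * m + c)
    (hg : ∀ m ≥ m₀, (g m : ℚ) = a' * (m : ℚ) ^ 2 + b' * m + c')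
    (hle : ∀ m ≥ m₀, g m ≤ f m) (hC : ∀ m ≥ m₀, f m ≤ g m + C) :
    ∃ e : ℕ, e ≤ C ∧ ∀ m ≥ m₀, f m = g m + e := by
  have h1 : ∀ m : ℤ, m ≥ m₀ → |(a - a') * (m : ℚ) ^ 2 + (b - b') * m + (c - c')| ≤ C := by
    intro m hm
    have e : (a - a') * (m : ℚ) ^ 2 + (b - b') * m + (c - c') = (f m : ℚ) - g m := by
      rw [hf m hm, hg m hm]; ring
    rw [e]
    have h2 : (g m : ℚ) ≤ f m := by exact_mod_cast hle m hm
    have h3 : (f m : ℚ) ≤ g m + C := by exact_mod_cast hC m hm
    rw [abs_of_nonneg (by linarith)]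
    linarith
  obtain ⟨h2, h3⟩ := quad_bdd h1
  have h4 : ∀ m ≥ m₀, (f m : ℚ) - g m = c - c' := by
    intro m hm
    rw [hf m hm, hg m hm]
    have e1 : a = a' := by linarith
    have e2 : b = b' := by linarith
    rw [e1, e2]; ring
  refine ⟨f m₀ - g m₀, ?_, fun m hm => ?_⟩
  · have := hC m₀ le_rfl
    omega
  · have h5 : (f m : ℚ) - g m = f m₀ - g m₀ := by rw [h4 m hm, h4 m₀ le_rfl]
    have h6 := hle m₀ le_rfl
    have h7 : ((f m + g m₀ : ℕ) : ℚ) = ((f m₀ + g m : ℕ) : ℚ) := by push_cast; linarith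
    have h8 : f m + g m₀ = f m₀ + g m := by exact_mod_cast h7
    omega

end Elem

section Twist

variable {k Q : Type} [Field k] [Field Q] [Algebra k Q] {D : TData k Q}

/-- `(f⁻¹ J)(κ)` -/
def tw (f : Q) (κ : ℤ) (J : ℤ → Submodule k Q) : ℤ → Submodule k Q :=
  fun m => (J (m + κ)).map (LinearMap.mulLeft k f⁻¹)


theorem finrank_tw {f : Q} (hf : f ≠ 0) (κ : ℤ) (J : ℤ → Submodule k Q) (m : ℤ) :
    finrank k (tw f κ J m) = finrank k (J (m + κ)) := by
  have h : Function.Injective (LinearMap.mulLeft k f⁻¹) := by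
    intro x y hxy
    have : f⁻¹ * x = f⁻¹ * y := hxy
    exact mul_left_cancel₀ (inv_ne_zero hf) this
  exact (LinearEquiv.finrank_eq (Submodule.equivMapOfInjective _ h (J (m + κ)))).symm

theorem isTLat_tw {f : Q} (hf : f ≠ 0) (κ : ℤ) {J : ℤ → Submodule k Q} (hJ : IsTLat D J) :
    IsTLat D (tw f κ J) where
  lat :=
    { mono := fun m => by
        apply Submodule.map_mono
        have := hJ.lat.mono (m + κ)
        have e : m + κ + 1 = m + 1 + κ := by ring
        rwa [e] at this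
      umul := by
        rintro m _ ⟨e, he, rfl⟩
        have := hJ.lat.umul (m + κ) e he
        have e1 : m + κ + 1 = m + 1 + κ := by ring
        rw [e1] at this
        refine ⟨D.u • e, this, ?_⟩
        simp only [LinearMap.mulLeft_apply, smul_eq_mul]; ring
      vmul := by
        rintro m _ ⟨e, he, rfl⟩
        have := hJ.lat.vmul (m + κ) e he
        have e1 : m + κ + 1 = m + 1 + κ := by ring
        rw [e1] at this
        refine ⟨D.v • e, this, ?_⟩
        simp only [LinearMap.mulLeft_apply, smul_eq_mul]; ring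
      fin := fun m => by
        have := hJ.lat.fin (m + κ)
        exact (Module.Finite.iff_fg.2 ((Module.Finite.iff_fg.1 this).map _))
      bot := by
        obtain ⟨m₀, h⟩ := hJ.lat.bot
        refine ⟨m₀ - κ, fun m hm => ?_⟩
        unfold tw
        rw [h (m + κ) (by omega), Submodule.map_bot]
      gen := by
        obtain ⟨m₁, h⟩ := hJ.lat.gen
        refine ⟨m₁ - κ, fun m hm => ?_⟩
        rintro _ ⟨e, he, rfl⟩
        have e1 : m + 1 + κ = m + κ + 1 := by ring
        rw [e1] at he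
        obtain ⟨a, ha, b, hb, c, hc, rfl⟩ := h (m + κ) (by omega) e he
        refine ⟨_, ⟨a, ha, rfl⟩, _, ⟨b, hb, rfl⟩, _, ⟨c, hc, rfl⟩, ?_⟩
        simp only [LinearMap.mulLeft_apply, smul_eq_mul]; ring }
  act := by
    rintro i j g hg _ ⟨x, hx, rfl⟩
    have := hJ.act i (j + κ) g hg x hx
    have e : i + (j + κ) = i + j + κ := by ring
    rw [e] at this
    refine ⟨g • x, this, ?_⟩
    simp only [LinearMap.mulLeft_apply, smul_eq_mul]; ring
  full := by
    rw [eq_top_iff]
    have hne : ∃ m, ∃ x ∈ J m, x ≠ 0 := by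
      by_contra hcon
      push Not at hcon
      have : spanK Q J = ⊥ := by
        unfold spanK
        rw [Submodule.span_eq_bot]
        intro x hx
        obtain ⟨m, hm⟩ := Set.mem_iUnion.1 hx
        exact hcon m x hm
      rw [hJ.full] at this
      exact absurd this top_ne_bot
    obtain ⟨m, x, hx, x0⟩ := hne
    have h1 : f⁻¹ * x ∈ spanK Q (tw f κ J) := by
      apply Submodule.subset_span
      rw [Set.mem_iUnion]
      refine ⟨m - κ, x, ?_, rfl⟩
      have e : m - κ + κ = m := by ring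
      show x ∈ J (m - κ + κ)
      rw [e]; exact hx
    intro y _
    have h2 : y = (y * (f⁻¹ * x)⁻¹) • (f⁻¹ * x) := by
      rw [smul_eq_mul, mul_assoc, inv_mul_cancel₀ (mul_ne_zero (inv_ne_zero hf) x0), mul_one]
    rw [h2]
    exact Submodule.smul_mem _ _ h1

/-- Frobenius pull-back of a twist -/
theorem frob1_tw (p : ℕ) {f : Q} (hf : f ≠ 0) (κ : ℤ) (J : ℤ → Submodule k Q) (m : ℤ) :
    frob1 D p (tw f κ J) m = tw (f ^ p) (p * κ) (frob1 D p J) m := by
  apply le_antisymm
  · apply Submodule.span_le.mpr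
    rintro w ⟨j, g, hg, _, ⟨x, hx, rfl⟩, rfl⟩
    refine ⟨g * x ^ p, Submodule.subset_span ⟨j + κ, g, ?_, x, hx, rfl⟩, ?_⟩
    · have e : m + p * κ - p * (j + κ) = m - p * j := by ring
      rw [e]; exact hg
    · simp only [LinearMap.mulLeft_apply]
      rw [mul_pow, inv_pow]; ring
  · unfold tw
    rw [Submodule.map_le_iff_le_comap]
    apply Submodule.span_le.mpr
    rintro w ⟨j, g, hg, x, hx, rfl⟩
    apply Submodule.subset_span
    refine ⟨j - κ, g, ?_, f⁻¹ * x, ⟨x, ?_, rfl⟩, ?_⟩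
    · have e : m - p * (j - κ) = m + p * κ - p * j := by ring
      rw [e]; exact hg
    · have e : j - κ + κ = j := by ring
      show x ∈ J (j - κ + κ)
      rw [e]; exact hx
    · simp only [LinearMap.mulLeft_apply]
      rw [mul_pow, inv_pow]; ring

theorem frob1_le {p : ℕ} {I : ℤ → Submodule k Q} (h : ∀ m, I m ≤ D.F m) (m : ℤ) :
    frob1 D p I m ≤ D.F m := by
  apply Submodule.span_le.mpr
  rintro w ⟨j, g, hg, x, hx, rfl⟩
  have h1 : x ^ p ∈ D.F (p * j) := by
    have h0 := h j hx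
    have : ∀ n : ℕ, x ^ n ∈ D.F (n * j) := by
      intro n
      induction n with
      | zero => simp [D.F_zero, Submodule.mem_span_singleton_self]
      | succ n ih =>
        have h2 := D.mul_mem _ _ _ ih _ h0
        rw [pow_succ]
        have e : ((n + 1 : ℕ) : ℤ) * j = n * j + j := by push_cast; ring
        rwa [e]
    exact this p
  have h2 := D.mul_mem _ _ _ hg _ h1
  have e : m - p * j + p * j = m := by ring
  rwa [e] at h2

end Twist

section Ord

variable {k Q ι : Type} [Field k] [Field Q] [Algebra k Q] {D : TData k Q}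

theorem isLeast_tw (S : Places D ι) (P : ι) {f : Q} (hf : f ≠ 0) (κ : ℤ)
    {J : ℤ → Submodule k Q} {n : ℤ} (h : IsLeast (ordSet S P J) n) :
    IsLeast (ordSet S P (tw f κ J)) (n - (S.pl P).ord f - S.c P * κ) := by
  have hinv := (S.pl P).ord_inv f hf
  constructor
  · obtain ⟨m, g, hg, g0, hn⟩ := h.1
    refine ⟨m - κ, f⁻¹ * g, ⟨g, ?_, rfl⟩, mul_ne_zero (inv_ne_zero hf) g0, ?_⟩
    · have e : m - κ + κ = m := by ring
      show g ∈ J (m - κ + κ)
      rw [e]; exact hg
    · rw [(S.pl P).ord_mul _ _ (inv_ne_zero hf) g0, hinv, hn]; ring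
  · rintro x ⟨m, _, ⟨g, hg, rfl⟩, g0, rfl⟩
    have g0' : g ≠ 0 := by
      rintro rfl
      exact g0 (by simp)
    have h1 := h.2 ⟨m + κ, g, hg, g0', rfl⟩
    have h2 : (S.pl P).ord ((LinearMap.mulLeft k f⁻¹) g) = -(S.pl P).ord f + (S.pl P).ord g := by
      show (S.pl P).ord (f⁻¹ * g) = _
      rw [(S.pl P).ord_mul _ _ (inv_ne_zero hf) g0', hinv]
    rw [h2]
    linarith

theorem le_F_of_isLeast (S : Places D ι) {I : ℤ → Submodule k Q}
    (h : ∀ P, IsLeast (ordSet S P I) 0) (m : ℤ) : I m ≤ D.F m := by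
  intro g hg
  rw [S.memF]
  by_cases g0 : g = 0
  · exact Or.inl g0
  · right
    intro P
    have := (h P).2 ⟨m, g, hg, g0, rfl⟩
    linarith

theorem ordL_eq (S : Places D ι) {P : ι} {I : ℤ → Submodule k Q} {n : ℤ}
    (h : IsLeast (ordSet S P I) n) : ordL S P I = n := h.csInf_eq

end Ord

end Crest.Agent.R169.DShape
end

-- ▼ part R169/D1
section

/-!
# Row 169, part D1: coprime homogeneous elements, bounded colength (helper566)

`boundedColength`: a graded ideal `I` of `T` contained in no place has bounded colength.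
-/

set_option autoImplicit false

namespace Crest.Agent.R169.D1

open Module

section Basic

variable {k Q : Type} [Field k] [Field Q] [Algebra k Q] {D : TData k Q} {ι : Type}

theorem ord_div (v : Place Q) {a b : Q} (ha : a ≠ 0) (hb : b ≠ 0) :
    v.ord (a / b) = v.ord a - v.ord b := by
  rw [div_eq_mul_inv, v.ord_mul a b⁻¹ ha (inv_ne_zero hb), v.ord_inv b hb]; ring

theorem ord_smul (S : Places D ι) (P : ι) {r : k} (hr : r ≠ 0) {f : Q} (hf : f ≠ 0) :
    (S.pl P).ord (r • f) = (S.pl P).ord f := by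
  have h1 : algebraMap k Q r ≠ 0 := by simpa using hr
  rw [Algebra.smul_def, (S.pl P).ord_mul _ _ h1 hf, S.ord_algebraMap P r hr, zero_add]

theorem ord_ge (S : Places D ι) (P : ι) {m : ℤ} {f : Q} (hf : f ∈ D.F m) (h0 : f ≠ 0) :
    -(S.c P) * m ≤ (S.pl P).ord f := by
  rcases (S.memF m f).1 hf with h | h
  · exact absurd h h0
  · exact h P

/-- the elements of `E` of order `> -c m` at `P`, as a `k`-subspace -/
def deep (S : Places D ι) (P : ι) (m : ℤ) (E : Submodule k Q) : Submodule k E where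
  carrier := {g | (g : Q) = 0 ∨ -(S.c P) * m < (S.pl P).ord (g : Q)}
  zero_mem' := Or.inl rfl
  add_mem' := by
    rintro ⟨a, ha'⟩ ⟨b, hb'⟩ ha hb
    change a = 0 ∨ _ at ha
    change b = 0 ∨ _ at hb
    change a + b = 0 ∨ -(S.c P) * m < (S.pl P).ord (a + b)
    by_cases h : a + b = 0
    · exact Or.inl h
    right
    by_cases ha0 : a = 0
    · subst ha0
      rw [zero_add] at h ⊢
      rcases hb with hb | hb
      · exact absurd hb h
      · exact hb
    by_cases hb0 : b = 0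
    · subst hb0
      rw [add_zero] at h ⊢
      rcases ha with ha | ha
      · exact absurd ha h
      · exact ha
    have ha1 := ha.resolve_left ha0
    have hb1 := hb.resolve_left hb0
    exact lt_of_lt_of_le (lt_min ha1 hb1) ((S.pl P).ord_add a b ha0 hb0 h)
  smul_mem' := by
    rintro r ⟨a, ha'⟩ ha
    change a = 0 ∨ _ at ha
    change r • a = 0 ∨ -(S.c P) * m < (S.pl P).ord (r • a)
    by_cases hr : r = 0
    · left; rw [hr, zero_smul]
    rcases ha with ha | ha
    · left; rw [ha, smul_zero]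
    · by_cases ha0 : a = 0
      · left; rw [ha0, smul_zero]
      · right; rwa [ord_smul S P hr ha0]

theorem mem_deep (S : Places D ι) (P : ι) (m : ℤ) (E : Submodule k Q) (g : E) :
    g ∈ deep S P m E ↔ (g : Q) = 0 ∨ -(S.c P) * m < (S.pl P).ord (g : Q) := Iff.rfl

/-- linear prime avoidance: if for each of finitely many places some element of `E` has exact
order `-c m`, then one element of `E` has exact order at all of them. -/
theorem avoid (S : Places D ι) [Infinite k] (m : ℤ) (E : Submodule k Q)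
    (hE : ∀ P, ∀ g ∈ E, g ≠ 0 → -(S.c P) * m ≤ (S.pl P).ord g) (A : Set ι) (hA : A.Finite)
    (hne : ∃ g ∈ E, g ≠ 0)
    (h : ∀ P ∈ A, ∃ g ∈ E, g ≠ 0 ∧ (S.pl P).ord g = -(S.c P) * m) :
    ∃ g ∈ E, g ≠ 0 ∧ ∀ P ∈ A, (S.pl P).ord g = -(S.c P) * m := by
  classical
  haveI : Finite A := hA
  let p : Option A → Subspace k E := fun o =>
    match o with
    | none => ⊥
    | some P => deep S P.1 m E
  have hp : ∀ o, p o ≠ ⊤ := by
    intro o
    cases o with
    | none =>
      obtain ⟨g, hg, h0⟩ := hne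
      intro ht
      have : (⟨g, hg⟩ : E) ∈ (p none) := by rw [ht]; exact Submodule.mem_top
      change (⟨g, hg⟩ : E) ∈ (⊥ : Submodule k E) at this
      rw [Submodule.mem_bot] at this
      exact h0 (congrArg Subtype.val this)
    | some P =>
      obtain ⟨g, hg, h0, h1⟩ := h P.1 P.2
      intro ht
      have : (⟨g, hg⟩ : E) ∈ (p (some P)) := by rw [ht]; exact Submodule.mem_top
      change (⟨g, hg⟩ : E) ∈ deep S P.1 m E at this
      rw [mem_deep] at this
      rcases this with h2 | h2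
      · exact h0 h2
      · simp only at h2
        omega
  have hu : (⋃ o, (p o : Set E)) ≠ Set.univ := by
    intro hu
    obtain ⟨o, ho⟩ := Subspace.exists_eq_top_of_iUnion_eq_univ hu
    exact hp o ho
  obtain ⟨g, hg⟩ := (Set.ne_univ_iff_exists_notMem _).1 hu
  rw [Set.mem_iUnion, not_exists] at hg
  have g0 : (g : Q) ≠ 0 := by
    intro h0
    apply hg none
    change g ∈ (⊥ : Submodule k E)
    rw [Submodule.mem_bot]
    exact Subtype.ext h0
  refine ⟨g, g.2, g0, fun P hP => ?_⟩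
  have h1 := hg (some ⟨P, hP⟩)
  change ¬ g ∈ deep S P m E at h1
  rw [mem_deep, not_or] at h1
  have h2 := hE P g g.2 g0
  omega

/-- two homogeneous elements without common place: `cT ∩ c'T = cc'T` -/
theorem coprime_mem (S : Places D ι) {d d' m : ℤ} {c c' a b : Q} (hc : c ≠ 0)
    (hc' : c' ≠ 0)
    (hcop : ∀ P, (S.pl P).ord c = -(S.c P) * d ∨ (S.pl P).ord c' = -(S.c P) * d')
    (ha : a ∈ D.F (m - d)) (hb : b ∈ D.F (m - d')) (hab : c * a = c' * b) :
    ∃ f ∈ D.F (m - d - d'), a = c' * f := by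
  by_cases ha0 : a = 0
  · exact ⟨0, Submodule.zero_mem _, by rw [ha0, mul_zero]⟩
  have hb0 : b ≠ 0 := by
    intro h
    rw [h, mul_zero] at hab
    exact (mul_ne_zero hc ha0) hab
  refine ⟨a / c', ?_, by field_simp⟩
  rw [S.memF]
  right
  intro P
  have e1 : (S.pl P).ord (a / c') = (S.pl P).ord a - (S.pl P).ord c' := ord_div (S.pl P) ha0 hc'
  have e2 : (S.pl P).ord (a / c') = (S.pl P).ord b - (S.pl P).ord c := by
    have : a / c' = b / c := by
      field_simp
      linear_combination hab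
    rw [this, ord_div (S.pl P) hb0 hc]
  have f1 := ord_ge S P ha ha0
  have f2 := ord_ge S P hb hb0
  rcases hcop P with h | h
  · rw [e2, h]
    linarith [f2, mul_sub (-(S.c P)) m d', mul_sub (-(S.c P)) (m - d) d', mul_sub (-(S.c P)) m d]
  · rw [e1, h]
    linarith [f1, mul_sub (-(S.c P)) m d', mul_sub (-(S.c P)) (m - d) d', mul_sub (-(S.c P)) m d]

theorem finrank_map_mulLeft (E : Submodule k Q) {c : Q} (hc : c ≠ 0) :
    finrank k (E.map (LinearMap.mulLeft k c)) = finrank k E := by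
  have hinj : Function.Injective (LinearMap.mulLeft k c) := by
    intro a b h
    simpa [hc] using h
  exact (LinearEquiv.finrank_eq (Submodule.equivMapOfInjective _ hinj E)).symm

/-- `dim (cF_{m-d} + c'F_{m-d'}) = dim F_{m-d} + dim F_{m-d'} - dim F_{m-d-d'}` -/
theorem finrank_sup (S : Places D ι) {d d' : ℤ} {c c' : Q} (hc : c ≠ 0)
    (hc' : c' ≠ 0) (hcd : c ∈ D.F d) (hcd' : c' ∈ D.F d')
    (hcop : ∀ P, (S.pl P).ord c = -(S.c P) * d ∨ (S.pl P).ord c' = -(S.c P) * d') (m : ℤ) :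
    finrank k ((D.F (m - d)).map (LinearMap.mulLeft k c) ⊔
      (D.F (m - d')).map (LinearMap.mulLeft k c') : Submodule k Q) + finrank k (D.F (m - d - d')) =
      finrank k (D.F (m - d)) + finrank k (D.F (m - d')) := by
  have := D.lat.fin (m - d)
  have := D.lat.fin (m - d')
  have h1 := Submodule.finrank_sup_add_finrank_inf_eq
    ((D.F (m - d)).map (LinearMap.mulLeft k c)) ((D.F (m - d')).map (LinearMap.mulLeft k c'))
  rw [finrank_map_mulLeft _ hc, finrank_map_mulLeft _ hc'] at h1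
  rw [← h1]
  congr 1
  have h2 : (D.F (m - d)).map (LinearMap.mulLeft k c) ⊓ (D.F (m - d')).map (LinearMap.mulLeft k c')
      = (D.F (m - d - d')).map (LinearMap.mulLeft k (c * c')) := by
    ext x
    constructor
    · rintro ⟨⟨a, ha, rfl⟩, ⟨b, hb, hab⟩⟩
      simp only [LinearMap.mulLeft_apply] at hab ⊢
      obtain ⟨f, hf, rfl⟩ := coprime_mem S hc hc' hcop ha hb hab.symm
      exact ⟨f, hf, by simp only [LinearMap.mulLeft_apply]; ring⟩
    · rintro ⟨f, hf, rfl⟩
      simp only [LinearMap.mulLeft_apply]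
      refine ⟨⟨c' * f, ?_, by simp only [LinearMap.mulLeft_apply]; ring⟩,
        ⟨c * f, ?_, by simp only [LinearMap.mulLeft_apply]; ring⟩⟩
      · have := D.mul_mem d' (m - d - d') c' hcd' f hf
        have e : d' + (m - d - d') = m - d := by ring
        rwa [e] at this
      · have := D.mul_mem d (m - d - d') c hcd f hf
        have e : d + (m - d - d') = m - d' := by ring
        rwa [e] at this
  rw [h2, finrank_map_mulLeft _ (mul_ne_zero hc hc')]

theorem deg_nonneg (D : TData k Q) {d : ℤ} {c : Q} (hc : c ≠ 0) (h : c ∈ D.F d) : 0 ≤ d := by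
  by_contra hd
  rw [D.F_neg d (by omega), Submodule.mem_bot] at h
  exact hc h

theorem finrank_mono_F (D : TData k Q) {m m' : ℤ} (h : m ≤ m') :
    finrank k (D.F m) ≤ finrank k (D.F m') := by
  have hle : D.F m ≤ D.F m' := by
    obtain ⟨j, hj⟩ := Int.le.dest h
    subst hj
    clear h
    induction j with
    | zero => simp
    | succ j ih =>
      refine ih.trans ?_
      have := D.lat.mono (m + j)
      have e : m + ((j + 1 : ℕ) : ℤ) = m + j + 1 := by push_cast; ring
      rwa [e]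
  have := D.lat.fin m'
  exact Submodule.finrank_mono hle

/-- coprime elements have bounded colength. -/
theorem coprime_bound (S : Places D ι) {N : ℕ} {bT cT : ℚ} (hHP : HasHP D.F N bT cT)
    {d d' : ℤ} {c c' : Q} (hc : c ≠ 0)
    (hc' : c' ≠ 0) (hcd : c ∈ D.F d) (hcd' : c' ∈ D.F d')
    (hcop : ∀ P, (S.pl P).ord c = -(S.c P) * d ∨ (S.pl P).ord c' = -(S.c P) * d') :
    ∃ e : ℕ, ∀ m : ℤ, finrank k (D.F m) ≤
      finrank k ((D.F (m - d)).map (LinearMap.mulLeft k c) ⊔
        (D.F (m - d')).map (LinearMap.mulLeft k c') : Submodule k Q) + e := by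
  obtain ⟨m₀, hm₀⟩ := hHP
  have d0 := deg_nonneg D hc hcd
  have d0' := deg_nonneg D hc' hcd'
  obtain ⟨n, rfl⟩ := Int.eq_ofNat_of_zero_le d0
  obtain ⟨n', rfl⟩ := Int.eq_ofNat_of_zero_le d0'
  refine ⟨N * n * n' + finrank k (D.F (m₀ + n + n')), fun m => ?_⟩
  by_cases hm : m₀ + n + n' ≤ m
  · have h1 := finrank_sup S hc hc' hcd hcd' hcop m
    have a1 := hm₀ m (by omega)
    have a2 := hm₀ (m - n) (by omega)
    have a3 := hm₀ (m - n') (by omega)
    have a4 := hm₀ (m - n - n') (by omega)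
    have h2 : (finrank k ((D.F (m - n)).map (LinearMap.mulLeft k c) ⊔
      (D.F (m - n')).map (LinearMap.mulLeft k c') : Submodule k Q) : ℚ) +
        finrank k (D.F (m - n - n')) = finrank k (D.F (m - n)) + finrank k (D.F (m - n')) := by
      exact_mod_cast h1
    rw [a2, a3, a4] at h2
    have h3 : (finrank k (D.F m) : ℚ) = finrank k ((D.F (m - n)).map (LinearMap.mulLeft k c) ⊔
      (D.F (m - n')).map (LinearMap.mulLeft k c') : Submodule k Q) + N * n * n' := by
      rw [a1]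
      push_cast at h2
      linear_combination (-1 : ℚ) * h2
    have h4 : finrank k (D.F m) = finrank k ((D.F (m - n)).map (LinearMap.mulLeft k c) ⊔
      (D.F (m - n')).map (LinearMap.mulLeft k c') : Submodule k Q) + N * n * n' := by
      exact_mod_cast h3
    omega
  · have := finrank_mono_F D (show m ≤ m₀ + n + n' by omega)
    omega

/-- multiplying by powers of an element of exact order -/
theorem exact_shift (S : Places D ι) {I : ℤ → Submodule k Q} (hI : IsTLat D I) (P : ι)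
    {m : ℤ} {g : Q} (hg : g ∈ I m) (g0 : g ≠ 0) (h : (S.pl P).ord g = -(S.c P) * m) (j : ℕ) :
    ∃ g' ∈ I (m + j), g' ≠ 0 ∧ (S.pl P).ord g' = -(S.c P) * (m + j) := by
  induction j with
  | zero => exact ⟨g, by simpa using hg, g0, by simpa using h⟩
  | succ j ih =>
    obtain ⟨g', hg', g0', h'⟩ := ih
    obtain ⟨t, ht, t0, hto⟩ := S.lead P
    refine ⟨t * g', ?_, mul_ne_zero t0 g0', ?_⟩
    · have := hI.act 1 (m + j) t ht g' hg'
      have e : 1 + (m + j) = m + ((j + 1 : ℕ) : ℤ) := by push_cast; ring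
      rw [e] at this
      exact this
    · rw [(S.pl P).ord_mul t g' t0 g0', hto, h']
      push_cast; ring

/-- (D1) a graded ideal contained in no place has bounded colength. -/
theorem boundedColength [Infinite k] (S : Places D ι) {N : ℕ} {bT cT : ℚ}
    (hHP : HasHP D.F N bT cT) : BoundedColengthStatement D S := by
  classical
  intro I hI hle hord
  -- a nonzero element of `I`
  have hne : ∃ d : ℤ, ∃ c ∈ I d, c ≠ 0 := by
    by_contra hcon
    push Not at hcon
    have : spanK Q I = ⊥ := by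
      unfold spanK
      rw [Submodule.span_eq_bot]
      intro x hx
      obtain ⟨m, hm⟩ := Set.mem_iUnion.1 hx
      exact hcon m x hm
    rw [hI.full] at this
    exact absurd this top_ne_bot
  obtain ⟨d, c, hc, c0⟩ := hne
  have hcF := hle d hc
  -- exact elements at every place
  have hex : ∀ P, ∃ m : ℤ, ∃ g ∈ I m, g ≠ 0 ∧ (S.pl P).ord g = -(S.c P) * m := by
    intro P
    have hbdd : ∀ n ∈ ordSet S P I, 0 ≤ n := by
      rintro n ⟨m, g, hg, g0, rfl⟩
      have := ord_ge S P (hle m hg) g0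
      linarith
    have hnonempty : (ordSet S P I).Nonempty := ⟨_, d, c, hc, c0, rfl⟩
    have hmem : sInf (ordSet S P I) ∈ ordSet S P I :=
      Int.csInf_mem hnonempty ⟨0, fun n hn => hbdd n hn⟩
    have h0 := hord P
    unfold ordL at h0
    rw [h0] at hmem
    obtain ⟨m, g, hg, g0, h⟩ := hmem
    exact ⟨m, g, hg, g0, by linarith⟩
  -- the bad places of `c`
  let A : Set ι := {P | (S.pl P).ord c ≠ -(S.c P) * d}
  have hA : A.Finite := by
    apply ((S.fin c c0).union S.cfin).subset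
    intro P hP
    by_contra hcon
    rw [Set.mem_union, not_or] at hcon
    obtain ⟨h1, h2⟩ := hcon
    simp only [Set.mem_ofPred_eq, not_not] at h1 h2
    apply hP
    rw [h1, h2]; ring
  choose mm gg hgg hgg0 hggo using hex
  obtain ⟨M, hM⟩ : ∃ M : ℤ, d ≤ M ∧ ∀ P ∈ A, mm P ≤ M := by
    obtain ⟨M, hM⟩ := (hA.image mm).bddAbove
    exact ⟨max d M, le_max_left _ _, fun P hP => (hM ⟨P, hP, rfl⟩).trans (le_max_right _ _)⟩
  have hM1 := hM.1
  have hM2 := hM.2
  obtain ⟨c', hc', c0', hc'o⟩ : ∃ g ∈ I M, g ≠ 0 ∧ ∀ P ∈ A, (S.pl P).ord g = -(S.c P) * M := by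
    refine avoid S M (I M) (fun P g hg g0 => ord_ge S P (hle M hg) g0) A hA ?_ ?_
    · -- nonzero element of `I M`
      obtain ⟨j, hj⟩ := Int.le.dest hM1
      refine ⟨c, ?_, c0⟩
      rw [← hj]
      clear hj
      induction j with
      | zero => simpa using hc
      | succ j ih =>
        have := hI.lat.mono (d + j) ih
        have e : d + ((j + 1 : ℕ) : ℤ) = d + j + 1 := by push_cast; ring
        rwa [e]
    · intro P hP
      obtain ⟨j, hj⟩ := Int.le.dest (hM2 P hP)
      obtain ⟨g', h1, h2, h3⟩ := exact_shift S hI P (hgg P) (hgg0 P) (hggo P) j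
      rw [hj] at h1 h3
      exact ⟨g', h1, h2, h3⟩
  have hcop : ∀ P, (S.pl P).ord c = -(S.c P) * d ∨ (S.pl P).ord c' = -(S.c P) * M := by
    intro P
    by_cases h : P ∈ A
    · exact Or.inr (hc'o P h)
    · left
      by_contra h'
      exact h h'
  obtain ⟨e, he⟩ := coprime_bound S hHP c0 c0' hcF (hle M hc') hcop
  refine ⟨e, fun m => (he m).trans ?_⟩
  have := hI.lat.fin m
  have hsub : (D.F (m - d)).map (LinearMap.mulLeft k c) ⊔
        (D.F (m - M)).map (LinearMap.mulLeft k c') ≤ I m := by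
    refine sup_le ?_ ?_
    · rintro _ ⟨f, hf, rfl⟩
      have := hI.act (m - d) d f hf c hc
      have e : m - d + d = m := by ring
      rw [e] at this
      simpa [mul_comm] using this
    · rintro _ ⟨f, hf, rfl⟩
      have := hI.act (m - M) M f hf c' hc'
      have e : m - M + M = m := by ring
      rw [e] at this
      simpa [mul_comm] using this
  have := Submodule.finrank_mono hsub
  omega

end Basic

end Crest.Agent.R169.D1
end

-- ▼ part R169/TwoStep
section

/-!
# Row 169, part D: rank one lattices, the two-case step (helper566)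
-/

set_option autoImplicit false

namespace Crest.Agent.R169.TwoStep

open Module

section Basic

variable {k Q : Type} [Field k] [Field Q] [Algebra k Q] {D : TData k Q} {ι : Type}

/-! ### minimum of orders on a rank one lattice -/

theorem exists_ne_zero {I : ℤ → Submodule k Q} (hI : IsTLat D I) : ∃ d : ℤ, ∃ c ∈ I d, c ≠ 0 := by
  by_contra hcon
  push Not at hcon
  have : spanK Q I = ⊥ := by
    unfold spanK
    rw [Submodule.span_eq_bot]
    intro x hx
    obtain ⟨m, hm⟩ := Set.mem_iUnion.1 hx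
    exact hcon m x hm
  rw [hI.full] at this
  exact absurd this top_ne_bot

theorem u_ge (S : Places D ι) (P : ι) : (S.pl P).ge (-(S.c P)) D.u := by
  simpa using S.ge_of_mem D.u_mem P

theorem v_ge (S : Places D ι) (P : ι) : (S.pl P).ge (-(S.c P)) D.v := by
  simpa using S.ge_of_mem D.v_mem P

/-- scalars do not lower the order -/
theorem ge_smul (S : Places D ι) (P : ι) (r : k) {n : ℤ} {f : Q} (h : (S.pl P).ge n f) :
    (S.pl P).ge n (r • f) := by
  rw [Algebra.smul_def]
  simpa using (S.ge_algebraMap P r).mul h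

/-- lower bound propagates from degree `m₁` to all degrees. -/
theorem ge_all (S : Places D ι) (P : ι) {I : ℤ → Submodule k Q} (hI : IsTLat D I) {B : ℤ}
    {m₀ m₁ : ℤ} (h0 : ∀ m ≤ m₀, I m = ⊥)
    (h1 : ∀ m ≥ m₁, ∀ e ∈ I (m + 1), ∃ a ∈ I m, ∃ b ∈ I m, ∃ c ∈ I m,
      e = a + D.u • b + D.v • c)
    (hB : ∀ g ∈ I m₁, (S.pl P).ge B g) :
    ∀ m, ∀ g ∈ I m, (S.pl P).ge (B - S.c P * (m₁ - m₀) - S.c P * (m - m₁)) g := by
  have c0 := S.c_nonneg P
  -- degrees ≥ m₁
  have hup : ∀ j : ℕ, ∀ g ∈ I (m₁ + j), (S.pl P).ge (B - S.c P * j) g := by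
    intro j
    induction j with
    | zero => intro g hg; simpa using hB g (by simpa using hg)
    | succ j ih =>
      intro g hg
      have e1 : m₁ + ((j + 1 : ℕ) : ℤ) = m₁ + j + 1 := by push_cast; ring
      rw [e1] at hg
      obtain ⟨a, ha, b, hb, c, hc, rfl⟩ := h1 (m₁ + j) (by omega) g hg
      have k1 := ih a ha
      have k2 := (u_ge S P).mul (ih b hb)
      have k3 := (v_ge S P).mul (ih c hc)
      have t1 : B - S.c P * ((j + 1 : ℕ) : ℤ) ≤ B - S.c P * j := by push_cast; nlinarith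
      have t2 : B - S.c P * ((j + 1 : ℕ) : ℤ) ≤ -S.c P + (B - S.c P * j) := by
        push_cast; nlinarith
      rw [smul_eq_mul, smul_eq_mul]
      exact ((k1.mono t1).add (k2.mono t2)).add (k3.mono t2)
  intro m g hg
  by_cases hm : m₁ ≤ m
  · obtain ⟨j, rfl⟩ := Int.le.dest hm
    refine (hup j g hg).mono ?_
    have : 0 ≤ S.c P * (m₁ - m₀) ∨ m₁ < m₀ := by
      rcases le_or_gt m₀ m₁ with h | h
      · left; exact mul_nonneg c0 (by omega)
      · right; exact h
    rcases this with h | h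
    · have : m₁ + (j : ℤ) - m₁ = j := by ring
      rw [this]; omega
    · -- then everything of degree ≤ m₀ vanishes, so all of `I` vanishes
      exfalso
      have hz : ∀ i : ℕ, I (m₁ + i) = ⊥ := by
        intro i
        induction i with
        | zero => simpa using h0 m₁ h.le
        | succ i ih =>
          rw [eq_bot_iff]
          intro x hx
          have e1 : m₁ + ((i + 1 : ℕ) : ℤ) = m₁ + i + 1 := by push_cast; ring
          rw [e1] at hx
          obtain ⟨a, ha, b, hb, c, hc, rfl⟩ := h1 (m₁ + i) (by omega) x hx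
          rw [ih, Submodule.mem_bot] at ha hb hc
          subst ha; subst hb; subst hc
          simp
      obtain ⟨d, c, hc, c0'⟩ := exists_ne_zero hI
      rcases le_or_gt m₁ d with h2 | h2
      · obtain ⟨i, rfl⟩ := Int.le.dest h2
        rw [hz i, Submodule.mem_bot] at hc
        exact c0' hc
      · rw [h0 d (by omega), Submodule.mem_bot] at hc
        exact c0' hc
  · by_cases hm0 : m ≤ m₀
    · rw [h0 m hm0, Submodule.mem_bot] at hg
      subst hg
      exact Place.ge_zero _ _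
    · have hle : I m ≤ I m₁ := hI.lat.mono_le (by omega)
      refine (hB g (hle hg)).mono ?_
      have : S.c P * (m₁ - m₀) + S.c P * (m - m₁) = S.c P * (m - m₀) := by ring
      have h2 : 0 ≤ S.c P * (m - m₀) := mul_nonneg c0 (by omega)
      omega

theorem exists_bound_fin (S : Places D ι) (P : ι) (E : Submodule k Q) [hE : Module.Finite k E] :
    ∃ B : ℤ, ∀ g ∈ E, (S.pl P).ge B g := by
  obtain ⟨s, hs⟩ := Module.Finite.iff_fg.1 hE
  obtain ⟨B, hB⟩ := (s.finite_toSet.image (S.pl P).ord).bddBelow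
  refine ⟨B, fun g hg => ?_⟩
  rw [← hs] at hg
  induction hg using Submodule.span_induction with
  | mem x hx => exact Or.inr (hB ⟨x, hx, rfl⟩)
  | zero => exact Place.ge_zero _ _
  | add x y _ _ h1 h2 => exact h1.add h2
  | smul r x _ h => exact ge_smul S P r h

theorem exists_bound (S : Places D ι) (P : ι) {I : ℤ → Submodule k Q} (hI : IsTLat D I) :
    ∃ B : ℤ, ∀ m, ∀ g ∈ I m, (S.pl P).ge (B - S.c P * m) g := by
  obtain ⟨m₀, h0⟩ := hI.lat.bot
  obtain ⟨m₁, h1⟩ := hI.lat.gen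
  have := hI.lat.fin m₁
  obtain ⟨B, hB⟩ := exists_bound_fin S P (I m₁)
  refine ⟨B - S.c P * (m₁ - m₀) + S.c P * m₁, fun m g hg => ?_⟩
  have := ge_all S P hI h0 h1 hB m g hg
  convert this using 1
  ring

/-- `ordL` is attained. -/
theorem ordL_attained (S : Places D ι) (P : ι) {I : ℤ → Submodule k Q} (hI : IsTLat D I) :
    ∃ m : ℤ, ∃ g ∈ I m, g ≠ 0 ∧ (S.pl P).ord g = ordL S P I - S.c P * m := by
  obtain ⟨B, hB⟩ := exists_bound S P hI
  obtain ⟨d, c, hc, c0⟩ := exists_ne_zero hI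
  have hbdd : BddBelow (ordSet S P I) := by
    refine ⟨B, ?_⟩
    rintro n ⟨m, g, hg, g0, rfl⟩
    have := (Place.ge_iff g0).1 (hB m g hg)
    omega
  have hne : (ordSet S P I).Nonempty := ⟨_, d, c, hc, c0, rfl⟩
  obtain ⟨m, g, hg, g0, h⟩ := Int.csInf_mem hne hbdd
  exact ⟨m, g, hg, g0, by unfold ordL; omega⟩

theorem ordL_le (S : Places D ι) (P : ι) {I : ℤ → Submodule k Q} (hI : IsTLat D I) {m : ℤ}
    {g : Q} (hg : g ∈ I m) : (S.pl P).ge (ordL S P I - S.c P * m) g := by
  obtain ⟨B, hB⟩ := exists_bound S P hI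
  by_cases g0 : g = 0
  · exact Or.inl g0
  right
  have hbdd : BddBelow (ordSet S P I) := by
    refine ⟨B, ?_⟩
    rintro n ⟨m, g, hg, g0, rfl⟩
    have := (Place.ge_iff g0).1 (hB m g hg)
    omega
  have h : (S.pl P).ord g + S.c P * m ∈ ordSet S P I := ⟨m, g, hg, g0, rfl⟩
  have := csInf_le hbdd h
  unfold ordL
  omega

/-- characterisation of `ordL` (no lattice hypothesis needed) -/
theorem ordL_eq (S : Places D ι) (P : ι) {I : ℤ → Submodule k Q} {n : ℤ}
    (h1 : ∀ m, ∀ g ∈ I m, (S.pl P).ge (n - S.c P * m) g)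
    (h2 : ∃ m : ℤ, ∃ g ∈ I m, g ≠ 0 ∧ (S.pl P).ord g = n - S.c P * m) : ordL S P I = n := by
  obtain ⟨m, g, hg, g0, h⟩ := h2
  have hmem : n ∈ ordSet S P I := ⟨m, g, hg, g0, by omega⟩
  have hlb : ∀ x ∈ ordSet S P I, n ≤ x := by
    rintro x ⟨m', g', hg', g0', rfl⟩
    have := (Place.ge_iff g0').1 (h1 m' g' hg')
    omega
  unfold ordL
  exact le_antisymm (csInf_le ⟨n, hlb⟩ hmem) (le_csInf ⟨n, hmem⟩ hlb)

/-- all but finitely many places: `c = 0` and `ordL = 0`. -/
theorem ordL_finite (S : Places D ι) {I : ℤ → Submodule k Q} (hI : IsTLat D I) :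
    {P | ordL S P I ≠ 0}.Finite := by
  classical
  obtain ⟨m₀, h0⟩ := hI.lat.bot
  obtain ⟨m₁, h1⟩ := hI.lat.gen
  have hfin := hI.lat.fin m₁
  obtain ⟨s, hs⟩ := Module.Finite.iff_fg.1 hfin
  obtain ⟨d, c, hc, c0⟩ := exists_ne_zero hI
  have hA : ({P | S.c P ≠ 0} ∪ {P | (S.pl P).ord c ≠ 0} ∪
      ⋃ g ∈ (s.filter (· ≠ 0)), {P | (S.pl P).ord g ≠ 0}).Finite := by
    refine (S.cfin.union (S.fin c c0)).union ?_
    refine Set.Finite.biUnion (Finset.finite_toSet _) fun g hg => ?_
    have hg' := Finset.mem_coe.1 hg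
    exact S.fin g (Finset.mem_filter.1 hg').2
  refine hA.subset ?_
  intro P hP
  by_contra hcon
  simp only [Set.mem_union, Set.mem_iUnion, not_or, not_exists, Set.mem_ofPred_eq, not_not] at hcon
  obtain ⟨⟨k1, k2⟩, k3⟩ := hcon
  apply hP
  have hB : ∀ g ∈ I m₁, (S.pl P).ge 0 g := by
    intro g hg
    rw [← hs] at hg
    induction hg using Submodule.span_induction with
    | mem x hx =>
      by_cases hx0 : x = 0
      · exact Or.inl hx0
      · right
        have := k3 x (Finset.mem_filter.2 ⟨hx, hx0⟩)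
        omega
    | zero => exact Place.ge_zero _ _
    | add x y _ _ h1 h2 => exact h1.add h2
    | smul r x _ h => exact ge_smul S P r h
  have hall := ge_all S P hI h0 h1 hB
  apply ordL_eq
  · intro m g hg
    have := hall m g hg
    rw [k1] at this ⊢
    simpa using this
  · exact ⟨d, c, hc, c0, by rw [k1, k2]; ring⟩

/-! ### linear avoidance with prescribed exact orders -/

/-- the elements of `E` of order `> n` at `P`, as a `k`-subspace -/
def deep (S : Places D ι) (P : ι) (n : ℤ) (E : Submodule k Q) : Submodule k E where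
  carrier := {g | (S.pl P).ge (n + 1) (g : Q)}
  zero_mem' := Or.inl rfl
  add_mem' := by
    rintro ⟨a, ha'⟩ ⟨b, hb'⟩ ha hb
    exact Place.ge.add ha hb
  smul_mem' := by
    rintro r ⟨a, ha'⟩ ha
    exact ge_smul S P r ha

theorem mem_deep (S : Places D ι) (P : ι) (n : ℤ) (E : Submodule k Q) (g : E) :
    g ∈ deep S P n E ↔ (S.pl P).ge (n + 1) (g : Q) := Iff.rfl

theorem avoid (S : Places D ι) [Infinite k] (E : Submodule k Q) (n : ι → ℤ)
    (A : Set ι) (hA : A.Finite)
    (hE : ∀ P ∈ A, ∀ g ∈ E, (S.pl P).ge (n P) g)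
    (hne : ∃ g ∈ E, g ≠ 0)
    (h : ∀ P ∈ A, ∃ g ∈ E, g ≠ 0 ∧ (S.pl P).ord g = n P) :
    ∃ g ∈ E, g ≠ 0 ∧ ∀ P ∈ A, (S.pl P).ord g = n P := by
  classical
  have : Finite A := hA
  let p : Option A → Subspace k E := fun o =>
    match o with
    | none => ⊥
    | some P => deep S P.1 (n P.1) E
  have hp : ∀ o, p o ≠ ⊤ := by
    intro o
    cases o with
    | none =>
      obtain ⟨g, hg, h0⟩ := hne
      intro ht
      have : (⟨g, hg⟩ : E) ∈ (p none) := by rw [ht]; exact Submodule.mem_top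
      change (⟨g, hg⟩ : E) ∈ (⊥ : Submodule k E) at this
      rw [Submodule.mem_bot] at this
      exact h0 (congrArg Subtype.val this)
    | some P =>
      obtain ⟨g, hg, h0, h1⟩ := h P.1 P.2
      intro ht
      have : (⟨g, hg⟩ : E) ∈ (p (some P)) := by rw [ht]; exact Submodule.mem_top
      change (⟨g, hg⟩ : E) ∈ deep S P.1 (n P.1) E at this
      rw [mem_deep, Place.ge_iff h0] at this
      omega
  have hu : (⋃ o, (p o : Set E)) ≠ Set.univ := by
    intro hu
    obtain ⟨o, ho⟩ := Subspace.exists_eq_top_of_iUnion_eq_univ hu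
    exact hp o ho
  obtain ⟨g, hg⟩ := (Set.ne_univ_iff_exists_notMem _).1 hu
  rw [Set.mem_iUnion, not_exists] at hg
  have g0 : (g : Q) ≠ 0 := by
    intro h0
    apply hg none
    change g ∈ (⊥ : Submodule k E)
    rw [Submodule.mem_bot]
    exact Subtype.ext h0
  refine ⟨g, g.2, g0, fun P hP => ?_⟩
  have h1 := hg (some ⟨P, hP⟩)
  change ¬ g ∈ deep S P (n P) E at h1
  rw [mem_deep, Place.ge_iff g0] at h1
  have h2 := (Place.ge_iff g0).1 (hE P hP g g.2)
  omega

/-- multiplying by powers of an element of exact order -/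
theorem exact_shift (S : Places D ι) {I : ℤ → Submodule k Q} (hI : IsTLat D I) (P : ι)
    {m n : ℤ} {g : Q} (hg : g ∈ I m) (g0 : g ≠ 0) (h : (S.pl P).ord g = n - S.c P * m) (j : ℕ) :
    ∃ g' ∈ I (m + j), g' ≠ 0 ∧ (S.pl P).ord g' = n - S.c P * (m + j) := by
  induction j with
  | zero => exact ⟨g, by simpa using hg, g0, by simpa using h⟩
  | succ j ih =>
    obtain ⟨g', hg', g0', h'⟩ := ih
    obtain ⟨t, ht, t0, hto⟩ := S.lead P
    refine ⟨t * g', ?_, mul_ne_zero t0 g0', ?_⟩
    · have := hI.act 1 (m + j) t ht g' hg'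
      have e : 1 + (m + j) = m + ((j + 1 : ℕ) : ℤ) := by push_cast; ring
      rw [e] at this
      exact this
    · rw [(S.pl P).ord_mul t g' t0 g0', hto, h']
      push_cast; ring

/-- for finitely many places and all large degrees there is an element of the lattice of exact
order at all these places. -/
theorem exists_exact (S : Places D ι) [Infinite k] {I : ℤ → Submodule k Q} (hI : IsTLat D I)
    (A : Set ι) (hA : A.Finite) :
    ∃ M : ℤ, ∀ m ≥ M, ∃ g ∈ I m, g ≠ 0 ∧ ∀ P ∈ A, (S.pl P).ord g = ordL S P I - S.c P * m := by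
  obtain ⟨d, c, hc, c0⟩ := exists_ne_zero hI
  have hex := fun P => ordL_attained S P hI
  choose mm gg hgg hgg0 hggo using hex
  obtain ⟨M, hM⟩ : ∃ M : ℤ, d ≤ M ∧ ∀ P ∈ A, mm P ≤ M := by
    obtain ⟨M, hM⟩ := (hA.image mm).bddAbove
    exact ⟨max d M, le_max_left _ _, fun P hP => (hM ⟨P, hP, rfl⟩).trans (le_max_right _ _)⟩
  refine ⟨M, fun m hm => ?_⟩
  refine avoid S (I m) (fun P => ordL S P I - S.c P * m) A hA
    (fun P _ g hg => ordL_le S P hI hg) ⟨c, hI.lat.mono_le (hM.1.trans hm) hc, c0⟩ ?_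
  intro P hP
  obtain ⟨j, hj⟩ := Int.le.dest ((hM.2 P hP).trans hm)
  obtain ⟨g', h1, h2, h3⟩ := exact_shift S hI P (hgg P) (hgg0 P) (hggo P) j
  rw [hj] at h1 h3
  exact ⟨g', h1, h2, h3⟩

/-- complementary exact elements in a common degree -/
theorem exists_pair (S : Places D ι) [Infinite k] {I₁ I₂ : ℤ → Submodule k Q}
    (h₁ : IsTLat D I₁) (h₂ : IsTLat D I₂) :
    ∃ a : ℤ, ∃ s₁ ∈ I₁ a, ∃ s₂ ∈ I₂ a, s₁ ≠ 0 ∧ s₂ ≠ 0 ∧ ∀ P,
      (S.pl P).ord s₁ = ordL S P I₁ - S.c P * a ∨ (S.pl P).ord s₂ = ordL S P I₂ - S.c P * a := by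
  obtain ⟨d, c, hc, c0⟩ := exists_ne_zero h₁
  let A : Set ι := {P | S.c P ≠ 0} ∪ {P | (S.pl P).ord c ≠ 0} ∪ {P | ordL S P I₁ ≠ 0}
  have hA : A.Finite := (S.cfin.union (S.fin c c0)).union (ordL_finite S h₁)
  obtain ⟨M, hM⟩ := exists_exact S h₂ A hA
  obtain ⟨g, hg, g0, hgo⟩ := hM (max d M) (le_max_right _ _)
  refine ⟨max d M, c, h₁.lat.mono_le (le_max_left _ _) hc, g, hg, c0, g0, fun P => ?_⟩
  by_cases hP : P ∈ A
  · exact Or.inr (hgo P hP)
  · left
    simp only [A, Set.mem_union, not_or, Set.mem_ofPred_eq, not_not] at hP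
    rw [hP.1.1, hP.1.2, hP.2]; ring

/-! ### lattice constructions -/

/-- `s I₁ + t I₂` -/
def comb (s t : Q) (I₁ I₂ : ℤ → Submodule k Q) : ℤ → Submodule k Q :=
  fun m => (I₁ m).map (LinearMap.mulLeft k s) ⊔ (I₂ m).map (LinearMap.mulLeft k t)

theorem mem_comb {s t : Q} {I₁ I₂ : ℤ → Submodule k Q} {m : ℤ} {x : Q} :
    x ∈ comb s t I₁ I₂ m ↔ ∃ a ∈ I₁ m, ∃ b ∈ I₂ m, s * a + t * b = x := by
  unfold comb
  rw [Submodule.mem_sup]
  constructor
  · rintro ⟨_, ⟨a, ha, rfl⟩, _, ⟨b, hb, rfl⟩, rfl⟩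
    exact ⟨a, ha, b, hb, rfl⟩
  · rintro ⟨a, ha, b, hb, rfl⟩
    exact ⟨_, ⟨a, ha, rfl⟩, _, ⟨b, hb, rfl⟩, rfl⟩

theorem isTLat_comb {s t : Q} (hs : s ≠ 0) {I₁ I₂ : ℤ → Submodule k Q}
    (h₁ : IsTLat D I₁) (h₂ : IsTLat D I₂) : IsTLat D (comb s t I₁ I₂) where
  lat :=
    { mono := by
        intro m x hx
        rw [mem_comb] at hx ⊢
        obtain ⟨a, ha, b, hb, rfl⟩ := hx
        exact ⟨a, h₁.lat.mono m ha, b, h₂.lat.mono m hb, rfl⟩
      umul := by
        intro m x hx
        rw [mem_comb] at hx ⊢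
        obtain ⟨a, ha, b, hb, rfl⟩ := hx
        exact ⟨_, h₁.lat.umul m a ha, _, h₂.lat.umul m b hb, by simp only [smul_eq_mul]; ring⟩
      vmul := by
        intro m x hx
        rw [mem_comb] at hx ⊢
        obtain ⟨a, ha, b, hb, rfl⟩ := hx
        exact ⟨_, h₁.lat.vmul m a ha, _, h₂.lat.vmul m b hb, by simp only [smul_eq_mul]; ring⟩
      fin := by
        intro m
        have := h₁.lat.fin m
        have := h₂.lat.fin m
        unfold comb
        infer_instance
      bot := by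
        obtain ⟨a, ha⟩ := h₁.lat.bot
        obtain ⟨b, hb⟩ := h₂.lat.bot
        refine ⟨min a b, fun m hm => ?_⟩
        unfold comb
        rw [ha m (hm.trans (min_le_left _ _)), hb m (hm.trans (min_le_right _ _))]
        simp
      gen := by
        obtain ⟨a, ha⟩ := h₁.lat.gen
        obtain ⟨b, hb⟩ := h₂.lat.gen
        refine ⟨max a b, fun m hm e he => ?_⟩
        rw [mem_comb] at he
        obtain ⟨x, hx, y, hy, rfl⟩ := he
        obtain ⟨x1, hx1, x2, hx2, x3, hx3, rfl⟩ := ha m ((le_max_left _ _).trans hm) x hx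
        obtain ⟨y1, hy1, y2, hy2, y3, hy3, rfl⟩ := hb m ((le_max_right _ _).trans hm) y hy
        refine ⟨_, mem_comb.2 ⟨x1, hx1, y1, hy1, rfl⟩, _, mem_comb.2 ⟨x2, hx2, y2, hy2, rfl⟩,
          _, mem_comb.2 ⟨x3, hx3, y3, hy3, rfl⟩, ?_⟩
        simp only [smul_eq_mul]; ring }
  act := by
    intro i j f hf x hx
    rw [mem_comb] at hx ⊢
    obtain ⟨a, ha, b, hb, rfl⟩ := hx
    exact ⟨_, h₁.act i j f hf a ha, _, h₂.act i j f hf b hb, by simp only [smul_eq_mul]; ring⟩
  full := by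
    obtain ⟨d, c, hc, c0⟩ := exists_ne_zero h₁
    rw [eq_top_iff]
    intro x _
    have : s * c ∈ spanK Q (comb s t I₁ I₂) := by
      apply Submodule.subset_span
      refine Set.mem_iUnion.2 ⟨d, mem_comb.2 ⟨c, hc, 0, Submodule.zero_mem _, by ring⟩⟩
    have h2 := Submodule.smul_mem (spanK Q (comb s t I₁ I₂)) (x / (s * c)) this
    rwa [smul_eq_mul, div_mul_cancel₀ _ (mul_ne_zero hs c0)] at h2

/-- abstract dimension count: two families with common "ratio" lattice. -/
theorem finrank_comb (S : Places D ι) {A B : Submodule k Q} [Module.Finite k A]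
    [Module.Finite k B] {s t : Q} (hs : s ≠ 0) (ht : t ≠ 0) {m d : ℤ} {o₁ o₂ : ι → ℤ}
    (hA : ∀ P, ∀ g ∈ A, (S.pl P).ge (o₁ P - S.c P * m) g)
    (hB : ∀ P, ∀ g ∈ B, (S.pl P).ge (o₂ P - S.c P * m) g)
    (hex : ∀ P, (S.pl P).ord s = o₁ P - S.c P * d ∨ (S.pl P).ord t = o₂ P - S.c P * d)
    (hsA : ∀ f ∈ D.F (m - d), f * s ∈ A) (htB : ∀ f ∈ D.F (m - d), f * t ∈ B) :
    finrank k A + finrank k B = finrank k (D.F (m - d)) +
      finrank k (A.map (LinearMap.mulLeft k t) ⊔ B.map (LinearMap.mulLeft k s) :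
        Submodule k Q) := by
  have h1 := Submodule.finrank_sup_add_finrank_inf_eq
    (A.map (LinearMap.mulLeft k t)) (B.map (LinearMap.mulLeft k s))
  rw [D1.finrank_map_mulLeft _ ht, D1.finrank_map_mulLeft _ hs] at h1
  rw [← h1, add_comm]
  congr 1
  have h2 : A.map (LinearMap.mulLeft k t) ⊓ B.map (LinearMap.mulLeft k s)
      = (D.F (m - d)).map (LinearMap.mulLeft k (s * t)) := by
    ext x
    constructor
    · rintro ⟨⟨a, ha, rfl⟩, ⟨b, hb, hab⟩⟩
      simp only [LinearMap.mulLeft_apply] at hab ⊢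
      refine ⟨a / s, ?_, ?_⟩
      · apply S.mem_of_ge
        intro P
        by_cases ha0 : a = 0
        · left; rw [ha0, zero_div]
        have hb0 : b ≠ 0 := by
          intro h
          rw [h, mul_zero] at hab
          exact (mul_ne_zero ht ha0) hab.symm
        have e1 : a / s = b / t := by
          field_simp
          linear_combination -hab
        right
        rcases hex P with h | h
        · rw [D1.ord_div _ ha0 hs, h]
          have := (Place.ge_iff ha0).1 (hA P a ha)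
          linarith [mul_sub (S.c P) m d]
        · rw [e1, D1.ord_div _ hb0 ht, h]
          have := (Place.ge_iff hb0).1 (hB P b hb)
          linarith [mul_sub (S.c P) m d]
      · simp only [LinearMap.mulLeft_apply]
        field_simp
    · rintro ⟨f, hf, rfl⟩
      simp only [LinearMap.mulLeft_apply]
      exact ⟨⟨f * s, hsA f hf, by simp only [LinearMap.mulLeft_apply]; ring⟩,
        ⟨f * t, htB f hf, by simp only [LinearMap.mulLeft_apply]; ring⟩⟩
  rw [h2, D1.finrank_map_mulLeft _ (mul_ne_zero hs ht)]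

/-! ### Frobenius pull back of a rank one lattice -/

theorem frob1_le {p : ℕ} {I : ℤ → Submodule k Q} {m : ℤ} (W : Submodule k Q)
    (h : ∀ j : ℤ, ∀ f ∈ D.F (m - p * j), ∀ g ∈ I j, f * g ^ p ∈ W) : frob1 D p I m ≤ W := by
  unfold frob1
  rw [Submodule.span_le]
  rintro _ ⟨j, f, hf, g, hg, rfl⟩
  exact h j f hf g hg

theorem mem_frob1 {p : ℕ} {I : ℤ → Submodule k Q} {m j : ℤ} {f g : Q} (hf : f ∈ D.F (m - p * j))
    (hg : g ∈ I j) : f * g ^ p ∈ frob1 D p I m :=
  Submodule.subset_span ⟨j, f, hf, g, hg, rfl⟩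

theorem ge_pow (P : Place Q) {n : ℤ} {f : Q} {p : ℕ} (hp : 0 < p) (h : P.ge n f) :
    P.ge (p * n) (f ^ p) := by
  rcases h with rfl | h
  · left; exact zero_pow hp.ne'
  · by_cases h0 : f = 0
    · left; rw [h0]; exact zero_pow hp.ne'
    · right
      rw [P.ord_pow _ h0]
      exact mul_le_mul_of_nonneg_left h (by positivity)

theorem frob1_ge (S : Places D ι) {p : ℕ} (hp : 0 < p) {I : ℤ → Submodule k Q}
    (hI : IsTLat D I) {m : ℤ} (P : ι) {w : Q} (hw : w ∈ frob1 D p I m) :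
    (S.pl P).ge (p * ordL S P I - S.c P * m) w := by
  unfold frob1 at hw
  induction hw using Submodule.span_induction with
  | mem x hx =>
    obtain ⟨j, f, hf, g, hg, rfl⟩ := hx
    have h1 := S.ge_of_mem hf P
    have h2 := ge_pow (S.pl P) hp (ordL_le S P hI hg)
    refine (h1.mul h2).mono (le_of_eq ?_)
    ring
  | zero => exact Place.ge_zero _ _
  | add x y _ _ h1 h2 => exact h1.add h2
  | smul r x _ h => exact ge_smul S P r h

/-- a rank one lattice embeds in a shift of `F` after multiplication by an element. -/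
theorem exists_scale {I : ℤ → Submodule k Q} (hI : IsTLat D I) :
    ∃ s : Q, s ≠ 0 ∧ ∃ d : ℤ, ∀ m, ∀ g ∈ I m, s * g ∈ D.F (m + d) := by
  classical
  obtain ⟨m₀, h0⟩ := hI.lat.bot
  obtain ⟨m₁, h1⟩ := hI.lat.gen
  have hfin := hI.lat.fin m₁
  obtain ⟨t, ht⟩ := Module.Finite.iff_fg.1 hfin
  -- common denominator
  have key : ∀ t : Finset Q, ∃ s : Q, s ≠ 0 ∧ ∃ d : ℤ, ∀ g ∈ t, s * g ∈ D.F d := by
    intro t
    induction t using Finset.induction_on with
    | empty => exact ⟨1, one_ne_zero, 0, by simp⟩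
    | insert a t _ ih =>
      obtain ⟨s, s0, d, hs⟩ := ih
      obtain ⟨n, f, hf, g, hg, g0, hfg⟩ := D.frac a
      have hd : ∀ q ∈ t, s * q * g ∈ D.F (d + n) := fun q hq => D.mul_mem d n _ (hs q hq) _ hg
      -- `s` lies in some `F`
      obtain ⟨n', f', hf', g', hg', g0', hfg'⟩ := D.frac s
      refine ⟨s * g * g', mul_ne_zero (mul_ne_zero s0 g0) g0', max (d + n + n') (n' + n), ?_⟩
      intro q hq
      rcases Finset.mem_insert.1 hq with rfl | hq
      · have e : s * g * g' * q = f' * f := by rw [← hfg', ← hfg]; ring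
        rw [e]
        exact D.F_mono (le_max_right _ _) (D.mul_mem n' n _ hf' _ hf)
      · have e : s * g * g' * q = s * q * g * g' := by ring
        rw [e]
        exact D.F_mono (le_max_left _ _) (D.mul_mem (d + n) n' _ (hd q hq) _ hg')
  obtain ⟨s, s0, e, hs⟩ := key t
  have hE : ∀ g ∈ I m₁, s * g ∈ D.F e := by
    intro g hg
    rw [← ht] at hg
    induction hg using Submodule.span_induction with
    | mem x hx => exact hs x hx
    | zero => rw [mul_zero]; exact Submodule.zero_mem _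
    | add x y _ _ h1 h2 => rw [mul_add]; exact Submodule.add_mem _ h1 h2
    | smul r x _ h => rw [mul_smul_comm]; exact Submodule.smul_mem _ _ h
  have hup : ∀ j : ℕ, ∀ g ∈ I (m₁ + j), s * g ∈ D.F (e + j) := by
    intro j
    induction j with
    | zero => intro g hg; simpa using hE g (by simpa using hg)
    | succ j ih =>
      intro g hg
      have e1 : m₁ + ((j + 1 : ℕ) : ℤ) = m₁ + j + 1 := by push_cast; ring
      rw [e1] at hg
      obtain ⟨a, ha, b, hb, c, hc, rfl⟩ := h1 (m₁ + j) (by omega) g hg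
      have e2 : e + ((j + 1 : ℕ) : ℤ) = e + j + 1 := by push_cast; ring
      rw [e2]
      have k1 := D.lat.mono _ (ih a ha)
      have k2 := D.lat.umul _ _ (ih b hb)
      have k3 := D.lat.vmul _ _ (ih c hc)
      have e3 : s * (a + D.u • b + D.v • c) = s * a + D.u • (s * b) + D.v • (s * c) := by
        simp only [smul_eq_mul]; ring
      rw [e3]
      exact Submodule.add_mem _ (Submodule.add_mem _ k1 k2) k3
  refine ⟨s, s0, max (e - m₁) (e - m₀), fun m g hg => ?_⟩
  by_cases hm : m₁ ≤ m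
  · obtain ⟨j, rfl⟩ := Int.le.dest hm
    refine D.F_mono ?_ (hup j g hg)
    have := le_max_left (e - m₁) (e - m₀)
    omega
  · by_cases hm0 : m ≤ m₀
    · rw [h0 m hm0, Submodule.mem_bot] at hg
      subst hg
      rw [mul_zero]; exact Submodule.zero_mem _
    · refine D.F_mono ?_ (hE g (hI.lat.mono_le (by omega) hg))
      have := le_max_right (e - m₁) (e - m₀)
      omega

theorem frob1_fin (p : ℕ) {I : ℤ → Submodule k Q} (hI : IsTLat D I) (m : ℤ) :
    Module.Finite k (frob1 D p I m) := by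
  obtain ⟨s, s0, d, hs⟩ := exists_scale hI
  have hsp : s ^ p ≠ 0 := pow_ne_zero p s0
  have hle : (frob1 D p I m).map (LinearMap.mulLeft k (s ^ p)) ≤ D.F (m + p * d) := by
    rw [Submodule.map_le_iff_le_comap]
    apply frob1_le
    intro j f hf g hg
    rw [Submodule.mem_comap, LinearMap.mulLeft_apply]
    have h1 := D.pow_mem' (hs j g hg) p
    have h2 := D.mul_mem _ _ _ hf _ h1
    have e : m - p * j + p * (j + d) = m + p * d := by ring
    rw [e] at h2
    have e2 : s ^ p * (f * g ^ p) = f * (s * g) ^ p := by ring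
    rwa [e2]
  have := D.fin (m + p * d)
  have h3 : Module.Finite k ((frob1 D p I m).map (LinearMap.mulLeft k (s ^ p))) :=
    Submodule.finiteDimensional_of_le hle
  have hinj : Function.Injective (LinearMap.mulLeft k (s ^ p)) := by
    intro a b h
    simpa [hsp] using h
  exact Module.Finite.equiv (Submodule.equivMapOfInjective _ hinj (frob1 D p I m)).symm

theorem frob1_comb {p : ℕ} [Fact p.Prime] [CharP k p] {s t : Q} {I₁ I₂ : ℤ → Submodule k Q}
    (m : ℤ) : frob1 D p (comb s t I₁ I₂) m =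
      (frob1 D p I₁ m).map (LinearMap.mulLeft k (s ^ p)) ⊔
        (frob1 D p I₂ m).map (LinearMap.mulLeft k (t ^ p)) := by
  have : CharP Q p := charP_of_injective_algebraMap (algebraMap k Q).injective p
  apply le_antisymm
  · apply frob1_le
    intro j f hf g hg
    rw [mem_comb] at hg
    obtain ⟨a, ha, b, hb, rfl⟩ := hg
    have e : f * (s * a + t * b) ^ p = s ^ p * (f * a ^ p) + t ^ p * (f * b ^ p) := by
      rw [add_pow_char, mul_pow, mul_pow]; ring
    rw [e]
    exact Submodule.add_mem_sup ⟨_, mem_frob1 hf ha, rfl⟩ ⟨_, mem_frob1 hf hb, rfl⟩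
  · refine sup_le ?_ ?_
    · rw [Submodule.map_le_iff_le_comap]
      apply frob1_le
      intro j f hf g hg
      rw [Submodule.mem_comap, LinearMap.mulLeft_apply]
      have e : s ^ p * (f * g ^ p) = f * (s * g) ^ p := by ring
      rw [e]
      exact mem_frob1 hf (mem_comb.2 ⟨g, hg, 0, Submodule.zero_mem _, by ring⟩)
    · rw [Submodule.map_le_iff_le_comap]
      apply frob1_le
      intro j f hf g hg
      rw [Submodule.mem_comap, LinearMap.mulLeft_apply]
      have e : t ^ p * (f * g ^ p) = f * (t * g) ^ p := by ring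
      rw [e]
      exact mem_frob1 hf (mem_comb.2 ⟨0, Submodule.zero_mem _, g, hg, by ring⟩)

/-! ### the two-case step -/

theorem two_step [Infinite k] (S : Places D ι) (p : ℕ) [Fact p.Prime] [CharP k p]
    {I₁ I₂ : ℤ → Submodule k Q} (h₁ : IsTLat D I₁) (h₂ : IsTLat D I₂) :
    ∃ (a : ℤ) (I : ℤ → Submodule k Q), IsTLat D I ∧
      (∀ P, ordL S P I = ordL S P I₁ + ordL S P I₂ - S.c P * a) ∧
      (∀ m, finrank k (I₁ m) + finrank k (I₂ m) = finrank k (D.F (m - a)) + finrank k (I m)) ∧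
      (∀ m, finrank k (frob1 D p I₁ m) + finrank k (frob1 D p I₂ m) =
        finrank k (D.F (m - p * a)) + finrank k (frob1 D p I m)) := by
  have hp : 0 < p := (Fact.out : p.Prime).pos
  obtain ⟨a, s₁, hs₁, s₂, hs₂, s₁0, s₂0, hex⟩ := exists_pair S h₁ h₂
  refine ⟨a, comb s₂ s₁ I₁ I₂, isTLat_comb s₂0 h₁ h₂, ?_, ?_, ?_⟩
  · intro P
    have e1 := (Place.ge_iff s₁0).1 (ordL_le S P h₁ hs₁)
    have e2 := (Place.ge_iff s₂0).1 (ordL_le S P h₂ hs₂)
    apply ordL_eq
    · intro m g hg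
      rw [mem_comb] at hg
      obtain ⟨x, hx, y, hy, rfl⟩ := hg
      have k1 := (Place.ge_ord s₂ (P := S.pl P)).mul (ordL_le S P h₁ hx)
      have k2 := (Place.ge_ord s₁ (P := S.pl P)).mul (ordL_le S P h₂ hy)
      exact (k1.mono (by linarith)).add (k2.mono (by linarith))
    · rcases hex P with h | h
      · obtain ⟨m, g, hg, g0, hgo⟩ := ordL_attained S P h₂
        refine ⟨m, s₁ * g, mem_comb.2 ⟨0, Submodule.zero_mem _, g, hg, by ring⟩,
          mul_ne_zero s₁0 g0, ?_⟩
        rw [(S.pl P).ord_mul _ _ s₁0 g0, h, hgo]; ring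
      · obtain ⟨m, g, hg, g0, hgo⟩ := ordL_attained S P h₁
        refine ⟨m, s₂ * g, mem_comb.2 ⟨g, hg, 0, Submodule.zero_mem _, by ring⟩,
          mul_ne_zero s₂0 g0, ?_⟩
        rw [(S.pl P).ord_mul _ _ s₂0 g0, h, hgo]; ring
  · intro m
    have := h₁.lat.fin m
    have := h₂.lat.fin m
    refine finrank_comb S s₁0 s₂0 (m := m) (d := a) (o₁ := fun P => ordL S P I₁)
      (o₂ := fun P => ordL S P I₂) (fun P g hg => ordL_le S P h₁ hg)
      (fun P g hg => ordL_le S P h₂ hg) hex ?_ ?_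
    · intro f hf
      have := h₁.act (m - a) a f hf s₁ hs₁
      rwa [sub_add_cancel] at this
    · intro f hf
      have := h₂.act (m - a) a f hf s₂ hs₂
      rwa [sub_add_cancel] at this
  · intro m
    have := frob1_fin p h₁ m
    have := frob1_fin p h₂ m
    rw [frob1_comb]
    refine finrank_comb S (pow_ne_zero p s₁0) (pow_ne_zero p s₂0) (m := m) (d := p * a)
      (o₁ := fun P => p * ordL S P I₁) (o₂ := fun P => p * ordL S P I₂)
      (fun P g hg => frob1_ge S hp h₁ P hg) (fun P g hg => frob1_ge S hp h₂ P hg) ?_ ?_ ?_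
    · intro P
      rcases hex P with h | h
      · left; rw [(S.pl P).ord_pow _ s₁0, h]; ring
      · right; rw [(S.pl P).ord_pow _ s₂0, h]; ring
    · intro f hf; exact mem_frob1 hf hs₁
    · intro f hf; exact mem_frob1 hf hs₂

theorem multi_step [Infinite k] (S : Places D ι) (p : ℕ) [Fact p.Prime] [CharP k p]
    {κ : Type} (s : Finset κ) (hs : s.Nonempty) (I : κ → ℤ → Submodule k Q)
    (hI : ∀ i ∈ s, IsTLat D (I i)) :
    ∃ (A : Multiset ℤ) (J : ℤ → Submodule k Q), A.card + 1 = s.card ∧ IsTLat D J ∧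
      (∀ P, ordL S P J = ∑ i ∈ s, ordL S P (I i) - S.c P * A.sum) ∧
      (∀ m, ∑ i ∈ s, finrank k (I i m) =
        (A.map fun a => finrank k (D.F (m - a))).sum + finrank k (J m)) ∧
      (∀ m, ∑ i ∈ s, finrank k (frob1 D p (I i) m) =
        (A.map fun a => finrank k (D.F (m - p * a))).sum + finrank k (frob1 D p J m)) := by
  classical
  induction hs using Finset.Nonempty.cons_induction with
  | singleton i =>
    exact ⟨0, I i, by simp, hI i (Finset.mem_singleton_self i), by simp, by simp, by simp⟩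
  | cons i s hi hs ih =>
    obtain ⟨A, J, hA, hJ, ho, hd, hf⟩ := ih fun j hj => hI j (Finset.mem_cons_of_mem hj)
    obtain ⟨a, K, hK, ho', hd', hf'⟩ := two_step S p (hI i (Finset.mem_cons_self i s)) hJ
    refine ⟨a ::ₘ A, K, ?_, hK, ?_, ?_, ?_⟩
    · rw [Multiset.card_cons, Finset.card_cons, hA]
    · intro P
      rw [ho' P, ho P, Finset.sum_cons, Multiset.sum_cons]; ring
    · intro m
      rw [Finset.sum_cons, hd m, Multiset.map_cons, Multiset.sum_cons]
      have := hd' m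
      omega
    · intro m
      rw [Finset.sum_cons, hf m, Multiset.map_cons, Multiset.sum_cons]
      have := hf' m
      omega

/-! ### translates -/

/-- generation over `T` implies generation over `k[X, Xu, Xv]` in large degrees -/
theorem gen_of_Tgen {I : ℤ → Submodule k Q}
    (hact : ∀ i j : ℤ, ∀ f ∈ D.F i, ∀ g ∈ I j, f * g ∈ I (i + j))
    (hgen : ∃ m₁ : ℤ, ∀ m ≥ m₁, I m ≤ Submodule.span k {x | ∃ f ∈ D.F (m - m₁), ∃ g ∈ I m₁,
      x = f * g}) :
    ∃ m₁ : ℤ, ∀ m ≥ m₁, ∀ e ∈ I (m + 1), ∃ a ∈ I m, ∃ b ∈ I m, ∃ c ∈ I m,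
      e = a + D.u • b + D.v • c := by
  obtain ⟨m₁, h1⟩ := hgen
  obtain ⟨c₁, hc⟩ := D.lat.gen
  refine ⟨m₁ + max 0 c₁, fun m hm e he => ?_⟩
  have hm1 : m₁ ≤ m := le_trans (by have := le_max_left 0 c₁; omega) hm
  have hm2 : c₁ ≤ m - m₁ := by have := le_max_right 0 c₁; omega
  have he' := h1 (m + 1) (by omega) he
  clear he
  induction he' using Submodule.span_induction with
  | mem x hx =>
    obtain ⟨f, hf, g, hg, rfl⟩ := hx
    have e1 : m + 1 - m₁ = m - m₁ + 1 := by ring
    rw [e1] at hf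
    obtain ⟨a, ha, b, hb, c, hc', rfl⟩ := hc (m - m₁) hm2 f hf
    have k : ∀ y ∈ D.F (m - m₁), y * g ∈ I m := by
      intro y hy
      have := hact _ _ y hy g hg
      rwa [sub_add_cancel] at this
    exact ⟨_, k a ha, _, k b hb, _, k c hc', by simp only [smul_eq_mul]; ring⟩
  | zero => exact ⟨0, Submodule.zero_mem _, 0, Submodule.zero_mem _, 0, Submodule.zero_mem _,
      by simp⟩
  | add x y _ _ h1 h2 =>
    obtain ⟨a, ha, b, hb, c, hc, rfl⟩ := h1
    obtain ⟨a', ha', b', hb', c', hc', rfl⟩ := h2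
    exact ⟨_, Submodule.add_mem _ ha ha', _, Submodule.add_mem _ hb hb', _,
      Submodule.add_mem _ hc hc', by simp only [smul_eq_mul]; ring⟩
  | smul r x _ h =>
    obtain ⟨a, ha, b, hb, c, hc, rfl⟩ := h
    refine ⟨_, Submodule.smul_mem _ r ha, _, Submodule.smul_mem _ r hb, _,
      Submodule.smul_mem _ r hc, ?_⟩
    simp only [smul_add, smul_eq_mul, mul_smul_comm]

theorem Tgen_of_lat {I : ℤ → Submodule k Q} (hI : IsTLat D I) :
    ∃ m₁ : ℤ, ∀ m ≥ m₁, I m ≤ Submodule.span k {x | ∃ f ∈ D.F (m - m₁), ∃ g ∈ I m₁,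
      x = f * g} := by
  obtain ⟨m₁, h1⟩ := hI.lat.gen
  refine ⟨m₁, fun m hm => ?_⟩
  obtain ⟨j, rfl⟩ := Int.le.dest hm
  clear hm
  induction j with
  | zero =>
    intro x hx
    exact Submodule.subset_span ⟨1, by simpa using D.one_mem_zero, x, by simpa using hx,
      by rw [one_mul]⟩
  | succ j ih =>
    intro x hx
    have e1 : m₁ + ((j + 1 : ℕ) : ℤ) = m₁ + j + 1 := by push_cast; ring
    rw [e1] at hx
    obtain ⟨a, ha, b, hb, c, hc, rfl⟩ := h1 (m₁ + j) (by omega) x hx
    have key : ∀ q : Q, q ∈ D.F 1 → ∀ y ∈ I (m₁ + j), q * y ∈ Submodule.span k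
        {x | ∃ f ∈ D.F (m₁ + ((j + 1 : ℕ) : ℤ) - m₁), ∃ g ∈ I m₁, x = f * g} := by
      intro q hq y hy
      have hy' := ih hy
      clear hy
      induction hy' using Submodule.span_induction with
      | mem x hx =>
        obtain ⟨f, hf, g, hg, rfl⟩ := hx
        refine Submodule.subset_span ⟨q * f, ?_, g, hg, by ring⟩
        have := D.mul_mem 1 _ q hq f hf
        have e : 1 + (m₁ + (j : ℤ) - m₁) = m₁ + ((j + 1 : ℕ) : ℤ) - m₁ := by push_cast; ring
        rwa [e] at this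
      | zero => rw [mul_zero]; exact Submodule.zero_mem _
      | add x y _ _ h1 h2 => rw [mul_add]; exact Submodule.add_mem _ h1 h2
      | smul r x _ h => rw [mul_smul_comm]; exact Submodule.smul_mem _ _ h
    refine Submodule.add_mem _ (Submodule.add_mem _ ?_ ?_) ?_
    · simpa using key 1 D.one_mem a ha
    · exact key D.u D.u_mem b hb
    · exact key D.v D.v_mem c hc

theorem mem_mapL {σ : Q ≃ₐ[k] Q} {I : ℤ → Submodule k Q} {m : ℤ} {x : Q} :
    x ∈ mapL σ I m ↔ ∃ y ∈ I m, σ y = x := by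
  unfold mapL
  rw [Submodule.mem_map]
  rfl

theorem isTLat_mapL {σ : Q ≃ₐ[k] Q} (hσ : ∀ m, ∀ f ∈ D.F m, σ.symm f ∈ D.F m)
    (hσ' : ∀ m, ∀ f ∈ D.F m, σ f ∈ D.F m) {I : ℤ → Submodule k Q} (hI : IsTLat D I) :
    IsTLat D (mapL σ I) := by
  have hact : ∀ i j : ℤ, ∀ f ∈ D.F i, ∀ g ∈ mapL σ I j, f * g ∈ mapL σ I (i + j) := by
    intro i j f hf g hg
    rw [mem_mapL] at hg ⊢
    obtain ⟨y, hy, rfl⟩ := hg
    refine ⟨σ.symm f * y, hI.act i j _ (hσ i f hf) y hy, by rw [map_mul, AlgEquiv.apply_symm_apply]⟩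
  refine ⟨⟨?_, ?_, ?_, ?_, ?_, ?_⟩, ?_, ?_⟩
  · intro m; exact Submodule.map_mono (hI.lat.mono m)
  · intro m e he
    have := hact 1 m D.u D.u_mem e he
    rwa [add_comm] at this
  · intro m e he
    have := hact 1 m D.v D.v_mem e he
    rwa [add_comm] at this
  · intro m
    have := hI.lat.fin m
    unfold mapL
    infer_instance
  · obtain ⟨m₀, h0⟩ := hI.lat.bot
    exact ⟨m₀, fun m hm => by unfold mapL; rw [h0 m hm, Submodule.map_bot]⟩
  · apply gen_of_Tgen hact
    obtain ⟨m₁, h1⟩ := Tgen_of_lat hI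
    refine ⟨m₁, fun m hm x hx => ?_⟩
    rw [mem_mapL] at hx
    obtain ⟨y, hy, rfl⟩ := hx
    have hy' := h1 m hm hy
    clear hy
    induction hy' using Submodule.span_induction with
    | mem x hx =>
      obtain ⟨f, hf, g, hg, rfl⟩ := hx
      exact Submodule.subset_span ⟨σ f, hσ' _ f hf, σ g, mem_mapL.2 ⟨g, hg, rfl⟩, map_mul σ f g⟩
    | zero => rw [map_zero]; exact Submodule.zero_mem _
    | add x y _ _ h1 h2 => rw [map_add]; exact Submodule.add_mem _ h1 h2
    | smul r x _ h => rw [map_smul]; exact Submodule.smul_mem _ _ h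
  · intro i j f hf g hg
    exact hact i j f hf g hg
  · obtain ⟨d, c, hc, c0⟩ := exists_ne_zero hI
    rw [eq_top_iff]
    intro x _
    have : σ c ∈ spanK Q (mapL σ I) := by
      apply Submodule.subset_span
      exact Set.mem_iUnion.2 ⟨d, mem_mapL.2 ⟨c, hc, rfl⟩⟩
    have h2 := Submodule.smul_mem (spanK Q (mapL σ I)) (x / σ c) this
    rwa [smul_eq_mul, div_mul_cancel₀ _ (by simpa using c0)] at h2

theorem finrank_mapL (σ : Q ≃ₐ[k] Q) (I : ℤ → Submodule k Q) (m : ℤ) :
    finrank k (mapL σ I m) = finrank k (I m) := by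
  unfold mapL
  exact (LinearEquiv.finrank_eq (Submodule.equivMapOfInjective σ.toLinearMap σ.injective
    (I m))).symm

theorem frob1_mapL {σ : Q ≃ₐ[k] Q} (hσ : ∀ m, ∀ f ∈ D.F m, σ.symm f ∈ D.F m)
    (hσ' : ∀ m, ∀ f ∈ D.F m, σ f ∈ D.F m) (p : ℕ) (I : ℤ → Submodule k Q) :
    frob1 D p (mapL σ I) = mapL σ (frob1 D p I) := by
  funext m
  apply le_antisymm
  · apply frob1_le
    intro j f hf g hg
    rw [mem_mapL] at hg ⊢
    obtain ⟨y, hy, rfl⟩ := hg
    exact ⟨σ.symm f * y ^ p, mem_frob1 (hσ _ f hf) hy,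
      by rw [map_mul, map_pow, AlgEquiv.apply_symm_apply]⟩
  · unfold mapL
    rw [Submodule.map_le_iff_le_comap]
    apply frob1_le
    intro j f hf g hg
    rw [Submodule.mem_comap]
    change σ (f * g ^ p) ∈ _
    rw [map_mul, map_pow]
    exact mem_frob1 (hσ' _ f hf) (mem_mapL.2 ⟨g, hg, rfl⟩)

section Symm

variable {S : Places D ι} (Y : Symm D S)

theorem act_symm_F (γ : Y.Γ) (m : ℤ) (f : Q) (hf : f ∈ D.F m) : (Y.act γ).symm f ∈ D.F m := by
  have : (Y.act γ).symm = Y.act γ⁻¹ := by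
    rw [map_inv]; rfl
  rw [this]
  exact Y.F_le γ⁻¹ m f hf

theorem isTLat_act (γ : Y.Γ) {I : ℤ → Submodule k Q} (hI : IsTLat D I) :
    IsTLat D (mapL (Y.act γ) I) :=
  isTLat_mapL (act_symm_F Y γ) (Y.F_le γ) hI

theorem finrank_frob1_act (γ : Y.Γ) (p : ℕ) (I : ℤ → Submodule k Q) (m : ℤ) :
    finrank k (frob1 D p (mapL (Y.act γ) I) m) = finrank k (frob1 D p I m) := by
  rw [frob1_mapL (act_symm_F Y γ) (Y.F_le γ), finrank_mapL]

theorem ordL_act (γ : Y.Γ) (P : ι) (I : ℤ → Submodule k Q) :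
    ordL S (Y.perm γ P) (mapL (Y.act γ) I) = ordL S P I := by
  unfold ordL
  congr 1
  ext n
  constructor
  · rintro ⟨m, g, hg, g0, rfl⟩
    obtain ⟨y, hy, rfl⟩ := mem_mapL.1 hg
    have y0 : y ≠ 0 := by rintro rfl; simp at g0
    exact ⟨m, y, hy, y0, by rw [Y.ord_perm γ P y y0, Y.c_perm]⟩
  · rintro ⟨m, g, hg, g0, rfl⟩
    exact ⟨m, Y.act γ g, mem_mapL.2 ⟨g, hg, rfl⟩, by simpa using g0,
      by rw [Y.ord_perm γ P g g0, Y.c_perm]⟩

end Symm

end Basic

end Crest.Agent.R169.TwoStep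
end

-- ▼ part R169/PartD
section

/-!
# Row 169, PART D: assembly (owner helper862)
-/

set_option autoImplicit false
set_option maxHeartbeats 400000

namespace Crest.Agent.R169.PartD

open Module DShape

section

variable {k Q ι : Type} [Field k] [Field Q] [Algebra k Q] {D : TData k Q}

theorem exHP [Infinite k] {I : ℤ → Submodule k Q} (hI : IsLat D.u D.v I) :
    ∃ (n : ℕ) (b c : ℚ), HasHP I n b c := by
  obtain ⟨b, c, h, -, -⟩ := IsLat.exists_hasHP (K := D.K0) (V := Q) D.isRat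
    (IsLat.restrict (L := D.K0) (Q := Q) (V := Q) hI)
  exact ⟨_, b, c, h⟩

theorem isFam_frob1 (p : ℕ) (I : ℤ → Submodule k Q) : IsFam D.u D.v (frob1 D p I) := by
  have key : ∀ (m : ℤ) (t : Q), t ∈ D.F 1 → ∀ e ∈ frob1 D p I m, t * e ∈ frob1 D p I (m + 1) := by
    intro m t ht e he
    induction he using Submodule.span_induction with
    | mem w hw =>
      obtain ⟨j, f, hf, g, hg, rfl⟩ := hw
      apply Submodule.subset_span
      refine ⟨j, t * f, ?_, g, hg, by ring⟩
      have := D.mul_mem _ _ _ ht _ hf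
      have e1 : 1 + (m - p * j) = m + 1 - p * j := by ring
      rwa [e1] at this
    | zero => rw [mul_zero]; exact Submodule.zero_mem _
    | add w w' _ _ h1 h2 => rw [mul_add]; exact Submodule.add_mem _ h1 h2
    | smul c w _ h1 => rw [mul_smul_comm]; exact Submodule.smul_mem _ _ h1
  refine ⟨fun m e he => ?_, fun m e he => ?_, fun m e he => ?_⟩
  · have := key m 1 D.one_mem e he
    rwa [one_mul] at this
  · exact key m D.u D.u_mem e he
  · exact key m D.v D.v_mem e he


theorem eventual {N : ℕ} {bT cT : ℚ} [Infinite k] (hT : HasHP D.F N bT cT)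
    {I : ℤ → Submodule k Q} (hI : IsLat D.u D.v I) (hle : ∀ m, I m ≤ D.F m) {C : ℕ}
    (hC : ∃ m₀ : ℤ, ∀ m ≥ m₀, finrank k (D.F m) ≤ finrank k (I m) + C) :
    ∃ (e : ℕ) (m₀ : ℤ), e ≤ C ∧ ∀ m ≥ m₀, finrank k (D.F m) = finrank k (I m) + e := by
  obtain ⟨n, b, c, m₁, h1⟩ := exHP hI
  obtain ⟨m₂, h2⟩ := hT
  obtain ⟨m₃, h3⟩ := hC
  have hfin : ∀ m, Module.Finite k (D.F m) := D.lat.fin
  obtain ⟨e, he, h⟩ := eventually_const (f := fun m => finrank k (D.F m))
    (g := fun m => finrank k (I m)) (m₀ := max m₁ (max m₂ m₃)) (C := C)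
    (fun m hm => h2 m (le_trans (le_trans (le_max_left _ _) (le_max_right _ _)) hm))
    (fun m hm => h1 m (le_trans (le_max_left _ _) hm))
    (fun m _ => by
      have := hfin m
      exact Submodule.finrank_mono (hle m))
    (fun m hm => h3 m (le_trans (le_trans (le_max_right _ _) (le_max_right _ _)) hm))
  exact ⟨e, _, he, h⟩

/-- rank one lattices with principal order function -/
theorem principal_step [IsAlgClosed k] (S : Places D ι) (p : ℕ) [Fact p.Prime] [CharP k p]
    {N : ℕ} {bT cT : ℚ} (hT : HasHP D.F N bT cT) (hcol : ColengthStatement D p)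
    {J : ℤ → Submodule k Q} (hJ : IsTLat D J) {f : Q} (hf : f ≠ 0) {κ : ℤ}
    (hord : ∀ P, ordL S P J = (S.pl P).ord f + S.c P * κ) :
    ∃ (e e' : ℕ) (m₀ : ℤ), e' ≤ p ^ 2 * e ∧ ∀ m ≥ m₀,
      finrank k (J m) + e = finrank k (D.F (m - κ)) ∧
      finrank k (frob1 D p J m) + e' = finrank k (D.F (m - p * κ)) := by
  have : Infinite k := IsAlgClosed.instInfinite
  have hleast : ∀ P, IsLeast (ordSet S P J) (ordL S P J) := by
    intro P
    constructor
    · obtain ⟨m, g, hg, g0, h⟩ := TwoStep.ordL_attained S P hJ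
      exact ⟨m, g, hg, g0, by omega⟩
    · rintro x ⟨m, g, hg, g0, rfl⟩
      have h1 := TwoStep.ordL_le S P hJ hg
      rcases h1 with h1 | h1
      · exact absurd h1 g0
      · omega
  have h0 : ∀ P, IsLeast (ordSet S P (tw f κ J)) 0 := by
    intro P
    have h1 := isLeast_tw S P hf κ (hleast P)
    rw [hord P] at h1
    have e : (S.pl P).ord f + S.c P * κ - (S.pl P).ord f - S.c P * κ = 0 := by ring
    rwa [e] at h1
  have hI := isTLat_tw (D := D) hf κ hJ
  have hle := le_F_of_isLeast S h0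
  obtain ⟨C, hC⟩ := D1.boundedColength S hT (tw f κ J) hI hle (fun P => ordL_eq S (h0 P))
  obtain ⟨e, m₁, -, he⟩ := eventual hT hI.lat hle ⟨0, fun m _ => hC m⟩
  obtain ⟨m₂, h2⟩ := hcol (tw f κ J) e hI hle ⟨m₁, fun m hm => (he m hm).le⟩
  have hlat2 : IsLat D.u D.v (frob1 D p (tw f κ J)) :=
    IsLat.of_le (K := Q) (V := Q) D.lat (isFam_frob1 p _) (frob1_le hle)
  obtain ⟨e', m₃, he', h3⟩ := eventual hT hlat2 (frob1_le hle) ⟨m₂, h2⟩
  refine ⟨e, e', max (m₁ + κ) (m₃ + p * κ), he', fun m hm => ⟨?_, ?_⟩⟩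
  · have h4 := he (m - κ) (by have := le_trans (le_max_left _ _) hm; omega)
    rw [finrank_tw hf] at h4
    have e1 : m - κ + κ = m := by ring
    rw [e1] at h4
    exact h4.symm
  · have h4 := h3 (m - p * κ) (by have := le_trans (le_max_right _ _) hm; omega)
    rw [frob1_tw p hf, finrank_tw (pow_ne_zero p hf)] at h4
    have e1 : m - p * κ + p * κ = m := by ring
    rw [e1] at h4
    exact h4.symm

theorem shape [IsAlgClosed k] (S : Places D ι) (Y : Symm D S) (p : ℕ) [Fact p.Prime]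
    [CharP k p] {N : ℕ} {bT cT : ℚ} (hT : HasHP D.F N bT cT) (hcol : ColengthStatement D p)
    (hprin : PrincipalStatement D S Y) {r : ℕ}
    (G : ℤ → Submodule k (Fin (r + 1) → Q)) (hG : IsTLat D G) :
    DNum.Shape D p G (frobPull D p G) := by
  classical
  have : Infinite k := IsAlgClosed.instInfinite
  have : CharP Q p := charP_of_injective_algebraMap (algebraMap k Q).injective p
  obtain ⟨a, I, hI, hd1, hd2⟩ := Flag1.flag_dims (p := p) S G hG
  set s : Finset (Y.Γ × Y.Γ) := Finset.univ ×ˢ Y.μ with hs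
  have hsne : s.Nonempty := Finset.Nonempty.product ⟨1, Finset.mem_univ _⟩ Y.μ_one
  obtain ⟨A, J, hA, hJ, hordJ, hj1, hj2⟩ := TwoStep.multi_step S p s hsne
    (fun x => mapL (Y.act (x.1 * x.2)) I) (fun x _ => TwoStep.isTLat_act Y (x.1 * x.2) hI)
  obtain ⟨f, κ, hf, hfκ⟩ := hprin I hI
  have hord : ∀ P, ordL S P J = (S.pl P).ord f + S.c P * (κ - A.sum) := by
    intro P
    rw [hordJ P, hs, Finset.sum_product, hfκ P]
    ring
  obtain ⟨e, e', m₀, he, hm⟩ := principal_step S p hT hcol hJ hf hord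
  have hMpos : 0 < s.card := Finset.card_pos.mpr hsne
  refine ⟨s.card, s.card • (Finset.univ.val.map (fun i : Fin r => - a i)) +
    A.map (fun x => -x) + {-(κ - A.sum)}, e, e', m₀, hMpos, ?_, he, fun m hmm => ?_⟩
  · simp only [Multiset.card_add, Multiset.card_nsmul, Multiset.card_map, Finset.card_val,
      Finset.card_univ, Fintype.card_fin, Multiset.card_singleton]
    rw [mul_add, mul_one]
    omega
  · obtain ⟨h1, h2⟩ := hm m hmm
    constructor
    · have h3 := hj1 m
      have h4 : ∑ x ∈ s, finrank k (mapL (Y.act (x.1 * x.2)) I m) = s.card * finrank k (I m) := by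
        rw [Finset.sum_congr rfl (fun x _ => TwoStep.finrank_mapL (Y.act (x.1 * x.2)) I m),
          Finset.sum_const, smul_eq_mul]
      rw [h4] at h3
      simp only [Multiset.map_add, Multiset.sum_add, Multiset.map_nsmul, Multiset.sum_nsmul,
        Multiset.map_singleton, Multiset.sum_singleton, Multiset.map_map, Function.comp_def]
      have e1 : (Multiset.map (fun x : Fin r => finrank k (D.F (m + -a x))) Finset.univ.val).sum =
          ∑ i, finrank k (D.F (m - a i)) := rfl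
      have e2 : (Multiset.map (fun x : ℤ => finrank k (D.F (m + -x))) A).sum =
          (A.map fun a => finrank k (D.F (m - a))).sum := rfl
      have e3 : m + -(κ - A.sum) = m - (κ - A.sum) := rfl
      rw [e1, e2, e3, hd1 m, mul_add, h3, ← h1, smul_eq_mul]
      ring
    · have h3 := hj2 m
      have h4 : ∑ x ∈ s, finrank k (frob1 D p (mapL (Y.act (x.1 * x.2)) I) m) =
          s.card * finrank k (frob1 D p I m) := by
        rw [Finset.sum_congr rfl (fun x _ => TwoStep.finrank_frob1_act Y (x.1 * x.2) p I m),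
          Finset.sum_const, smul_eq_mul]
      rw [h4] at h3
      simp only [Multiset.map_add, Multiset.sum_add, Multiset.map_nsmul, Multiset.sum_nsmul,
        Multiset.map_singleton, Multiset.sum_singleton, Multiset.map_map, Function.comp_def]
      have e1 : (Multiset.map (fun x : Fin r => finrank k (D.F (m + p * -a x)))
          Finset.univ.val).sum = ∑ i, finrank k (D.F (m - p * a i)) := by
        refine Finset.sum_congr rfl (fun i _ => ?_)
        rw [show m + p * -a i = m - p * a i by ring]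
      have e2 : (Multiset.map (fun x : ℤ => finrank k (D.F (m + p * -x))) A).sum =
          (A.map fun a => finrank k (D.F (m - p * a))).sum := by
        congr 1
        refine Multiset.map_congr rfl (fun x _ => ?_)
        rw [show m + p * -x = m - p * x by ring]
      have e3 : m + p * -(κ - A.sum) = m - p * (κ - A.sum) := by ring
      rw [e1, e2, e3, hd2 m, mul_add, h3, ← h2, smul_eq_mul]
      ring

/-- C3 for the whole lattice together with C7 -/
theorem whole [IsAlgClosed k] (S : Places D ι) (Y : Symm D S) (p : ℕ) [Fact p.Prime]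
    [CharP k p] {N : ℕ} {bT cT : ℚ} (hT : HilbT D N bT cT) (hcol : ColengthStatement D p)
    (hprin : PrincipalStatement D S Y) (R : ℕ) (G : ℤ → Submodule k (Fin R → Q))
    (hG : IsTLat D G) :
    ∃ b c b' c' : ℚ, HasHP G (N * R) b c ∧ HasHP (frobPull D p G) (N * R) b' c' ∧
      b' = R * bT + p * (b - R * bT) ∧
      (0 < R → (p : ℚ) ^ 2 * (Jinv (N * R) b c - R * Jinv N bT cT) + R * Jinv N bT cT
        ≤ Jinv (N * R) b' c') := by
  rcases R with _ | r
  · refine ⟨0, 0, 0, 0, ?_, ?_, by simp, fun h => absurd h (lt_irrefl _)⟩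
    · refine ⟨0, fun m _ => ?_⟩
      have : finrank k (G m) = 0 := Module.finrank_zero_of_subsingleton
      rw [this]; simp
    · refine ⟨0, fun m _ => ?_⟩
      have : finrank k (frobPull D p G m) = 0 := Module.finrank_zero_of_subsingleton
      rw [this]; simp
  · obtain ⟨b, c, b', c', h1, h2, h3, h4⟩ :=
      DNum.whole_of_shape hT (Nat.succ_pos r) (shape S Y p hT.hp hcol hprin G hG)
    exact ⟨b, c, b', c', h1, h2, h3, fun _ => h4⟩

theorem c7 [IsAlgClosed k] (S : Places D ι) (Y : Symm D S) (p : ℕ) [Fact p.Prime]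
    [CharP k p] {N : ℕ} {bT cT : ℚ} (hT : HilbT D N bT cT) (hcol : ColengthStatement D p)
    (hprin : PrincipalStatement D S Y) : C7 D p N bT cT := by
  intro R G hR hG b c b' c' h h'
  obtain ⟨b1, c1, b1', c1', h1, h2, -, h4⟩ := whole S Y p hT hcol hprin R G hG
  obtain ⟨-, rfl, rfl⟩ := hasHP_unique h h1
  obtain ⟨-, rfl, rfl⟩ := hasHP_unique h' h2
  exact h4 hR

end

end Crest.Agent.R169.PartD
end

-- ▼ part R169/Principal

/-!
# Row 169, Part D3 (helper641): the sum of all translates of a rank one lattice has principal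
order function.
-/

set_option autoImplicit false

namespace Crest.Agent.R169.Principal

open Module TwoStep

section

variable {k Q ι : Type} [Field k] [Field Q] [Algebra k Q] {D : TData k Q} {S : Places D ι}
  (Y : Symm D S)

theorem ord_prod (P : Place Q) {α : Type} (s : Finset α) (f : α → Q) (hf : ∀ i ∈ s, f i ≠ 0) :
    P.ord (∏ i ∈ s, f i) = ∑ i ∈ s, P.ord (f i) := by
  classical
  induction s using Finset.induction_on with
  | empty => simp [P.ord_one]
  | insert a s ha ih =>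
    rw [Finset.prod_insert ha, Finset.sum_insert ha, P.ord_mul, ih]
    · exact fun i hi => hf i (Finset.mem_insert_of_mem hi)
    · exact hf a (Finset.mem_insert_self a s)
    · exact Finset.prod_ne_zero_iff.2 fun i hi => hf i (Finset.mem_insert_of_mem hi)

theorem perm_inv (γ : Y.Γ) (P : ι) : Y.perm γ (Y.perm γ⁻¹ P) = P := by
  rw [← Y.perm_mul, mul_inv_cancel, Y.perm_one]

theorem ord_act (γ : Y.Γ) (P : ι) (x : Q) (hx : x ≠ 0) :
    (S.pl P).ord (Y.act γ x) = (S.pl (Y.perm γ⁻¹ P)).ord x := by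
  have := Y.ord_perm γ (Y.perm γ⁻¹ P) x hx
  rwa [perm_inv] at this

theorem ordL_act' (γ : Y.Γ) (P : ι) (I : ℤ → Submodule k Q) :
    ordL S P (mapL (Y.act γ) I) = ordL S (Y.perm γ⁻¹ P) I := by
  have := ordL_act Y γ (Y.perm γ⁻¹ P) I
  rwa [perm_inv] at this

theorem act_ne_zero (γ : Y.Γ) {x : Q} (hx : x ≠ 0) : Y.act γ x ≠ 0 := by
  rwa [Ne, map_eq_zero_iff _ (Y.act γ).injective]

/-- step A: over the affine places the norm of a rank one lattice is principal. -/
theorem exists_affine [Infinite k] {I : ℤ → Submodule k Q} (hI : IsTLat D I) :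
    ∃ g : Q, g ≠ 0 ∧ ∀ P, S.c P = 0 →
      (S.pl P).ord g = ∑ δ ∈ Y.μ, ordL S (Y.perm δ⁻¹ P) I := by
  classical
  obtain ⟨d, x, hx, hx0⟩ := exists_ne_zero hI
  let A : Set ι := {P | (S.pl P).ord x ≠ ordL S P I - S.c P * d}
  have hA : A.Finite := by
    refine ((S.fin x hx0).union (S.cfin.union (ordL_finite S hI))).subset ?_
    intro P hP
    by_contra hcon
    simp only [Set.mem_union, Set.mem_ofPred_eq, not_or, not_not] at hcon
    obtain ⟨h1, h2, h3⟩ := hcon
    apply hP
    rw [h1, h2, h3]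
    simp
  let B : Set ι := ⋃ γ : Y.Γ, Y.perm γ '' A
  have hB : B.Finite := Set.finite_iUnion fun γ => hA.image _
  obtain ⟨M, hM⟩ := exists_exact S hI B hB
  obtain ⟨y, hy, hy0, hyex⟩ := hM M le_rfl
  obtain ⟨g, hg0, hg⟩ := Y.gcd x y hx0 hy0
  refine ⟨g, hg0, fun P hP => ?_⟩
  rw [hg P hP]
  have hc : ∀ γ : Y.Γ, S.c (Y.perm γ P) = 0 := fun γ => by rw [Y.c_perm, hP]
  have e1 : ∀ w : Q, w ≠ 0 → (S.pl P).ord (∏ δ ∈ Y.μ, Y.act δ w) =
      ∑ δ ∈ Y.μ, (S.pl (Y.perm δ⁻¹ P)).ord w := by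
    intro w hw
    rw [ord_prod _ _ _ fun δ _ => act_ne_zero Y δ hw]
    exact Finset.sum_congr rfl fun δ _ => ord_act Y δ P w hw
  rw [e1 x hx0, e1 y hy0]
  have hge : ∀ (m : ℤ) (w : Q), w ∈ I m → w ≠ 0 →
      ∑ δ ∈ Y.μ, ordL S (Y.perm δ⁻¹ P) I ≤ ∑ δ ∈ Y.μ, (S.pl (Y.perm δ⁻¹ P)).ord w := by
    intro m w hw hw0
    refine Finset.sum_le_sum fun δ _ => ?_
    have := ordL_le S (Y.perm δ⁻¹ P) hI hw
    rw [hc, zero_mul, sub_zero] at this
    exact (Place.ge_iff hw0).1 this
  have h1 := hge d x hx hx0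
  have h2 := hge M y hy hy0
  by_cases hall : ∀ δ ∈ Y.μ, Y.perm δ⁻¹ P ∉ A
  · have h3 : ∑ δ ∈ Y.μ, (S.pl (Y.perm δ⁻¹ P)).ord x = ∑ δ ∈ Y.μ, ordL S (Y.perm δ⁻¹ P) I := by
      refine Finset.sum_congr rfl fun δ hδ => ?_
      have h4 := hall δ hδ
      simp only [A, Set.mem_ofPred_eq, not_not] at h4
      rw [h4, hc, zero_mul, sub_zero]
    rw [h3]
    exact min_eq_left h2
  · push Not at hall
    obtain ⟨δ₀, -, hδ₀⟩ := hall
    have h3 : ∑ δ ∈ Y.μ, (S.pl (Y.perm δ⁻¹ P)).ord y = ∑ δ ∈ Y.μ, ordL S (Y.perm δ⁻¹ P) I := by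
      refine Finset.sum_congr rfl fun δ _ => ?_
      have h4 : Y.perm δ⁻¹ P ∈ B := by
        refine Set.mem_iUnion.2 ⟨δ⁻¹ * δ₀, Y.perm δ₀⁻¹ P, hδ₀, ?_⟩
        rw [← Y.perm_mul, mul_assoc, mul_inv_cancel, mul_one]
      rw [hyex _ h4, hc, zero_mul, sub_zero]
    rw [h3]
    exact min_eq_right h1

/-- **D3** -/
theorem principal [Infinite k] : PrincipalStatement D S Y := by
  classical
  intro I hI
  obtain ⟨g, hg0, hg⟩ := exists_affine Y hI
  let t : ι → ℤ := fun P => ∑ δ ∈ Y.μ, ordL S (Y.perm δ⁻¹ P) I - (S.pl P).ord g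
  let h : ι → ℤ := fun P => ∑ γ : Y.Γ, t (Y.perm γ⁻¹ P)
  have hinv : ∀ (σ : Y.Γ) (P : ι), h (Y.perm σ P) = h P := by
    intro σ P
    show ∑ γ : Y.Γ, t (Y.perm γ⁻¹ (Y.perm σ P)) = ∑ γ : Y.Γ, t (Y.perm γ⁻¹ P)
    rw [← Equiv.sum_comp (Equiv.mulLeft σ) (fun γ => t (Y.perm γ⁻¹ (Y.perm σ P)))]
    refine Finset.sum_congr rfl fun γ _ => ?_
    rw [Equiv.coe_mulLeft, ← Y.perm_mul, mul_inv_rev, mul_assoc, inv_mul_cancel, mul_one]
  obtain ⟨κ, hκ⟩ : ∃ κ : ℤ, ∀ P, S.c P = 1 → h P = κ := by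
    by_cases hex : ∃ P₀, S.c P₀ = 1
    · obtain ⟨P₀, hP₀⟩ := hex
      refine ⟨h P₀, fun P hP => ?_⟩
      obtain ⟨γ, rfl⟩ := Y.trans P₀ P hP₀ hP
      exact hinv γ P₀
    · exact ⟨0, fun P hP => absurd ⟨P, hP⟩ hex⟩
  refine ⟨∏ γ : Y.Γ, Y.act γ g, κ, ?_, ?_⟩
  · exact Finset.prod_ne_zero_iff.2 fun γ _ => act_ne_zero Y γ hg0
  · intro P
    rw [ord_prod _ _ _ fun γ _ => act_ne_zero Y γ hg0]
    have e1 : ∀ γ : Y.Γ, ∑ δ ∈ Y.μ, ordL S P (mapL (Y.act (γ * δ)) I) =
        t (Y.perm γ⁻¹ P) + (S.pl P).ord (Y.act γ g) := by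
      intro γ
      rw [ord_act Y γ P g hg0]
      simp only [t]
      rw [sub_add_cancel]
      refine Finset.sum_congr rfl fun δ _ => ?_
      rw [ordL_act', mul_inv_rev, Y.perm_mul]
    rw [Finset.sum_congr rfl fun γ _ => e1 γ, Finset.sum_add_distrib]
    have e2 : ∑ γ : Y.Γ, t (Y.perm γ⁻¹ P) = S.c P * κ := by
      rcases S.c_eq P with hc | hc
      · rw [hc, zero_mul]
        refine Finset.sum_eq_zero fun γ _ => ?_
        simp only [t]
        rw [hg _ (by rw [Y.c_perm, hc]), sub_self]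
      · rw [hc, one_mul]
        exact hκ P hc
    rw [e2]
    ring

end

end Crest.Agent.R169.Principal
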