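import Crest.Agent.R169.SymGcd0_Mg
import Crest.Agent.R169.D7
import Crest.Agent.R169.Defs
import Crest.Agent.R169.RingBasis
import Crest.Agent.R169.Ring

-- ▼ part R169/Pt/D7Reg
section

/-!
# Row 169, F5 for `D7 k` (helper785)
-/

set_option autoImplicit false

namespace Crest.Agent.R169

namespace Pt

/-- F5: all points of `Proj T_7` are regular -/
theorem D7_ptReg (k : Type) [Field k] [IsAlgClosed k] [h : NeZero ((7 : ℕ) : k)] :
    AllPtRegular (D7 k) := by
  have h7 : (7 : k) ≠ 0 := by exact_mod_cast h.out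
  exact allPtRegular h7 (D7 k) (fun m q => Iff.rfl) rfl rfl

end Pt

end Crest.Agent.R169
end

-- ▼ part R169/Trans7
section

/-!
# Row 169, Symm field `trans`: transitivity of `μ_7^5 ⋊ ℤ/5` on the places over `X` (helper69)
-/

set_option autoImplicit false

open Crest.R169

namespace Crest.Agent.R169.Trans7

section

variable {n : ℕ} {k Q : Type} [Field k] [Field Q] [Algebra k Q]

/-- `TO ≃ D.Ttot` -/
noncomputable def eTO (D : TData k Q) (ι : ORing n k →ₐ[k] Q)
    (hF : ∀ m, D.F m = (Fil n k m).map ι.toLinearMap) : TO n k →+* D.Ttot :=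
  ((Polynomial.mapRingHom (ι : ORing n k →+* Q)).comp ((TO n k).val : TO n k →+* _)).codRestrict
    D.Ttot.toSubring (by
      intro t m
      show (Polynomial.map (ι : ORing n k →+* Q) t.1).coeff m ∈ D.F m
      rw [Polynomial.coeff_map, hF]
      exact ⟨_, t.2 m, rfl⟩)

theorem eTO_coeff (D : TData k Q) (ι : ORing n k →ₐ[k] Q)
    (hF : ∀ m, D.F m = (Fil n k m).map ι.toLinearMap) (t : TO n k) (m : ℕ) :
    (eTO D ι hF t).1.coeff m = ι (t.1.coeff m) := by
  show (Polynomial.map (ι : ORing n k →+* Q) t.1).coeff m = _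
  rw [Polynomial.coeff_map]
  rfl

theorem eTO_injective (D : TData k Q) (ι : ORing n k →ₐ[k] Q) (hι : Function.Injective ι)
    (hF : ∀ m, D.F m = (Fil n k m).map ι.toLinearMap) : Function.Injective (eTO D ι hF) := by
  intro s t hst
  apply TO_ext
  intro m
  apply hι
  rw [← eTO_coeff D ι hF, ← eTO_coeff D ι hF, hst]

theorem eTO_surjective (D : TData k Q) (ι : ORing n k →ₐ[k] Q) (hι : Function.Injective ι)
    (hF : ∀ m, D.F m = (Fil n k m).map ι.toLinearMap) : Function.Surjective (eTO D ι hF) := by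
  intro s
  have hs : ∀ m : ℕ, ∃ x ∈ Fil n k m, ι x = s.1.coeff m := by
    intro m
    have := s.2 m
    rw [hF] at this
    exact this
  have h1 : s.1 ∈ Polynomial.lifts (ι : ORing n k →+* Q) := by
    rw [Polynomial.lifts_iff_coeff_lifts]
    intro m
    obtain ⟨x, -, hx⟩ := hs m
    exact ⟨x, hx⟩
  obtain ⟨q, hq⟩ := (Polynomial.mem_lifts _).mp h1
  have hc : ∀ m, ι (q.coeff m) = s.1.coeff m := by
    intro m
    rw [← hq, Polynomial.coeff_map]
    rfl
  refine ⟨⟨q, ?_⟩, ?_⟩
  · intro m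
    obtain ⟨x, hx, hx2⟩ := hs m
    have : q.coeff m = x := hι (by rw [hc, hx2])
    rw [this]; exact hx
  · apply Subtype.ext
    exact hq

/-- END STATEMENT of the field `trans`, general form. -/
theorem trans7_gen (hn : 0 < n) {ζ₀ : k} (hζ : IsPrimitiveRoot ζ₀ n)
    (b : Module.Basis {β : Fin 5 → ℕ // Good n β} k (ORing n k)) (hb : ∀ β, b β = zm n k β.1)
    (hfil : ∀ (m : ℤ) (x : ORing n k), x ∈ Fil n k m → ∀ β, b.repr x β ≠ 0 → ∀ j, w j β.1 ≤ m)
    (D : TData k Q) (ι : ORing n k →ₐ[k] Q) (hι : Function.Injective ι)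
    (hF : ∀ m, D.F m = (Fil n k m).map ι.toLinearMap) (P P' : Ideal D.Ttot)
    (hP : IsH1 P) (hP' : IsH1 P') (hX : D.mono 1 1 D.one_mem ∈ P) (hX' : D.mono 1 1 D.one_mem ∈ P') :
    ∃ (i : Fin 5) (ζ : Fin 5 → k), (∀ j, ζ j ^ n = 1) ∧ ∀ σ : Q ≃ₐ[k] Q,
      (∀ j, σ (ι (z n k j)) = ζ j • ι (z n k (j + i))) →
      ∀ t t' : D.Ttot, (∀ m, t'.1.coeff m = σ (t.1.coeff m)) → (t ∈ P ↔ t' ∈ P') := by
  let e : TO n k ≃+* D.Ttot := RingEquiv.ofBijective (eTO D ι hF)
    ⟨eTO_injective D ι hι hF, eTO_surjective D ι hι hF⟩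
  have he : ∀ (t : TO n k) (m : ℕ), (e t).1.coeff m = ι (t.1.coeff m) := eTO_coeff D ι hF
  have hx : e xE = D.mono 1 1 D.one_mem := by
    apply Subtype.ext
    ext m
    rw [he]
    show ι ((Polynomial.monomial 1 (1 : ORing n k)).coeff m) = (Polynomial.monomial 1 (1 : Q)).coeff m
    rw [Polynomial.coeff_monomial, Polynomial.coeff_monomial]
    split_ifs <;> simp
  obtain ⟨i, g, hg⟩ := trans_core b hb hfil hn hζ (Ideal.comap (e : TO n k →+* D.Ttot) P)
    (Ideal.comap (e : TO n k →+* D.Ttot) P') (hP.comap e) (hP'.comap e)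
    (by rw [Ideal.mem_comap]; show e xE ∈ P; rw [hx]; exact hX)
    (by rw [Ideal.mem_comap]; show e xE ∈ P'; rw [hx]; exact hX')
  refine ⟨i, fun j => ((g j : kˣ) : k), fun j => mu_pow g j, ?_⟩
  intro σ hσ t t' ht
  have hσι : ∀ x : ORing n k, σ (ι x) = ι (phiO i g x) := by
    have : ((σ : Q →ₐ[k] Q).comp ι) = ι.comp (phiO i g) := by
      apply ORing.algHom_ext
      intro j
      rw [AlgHom.comp_apply, AlgHom.comp_apply, phiO_z, map_smul]
      exact hσ j
    exact fun x => DFunLike.congr_fun this x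
  obtain ⟨s, rfl⟩ := e.surjective t
  have ht' : t' = e (tauO i g s) := by
    apply Subtype.ext
    ext m
    rw [ht, he, he, hσι, tauO_coeff]
  have h1 : e s ∈ P ↔ s ∈ Ideal.comap (e : TO n k →+* D.Ttot) P := by
    rw [Ideal.mem_comap]; rfl
  rw [h1, hg, Ideal.mem_comap, Ideal.mem_comap, ht']
  rfl

end

/-- END STATEMENT of the field `trans` for `n = 7`. -/
theorem trans7 {k Q : Type} [Field k] [IsAlgClosed k] [NeZero ((7 : ℕ) : k)] [Field Q]
    [Algebra k Q] (D : TData k Q) (ι : ORing 7 k →ₐ[k] Q) (hι : Function.Injective ι)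
    (hF : ∀ m, D.F m = (Fil 7 k m).map ι.toLinearMap) (P P' : Ideal D.Ttot)
    (hP : IsH1 P) (hP' : IsH1 P') (hX : D.mono 1 1 D.one_mem ∈ P) (hX' : D.mono 1 1 D.one_mem ∈ P') :
    ∃ (i : Fin 5) (ζ : Fin 5 → k), (∀ j, ζ j ^ 7 = 1) ∧ ∀ σ : Q ≃ₐ[k] Q,
      (∀ j, σ (ι (z 7 k j)) = ζ j • ι (z 7 k (j + i))) →
      ∀ t t' : D.Ttot, (∀ m, t'.1.coeff m = σ (t.1.coeff m)) → (t ∈ P ↔ t' ∈ P') := by
  obtain ⟨ζ₀, hζ⟩ := HasEnoughRootsOfUnity.exists_primitiveRoot k 7
  exact trans7_gen (by norm_num) hζ (zBasis 7 k) (fun β => zBasis_apply β)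
    (fun m x hx => (mem_Fil_iff m x).mp hx) D ι hι hF P P' hP hP' hX hX'

end Crest.Agent.R169.Trans7
end

-- ▼ part R169/SymmG
section

/-!
# Row 169, F6: the finite group `Γ = μ_n^5 ⋊ ℤ/5` of automorphisms of `Frac O_n` (helper641)

`Gam n k ≤ Aut_k(Frac O_n)` = automorphisms `σ` with `σ z_j = ζ_j z_{j+i}`.
-/

set_option autoImplicit false
set_option linter.unusedSectionVars false

namespace Crest.Agent.R169.SymmG

open Crest.R169 SymInv

section

variable (n : ℕ) (k : Type) [Field k] [IsDomain (ORing n k)]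

/-- the coordinates in the fraction field -/
noncomputable def zq (j : Fin 5) : QField n k := algebraMap (ORing n k) (QField n k) (z n k j)

variable {n k}

/-- `σ z_j = ζ_j z_{j+i}`, `ζ_j ∈ μ_n` -/
def IsMon (σ : QField n k ≃ₐ[k] QField n k) (i : Fin 5) (ζ : Fin 5 → k) : Prop :=
  (∀ j, ζ j ^ n = 1) ∧ ∀ j, σ (zq n k j) = ζ j • zq n k (j + i)

theorem ext_zq {σ τ : QField n k →ₐ[k] QField n k} (h : ∀ j, σ (zq n k j) = τ (zq n k j)) :
    σ = τ := by
  have h1 : σ.comp (IsScalarTower.toAlgHom k (ORing n k) (QField n k)) =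
      τ.comp (IsScalarTower.toAlgHom k (ORing n k) (QField n k)) :=
    ORing.algHom_ext fun j => h j
  refine AlgHom.ext fun x => ?_
  obtain ⟨a, b, hb, rfl⟩ := IsFractionRing.div_surjective (A := ORing n k) x
  have ha := DFunLike.congr_fun h1 a
  have hb' := DFunLike.congr_fun h1 b
  simp only [AlgHom.comp_apply, IsScalarTower.coe_toAlgHom'] at ha hb'
  rw [map_div₀, map_div₀, ha, hb']

theorem ext_zq' {σ τ : QField n k ≃ₐ[k] QField n k} (h : ∀ j, σ (zq n k j) = τ (zq n k j)) :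
    σ = τ := by
  have := ext_zq (σ := (σ : QField n k →ₐ[k] QField n k)) (τ := (τ : QField n k →ₐ[k] QField n k)) h
  refine AlgEquiv.ext fun x => ?_
  exact DFunLike.congr_fun this x

theorem IsMon.mul {σ τ : QField n k ≃ₐ[k] QField n k} {i i' : Fin 5} {ζ ζ' : Fin 5 → k}
    (hσ : IsMon σ i ζ) (hτ : IsMon τ i' ζ') :
    IsMon (σ * τ) (i' + i) (fun j => ζ' j * ζ (j + i')) := by
  refine ⟨fun j => ?_, fun j => ?_⟩
  · rw [mul_pow, hσ.1, hτ.1, mul_one]
  · rw [AlgEquiv.mul_apply, hτ.2, map_smul, hσ.2, smul_smul, add_assoc]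

theorem IsMon.inv {σ : QField n k ≃ₐ[k] QField n k} {i : Fin 5} {ζ : Fin 5 → k}
    (hn : 0 < n) (hσ : IsMon σ i ζ) : IsMon σ⁻¹ (-i) (fun j => (ζ (j - i))⁻¹) := by
  refine ⟨fun j => ?_, fun j => ?_⟩
  · rw [inv_pow, hσ.1, inv_one]
  · have h0 : ζ (j - i) ≠ 0 := by
      intro h
      have := hσ.1 (j - i)
      rw [h, zero_pow hn.ne'] at this
      exact zero_ne_one this
    have h1 := hσ.2 (j - i)
    rw [sub_add_cancel] at h1
    have h2 : σ ((ζ (j - i))⁻¹ • zq n k (j - i)) = zq n k j := by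
      rw [map_smul, h1, smul_smul, inv_mul_cancel₀ h0, one_smul]
    rw [← sub_eq_add_neg, ← h2]
    exact AlgEquiv.symm_apply_apply σ _

variable (n k) in
/-- the group of monomial automorphisms -/
def Gam [NeZero n] : Subgroup (QField n k ≃ₐ[k] QField n k) where
  carrier := {σ | ∃ i ζ, IsMon σ i ζ}
  mul_mem' := by
    rintro σ τ ⟨i, ζ, h⟩ ⟨i', ζ', h'⟩
    exact ⟨_, _, h.mul h'⟩
  one_mem' := ⟨0, fun _ => 1, fun _ => one_pow _, fun j => by simp⟩
  inv_mem' := by
    rintro σ ⟨i, ζ, h⟩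
    exact ⟨_, _, h.inv (Nat.pos_of_ne_zero (NeZero.ne n))⟩

theorem finite_roots (hn : 0 < n) : {ζ : k | ζ ^ n = 1}.Finite := by
  classical
  have h : {ζ : k | ζ ^ n = 1} ⊆ ((Polynomial.X ^ n - 1 : Polynomial k).roots.toFinset : Set k) := by
    intro ζ hζ
    have hne : (Polynomial.X ^ n - 1 : Polynomial k) ≠ 0 := by
      have := Polynomial.X_pow_sub_C_ne_zero (R := k) hn 1
      simpa using this
    rw [Finset.mem_coe, Multiset.mem_toFinset, Polynomial.mem_roots hne]
    simp only [Polynomial.IsRoot.def, Polynomial.eval_sub, Polynomial.eval_pow,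
      Polynomial.eval_X, Polynomial.eval_one]
    rw [sub_eq_zero]
    exact hζ
  exact (Finset.finite_toSet _).subset h

instance finite_Gam [NeZero n] : Finite (Gam n k) := by
  have hn : 0 < n := Nat.pos_of_ne_zero (NeZero.ne n)
  let S : Set (Fin 5 → QField n k) := Set.pi Set.univ fun _ =>
    (fun x : k × Fin 5 => x.1 • zq n k x.2) '' ({ζ : k | ζ ^ n = 1} ×ˢ (Set.univ : Set (Fin 5)))
  have hS : S.Finite := by
    refine Set.Finite.pi fun _ => ?_
    exact ((finite_roots hn).prod Set.finite_univ).image _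
  let f : Gam n k → S := fun σ => ⟨fun j => σ.1 (zq n k j), by
    obtain ⟨i, ζ, h1, h2⟩ := σ.2
    intro j _
    exact ⟨(ζ j, j + i), ⟨h1 j, trivial⟩, (h2 j).symm⟩⟩
  have hf : Function.Injective f := by
    intro σ τ h
    apply Subtype.ext
    apply ext_zq'
    intro j
    exact congrFun (congrArg Subtype.val h) j
  have := hS.to_subtype
  exact Finite.of_injective f hf

noncomputable instance fintype_Gam [NeZero n] : Fintype (Gam n k) := Fintype.ofFinite _

/-- `σ` preserves the filtration -/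
theorem IsMon.map_Fil {σ : QField n k ≃ₐ[k] QField n k} {i : Fin 5} {ζ : Fin 5 → k}
    (hσ : IsMon σ i ζ) (m : ℤ) {x : QField n k} (hx : x ∈ FilQ n k m) : σ x ∈ FilQ n k m := by
  obtain ⟨a, ha, rfl⟩ := hx
  change σ (algebraMap (ORing n k) (QField n k) a) ∈ FilQ n k m
  unfold Fil at ha
  induction ha using Submodule.span_induction with
  | mem a ha =>
    obtain ⟨γ, hγ, rfl⟩ := ha
    have h1 : σ (algebraMap (ORing n k) (QField n k) (zm n k γ)) =
        (∏ j, ζ j ^ γ j) • algebraMap (ORing n k) (QField n k) (zm n k (fun j => γ (j - i))) := by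
      unfold zm
      rw [map_prod, map_prod, map_prod]
      have h2 : ∀ j, σ (algebraMap (ORing n k) (QField n k) (z n k j ^ γ j)) =
          ζ j ^ γ j • zq n k (j + i) ^ γ j := by
        intro j
        rw [map_pow, map_pow]
        have := hσ.2 j
        unfold zq at this
        rw [this, smul_pow]
        rfl
      rw [Finset.prod_congr rfl fun j _ => h2 j, Finset.prod_smul]
      congr 1
      rw [← Equiv.prod_comp (Equiv.addRight i) (fun j => algebraMap (ORing n k) (QField n k)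
        (z n k j ^ γ (j - i)))]
      refine Finset.prod_congr rfl fun j _ => ?_
      rw [Equiv.coe_addRight, add_sub_cancel_right, map_pow]
      rfl
    rw [h1]
    refine Submodule.smul_mem _ _ ⟨_, zm_mem_Fil ?_, rfl⟩
    intro l
    have h3 := hγ (l - i)
    unfold w at h3 ⊢
    have e1 : l - i + 4 = l + 4 - i := by abel
    have e2 : l - i + 1 = l + 1 - i := by abel
    rw [e1, e2] at h3
    exact h3
  | zero => rw [map_zero, map_zero]; exact Submodule.zero_mem _
  | add a b _ _ ha hb => rw [map_add, map_add]; exact Submodule.add_mem _ ha hb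
  | smul c a _ ha =>
    have : algebraMap (ORing n k) (QField n k) (c • a) =
        c • algebraMap (ORing n k) (QField n k) a := by
      rw [Algebra.smul_def, map_mul, ← IsScalarTower.algebraMap_apply, ← Algebra.smul_def]
    rw [this, map_smul]
    exact Submodule.smul_mem _ _ ha

/-! ### the torus part -/

/-- `rot ζ` as an automorphism -/
noncomputable def rotE (ζ : Mu n k) : ORing n k ≃ₐ[k] ORing n k :=
  AlgEquiv.ofAlgHom (rot ζ) (rot ζ⁻¹)
    (by
      refine AlgHom.ext fun x => ?_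
      rw [AlgHom.comp_apply, rot_rot, mul_inv_cancel]
      have : rot (1 : Mu n k) = AlgHom.id k (ORing n k) := by
        apply ORing.algHom_ext
        intro j
        rw [rot_z]
        simp
      rw [this])
    (by
      refine AlgHom.ext fun x => ?_
      rw [AlgHom.comp_apply, rot_rot, inv_mul_cancel]
      have : rot (1 : Mu n k) = AlgHom.id k (ORing n k) := by
        apply ORing.algHom_ext
        intro j
        rw [rot_z]
        simp
      rw [this])

/-- `rot ζ` on the fraction field -/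
noncomputable def sig (ζ : Mu n k) : QField n k ≃ₐ[k] QField n k :=
  IsFractionRing.algEquivOfAlgEquiv (rotE ζ)

theorem sig_zq (ζ : Mu n k) (j : Fin 5) :
    sig ζ (zq n k j) = ((ζ j : kˣ) : k) • zq n k j := by
  unfold sig zq
  rw [IsFractionRing.algEquivOfAlgEquiv_algebraMap]
  have : rotE ζ (z n k j) = ((ζ j : kˣ) : k) • z n k j := rot_z ζ j
  rw [this, Algebra.smul_def, map_mul, ← IsScalarTower.algebraMap_apply, ← Algebra.smul_def]

theorem isMon_sig (ζ : Mu n k) : IsMon (sig ζ) 0 (fun j => ((ζ j : kˣ) : k)) :=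
  ⟨fun j => coe_pow_eq_one ζ j, fun j => by rw [sig_zq, add_zero]⟩

theorem sig_mem [NeZero n] (ζ : Mu n k) : sig ζ ∈ Gam n k := ⟨_, _, isMon_sig ζ⟩

theorem sig_injective (h0 : ∀ j, zq n k j ≠ 0) :
    Function.Injective (sig : Mu n k → (QField n k ≃ₐ[k] QField n k)) := by
  intro ζ ξ h
  funext j
  have h1 := DFunLike.congr_fun h (zq n k j)
  rw [sig_zq, sig_zq] at h1
  have h2 : ((ζ j : kˣ) : k) = ((ξ j : kˣ) : k) := by
    rw [Algebra.smul_def, Algebra.smul_def] at h1
    exact (algebraMap k (QField n k)).injective (mul_right_cancel₀ (h0 j) h1)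
  exact Subtype.ext (Units.ext h2)

end

end Crest.Agent.R169.SymmG
end

-- ▼ part R169/SymGcd

/-!
# Row 169: field `gcd` of `Symm (D7 k) S` (helper239), final form
-/

set_option autoImplicit false

open Crest.R169

namespace Crest.Agent.R169.SymGcd

open Crest.Agent.R169.SymmAlg Crest.Agent.R169.SymInv OnOverO1

variable {n : ℕ} {k : Type} [Field k]

theorem map_rot (σ : Mu n k → (QField n k ≃ₐ[k] QField n k))
    (hσ : ∀ ζ j, σ ζ (algebraMap (ORing n k) (QField n k) (z n k j))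
      = ((ζ j : kˣ) : k) • algebraMap (ORing n k) (QField n k) (z n k j))
    (ζ : Mu n k) (x : ORing n k) :
    σ ζ (algebraMap (ORing n k) (QField n k) x) = algebraMap (ORing n k) (QField n k) (rot ζ x) := by
  have h : ((σ ζ : QField n k →ₐ[k] QField n k).comp
      (IsScalarTower.toAlgHom k (ORing n k) (QField n k)))
      = (IsScalarTower.toAlgHom k (ORing n k) (QField n k)).comp (rot ζ) := by
    apply ORing.algHom_ext
    intro j
    simp only [AlgHom.comp_apply, IsScalarTower.coe_toAlgHom', rot_z]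
    rw [Algebra.smul_def, map_mul, ← IsScalarTower.algebraMap_apply, ← Algebra.smul_def]
    exact hσ ζ j
  exact DFunLike.congr_fun h x

/-- The field `gcd` of `Symm`, for `D` with `D.F m = FilQ n k m` and places with the property that
the places with `c P = 0` come from homogeneous height one primes of `D.Ttot`. -/
theorem gcd_field [IsDomain (ORing n k)] [IsDomain (ORing 1 k)]
    [UniqueFactorizationMonoid (ORing 1 k)] [NeZero (n : k)] [Fintype (rootsOfUnity n k)] {ζ₀ : k}
    (hζ₀ : IsPrimitiveRoot ζ₀ n) (D : TData k (QField n k)) (hDF : ∀ m : ℤ, D.F m = FilQ n k m)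
    {ι : Type} (S : Places D ι)
    (hpl : ∀ P, S.c P = 0 → ∃ 𝔓 : Ideal D.Ttot, MinNZ 𝔓 ∧
      (∀ t ∈ 𝔓, ∀ m : ℕ, D.mono m ((t : Polynomial (QField n k)).coeff m) (t.2 m) ∈ 𝔓) ∧
      ∀ (m : ℕ) (f : QField n k) (hf : f ∈ D.F m), f ≠ 0 →
        (D.mono m f hf ∈ 𝔓 ↔ 0 < (S.pl P).ord f))
    (σ : Mu n k → (QField n k ≃ₐ[k] QField n k))
    (hσ : ∀ ζ j, σ ζ (algebraMap (ORing n k) (QField n k) (z n k j))
      = ((ζ j : kˣ) : k) • algebraMap (ORing n k) (QField n k) (z n k j))
    (x y : QField n k) (hx : x ≠ 0) (hy : y ≠ 0) :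
    ∃ g : QField n k, g ≠ 0 ∧ ∀ P, S.c P = 0 →
      (S.pl P).ord g = min ((S.pl P).ord (∏ ζ : Mu n k, σ ζ x))
        ((S.pl P).ord (∏ ζ : Mu n k, σ ζ y)) := by
  classical
  have hn : 0 < n := by
    have : NeZero n := NeZero.of_neZero_natCast k
    exact Nat.pos_of_ne_zero (NeZero.ne n)
  let _ : Algebra (ORing 1 k) (ORing n k) := algO n k
  have : IsScalarTower (ORing 1 k) (ORing n k) (QField n k) := inferInstance
  have hinj : Function.Injective (algebraMap (ORing 1 k) (ORing n k)) := incl_injective hn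
  have : FaithfulSMul (ORing 1 k) (ORing n k) := (faithfulSMul_iff_algebraMap_injective _ _).mpr hinj
  have : Algebra.IsIntegral (ORing 1 k) (ORing n k) := by
    have hfin : Module.Finite (ORing 1 k) (ORing n k) := by
      refine ⟨⟨(Set.finite_range (Kummer.zmon (z n k) : (Fin 5 → Fin n) → ORing n k)).toFinset, ?_⟩⟩
      rw [Set.Finite.coe_toFinset]
      exact span_zmon n k hn
    infer_instance
  have : Algebra.HasGoingDown (ORing 1 k) (ORing n k) := inferInstance
  let N : QField n k →* QField n k :=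
    { toFun := fun x => ∏ ζ : Mu n k, σ ζ x
      map_one' := by simp
      map_mul' := by
        intro a b
        simp only [map_mul, Finset.prod_mul_distrib] }
  have hN0 : ∀ x : QField n k, x ≠ 0 → N x ≠ 0 := by
    intro x hx
    refine Finset.prod_ne_zero_iff.mpr fun ζ _ => ?_
    rwa [Ne, map_eq_zero_iff _ (σ ζ).injective]
  have hN : ∀ a : ORing n k, a ≠ 0 → ∃ α : ORing 1 k,
      algebraMap (ORing 1 k) (QField n k) α = N (algebraMap (ORing n k) (QField n k) a) := by
    intro a _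
    obtain ⟨α, hα⟩ := norm_mem_range hζ₀ a
    refine ⟨α, ?_⟩
    rw [IsScalarTower.algebraMap_apply (ORing 1 k) (ORing n k) (QField n k)]
    show algebraMap (ORing n k) (QField n k) (incl n k α)
      = ∏ ζ : Mu n k, σ ζ (algebraMap (ORing n k) (QField n k) a)
    have hα' : incl n k α = ∏ ζ : Mu n k, rot ζ a := hα
    rw [hα', map_prod]
    refine Finset.prod_congr rfl fun ζ _ => ?_
    rw [map_rot σ hσ]
  obtain ⟨g, hg0, hg⟩ := gcd_abs (A := ORing 1 k) (O := ORing n k) (Q := QField n k) hinj N hN0 hN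
    x y hx hy
  refine ⟨g, hg0, fun P hP => hg (S.pl P) ?_⟩
  obtain ⟨𝔓, h𝔓, hhom, hmem⟩ := hpl P hP
  refine affine_prime D (IsFractionRing.injective (ORing n k) (QField n k)) ?_ ?_ (S.pl P) ?_ 𝔓 h𝔓
    hhom hmem
  · intro a
    obtain ⟨m, hm⟩ := exists_mem_Fil a
    refine ⟨m, ?_⟩
    rw [hDF]
    exact ⟨a, hm, rfl⟩
  · intro m f hf
    rw [hDF] at hf
    obtain ⟨a, _, rfl⟩ := hf
    exact ⟨a, rfl⟩
  · intro m f hf hf0
    rcases (S.memF m f).mp hf with h | h
    · exact absurd h hf0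
    · have := h P
      rw [hP] at this
      simpa using this

end Crest.Agent.R169.SymGcd
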