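import Crest.Agent.R169.Pt.Cover
import Crest.Agent.R169.PlacesOf
import Crest.Agent.R169.RingDefs
import Mathlib
import Crest.Agent.R169.OnOverO1
import Crest.Agent.R169.PlaceBasic

-- ▼ part R169/Pt/Sym
section

/-!
# Row 169, F5: the rotation and the transposition on `Frac O_7`, final form (helper785)
-/

set_option autoImplicit false

namespace Crest.Agent.R169

namespace Pt

open Crest.R169

variable (k : Type) [Field k]

/-- rotation on `O` -/
noncomputable def rotHom (n : ℕ) : ORing n k →ₐ[k] ORing n k :=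
  ORing.lift (fun j => z n k (j + 1)) (by
    intro j
    have h := z_rel n k (j + 1)
    have e : j + 1 + 3 = j + 3 + 1 := by clear h; revert j; decide
    rw [e] at h
    exact h)

/-- backward rotation on `O` -/
noncomputable def rotHom' (n : ℕ) : ORing n k →ₐ[k] ORing n k :=
  ORing.lift (fun j => z n k (j + 4)) (by
    intro j
    have h := z_rel n k (j + 4)
    have e : j + 4 + 3 = j + 3 + 4 := by clear h; revert j; decide
    have e2 : j + 4 + 1 = j + 1 + 4 := by clear h e; revert j; decide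
    rw [e, e2] at h
    exact h)

noncomputable def rotEquiv (n : ℕ) : ORing n k ≃ₐ[k] ORing n k :=
  AlgEquiv.ofAlgHom (rotHom k n) (rotHom' k n)
    (ORing.algHom_ext (by
      intro j
      simp only [rotHom, rotHom', AlgHom.comp_apply, ORing.lift_z, AlgHom.id_apply]
      congr 1
      revert j; decide))
    (ORing.algHom_ext (by
      intro j
      simp only [rotHom, rotHom', AlgHom.comp_apply, ORing.lift_z, AlgHom.id_apply]
      congr 1
      revert j; decide))

theorem rotEquiv_z (n : ℕ) (j : Fin 5) : rotEquiv k n (z n k j) = z n k (j + 1) := by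
  show rotHom k n (z n k j) = _
  simp [rotHom]

/-- in an algebraically closed field there is a point with all coordinates nonzero -/
theorem z_ne_zero [IsAlgClosed k] (n : ℕ) (hn : 0 < n) (j : Fin 5) : z n k j ≠ 0 := by
  obtain ⟨t, ht⟩ : ∃ t : k, t ^ 2 - t - 1 = 0 := by
    have hdeg : (Polynomial.X ^ 2 - Polynomial.X - 1 : Polynomial k).degree ≠ 0 := by
      have : (Polynomial.X ^ 2 - Polynomial.X - 1 : Polynomial k) =
          Polynomial.C 1 * Polynomial.X ^ 2 + Polynomial.C (-1) * Polynomial.X +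
            Polynomial.C (-1) := by
        simp [sub_eq_add_neg]
      rw [this, Polynomial.degree_quadratic one_ne_zero]
      norm_num
    obtain ⟨t, ht⟩ := IsAlgClosed.exists_root _ hdeg
    exact ⟨t, by simpa using ht⟩
  have ht0 : t ≠ 0 := by
    rintro rfl
    norm_num at ht
  obtain ⟨s, hs⟩ := IsAlgClosed.exists_pow_nat_eq t hn
  have hs0 : s ≠ 0 := by
    rintro rfl
    rw [zero_pow hn.ne'] at hs
    exact ht0 hs.symm
  intro h
  have h2 := ORing.lift_z (n := n) (k := k) (fun _ : Fin 5 => s) (by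
    intro j
    simp only [hs]
    linear_combination ht) j
  rw [h, map_zero] at h2
  exact hs0 h2.symm

section tau

variable {k} {Q : Type} [Field Q] [Algebra k Q]

/-- images of the generators under the transposition -/
def tauImg (y : Fin 5 → Q) : Fin 5 → Q :=
  ![-y 0 / (y 2 * y 3), -(y 3 * y 4), (y 3)⁻¹, (y 2)⁻¹, -(y 1 * y 2)]

theorem tauImg_rel (y : Fin 5 → Q) (h2 : y 2 ≠ 0) (h3 : y 3 ≠ 0)
    (hy : ∀ j, y j ^ 7 * y (j + 1) ^ 7 = 1 + y (j + 3) ^ 7) (j : Fin 5) :
    tauImg y j ^ 7 * tauImg y (j + 1) ^ 7 = 1 + tauImg y (j + 3) ^ 7 := by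
  have r0 := hy 0
  have r1 := hy 1
  have r2 := hy 2
  have r3 := hy 3
  have r4 := hy 4
  simp only [show (0 : Fin 5) + 1 = 1 from rfl, show (0 : Fin 5) + 3 = 3 from rfl,
    show (1 : Fin 5) + 1 = 2 from rfl, show (1 : Fin 5) + 3 = 4 from rfl,
    show (2 : Fin 5) + 1 = 3 from rfl, show (2 : Fin 5) + 3 = 0 from rfl,
    show (3 : Fin 5) + 1 = 4 from rfl, show (3 : Fin 5) + 3 = 1 from rfl,
    show (4 : Fin 5) + 1 = 0 from rfl, show (4 : Fin 5) + 3 = 2 from rfl] at r0 r1 r2 r3 r4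
  have h2' : y 2 ^ 7 ≠ 0 := pow_ne_zero _ h2
  have h3' : y 3 ^ 7 ≠ 0 := pow_ne_zero _ h3
  fin_cases j
  · show (-y 0 / (y 2 * y 3)) ^ 7 * (-(y 3 * y 4)) ^ 7 = 1 + ((y 2)⁻¹) ^ 7
    field_simp
    linear_combination r4
  · show (-(y 3 * y 4)) ^ 7 * ((y 3)⁻¹) ^ 7 = 1 + (-(y 1 * y 2)) ^ 7
    field_simp
    linear_combination r1
  · show ((y 3)⁻¹) ^ 7 * ((y 2)⁻¹) ^ 7 = 1 + (-y 0 / (y 2 * y 3)) ^ 7
    field_simp
    linear_combination -r2
  · show ((y 2)⁻¹) ^ 7 * (-(y 1 * y 2)) ^ 7 = 1 + (-(y 3 * y 4)) ^ 7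
    field_simp
    linear_combination r3
  · show (-(y 1 * y 2)) ^ 7 * (-y 0 / (y 2 * y 3)) ^ 7 = 1 + ((y 3)⁻¹) ^ 7
    field_simp
    linear_combination r0

theorem tauImg_tauImg (y : Fin 5 → Q) (h2 : y 2 ≠ 0) (h3 : y 3 ≠ 0) :
    tauImg (tauImg y) = y := by
  funext j
  fin_cases j
  · show -(-y 0 / (y 2 * y 3)) / ((y 3)⁻¹ * (y 2)⁻¹) = y 0
    field_simp
  · show -((y 2)⁻¹ * (-(y 1 * y 2))) = y 1
    field_simp
  · show ((y 2)⁻¹)⁻¹ = y 2
    simp
  · show ((y 3)⁻¹)⁻¹ = y 3
    simp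
  · show -(-(y 3 * y 4) * (y 3)⁻¹) = y 4
    field_simp

end tau

section final

variable {k} [IsAlgClosed k] [IsDomain (ORing 7 k)]

/-- the coordinates in the fraction field -/
noncomputable def zQ (k : Type) [Field k] [IsDomain (ORing 7 k)] (j : Fin 5) :
    FractionRing (ORing 7 k) := algebraMap _ _ (z 7 k j)

theorem zQ_ne_zero (j : Fin 5) : zQ k j ≠ 0 := by
  intro h
  have := (IsFractionRing.injective (ORing 7 k) (FractionRing (ORing 7 k)))
    (h.trans (map_zero (algebraMap (ORing 7 k) (FractionRing (ORing 7 k)))).symm)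
  exact z_ne_zero k 7 (by norm_num) j this

theorem zQ_rel (j : Fin 5) : zQ k j ^ 7 * zQ k (j + 1) ^ 7 = 1 + zQ k (j + 3) ^ 7 := by
  have := congrArg (algebraMap (ORing 7 k) (FractionRing (ORing 7 k))) (z_rel 7 k j)
  rw [map_mul, map_pow, map_pow, map_add, map_one, map_pow] at this
  exact this

/-- `τ` on `O` -/
noncomputable def tauO (k : Type) [Field k] [IsAlgClosed k] [IsDomain (ORing 7 k)] :
    ORing 7 k →ₐ[k] FractionRing (ORing 7 k) :=
  ORing.lift (tauImg (zQ k)) (tauImg_rel (zQ k) (zQ_ne_zero 2) (zQ_ne_zero 3) zQ_rel)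

theorem tauO_z (j : Fin 5) : tauO k (z 7 k j) = tauImg (zQ k) j := by
  simp [tauO]

theorem tauO_key (x : ORing 7 k) : ∃ (N : ℕ) (x' : ORing 7 k),
    (zQ k 2 * zQ k 3) ^ N * tauO k x = algebraMap _ (FractionRing (ORing 7 k)) x' ∧
    (zQ k 2 * zQ k 3) ^ N * tauO k x' = algebraMap _ (FractionRing (ORing 7 k)) x := by
  have h2 := zQ_ne_zero (k := k) 2
  have h3 := zQ_ne_zero (k := k) 3
  -- raising `N`
  have hraise : ∀ (x : ORing 7 k) (M N : ℕ) (x' : ORing 7 k),
      (zQ k 2 * zQ k 3) ^ N * tauO k x = algebraMap _ (FractionRing (ORing 7 k)) x' →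
      (zQ k 2 * zQ k 3) ^ N * tauO k x' = algebraMap _ (FractionRing (ORing 7 k)) x →
      ∃ x'' : ORing 7 k,
      (zQ k 2 * zQ k 3) ^ (N + M) * tauO k x = algebraMap _ (FractionRing (ORing 7 k)) x'' ∧
      (zQ k 2 * zQ k 3) ^ (N + M) * tauO k x'' = algebraMap _ (FractionRing (ORing 7 k)) x := by
    intro x M N x' e1 e2
    refine ⟨(z 7 k 2 * z 7 k 3) ^ M * x', ?_, ?_⟩
    · rw [map_mul, map_pow, map_mul, ← e1]
      show _ = (zQ k 2 * zQ k 3) ^ M * _
      ring
    · have e3 : tauO k (z 7 k 2 * z 7 k 3) = (zQ k 2 * zQ k 3)⁻¹ := by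
        rw [map_mul, tauO_z, tauO_z]
        show (zQ k 3)⁻¹ * (zQ k 2)⁻¹ = _
        rw [mul_inv, mul_comm]
      rw [map_mul, map_pow, e3, pow_add, ← e2]
      have : (zQ k 2 * zQ k 3) ^ M ≠ 0 := pow_ne_zero _ (mul_ne_zero h2 h3)
      rw [inv_pow]
      field_simp
  have hx : x ∈ Algebra.adjoin k (Set.range (z 7 k)) := by
    rw [ORing.adjoin_range_z]; exact Algebra.mem_top
  induction hx using Algebra.adjoin_induction with
  | mem x hx =>
    obtain ⟨j, rfl⟩ := hx
    fin_cases j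
    · refine ⟨1, -z 7 k 0, ?_, ?_⟩
      · show _ * tauO k (z 7 k 0) = _
        rw [tauO_z]
        show (zQ k 2 * zQ k 3) ^ 1 * (-zQ k 0 / (zQ k 2 * zQ k 3)) = _
        rw [map_neg]
        show _ = - zQ k 0
        field_simp
      · rw [map_neg, tauO_z]
        show (zQ k 2 * zQ k 3) ^ 1 * -(-zQ k 0 / (zQ k 2 * zQ k 3)) = zQ k 0
        field_simp
    · refine ⟨0, -(z 7 k 3 * z 7 k 4), ?_, ?_⟩
      · show _ * tauO k (z 7 k 1) = _
        rw [tauO_z]
        show (zQ k 2 * zQ k 3) ^ 0 * (-(zQ k 3 * zQ k 4)) = _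
        rw [map_neg, map_mul]
        show _ = - (zQ k 3 * zQ k 4)
        ring
      · rw [map_neg, map_mul, tauO_z, tauO_z]
        show (zQ k 2 * zQ k 3) ^ 0 * -((zQ k 2)⁻¹ * (-(zQ k 1 * zQ k 2))) = zQ k 1
        field_simp
    · refine ⟨1, z 7 k 2, ?_, ?_⟩
      · show _ * tauO k (z 7 k 2) = _
        rw [tauO_z]
        show (zQ k 2 * zQ k 3) ^ 1 * (zQ k 3)⁻¹ = zQ k 2
        field_simp
      · show _ * tauO k (z 7 k 2) = _
        rw [tauO_z]
        show (zQ k 2 * zQ k 3) ^ 1 * (zQ k 3)⁻¹ = zQ k 2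
        field_simp
    · refine ⟨1, z 7 k 3, ?_, ?_⟩
      · show _ * tauO k (z 7 k 3) = _
        rw [tauO_z]
        show (zQ k 2 * zQ k 3) ^ 1 * (zQ k 2)⁻¹ = zQ k 3
        field_simp
      · show _ * tauO k (z 7 k 3) = _
        rw [tauO_z]
        show (zQ k 2 * zQ k 3) ^ 1 * (zQ k 2)⁻¹ = zQ k 3
        field_simp
    · refine ⟨0, -(z 7 k 1 * z 7 k 2), ?_, ?_⟩
      · show _ * tauO k (z 7 k 4) = _
        rw [tauO_z]
        show (zQ k 2 * zQ k 3) ^ 0 * (-(zQ k 1 * zQ k 2)) = _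
        rw [map_neg, map_mul]
        show _ = - (zQ k 1 * zQ k 2)
        ring
      · rw [map_neg, map_mul, tauO_z, tauO_z]
        show (zQ k 2 * zQ k 3) ^ 0 * -((-(zQ k 3 * zQ k 4)) * (zQ k 3)⁻¹) = zQ k 4
        field_simp
  | algebraMap r =>
    refine ⟨0, algebraMap k _ r, ?_, ?_⟩
    · rw [pow_zero, one_mul, AlgHom.commutes, ← IsScalarTower.algebraMap_apply]
    · rw [pow_zero, one_mul, AlgHom.commutes, ← IsScalarTower.algebraMap_apply]
  | add x y _ _ hx hy =>
    obtain ⟨N, x', e1, e2⟩ := hx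
    obtain ⟨M, y', e3, e4⟩ := hy
    obtain ⟨x'', e5, e6⟩ := hraise x M N x' e1 e2
    obtain ⟨y'', e7, e8⟩ := hraise y N M y' e3 e4
    rw [add_comm M N] at e7 e8
    refine ⟨N + M, x'' + y'', ?_, ?_⟩
    · rw [map_add, map_add, mul_add, e5, e7]
    · rw [map_add, map_add, mul_add, e6, e8]
  | mul x y _ _ hx hy =>
    obtain ⟨N, x', e1, e2⟩ := hx
    obtain ⟨M, y', e3, e4⟩ := hy
    refine ⟨N + M, x' * y', ?_, ?_⟩
    · rw [map_mul, map_mul, ← e1, ← e3]; ring
    · rw [map_mul, map_mul, ← e2, ← e4]; ring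

theorem tauO_injective : Function.Injective (tauO k) := by
  rw [injective_iff_map_eq_zero]
  intro x hx
  obtain ⟨N, x', e1, e2⟩ := tauO_key x
  rw [hx, mul_zero] at e1
  have hinj := IsFractionRing.injective (ORing 7 k) (FractionRing (ORing 7 k))
  have h0 : x' = 0 := hinj (by rw [← e1, map_zero])
  rw [h0, map_zero, mul_zero] at e2
  exact hinj (by rw [← e2, map_zero])

/-- `τ` on `Q` -/
noncomputable def tauQ' (k : Type) [Field k] [IsAlgClosed k] [IsDomain (ORing 7 k)] :
    FractionRing (ORing 7 k) →ₐ[k] FractionRing (ORing 7 k) :=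
  IsFractionRing.liftAlgHom (tauO_injective (k := k))

theorem tauQ'_algebraMap (x : ORing 7 k) : tauQ' k (algebraMap _ _ x) = tauO k x := by
  show IsFractionRing.liftAlgHom (tauO_injective (k := k)) _ = _
  rw [IsFractionRing.liftAlgHom_apply]
  exact IsFractionRing.lift_algebraMap _ _

theorem tauQ'_zQ (j : Fin 5) : tauQ' k (zQ k j) = tauImg (zQ k) j := by
  rw [zQ, tauQ'_algebraMap, tauO_z]

theorem tauQ'_invol : (tauQ' k).comp (tauQ' k) = AlgHom.id k _ := by
  apply AlgHom.coe_ringHom_injective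
  apply IsFractionRing.ringHom_ext (A := ORing 7 k)
  intro x
  have h : ((tauQ' k).comp (tauQ' k)).comp (IsScalarTower.toAlgHom k (ORing 7 k)
      (FractionRing (ORing 7 k))) = IsScalarTower.toAlgHom k (ORing 7 k)
      (FractionRing (ORing 7 k)) := by
    apply ORing.algHom_ext
    intro j
    show tauQ' k (tauQ' k (zQ k j)) = zQ k j
    rw [tauQ'_zQ]
    have e := congrFun (tauImg_tauImg (zQ k) (zQ_ne_zero 2) (zQ_ne_zero 3)) j
    conv_rhs => rw [← e]
    fin_cases j
    · show tauQ' k (-zQ k 0 / (zQ k 2 * zQ k 3)) = _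
      rw [map_div₀, map_neg, map_mul, tauQ'_zQ, tauQ'_zQ, tauQ'_zQ]
      rfl
    · show tauQ' k (-(zQ k 3 * zQ k 4)) = _
      rw [map_neg, map_mul, tauQ'_zQ, tauQ'_zQ]
      rfl
    · show tauQ' k ((zQ k 3)⁻¹) = _
      rw [map_inv₀, tauQ'_zQ]
      rfl
    · show tauQ' k ((zQ k 2)⁻¹) = _
      rw [map_inv₀, tauQ'_zQ]
      rfl
    · show tauQ' k (-(zQ k 1 * zQ k 2)) = _
      rw [map_neg, map_mul, tauQ'_zQ, tauQ'_zQ]
      rfl
  exact DFunLike.congr_fun h x

noncomputable def tauQ (k : Type) [Field k] [IsAlgClosed k] [IsDomain (ORing 7 k)] :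
    FractionRing (ORing 7 k) ≃ₐ[k] FractionRing (ORing 7 k) :=
  AlgEquiv.ofAlgHom (tauQ' k) (tauQ' k) tauQ'_invol tauQ'_invol

noncomputable def rotQ (k : Type) [Field k] [IsDomain (ORing 7 k)] :
    FractionRing (ORing 7 k) ≃ₐ[k] FractionRing (ORing 7 k) :=
  IsFractionRing.algEquivOfAlgEquiv (rotEquiv k 7)

omit [IsAlgClosed k] in
theorem rotQ_zQ (j : Fin 5) : rotQ k (zQ k j) = zQ k (j + 1) := by
  rw [zQ, rotQ, IsFractionRing.algEquivOfAlgEquiv_algebraMap, rotEquiv_z, zQ]

/-- **F5, END PRODUCT**: every datum `D` whose `F m` is the image of `Fil 7 k m` is regular at all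
its points. -/
theorem allPtRegular (h7 : (7 : k) ≠ 0) (D : TData k (FractionRing (ORing 7 k)))
    (hF : ∀ m q, q ∈ D.F m ↔ ∃ x ∈ Fil 7 k m, algebraMap _ (FractionRing (ORing 7 k)) x = q)
    (hu : D.u = algebraMap _ (FractionRing (ORing 7 k)) (uO 7 k))
    (hv : D.v = algebraMap _ (FractionRing (ORing 7 k)) (vO 7 k)) : AllPtRegular D := by
  have hz : Is7 D (zQ k) := by
    refine ⟨zQ_rel, ?_, ?_, ?_⟩
    · intro m
      have e1 : D.F m = (Fil 7 k m).map (IsScalarTower.toAlgHom k (ORing 7 k)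
          (FractionRing (ORing 7 k))).toLinearMap := by
        ext q
        rw [hF, Submodule.mem_map]
        rfl
      rw [e1, Fil, Submodule.map_span]
      congr 1
      ext q
      constructor
      · rintro ⟨_, ⟨b, hb, rfl⟩, rfl⟩
        refine ⟨b, hb, ?_⟩
        show algebraMap _ _ (zm 7 k b) = _
        rw [zm, map_prod]
        simp only [map_pow]
        rfl
      · rintro ⟨b, hb, rfl⟩
        refine ⟨_, ⟨b, hb, rfl⟩, ?_⟩
        show algebraMap _ _ (zm 7 k b) = _
        rw [zm, map_prod]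
        simp only [map_pow]
        rfl
    · rw [hu, uO, map_add, map_add]; rfl
    · rw [hv, vO, map_add, map_add]; rfl
  exact hz.allPtRegular h7 (zQ_ne_zero 2) (zQ_ne_zero 3) (rotQ k) rotQ_zQ (tauQ k)
    (tauQ'_zQ 0) (tauQ'_zQ 1) (tauQ'_zQ 2) (tauQ'_zQ 3) (tauQ'_zQ 4)

end final

end Pt

end Crest.Agent.R169
end

-- ▼ part R169/PlacesMap
section

/-!
# Row 169, D0: transport of places along filtered automorphisms
-/

set_option autoImplicit false

noncomputable section

namespace Crest.Agent.R169.PlacesEx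

open Polynomial Krull

variable {k Q : Type} [Field k] [Field Q] [Algebra k Q] {D : TData k Q}

/-- automorphisms of `Q` preserving the filtration -/
def Stab (D : TData k Q) (σ : Q ≃ₐ[k] Q) : Prop := ∀ (m : ℤ) (f : Q), σ f ∈ D.F m ↔ f ∈ D.F m

theorem Stab.symm {σ : Q ≃ₐ[k] Q} (h : Stab D σ) : Stab D σ.symm := by
  intro m f
  rw [← h m (σ.symm f), AlgEquiv.apply_symm_apply]

theorem Stab.mul {σ τ : Q ≃ₐ[k] Q} (h : Stab D σ) (h' : Stab D τ) : Stab D (σ * τ) := by
  intro m f
  rw [AlgEquiv.mul_apply, h, h']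

theorem Stab.one : Stab D (1 : Q ≃ₐ[k] Q) := fun _ _ => Iff.rfl

/-- the induced automorphism of `T` -/
def tEquiv (σ : Q ≃ₐ[k] Q) (h : Stab D σ) : D.Ttot ≃+* D.Ttot where
  toFun p := ⟨(p : Q[X]).map (σ : Q →+* Q), fun m => by
    rw [coeff_map]; exact (h m _).mpr (p.2 m)⟩
  invFun p := ⟨(p : Q[X]).map (σ.symm : Q →+* Q), fun m => by
    rw [coeff_map]; exact (h.symm m _).mpr (p.2 m)⟩
  left_inv p := by
    apply Subtype.ext
    simp only
    rw [Polynomial.map_map]
    convert Polynomial.map_id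
    ext x
    simp
  right_inv p := by
    apply Subtype.ext
    simp only
    rw [Polynomial.map_map]
    convert Polynomial.map_id
    ext x
    simp
  map_mul' p q := by
    apply Subtype.ext
    simp [Polynomial.map_mul]
  map_add' p q := by
    apply Subtype.ext
    simp [Polynomial.map_add]

theorem coe_tEquiv (σ : Q ≃ₐ[k] Q) (h : Stab D σ) (p : D.Ttot) :
    ((tEquiv σ h p : D.Ttot) : Q[X]) = (p : Q[X]).map (σ : Q →+* Q) := rfl

theorem coe_tEquiv_symm (σ : Q ≃ₐ[k] Q) (h : Stab D σ) (p : D.Ttot) :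
    (((tEquiv σ h).symm p : D.Ttot) : Q[X]) = (p : Q[X]).map (σ.symm : Q →+* Q) := rfl

theorem tEquiv_mono (σ : Q ≃ₐ[k] Q) (h : Stab D σ) (m : ℕ) (f : Q) (hf : f ∈ D.F m) :
    tEquiv σ h (D.mono m f hf) = D.mono m (σ f) ((h m f).mpr hf) := by
  apply Subtype.ext
  rw [coe_tEquiv, coe_mono, coe_mono, map_monomial]
  rfl


theorem cf_tEquiv_symm (σ : Q ≃ₐ[k] Q) (h : Stab D σ) (p : D.Ttot) (m : ℕ) :
    (tEquiv σ h).symm (cf D p m) = cf D ((tEquiv σ h).symm p) m := by
  apply Subtype.ext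
  rw [coe_tEquiv_symm, coe_cf, coe_cf, coe_tEquiv_symm, map_monomial, coeff_map]

theorem isHtOne_comap {R S : Type*} [CommRing R] [CommRing S] (e : R ≃+* S) {P : Ideal S}
    (hP : IsHtOne P) : IsHtOne (P.comap (e : R →+* S)) := by
  have hPp := hP.prime
  refine ⟨Ideal.comap_isPrime _ _, ?_, ?_⟩
  · intro h0
    apply hP.ne_bot
    rw [eq_bot_iff]
    intro x hx
    have : e.symm x ∈ P.comap (e : R →+* S) := by
      rw [Ideal.mem_comap]
      simpa using hx
    rw [h0, Ideal.mem_bot] at this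
    rw [Ideal.mem_bot]
    have h1 := congrArg e this
    simpa using h1
  · intro J hJ hJ0 hJP
    have h1 : (J.comap (e.symm : S →+* R)).IsPrime := Ideal.comap_isPrime _ _
    have h2 : J.comap (e.symm : S →+* R) ≠ ⊥ := by
      intro h0
      apply hJ0
      rw [eq_bot_iff]
      intro x hx
      have : e x ∈ J.comap (e.symm : S →+* R) := by
        rw [Ideal.mem_comap]
        simpa using hx
      rw [h0, Ideal.mem_bot] at this
      rw [Ideal.mem_bot]
      exact (map_eq_zero_iff e e.injective).mp this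
    have h3 : J.comap (e.symm : S →+* R) ≤ P := by
      intro x hx
      rw [Ideal.mem_comap] at hx
      have := hJP hx
      rw [Ideal.mem_comap] at this
      simpa using this
    have h4 := hP.min _ h1 h2 h3
    rw [← h4]
    ext x
    rw [Ideal.mem_comap, Ideal.mem_comap]
    simp

/-- transport of a homogeneous height-one prime -/
def HPrime.map (σ : Q ≃ₐ[k] Q) (h : Stab D σ) (P : HPrime D) : HPrime D where
  I := P.I.comap ((tEquiv σ h).symm : D.Ttot →+* D.Ttot)
  ht := isHtOne_comap _ P.ht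
  hom := by
    intro p hp m
    rw [Ideal.mem_comap] at hp ⊢
    change (tEquiv σ h).symm (cf D p m) ∈ P.I
    rw [cf_tEquiv_symm]
    exact P.hom _ hp m

theorem HPrime.mem_map (σ : Q ≃ₐ[k] Q) (h : Stab D σ) (P : HPrime D) (t : D.Ttot) :
    t ∈ (P.map σ h).I ↔ (tEquiv σ h).symm t ∈ P.I := Iff.rfl

theorem HPrime.tEquiv_mem_map (σ : Q ≃ₐ[k] Q) (h : Stab D σ) (P : HPrime D) (t : D.Ttot) :
    tEquiv σ h t ∈ (P.map σ h).I ↔ t ∈ P.I := by
  rw [HPrime.mem_map, RingEquiv.symm_apply_apply]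

theorem HPrime.mono_mem_map (σ : Q ≃ₐ[k] Q) (h : Stab D σ) (P : HPrime D) (m : ℕ) (f : Q)
    (hf : f ∈ D.F m) :
    D.mono m (σ f) ((h m f).mpr hf) ∈ (P.map σ h).I ↔ D.mono m f hf ∈ P.I := by
  rw [← tEquiv_mono σ h, HPrime.tEquiv_mem_map]

theorem HPrime.map_one (P : HPrime D) : P.map 1 Stab.one = P := by
  apply HPrime.ext'
  ext t
  rw [HPrime.mem_map]
  have : (tEquiv (1 : Q ≃ₐ[k] Q) Stab.one).symm t = t := by
    apply Subtype.ext
    rw [coe_tEquiv_symm]
    exact Polynomial.map_id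
  rw [this]

theorem HPrime.map_mul (σ τ : Q ≃ₐ[k] Q) (h : Stab D σ) (h' : Stab D τ) (P : HPrime D) :
    P.map (σ * τ) (h.mul h') = (P.map τ h').map σ h := by
  apply HPrime.ext'
  ext t
  rw [HPrime.mem_map, HPrime.mem_map, HPrime.mem_map]
  have : (tEquiv (σ * τ) (h.mul h')).symm t = (tEquiv τ h').symm ((tEquiv σ h).symm t) := by
    apply Subtype.ext
    rw [coe_tEquiv_symm, coe_tEquiv_symm, coe_tEquiv_symm, Polynomial.map_map]
    rfl
  rw [this]

section ord

variable [IsNoetherianRing D.Ttot] [IsIntegrallyClosed D.Ttot]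

/-- induced automorphism of `Q(X)` -/
def kEquiv (σ : Q ≃ₐ[k] Q) (h : Stab D σ) : RatFunc Q ≃+* RatFunc Q :=
  IsFractionRing.ringEquivOfRingEquiv (tEquiv σ h)

omit [IsNoetherianRing D.Ttot] [IsIntegrallyClosed D.Ttot] in
theorem kEquiv_algebraMap (σ : Q ≃ₐ[k] Q) (h : Stab D σ) (t : D.Ttot) :
    kEquiv σ h (algebraMap D.Ttot (RatFunc Q) t) = algebraMap D.Ttot (RatFunc Q) (tEquiv σ h t) :=
  IsFractionRing.ringEquivOfRingEquiv_algebraMap _ _

omit [IsNoetherianRing D.Ttot] [IsIntegrallyClosed D.Ttot] in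
theorem kEquiv_X (σ : Q ≃ₐ[k] Q) (h : Stab D σ) : kEquiv σ h RatFunc.X = RatFunc.X := by
  rw [← algebraMap_XT (D := D), kEquiv_algebraMap]
  congr 1
  unfold XT
  rw [tEquiv_mono]
  exact mono_congr _ _ (map_one σ)

omit [IsNoetherianRing D.Ttot] [IsIntegrallyClosed D.Ttot] in
theorem kEquiv_C (σ : Q ≃ₐ[k] Q) (h : Stab D σ) (x : Q) :
    kEquiv σ h (RatFunc.C x) = RatFunc.C (σ x) := by
  obtain ⟨m, g, hg, g', hg', hg0', hx⟩ := exists_frac D x
  have h1 : (RatFunc.C x : RatFunc Q) * algebraMap D.Ttot (RatFunc Q) (D.mono m g' hg')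
      = algebraMap D.Ttot (RatFunc Q) (D.mono m g hg) := by
    rw [algebraMap_mono, algebraMap_mono, ← hx, map_mul]
    ring
  have h2 := congrArg (kEquiv σ h) h1
  rw [map_mul, kEquiv_algebraMap, kEquiv_algebraMap, tEquiv_mono, tEquiv_mono, algebraMap_mono,
    algebraMap_mono, ← hx, map_mul, map_mul] at h2
  have h3 : (RatFunc.C (σ g') * RatFunc.X ^ m : RatFunc Q) ≠ 0 :=
    mul_ne_zero (C_ne_zero' (by rwa [Ne, map_eq_zero_iff σ σ.injective]))
      (pow_ne_zero _ RatFunc.X_ne_zero)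
  rw [mul_assoc] at h2
  exact mul_right_cancel₀ h3 h2

theorem HPrime.ordK_map (σ : Q ≃ₐ[k] Q) (h : Stab D σ) (P : HPrime D) (z : RatFunc Q)
    (hz : z ≠ 0) : (P.map σ h).ordK (kEquiv σ h z) = P.ordK z := by
  refine IsOrd.unique P.ordK_spec (w := fun z => (P.map σ h).ordK (kEquiv σ h z)) ?_ ?_ ?_ ?_ z hz
  · intro a b ha hb
    show (P.map σ h).ordK (kEquiv σ h (a * b)) = _
    rw [_root_.map_mul (kEquiv σ h)]
    exact (P.map σ h).ordK_spec.mul _ _ ((map_ne_zero_iff _ (kEquiv σ h).injective).mpr ha)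
      ((map_ne_zero_iff _ (kEquiv σ h).injective).mpr hb)
  · intro r hr
    show (P.map σ h).ordK (kEquiv σ h (algebraMap D.Ttot (RatFunc Q) r)) = 0
    rw [kEquiv_algebraMap]
    exact (P.map σ h).ordK_spec.eq_zero_of_not_mem (fun hh => hr ((P.tEquiv_mem_map σ h r).mp hh))
  · intro r hr hr0
    show 0 < (P.map σ h).ordK (kEquiv σ h (algebraMap D.Ttot (RatFunc Q) r))
    rw [kEquiv_algebraMap]
    exact ((P.map σ h).ordK_spec.mem_iff _
      ((map_ne_zero_iff _ (tEquiv σ h).injective).mpr hr0)).mp ((P.tEquiv_mem_map σ h r).mpr hr)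
  · obtain ⟨π, _, h0, h1⟩ := (P.map σ h).ordK_spec.unif
    refine ⟨(kEquiv σ h).symm (algebraMap D.Ttot (RatFunc Q) π), ?_, ?_⟩
    · exact (map_ne_zero_iff _ (kEquiv σ h).symm.injective).mpr
        ((map_ne_zero_iff _ (IsFractionRing.injective D.Ttot (RatFunc Q))).mpr h0)
    · show (P.map σ h).ordK (kEquiv σ h _) = 1
      rw [RingEquiv.apply_symm_apply]
      exact h1

theorem HPrime.ord_map (σ : Q ≃ₐ[k] Q) (h : Stab D σ) (P : HPrime D) (x : Q) (hx : x ≠ 0) :
    (P.map σ h).ord (σ x) = P.ord x := by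
  unfold HPrime.ord
  rw [← kEquiv_C σ h, HPrime.ordK_map σ h P _ (C_ne_zero' hx)]

theorem HPrime.c_map (σ : Q ≃ₐ[k] Q) (h : Stab D σ) (P : HPrime D) :
    (P.map σ h).c = P.c := by
  unfold HPrime.c
  have := HPrime.ordK_map σ h P RatFunc.X RatFunc.X_ne_zero
  rwa [kEquiv_X] at this

end ord

end Crest.Agent.R169.PlacesEx
end
end

-- ▼ part R169/Trans/TOring
section

/-!
# Row 169, Symm field `trans`, step 2: the ring `TO = ⊕ Fil m X^m ⊆ O[X]` and its symmetries.
-/

set_option autoImplicit false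

open Crest.R169

namespace Crest.Agent.R169.Trans7

variable (n : ℕ) (k : Type) [Field k]

/-- `TO = ⊕ Fil m X^m ⊆ (ORing n k)[X]` -/
noncomputable def TO : Subalgebra k (Polynomial (ORing n k)) where
  carrier := {t | ∀ m : ℕ, t.coeff m ∈ Fil n k m}
  mul_mem' := by
    intro f g hf hg m
    rw [Polynomial.coeff_mul]
    refine Submodule.sum_mem _ fun x hx => ?_
    have h1 := Fil_mul_mem (hf x.1) (hg x.2)
    have hx' := Finset.HasAntidiagonal.mem_antidiagonal.mp hx
    have h2 : ((x.1 : ℤ) + (x.2 : ℤ)) = (m : ℤ) := by exact_mod_cast hx'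
    rwa [h2] at h1
  add_mem' := by
    intro f g hf hg m
    rw [Polynomial.coeff_add]
    exact Submodule.add_mem _ (hf m) (hg m)
  algebraMap_mem' := by
    intro r m
    rw [Polynomial.algebraMap_apply, Polynomial.coeff_C]
    split_ifs with h
    · subst h
      rw [Algebra.algebraMap_eq_smul_one]
      exact Submodule.smul_mem _ _ one_mem_Fil_zero
    · exact Submodule.zero_mem _

variable {n k}


theorem monomial_mem_TO {m : ℕ} {x : ORing n k} (hx : x ∈ Fil n k m) :
    Polynomial.monomial m x ∈ TO n k := by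
  intro j
  rw [Polynomial.coeff_monomial]
  split_ifs with h
  · subst h; exact hx
  · exact Submodule.zero_mem _

/-- `x X^m` -/
noncomputable def mono (m : ℕ) (x : ORing n k) (hx : x ∈ Fil n k m) : TO n k :=
  ⟨Polynomial.monomial m x, monomial_mem_TO hx⟩

theorem one_mem_Fil_one : (1 : ORing n k) ∈ Fil n k ((1 : ℕ) : ℤ) :=
  Fil_mono (by norm_num) one_mem_Fil_zero

/-- `X ∈ TO` -/
noncomputable def xE : TO n k := mono 1 1 one_mem_Fil_one

/-- `z_j X ∈ TO` -/
noncomputable def yE (j : Fin 5) : TO n k := mono 1 (z n k j) (by exact_mod_cast z_mem_Fil_one j)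

theorem xE_val : (xE : TO n k).1 = Polynomial.X := rfl

theorem yE_val (j : Fin 5) : (yE j : TO n k).1 = Polynomial.C (z n k j) * Polynomial.X := by
  show Polynomial.monomial 1 _ = _
  rw [Polynomial.C_mul_X_eq_monomial]

theorem yE_rel (j : Fin 5) :
    (yE j : TO n k) ^ n * yE (j + 1) ^ n = xE ^ (2 * n) + xE ^ n * yE (j + 3) ^ n := by
  apply Subtype.ext
  simp only [MulMemClass.coe_mul, SubmonoidClass.coe_pow, AddMemClass.coe_add, yE_val, xE_val]
  have h := z_rel n k j
  have h' : Polynomial.C (z n k j) ^ n * Polynomial.C (z n k (j + 1)) ^ n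
      = 1 + Polynomial.C (z n k (j + 3)) ^ n := by
    rw [← Polynomial.C_pow, ← Polynomial.C_pow, ← Polynomial.C_pow, ← Polynomial.C_mul, h,
      Polynomial.C_add, Polynomial.C_1]
  calc (Polynomial.C (z n k j) * Polynomial.X) ^ n * (Polynomial.C (z n k (j + 1)) * Polynomial.X) ^ n
      = (Polynomial.C (z n k j) ^ n * Polynomial.C (z n k (j + 1)) ^ n) * Polynomial.X ^ (2 * n) := by
        ring
    _ = _ := by rw [h']; ring

/-! ### symmetries -/

/-- the group `μ_n^5` -/
abbrev Mu (n : ℕ) (k : Type) [Field k] := Fin 5 → rootsOfUnity n k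

theorem mu_pow (g : Mu n k) (j : Fin 5) : (((g j : kˣ) : k)) ^ n = 1 := by
  have := (g j).2
  rw [mem_rootsOfUnity] at this
  rw [← Units.val_pow_eq_pow_val, this, Units.val_one]

/-- `z_j ↦ g_j z_{j+i}` -/
noncomputable def phiO (i : Fin 5) (g : Mu n k) : ORing n k →ₐ[k] ORing n k :=
  ORing.lift (fun j => ((g j : kˣ) : k) • z n k (j + i)) (by
    intro j
    rw [smul_pow, smul_pow, smul_pow, mu_pow, mu_pow, mu_pow, one_smul, one_smul, one_smul]
    have h := z_rel n k (j + i)
    rw [add_right_comm j 1 i, add_right_comm j 3 i]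
    exact h)

theorem phiO_z (i : Fin 5) (g : Mu n k) (j : Fin 5) :
    phiO i g (z n k j) = ((g j : kˣ) : k) • z n k (j + i) := by
  rw [phiO, ORing.lift_z]

theorem phiO_comp (i l : Fin 5) (g h : Mu n k) (x : ORing n k) :
    phiO i g (phiO l h x) = phiO (l + i) (fun j => h j * g (j + l)) x := by
  have : (phiO i g).comp (phiO l h) = phiO (l + i) (fun j => h j * g (j + l)) := by
    apply ORing.algHom_ext
    intro j
    rw [AlgHom.comp_apply, phiO_z, map_smul, phiO_z, phiO_z, smul_smul]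
    simp only [Subgroup.coe_mul, Units.val_mul]
    rw [add_assoc]
  exact DFunLike.congr_fun this x

theorem phiO_one (x : ORing n k) : phiO 0 (1 : Mu n k) x = x := by
  have : phiO 0 (1 : Mu n k) = AlgHom.id k (ORing n k) := by
    apply ORing.algHom_ext
    intro j
    rw [phiO_z]
    simp
  rw [this]; rfl

/-- the character by which `μ` acts on `z^β` -/
def chi (g : Mu n k) (β : Fin 5 → ℕ) : k := ∏ j, (((g j : kˣ) : k)) ^ β j

theorem phiO_zm (i : Fin 5) (g : Mu n k) (β : Fin 5 → ℕ) :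
    phiO i g (zm n k β) = chi g β • zm n k (fun j => β (j - i)) := by
  unfold zm chi
  rw [map_prod]
  simp only [map_pow, phiO_z, smul_pow]
  rw [Finset.prod_smul]
  congr 1
  refine Fintype.prod_equiv (Equiv.addRight i) _ _ fun j => ?_
  simp

theorem w_shift (i l : Fin 5) (β : Fin 5 → ℕ) : w l (fun j => β (j - i)) = w (l - i) β := by
  simp only [w]
  rw [add_sub_right_comm l 4 i, add_sub_right_comm l 1 i]

theorem phiO_mem_Fil (i : Fin 5) (g : Mu n k) {m : ℤ} {x : ORing n k} (hx : x ∈ Fil n k m) :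
    phiO i g x ∈ Fil n k m := by
  induction hx using Submodule.span_induction with
  | mem x hx =>
    obtain ⟨β, hβ, rfl⟩ := hx
    rw [phiO_zm]
    exact Submodule.smul_mem _ _ (zm_mem_Fil fun l => by rw [w_shift]; exact hβ _)
  | zero => rw [map_zero]; exact Submodule.zero_mem _
  | add x y _ _ h1 h2 => rw [map_add]; exact Submodule.add_mem _ h1 h2
  | smul c x _ h => rw [map_smul]; exact Submodule.smul_mem _ _ h

/-- the induced symmetry of `TO` -/
noncomputable def tauO (i : Fin 5) (g : Mu n k) : TO n k →ₐ[k] TO n k :=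
  ((Polynomial.mapAlgHom (phiO i g)).comp (TO n k).val).codRestrict (TO n k) (by
    intro t m
    show ((Polynomial.mapAlgHom (phiO i g)) t.1).coeff m ∈ _
    rw [Polynomial.coe_mapAlgHom, Polynomial.coeff_map]
    exact phiO_mem_Fil i g (t.2 m))

theorem tauO_coeff (i : Fin 5) (g : Mu n k) (t : TO n k) (m : ℕ) :
    (tauO i g t).1.coeff m = phiO i g (t.1.coeff m) := by
  show ((Polynomial.mapAlgHom (phiO i g)) t.1).coeff m = _
  rw [Polynomial.coe_mapAlgHom, Polynomial.coeff_map]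
  rfl

theorem TO_ext {s t : TO n k} (h : ∀ m, s.1.coeff m = t.1.coeff m) : s = t :=
  Subtype.ext (Polynomial.ext h)

theorem tauO_comp (i l : Fin 5) (g h : Mu n k) (t : TO n k) :
    tauO i g (tauO l h t) = tauO (l + i) (fun j => h j * g (j + l)) t :=
  TO_ext fun m => by rw [tauO_coeff, tauO_coeff, tauO_coeff, phiO_comp]

theorem tauO_one (t : TO n k) : tauO 0 (1 : Mu n k) t = t :=
  TO_ext fun m => by rw [tauO_coeff, phiO_one]

theorem tauO_xE (i : Fin 5) (g : Mu n k) : tauO i g xE = xE :=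
  TO_ext fun m => by
    rw [tauO_coeff, xE_val, Polynomial.coeff_X]
    split_ifs <;> simp

theorem tauO_yE (i : Fin 5) (g : Mu n k) (j : Fin 5) :
    tauO i g (yE j) = ((g j : kˣ) : k) • yE (j + i) :=
  TO_ext fun m => by
    rw [tauO_coeff]
    show phiO i g ((Polynomial.monomial 1 (z n k j)).coeff m)
      = (((g j : kˣ) : k) • (Polynomial.monomial 1 (z n k (j + i)))).coeff m
    rw [Polynomial.coeff_smul, Polynomial.coeff_monomial, Polynomial.coeff_monomial]
    split_ifs
    · rw [phiO_z]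
    · simp

end Crest.Agent.R169.Trans7
end

-- ▼ part R169/Trans/Fixed
section

/-!
# Row 169, Symm field `trans`, step 3: invariants of `μ_n^5` in `TO`.
-/

set_option autoImplicit false

open Crest.R169

namespace Crest.Agent.R169.Trans7

theorem cover_bool : ∀ s : Fin 5 → Bool, (∀ j, s j = true ∨ s (j + 1) = true) →
    ∃ i, ∀ j, j ≠ i + 4 → j ≠ i + 1 → s j = true := by
  decide

theorem cover (s : Fin 5 → Prop) (h : ∀ j, s j ∨ s (j + 1)) :
    ∃ i, ∀ j, j ≠ i + 4 → j ≠ i + 1 → s j := by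
  classical
  obtain ⟨i, hi⟩ := cover_bool (fun j => decide (s j)) (fun j => by simpa using h j)
  exact ⟨i, fun j h1 h2 => by simpa using hi j h1 h2⟩

theorem ne_45 (i : Fin 5) : i + 4 ≠ i + 1 := by revert i; decide

theorem self_ne4 (i : Fin 5) : i ≠ i + 4 := by revert i; decide

theorem self_ne1 (i : Fin 5) : i ≠ i + 1 := by revert i; decide

/-- sum over `Fin 5` of a function vanishing outside `i+4, i+1` -/
theorem sum_two (i : Fin 5) (γ : Fin 5 → ℕ) (h : ∀ j, j ≠ i + 4 → j ≠ i + 1 → γ j = 0) :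
    ∑ j, γ j = γ (i + 4) + γ (i + 1) := by
  rw [← Finset.sum_subset (Finset.subset_univ {i + 4, i + 1})]
  · rw [Finset.sum_pair (ne_45 i)]
  · intro j _ hj
    simp only [Finset.mem_insert, Finset.mem_singleton, not_or] at hj
    exact h j hj.1 hj.2

theorem prod_two {M : Type} [CommMonoid M] (i : Fin 5) (f : Fin 5 → M)
    (h : ∀ j, j ≠ i + 4 → j ≠ i + 1 → f j = 1) :
    ∏ j, f j = f (i + 4) * f (i + 1) := by
  rw [← Finset.prod_subset (Finset.subset_univ {i + 4, i + 1})]
  · rw [Finset.prod_pair (ne_45 i)]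
  · intro j _ hj
    simp only [Finset.mem_insert, Finset.mem_singleton, not_or] at hj
    exact h j hj.1 hj.2

variable {n : ℕ} {k : Type} [Field k]

/-- the ideal `(X, z_j X : j ≠ i ± 1)` of `TO` -/
noncomputable def JI (n : ℕ) (k : Type) [Field k] (i : Fin 5) : Ideal (TO n k) :=
  Ideal.span ({xE} ∪ yE '' {j | j ≠ i + 4 ∧ j ≠ i + 1})

theorem xE_mem_JI (i : Fin 5) : xE ∈ JI n k i := Ideal.subset_span (Or.inl rfl)

theorem yE_mem_JI (i j : Fin 5) (h1 : j ≠ i + 4) (h2 : j ≠ i + 1) : yE j ∈ JI n k i :=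
  Ideal.subset_span (Or.inr ⟨j, ⟨h1, h2⟩, rfl⟩)

theorem JI_le {i : Fin 5} {P : Ideal (TO n k)} (hx : xE ∈ P)
    (hy : ∀ j, j ≠ i + 4 → j ≠ i + 1 → yE j ∈ P) : JI n k i ≤ P := by
  rw [JI, Ideal.span_le]
  rintro _ (rfl | ⟨j, ⟨h1, h2⟩, rfl⟩)
  · exact hx
  · exact hy j h1 h2

/-- `k[e_{i-1}, e_{i+1}] → TO`, `e_j = (z_j X)^n` -/
noncomputable def polyE (n : ℕ) (k : Type) [Field k] (i : Fin 5) :
    MvPolynomial (Fin 2) k →ₐ[k] TO n k :=
  MvPolynomial.aeval ![yE (i + 4) ^ n, yE (i + 1) ^ n]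

/-- the `k`-subspace `k[e_{i-1}, e_{i+1}] + (X, z_j X : j ≠ i ± 1)` -/
noncomputable def WI (n : ℕ) (k : Type) [Field k] (i : Fin 5) : Submodule k (TO n k) :=
  LinearMap.range (polyE n k i).toLinearMap ⊔ (JI n k i).restrictScalars k

theorem JI_le_WI (i : Fin 5) {t : TO n k} (ht : t ∈ JI n k i) : t ∈ WI n k i :=
  Submodule.mem_sup_right ht

/-- the monomial `Z^γ X^m` as a product -/
theorem monomial_zm_eq (γ : Fin 5 → ℕ) (m : ℕ) (hm : n * ∑ j, γ j ≤ m) :
    Polynomial.monomial m (zm n k (n • γ)) =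
      ((xE : TO n k) ^ (m - n * ∑ j, γ j) * ∏ j, (yE j : TO n k) ^ (n * γ j) : TO n k).1 := by
  have h1 : (∏ j, (yE j : TO n k) ^ (n * γ j) : TO n k).1
      = Polynomial.monomial (n * ∑ j, γ j) (zm n k (n • γ)) := by
    have h2 : (∏ j, (yE j : TO n k) ^ (n * γ j) : TO n k).1
        = ∏ j, (Polynomial.C (z n k j) * Polynomial.X) ^ (n * γ j) := by
      have := map_prod (TO n k).val (fun j => (yE j : TO n k) ^ (n * γ j)) Finset.univ
      simpa [yE_val] using this
    rw [h2]
    simp only [mul_pow]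
    rw [Finset.prod_mul_distrib, Finset.prod_pow_eq_pow_sum, ← Finset.mul_sum]
    have h3 : ∏ j, Polynomial.C (z n k j) ^ (n * γ j) = Polynomial.C (zm n k (n • γ)) := by
      rw [zm, map_prod]
      simp [Pi.smul_apply, smul_eq_mul]
    rw [h3, Polynomial.C_mul_X_pow_eq_monomial]
  rw [MulMemClass.coe_mul, h1, SubmonoidClass.coe_pow, xE_val, Polynomial.X_pow_mul_monomial,
    Nat.add_sub_cancel' hm]

theorem mono_mem_WI (i : Fin 5) (hn : 0 < n) (γ : Fin 5 → ℕ) (hγ : ∀ j, γ j = 0 ∨ γ (j + 1) = 0)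
    (m : ℕ) (hw : ∀ j, w j (n • γ) ≤ m) :
    ∃ t ∈ WI n k i, t.1 = Polynomial.monomial m (zm n k (n • γ)) := by
  obtain ⟨l, hl⟩ := cover (fun j => γ j = 0) hγ
  have hsum := sum_two l γ hl
  have hwl := hw l
  have hl0 : γ l = 0 := hl l (self_ne4 l) (self_ne1 l)
  have hm : n * ∑ j, γ j ≤ m := by
    simp only [w, Pi.smul_apply, smul_eq_mul, hl0, mul_zero, Nat.cast_zero, sub_zero] at hwl
    rw [hsum, mul_add]
    exact_mod_cast hwl
  refine ⟨_, ?_, (monomial_zm_eq γ m hm).symm⟩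
  rcases Nat.lt_or_ge (n * ∑ j, γ j) m with hlt | hge
  · -- factor `X`
    apply JI_le_WI
    apply Ideal.mul_mem_right
    exact Ideal.pow_mem_of_mem _ (xE_mem_JI i) _ (by omega)
  · have hm2 : m - n * ∑ j, γ j = 0 := by omega
    rw [hm2, pow_zero, one_mul]
    by_cases hc : ∀ j, j ≠ i + 4 → j ≠ i + 1 → γ j = 0
    · apply Submodule.mem_sup_left
      refine ⟨MvPolynomial.X 0 ^ γ (i + 4) * MvPolynomial.X 1 ^ γ (i + 1), ?_⟩
      rw [AlgHom.toLinearMap_apply, map_mul, map_pow, map_pow, polyE, MvPolynomial.aeval_X,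
        MvPolynomial.aeval_X, prod_two i]
      · simp only [Matrix.cons_val_zero, Matrix.cons_val_one, ← pow_mul]
      · intro j h1 h2
        rw [hc j h1 h2, mul_zero, pow_zero]
    · push Not at hc
      obtain ⟨j, h1, h2, h3⟩ := hc
      apply JI_le_WI
      rw [← Finset.mul_prod_erase Finset.univ _ (Finset.mem_univ j)]
      apply Ideal.mul_mem_right
      refine Ideal.pow_mem_of_mem _ (yE_mem_JI i j h1 h2) _ ?_
      exact Nat.mul_pos hn (Nat.pos_of_ne_zero h3)

section Basis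

variable (b : Module.Basis {β : Fin 5 → ℕ // Good n β} k (ORing n k))
  (hb : ∀ β, b β = zm n k β.1)

include hb in
theorem repr_phiO (g : Mu n k) (x : ORing n k) (β : {β : Fin 5 → ℕ // Good n β}) :
    b.repr (phiO 0 g x) β = chi g β.1 * b.repr x β := by
  have h : (Finsupp.lapply β ∘ₗ b.repr.toLinearMap) ∘ₗ (phiO 0 g).toLinearMap
      = chi g β.1 • (Finsupp.lapply β ∘ₗ b.repr.toLinearMap) := by
    apply b.ext
    intro α
    have h1 : phiO 0 g (b α) = chi g α.1 • b α := by
      rw [hb, phiO_zm]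
      simp only [sub_zero]
    simp only [LinearMap.comp_apply, AlgHom.toLinearMap_apply, h1, LinearEquiv.coe_coe,
      Finsupp.lapply_apply, LinearMap.smul_apply, map_smul,
      Module.Basis.repr_self, smul_eq_mul]
    rcases eq_or_ne α β with rfl | hne
    · rfl
    · rw [Finsupp.single_eq_of_ne (Ne.symm hne), mul_zero, mul_zero]
  exact LinearMap.congr_fun h x

include hb in
/-- coordinates of an invariant element live on exponents divisible by `n` -/
theorem dvd_of_fixed (hn : 0 < n) {ζ : k} (hζ : IsPrimitiveRoot ζ n) {x : ORing n k}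
    (hx : ∀ g : Mu n k, phiO 0 g x = x) (β : {β : Fin 5 → ℕ // Good n β})
    (hβ : b.repr x β ≠ 0) (j : Fin 5) : n ∣ β.1 j := by
  classical
  have hζu : IsUnit ζ := hζ.isUnit hn.ne'
  let u : rootsOfUnity n k := ⟨hζu.unit, by
    rw [mem_rootsOfUnity]
    apply Units.ext
    rw [Units.val_pow_eq_pow_val, IsUnit.unit_spec, hζ.pow_eq_one, Units.val_one]⟩
  let g : Mu n k := Pi.mulSingle j u
  have h1 := repr_phiO b hb g x β
  rw [hx g] at h1
  have h2 : chi g β.1 = 1 := by
    have : (1 - chi g β.1) * b.repr x β = 0 := by rw [sub_mul, one_mul, ← h1, sub_self]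
    rcases mul_eq_zero.mp this with h | h
    · exact (sub_eq_zero.mp h).symm
    · exact absurd h hβ
  have h3 : chi g β.1 = ζ ^ β.1 j := by
    unfold chi
    rw [Finset.prod_eq_single j]
    · simp [g, u]
    · intro l _ hl
      simp [g, Pi.mulSingle_eq_of_ne hl]
    · simp
  rw [h3] at h2
  exact (hζ.pow_eq_one_iff_dvd _).mp h2

include hb in
/-- LEMMA A: the invariants of `μ_n^5` lie in `k[e_{i-1}, e_{i+1}] + (X, z_j X : j ≠ i ± 1)`. -/
theorem fixed_mem_WI (hn : 0 < n) {ζ : k} (hζ : IsPrimitiveRoot ζ n)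
    (hfil : ∀ (m : ℤ) (x : ORing n k), x ∈ Fil n k m → ∀ β, b.repr x β ≠ 0 → ∀ j, w j β.1 ≤ m)
    (i : Fin 5) (t : TO n k) (ht : ∀ g : Mu n k, tauO 0 g t = t) : t ∈ WI n k i := by
  have key : ∀ m : ℕ, ∃ s ∈ WI n k i, s.1 = Polynomial.monomial m (t.1.coeff m) := by
    intro m
    set x := t.1.coeff m with hxdef
    have hx : ∀ g : Mu n k, phiO 0 g x = x := by
      intro g
      have := tauO_coeff 0 g t m
      rw [ht g] at this
      exact this.symm
    have hxm : x ∈ Fil n k m := t.2 m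
    have h1 : Polynomial.monomial m x
        = ∑ β ∈ (b.repr x).support, (b.repr x β) • Polynomial.monomial m (zm n k β.1) := by
      conv_lhs => rw [← b.linearCombination_repr x, Finsupp.linearCombination_apply, Finsupp.sum,
        map_sum]
      refine Finset.sum_congr rfl fun β _ => ?_
      rw [← Polynomial.smul_monomial, hb]
    have h2 : ∀ β ∈ (b.repr x).support, ∃ s ∈ WI n k i,
        s.1 = (b.repr x β) • Polynomial.monomial m (zm n k β.1) := by
      intro β hβ
      have hβ0 : b.repr x β ≠ 0 := Finsupp.mem_support_iff.mp hβ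
      have hd := dvd_of_fixed b hb hn hζ hx β hβ0
      choose γ hγ using hd
      have hβγ : β.1 = n • γ := by
        funext j
        rw [hγ j]; rfl
      have hgood : ∀ j, γ j = 0 ∨ γ (j + 1) = 0 := by
        intro j
        rcases β.2 j with h | h
        · left
          rw [hγ j] at h
          by_contra h0
          have : n * 1 ≤ n * γ j := Nat.mul_le_mul_left n (Nat.pos_of_ne_zero h0)
          omega
        · right
          rw [hγ (j + 1)] at h
          by_contra h0
          have : n * 1 ≤ n * γ (j + 1) := Nat.mul_le_mul_left n (Nat.pos_of_ne_zero h0)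
          omega
      obtain ⟨s, hs, hs2⟩ := mono_mem_WI (k := k) i hn γ hgood m (by
        rw [← hβγ]
        exact fun j => hfil m x hxm β hβ0 j)
      refine ⟨(b.repr x β) • s, Submodule.smul_mem _ _ hs, ?_⟩
      rw [hβγ, ← hs2]
      rfl
    choose! s hs hs2 using h2
    refine ⟨∑ β ∈ (b.repr x).support, s β, Submodule.sum_mem _ hs, ?_⟩
    rw [h1]
    have := map_sum (TO n k).val s (b.repr x).support
    refine Eq.trans this ?_
    exact Finset.sum_congr rfl fun β hβ => hs2 β hβ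
  choose s hs hs2 using key
  have h3 : t = ∑ m ∈ t.1.support, s m := by
    apply Subtype.ext
    have := map_sum (TO n k).val s t.1.support
    refine Eq.trans ?_ this.symm
    conv_lhs => rw [Polynomial.as_sum_support t.1]
    exact Finset.sum_congr rfl fun m _ => (hs2 m).symm
  rw [h3]
  exact Submodule.sum_mem _ fun m _ => hs m

end Basis

end Crest.Agent.R169.Trans7
end

-- ▼ part R169/Trans/VData
section

/-!
# Row 169, Symm field `trans`, step 1: a valuation ring over `(s)` in `k(a,b)(s)^alg`.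
-/

set_option autoImplicit false

open MvPolynomial

namespace Crest.Agent.R169.Trans7

/-- auxiliary data: an algebraically closed field `M ⊇ k` with a valuation ring `V` containing
`k`, `a^±`, `b^±` (algebraically independent even in the residue field) and a nonunit `s ≠ 0`. -/
structure VData (k : Type) [Field k] where
  M : Type
  [fM : Field M]
  [aM : Algebra k M]
  [cM : IsAlgClosed M]
  V : ValuationSubring M
  a : M
  b : M
  s : M
  alg_mem : ∀ c : k, algebraMap k M c ∈ V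
  a_mem : a ∈ V
  b_mem : b ∈ V
  ai_mem : a⁻¹ ∈ V
  bi_mem : b⁻¹ ∈ V
  a_ne : a ≠ 0
  b_ne : b ≠ 0
  s_ne : s ≠ 0
  s_mem : s ∈ V.nonunits
  indep : ∀ h : MvPolynomial (Fin 2) k, aeval ![a, b] h ∈ V.nonunits → h = 0

attribute [instance] VData.fM VData.aM VData.cM

theorem exists_vdata (k : Type) [Field k] : Nonempty (VData k) := by
  classical
  let E := FractionRing (MvPolynomial (Fin 2) k)
  let L := FractionRing (Polynomial E)
  let M := AlgebraicClosure L
  let j : Polynomial E →+* M := (algebraMap L M).comp (algebraMap (Polynomial E) L)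
  have hj : Function.Injective j := (algebraMap L M).injective.comp
    (IsFractionRing.injective (Polynomial E) L)
  let A : Subring M := j.range
  let I : Ideal A := Ideal.map j.rangeRestrict (Ideal.span {(Polynomial.X : Polynomial E)})
  have hI : I ≠ ⊤ := by
    intro h
    have hbij : Function.Bijective j.rangeRestrict :=
      ⟨fun x y hxy => hj (by simpa using congrArg Subtype.val hxy), j.rangeRestrict_surjective⟩
    have h1 : (1 : A) ∈ I := by rw [h]; trivial
    have h2 := (Ideal.mem_map_iff_of_surjective j.rangeRestrict hbij.2).mp h1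
    obtain ⟨x, hx, hx1⟩ := h2
    have hx2 : x = 1 := hbij.1 (by rw [hx1, map_one])
    rw [hx2, Ideal.mem_span_singleton] at hx
    exact Polynomial.not_isUnit_X (isUnit_of_dvd_one hx)
  obtain ⟨V, hAV, hIV⟩ := Ideal.image_subset_nonunits_valuationSubring I hI
  let e : E →+* M := j.comp Polynomial.C
  have he_mem : ∀ x : E, e x ∈ V := fun x => hAV ⟨Polynomial.C x, rfl⟩
  let _ : Algebra k M := (e.comp (algebraMap k E)).toAlgebra
  have hs : j Polynomial.X ∈ V.nonunits := by
    apply hIV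
    refine ⟨j.rangeRestrict Polynomial.X, ?_, rfl⟩
    exact Ideal.mem_map_of_mem _ (Ideal.mem_span_singleton_self _)
  let aE : E := algebraMap (MvPolynomial (Fin 2) k) E (X 0)
  let bE : E := algebraMap (MvPolynomial (Fin 2) k) E (X 1)
  have haE : aE ≠ 0 := fun h => X_ne_zero (R := k) (0 : Fin 2)
    (IsFractionRing.injective (MvPolynomial (Fin 2) k) E (by rw [map_zero]; exact h))
  have hbE : bE ≠ 0 := fun h => X_ne_zero (R := k) (1 : Fin 2)
    (IsFractionRing.injective (MvPolynomial (Fin 2) k) E (by rw [map_zero]; exact h))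
  refine ⟨{
    M := M
    V := V
    a := e aE
    b := e bE
    s := j Polynomial.X
    alg_mem := fun c => he_mem _
    a_mem := he_mem _
    b_mem := he_mem _
    ai_mem := by rw [← map_inv₀]; exact he_mem _
    bi_mem := by rw [← map_inv₀]; exact he_mem _
    a_ne := by rw [map_ne_zero]; exact haE
    b_ne := by rw [map_ne_zero]; exact hbE
    s_ne := by
      intro h
      exact Polynomial.X_ne_zero (hj (by rw [h, map_zero]))
    s_mem := hs
    indep := ?_ }⟩
  intro h hh
  have h1 : aeval ![e aE, e bE] h = e (algebraMap (MvPolynomial (Fin 2) k) E h) := by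
    have h2 : (aeval ![e aE, e bE] : MvPolynomial (Fin 2) k →ₐ[k] M).toRingHom
        = e.comp (algebraMap (MvPolynomial (Fin 2) k) E) := by
      apply MvPolynomial.ringHom_ext
      · intro c
        simp only [AlgHom.toRingHom_eq_coe, RingHom.coe_coe, algHom_C]
        rfl
      · intro i
        fin_cases i <;> simp [aE, bE]
    exact congrArg (fun f : MvPolynomial (Fin 2) k →+* M => f h) h2
  rw [h1] at hh
  by_contra hne
  have h3 : algebraMap (MvPolynomial (Fin 2) k) E h ≠ 0 := fun h4 => hne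
    (IsFractionRing.injective (MvPolynomial (Fin 2) k) E (by rw [h4, map_zero]))
  have h4 : (e (algebraMap (MvPolynomial (Fin 2) k) E h))⁻¹ ∈ V := by
    rw [← map_inv₀]; exact he_mem _
  rw [ValuationSubring.mem_nonunits_iff] at hh
  rw [← ValuationSubring.valuation_le_one_iff, map_inv₀] at h4
  have h5 : V.valuation (e (algebraMap (MvPolynomial (Fin 2) k) E h)) ≠ 0 := by
    rw [ne_eq, Valuation.zero_iff]
    rw [map_eq_zero]
    exact h3
  exact absurd hh (not_lt.mpr (by
    have := inv_le_one₀ (zero_lt_iff.mpr h5) |>.mp h4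
    exact this))

end Crest.Agent.R169.Trans7
end

-- ▼ part R169/Trans/PrimeI
section

/-!
# Row 169, Symm field `trans`, step 4: a prime `p_i ⊇ (X, z_j X : j ≠ i ± 1)` of `TO` with
`p_i ∩ k[e_{i-1}, e_{i+1}] = 0`.
-/

set_option autoImplicit false

open Crest.R169

namespace Crest.Agent.R169.Trans7

variable {n : ℕ} {k : Type} [Field k]

/-- the values of the `Z_j` -/
noncomputable def fV (n : ℕ) (d : VData k) : Fin 5 → d.M :=
  ![d.s ^ n * ((d.s ^ n + d.a + d.b) * d.a⁻¹ * d.b⁻¹), d.b * (d.s ^ n)⁻¹, (d.s ^ n + d.a) * d.b⁻¹,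
    (d.s ^ n + d.b) * d.a⁻¹, d.a * (d.s ^ n)⁻¹]

theorem fV_rel (n : ℕ) (d : VData k) (l : Fin 5) : fV n d l * fV n d (l + 1) = 1 + fV n d (l + 3) := by
  have hs : d.s ^ n ≠ 0 := pow_ne_zero _ d.s_ne
  have ha := d.a_ne
  have hb := d.b_ne
  fin_cases l <;> simp [fV] <;> field_simp <;> ring

theorem pow_mem_iff {M : Type} [Field M] (V : ValuationSubring M) (x : M) {n : ℕ} (hn : 0 < n)
    (h : x ^ n ∈ V) : x ∈ V := by
  rw [← ValuationSubring.valuation_le_one_iff] at h ⊢
  rw [map_pow] at h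
  exact (pow_le_one_iff hn.ne').mp h

theorem pow_nonunits {M : Type} [Field M] (V : ValuationSubring M) (x : M) {n : ℕ}
    (h : x ^ n ∈ V.nonunits) : x ∈ V.nonunits := by
  rw [ValuationSubring.mem_nonunits_iff] at h ⊢
  rw [map_pow] at h
  by_contra hx
  exact absurd h (not_lt.mpr (one_le_pow₀ (not_lt.mp hx)))

theorem mul_nonunits {M : Type} [Field M] (V : ValuationSubring M) {x y : M}
    (h : x ∈ V.nonunits) (hy : y ∈ V) : x * y ∈ V.nonunits := by
  rw [ValuationSubring.mem_nonunits_iff] at h ⊢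
  rw [← ValuationSubring.valuation_le_one_iff] at hy
  rw [map_mul]
  exact mul_lt_one_of_lt_of_le h hy

theorem exists_prime (d : VData k) (hn : 0 < n) (i : Fin 5) :
    ∃ p : Ideal (TO n k), p.IsPrime ∧ JI n k i ≤ p ∧ ∀ h, polyE n k i h ∈ p → h = 0 := by
  classical
  have hs : d.s ^ n ≠ 0 := pow_ne_zero _ d.s_ne
  have hsV : d.s ∈ d.V := ValuationSubring.nonunits_subset d.s_mem
  have hsnV : d.s ^ n ∈ d.V := d.V.toSubring.pow_mem hsV n
  have hex : ∀ j : Fin 5, ∃ c : d.M, c ^ n = fV n d (j - i) := fun j =>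
    IsAlgClosed.exists_pow_nat_eq _ hn
  choose c hc using hex
  let Φ : ORing n k →ₐ[k] d.M := ORing.lift c (by
    intro j
    rw [hc, hc, hc]
    have := fV_rel n d (j - i)
    rw [show j + 1 - i = j - i + 1 from add_sub_right_comm j 1 i,
      show j + 3 - i = j - i + 3 from add_sub_right_comm j 3 i]
    exact this)
  have hΦ : ∀ j, Φ (z n k j) = c j := fun j => ORing.lift_z _ _ _
  let Ψ : TO n k →+* d.M := (Polynomial.eval₂RingHom (Φ : ORing n k →+* d.M) d.s).comp
    ((TO n k).val : TO n k →+* Polynomial (ORing n k))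
  -- the values
  have hf0 : fV n d 0 ∈ d.V := by
    show d.s ^ n * ((d.s ^ n + d.a + d.b) * d.a⁻¹ * d.b⁻¹) ∈ d.V
    exact mul_mem hsnV (mul_mem (mul_mem (add_mem (add_mem hsnV d.a_mem) d.b_mem) d.ai_mem) d.bi_mem)
  have hf0' : (d.s ^ n + d.a + d.b) * d.a⁻¹ * d.b⁻¹ ∈ d.V :=
    mul_mem (mul_mem (add_mem (add_mem hsnV d.a_mem) d.b_mem) d.ai_mem) d.bi_mem
  have hf2 : fV n d 2 ∈ d.V := mul_mem (add_mem hsnV d.a_mem) d.bi_mem
  have hf3 : fV n d 3 ∈ d.V := mul_mem (add_mem hsnV d.b_mem) d.ai_mem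
  have hf1s : fV n d 1 * d.s ^ n = d.b := by
    show d.b * (d.s ^ n)⁻¹ * d.s ^ n = d.b
    field_simp
  have hf4s : fV n d 4 * d.s ^ n = d.a := by
    show d.a * (d.s ^ n)⁻¹ * d.s ^ n = d.a
    field_simp
  have hmon : ∀ (m : ℕ) (β : Fin 5 → ℕ), (∀ j, w j β ≤ m) → Φ (zm n k β) * d.s ^ m ∈ d.V := by
    intro m β hβ
    apply pow_mem_iff d.V _ hn
    have h1 : Φ (zm n k β) ^ n = ∏ l, fV n d l ^ β (l + i) := by
      rw [zm, map_prod, ← Finset.prod_pow]
      refine Fintype.prod_equiv (Equiv.subRight i) _ _ fun j => ?_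
      rw [map_pow, hΦ, ← pow_mul, mul_comm, pow_mul, hc]
      simp
    have hwi := hβ i
    simp only [w] at hwi
    obtain ⟨e, he⟩ : ∃ e : ℕ, m + β i = e + β (i + 1) + β (i + 4) :=
      ⟨m + β i - β (i + 1) - β (i + 4), by omega⟩
    rw [mul_pow, h1, Fin.prod_univ_five]
    have h2 : (d.s ^ m) ^ n = (d.s ^ n) ^ m := by rw [← pow_mul, ← pow_mul, mul_comm]
    rw [h2, show (0 : Fin 5) + i = i from zero_add i, add_comm 1 i, add_comm 4 i]
    have h3 : fV n d 0 = d.s ^ n * ((d.s ^ n + d.a + d.b) * d.a⁻¹ * d.b⁻¹) := rfl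
    have h4 : fV n d 0 ^ β i * fV n d 1 ^ β (i + 1) * fV n d 2 ^ β (2 + i) * fV n d 3 ^ β (3 + i)
        * fV n d 4 ^ β (i + 4) * (d.s ^ n) ^ m
        = ((d.s ^ n + d.a + d.b) * d.a⁻¹ * d.b⁻¹) ^ β i * (fV n d 1 * d.s ^ n) ^ β (i + 1)
          * fV n d 2 ^ β (2 + i) * fV n d 3 ^ β (3 + i) * (fV n d 4 * d.s ^ n) ^ β (i + 4)
          * (d.s ^ n) ^ e := by
      have h5 : (d.s ^ n) ^ m * (d.s ^ n) ^ β i
          = (d.s ^ n) ^ e * (d.s ^ n) ^ β (i + 1) * (d.s ^ n) ^ β (i + 4) := by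
        rw [← pow_add, ← pow_add, ← pow_add, he]
      calc _ = ((d.s ^ n) ^ m * (d.s ^ n) ^ β i) * ((d.s ^ n + d.a + d.b) * d.a⁻¹ * d.b⁻¹) ^ β i
            * fV n d 1 ^ β (i + 1) * fV n d 2 ^ β (2 + i) * fV n d 3 ^ β (3 + i)
            * fV n d 4 ^ β (i + 4) := by rw [h3, mul_pow]; ring
        _ = _ := by rw [h5, mul_pow, mul_pow]; ring
    rw [h4, hf1s, hf4s]
    exact mul_mem (mul_mem (mul_mem (mul_mem (mul_mem (pow_mem hf0' _) (pow_mem d.b_mem _))
      (pow_mem hf2 _)) (pow_mem hf3 _)) (pow_mem d.a_mem _)) (pow_mem hsnV _)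
  have hfil : ∀ (m : ℕ) (x : ORing n k), x ∈ Fil n k m → Φ x * d.s ^ m ∈ d.V := by
    intro m x hx
    induction hx using Submodule.span_induction with
    | mem x hx =>
      obtain ⟨β, hβ, rfl⟩ := hx
      exact hmon m β hβ
    | zero => rw [map_zero, zero_mul]; exact zero_mem _
    | add x y _ _ h1 h2 => rw [map_add, add_mul]; exact add_mem h1 h2
    | smul c x _ h =>
      rw [map_smul, Algebra.smul_def, mul_assoc]
      exact mul_mem (d.alg_mem c) h
  have hΨ : ∀ t : TO n k, Ψ t ∈ d.V.toSubring := by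
    intro t
    show Polynomial.eval₂ (Φ : ORing n k →+* d.M) d.s t.1 ∈ d.V
    rw [Polynomial.eval₂_eq_sum, Polynomial.sum]
    exact sum_mem fun m _ => hfil m _ (t.2 m)
  let Ψ' : TO n k →+* d.V := Ψ.codRestrict d.V.toSubring hΨ
  have hmemP : ∀ t : TO n k, t ∈ Ideal.comap Ψ' (IsLocalRing.maximalIdeal d.V) ↔
      Ψ t ∈ d.V.nonunits := by
    intro t
    rw [Ideal.mem_comap, ← ValuationSubring.coe_mem_nonunits_iff]
    rfl
  have hΨx : Ψ xE = d.s := by
    show Polynomial.eval₂ (Φ : ORing n k →+* d.M) d.s Polynomial.X = d.s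
    rw [Polynomial.eval₂_X]
  have hΨy : ∀ j, Ψ (yE j) = c j * d.s := by
    intro j
    show Polynomial.eval₂ (Φ : ORing n k →+* d.M) d.s (Polynomial.monomial 1 (z n k j)) = _
    rw [Polynomial.eval₂_monomial, pow_one]
    congr 1
    exact hΦ j
  refine ⟨Ideal.comap Ψ' (IsLocalRing.maximalIdeal d.V), Ideal.comap_isPrime _ _, ?_, ?_⟩
  · apply JI_le
    · rw [hmemP, hΨx]; exact d.s_mem
    · intro j h1 h2
      rw [hmemP, hΨy]
      apply pow_nonunits d.V (n := n)
      rw [mul_pow, hc, mul_comm]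
      apply mul_nonunits
      · have : d.s ^ n = d.s * d.s ^ (n - 1) := by
          rw [← pow_succ']; congr 1; omega
        rw [this]
        exact mul_nonunits d.V d.s_mem (pow_mem hsV _)
      · have h3 : j - i ≠ 4 := fun h => h1 (by rw [← h]; abel)
        have h4 : j - i ≠ 1 := fun h => h2 (by rw [← h]; abel)
        generalize j - i = l at h3 h4
        fin_cases l
        · exact hf0
        · exact absurd rfl h4
        · exact hf2
        · exact hf3
        · exact absurd rfl h3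
  · intro h hh
    rw [hmemP] at hh
    have h1 : Ψ (polyE n k i h) = MvPolynomial.aeval ![d.a, d.b] h := by
      have h2 : Ψ.comp (polyE n k i : MvPolynomial (Fin 2) k →+* TO n k)
          = (MvPolynomial.aeval ![d.a, d.b] : MvPolynomial (Fin 2) k →ₐ[k] d.M).toRingHom := by
        apply MvPolynomial.ringHom_ext
        · intro r
          have h3 : (polyE n k i) (MvPolynomial.C r) = algebraMap k (TO n k) r := by
            rw [← MvPolynomial.algebraMap_eq]; exact (polyE n k i).commutes r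
          show Ψ ((polyE n k i) (MvPolynomial.C r)) = _
          rw [h3]
          show Polynomial.eval₂ (Φ : ORing n k →+* d.M) d.s
            (algebraMap k (Polynomial (ORing n k)) r) = _
          rw [Polynomial.algebraMap_apply, Polynomial.eval₂_C]
          simp
        · intro l
          have key : ∀ j, Ψ (yE j ^ n) = fV n d (j - i) * d.s ^ n := by
            intro j
            rw [map_pow, hΨy, mul_pow, hc]
          have h4 : Ψ (yE (i + 4) ^ n) = d.a := by
            rw [key, show i + 4 - i = 4 by abel, hf4s]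
          have h5 : Ψ (yE (i + 1) ^ n) = d.b := by
            rw [key, show i + 1 - i = 1 by abel, hf1s]
          fin_cases l
          · show Ψ (polyE n k i (MvPolynomial.X 0)) = _
            rw [polyE, MvPolynomial.aeval_X]
            show Ψ (yE (i + 4) ^ n) = _
            rw [h4]
            simp
          · show Ψ (polyE n k i (MvPolynomial.X 1)) = _
            rw [polyE, MvPolynomial.aeval_X]
            show Ψ (yE (i + 1) ^ n) = _
            rw [h5]
            simp
      exact congrArg (fun f : MvPolynomial (Fin 2) k →+* d.M => f h) h2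
    rw [h1] at hh
    exact d.indep h hh

end Crest.Agent.R169.Trans7
end

-- ▼ part R169/Trans/Core
section

/-!
# Row 169, Symm field `trans`, step 5: transitivity on the minimal primes over `X` in `TO`.
-/

set_option autoImplicit false

open Crest.R169

namespace Crest.Agent.R169.Trans7

/-- a minimal nonzero prime (= height one prime of a domain) -/
structure IsH1 {R : Type} [CommRing R] (P : Ideal R) : Prop where
  prime : P.IsPrime
  ne_bot : P ≠ ⊥
  min : ∀ q : Ideal R, q.IsPrime → q ≤ P → q ≠ ⊥ → q = P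

theorem IsH1.comap {R S : Type} [CommRing R] [CommRing S] (e : R ≃+* S) {P : Ideal S}
    (h : IsH1 P) : IsH1 (Ideal.comap (e : R →+* S) P) := by
  have hbot : ∀ (q : Ideal R), q ≠ ⊥ → Ideal.comap (e.symm : S →+* R) q ≠ ⊥ := by
    intro q hq h0
    apply hq
    rw [eq_bot_iff]
    intro x hx
    have : e x ∈ Ideal.comap (e.symm : S →+* R) q := by
      rw [Ideal.mem_comap]
      simpa using hx
    rw [h0, Ideal.mem_bot] at this
    rw [Ideal.mem_bot]
    exact (map_eq_zero_iff e e.injective).mp this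
  refine ⟨?_, ?_, ?_⟩
  · haveI := h.prime
    exact Ideal.comap_isPrime _ _
  · intro h0
    apply h.ne_bot
    rw [eq_bot_iff]
    intro x hx
    have : e.symm x ∈ Ideal.comap (e : R →+* S) P := by
      rw [Ideal.mem_comap]
      simpa using hx
    rw [h0, Ideal.mem_bot] at this
    rw [Ideal.mem_bot]
    exact (map_eq_zero_iff e.symm e.symm.injective).mp this
  · intro q hq hle hne
    have := hq
    have h1 : Ideal.comap (e.symm : S →+* R) q = P := by
      apply h.min _ (Ideal.comap_isPrime _ _) _ (hbot q hne)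
      intro x hx
      rw [Ideal.mem_comap] at hx
      have := hle hx
      rw [Ideal.mem_comap] at this
      simpa using this
    ext x
    rw [Ideal.mem_comap, ← h1, Ideal.mem_comap]
    simp

variable {n : ℕ} {k : Type} [Field k]

/-- `tauO` as a ring automorphism -/
noncomputable def tauE (i : Fin 5) (g : Mu n k) : TO n k ≃+* TO n k :=
  RingEquiv.ofRingHom (tauO i g : TO n k →+* TO n k)
    (tauO (-i) (fun j => (g (j - i))⁻¹) : TO n k →+* TO n k)
    (by
      ext1 t
      show tauO i g (tauO (-i) (fun j => (g (j - i))⁻¹) t) = t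
      rw [tauO_comp]
      have h1 : (-i : Fin 5) + i = 0 := neg_add_cancel i
      have h2 : (fun j => (g (j - i))⁻¹ * g (j + -i)) = (1 : Mu n k) := by
        funext j
        rw [← sub_eq_add_neg, inv_mul_cancel]; rfl
      rw [h1, h2, tauO_one])
    (by
      ext1 t
      show tauO (-i) (fun j => (g (j - i))⁻¹) (tauO i g t) = t
      rw [tauO_comp]
      have h1 : i + (-i : Fin 5) = 0 := add_neg_cancel i
      have h2 : (fun j => g j * (g (j + i - i))⁻¹) = (1 : Mu n k) := by
        funext j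
        rw [add_sub_cancel_right, mul_inv_cancel]; rfl
      rw [h1, h2, tauO_one])


/-- norm and prime avoidance -/
theorem exists_le_comap [NeZero n] (p P : Ideal (TO n k)) (hP : P.IsPrime)
    (h : ∀ t ∈ p, (∀ g : Mu n k, tauO 0 g t = t) → t ∈ P) :
    ∃ g : Mu n k, p ≤ Ideal.comap (tauE 0 g : TO n k →+* TO n k) P := by
  classical
  let _ : Fintype (Mu n k) := Fintype.ofFinite (Mu n k)
  have h1 : (p : Set (TO n k)) ⊆
      ⋃ g ∈ ((Finset.univ : Finset (Mu n k)) : Set (Mu n k)),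
        (Ideal.comap (tauE 0 g : TO n k →+* TO n k) P : Ideal (TO n k)) := by
    intro t ht
    have h2 : (∏ g : Mu n k, tauO 0 g t) ∈ P := by
      apply h
      · rw [← Finset.mul_prod_erase Finset.univ _ (Finset.mem_univ (1 : Mu n k)), tauO_one]
        exact Ideal.mul_mem_right _ _ ht
      · intro g
        rw [map_prod]
        refine Fintype.prod_equiv (Equiv.mulRight g) _ _ fun h => ?_
        rw [tauO_comp]
        simp only [Equiv.coe_mulRight, add_zero]
        rfl
    obtain ⟨g, -, hg⟩ := (Ideal.IsPrime.prod_mem_iff (hp := hP)).mp h2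
    simp only [Finset.coe_univ, Set.mem_univ, Set.iUnion_true, Set.mem_iUnion, SetLike.mem_coe]
    exact ⟨g, hg⟩
  obtain ⟨g, -, hg⟩ := (Ideal.subset_union_prime (1 : Mu n k) 1 (fun g _ _ _ => by
    have := hP
    exact Ideal.comap_isPrime _ _)).mp h1
  exact ⟨g, hg⟩

/-- every prime containing `X` has a side -/
theorem exists_side (hn : 0 < n) (P : Ideal (TO n k)) (hP : P.IsPrime) (hX : xE ∈ P) :
    ∃ i, JI n k i ≤ P := by
  have h : ∀ j : Fin 5, yE j ∈ P ∨ yE (j + 1) ∈ P := by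
    intro j
    have h1 : (yE j : TO n k) ^ n * yE (j + 1) ^ n ∈ P := by
      rw [yE_rel]
      exact add_mem (Ideal.pow_mem_of_mem _ hX _ (by omega))
        (Ideal.mul_mem_right _ _ (Ideal.pow_mem_of_mem _ hX _ hn))
    rcases hP.mem_or_mem h1 with h2 | h2
    · exact Or.inl (hP.mem_of_pow_mem _ h2)
    · exact Or.inr (hP.mem_of_pow_mem _ h2)
  obtain ⟨i, hi⟩ := cover (fun j => yE j ∈ P) h
  exact ⟨i, JI_le hX hi⟩

section Basis

variable (b : Module.Basis {β : Fin 5 → ℕ // Good n β} k (ORing n k))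
  (hb : ∀ β, b β = zm n k β.1)
  (hfil : ∀ (m : ℤ) (x : ORing n k), x ∈ Fil n k m → ∀ β, b.repr x β ≠ 0 → ∀ j, w j β.1 ≤ m)

include hb hfil in
/-- an invariant element of `p` (`p ∩ k[e_{i-1}, e_{i+1}] = 0`, `p ⊇ J_i`) lies in `J_i` -/
theorem inv_mem_JI (hn : 0 < n) {ζ : k} (hζ : IsPrimitiveRoot ζ n) (i : Fin 5)
    (p : Ideal (TO n k)) (hJ : JI n k i ≤ p) (hp : ∀ h, polyE n k i h ∈ p → h = 0)
    (t : TO n k) (ht : t ∈ p) (hinv : ∀ g : Mu n k, tauO 0 g t = t) : t ∈ JI n k i := by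
  have h1 := fixed_mem_WI b hb hn hζ hfil i t hinv
  obtain ⟨a, ⟨h, rfl⟩, c, hc, rfl⟩ := Submodule.mem_sup.mp h1
  have hc' : c ∈ JI n k i := hc
  have h2 : polyE n k i h ∈ p := by
    have := Ideal.sub_mem p ht (hJ hc')
    rw [add_sub_cancel_right] at this
    exact this
  have h3 := hp h h2
  rw [h3, map_zero, zero_add]
  exact hc'

include hb hfil in
theorem same_side (hn : 0 < n) {ζ : k} (hζ : IsPrimitiveRoot ζ n) (i : Fin 5)
    (P P' : Ideal (TO n k)) (hP : IsH1 P) (hP' : IsH1 P') (hJ : JI n k i ≤ P)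
    (hJ' : JI n k i ≤ P') :
    ∃ g : Mu n k, P = Ideal.comap (tauE 0 g : TO n k →+* TO n k) P' := by
  have : NeZero n := ⟨hn.ne'⟩
  obtain ⟨d⟩ := exists_vdata k
  obtain ⟨p, hp, hJp, hp0⟩ := exists_prime d hn i
  have hinv := inv_mem_JI b hb hfil hn hζ i p hJp hp0
  have hpne : p ≠ ⊥ := by
    intro h0
    have hx : (xE : TO n k) ∈ p := hJp (xE_mem_JI i)
    rw [h0, Ideal.mem_bot] at hx
    have h1 : (Polynomial.X : Polynomial (ORing n k)) = 0 := by
      rw [← xE_val, hx]; rfl
    have : Nontrivial (ORing n k) := by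
      by_contra hnt
      rw [not_nontrivial_iff_subsingleton] at hnt
      have : Subsingleton (TO n k) := ⟨fun a b => Subtype.ext (Subsingleton.elim _ _)⟩
      exact hp.ne_top (Subsingleton.elim _ _)
    exact Polynomial.X_ne_zero h1
  obtain ⟨g, hg⟩ := exists_le_comap p P hP.prime (fun t ht hi => hJ (hinv t ht hi))
  have hpg : p = Ideal.comap (tauE 0 g : TO n k →+* TO n k) P :=
    (IsH1.comap (tauE 0 g) hP).min p hp hg hpne
  obtain ⟨g', hg'⟩ := exists_le_comap P P' hP'.prime (fun t ht hi => by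
    apply hJ'
    apply hinv t _ hi
    rw [hpg, Ideal.mem_comap]
    show tauO 0 g t ∈ P
    rw [hi g]
    exact ht)
  exact ⟨g', (IsH1.comap (tauE 0 g') hP').min P hP.prime hg' hP.ne_bot⟩

include hb hfil in
/-- transitivity of `μ_n^5 ⋊ ℤ/5` on the height one primes of `TO` containing `X`. -/
theorem trans_core (hn : 0 < n) {ζ : k} (hζ : IsPrimitiveRoot ζ n)
    (P P' : Ideal (TO n k)) (hP : IsH1 P) (hP' : IsH1 P') (hX : xE ∈ P) (hX' : xE ∈ P') :
    ∃ (i : Fin 5) (g : Mu n k), P = Ideal.comap (tauE i g : TO n k →+* TO n k) P' := by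
  obtain ⟨i, hi⟩ := exists_side hn P hP.prime hX
  obtain ⟨i', hi'⟩ := exists_side hn P' hP'.prime hX'
  -- rotate `P` to side `i'`
  let ρ : TO n k ≃+* TO n k := tauE (i - i') (1 : Mu n k)
  have hρ := IsH1.comap ρ hP
  have hJρ : JI n k i' ≤ Ideal.comap (ρ : TO n k →+* TO n k) P := by
    apply JI_le
    · rw [Ideal.mem_comap]
      show tauO (i - i') 1 xE ∈ P
      rw [tauO_xE]; exact hX
    · intro j h1 h2
      rw [Ideal.mem_comap]
      show tauO (i - i') 1 (yE j) ∈ P
      rw [tauO_yE, Algebra.smul_def]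
      apply Ideal.mul_mem_left
      apply hi
      apply yE_mem_JI
      · intro h; apply h1
        have : j = i + 4 - (i - i') := by rw [← h]; abel
        rw [this]; abel
      · intro h; apply h2
        have : j = i + 1 - (i - i') := by rw [← h]; abel
        rw [this]; abel
  obtain ⟨g, hg⟩ := same_side b hb hfil hn hζ i' _ P' hρ hP' hJρ hi'
  refine ⟨i' - i, fun j => g (j + (i' - i)), ?_⟩
  ext t
  have h1 : tauO (i - i') (1 : Mu n k) (tauO (i' - i) (1 : Mu n k) t) = t := by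
    rw [tauO_comp]
    have e1 : i' - i + (i - i') = 0 := by abel
    have e2 : (fun j => (1 : Mu n k) j * (1 : Mu n k) (j + (i' - i))) = (1 : Mu n k) := by
      funext j; simp
    rw [e1, e2, tauO_one]
  have h2 : t ∈ P ↔ tauO (i' - i) (1 : Mu n k) t ∈ Ideal.comap (ρ : TO n k →+* TO n k) P := by
    rw [Ideal.mem_comap]
    show _ ↔ tauO (i - i') (1 : Mu n k) (tauO (i' - i) (1 : Mu n k) t) ∈ P
    rw [h1]
  rw [h2, hg, Ideal.mem_comap, Ideal.mem_comap]
  show tauO 0 g (tauO (i' - i) (1 : Mu n k) t) ∈ P' ↔ tauO (i' - i) _ t ∈ P'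
  rw [tauO_comp]
  have e1 : i' - i + 0 = i' - i := add_zero _
  have e2 : (fun j => (1 : Mu n k) j * g (j + (i' - i))) = fun j => g (j + (i' - i)) := by
    funext j; simp
  rw [e1, e2]

end Basis

end Crest.Agent.R169.Trans7
end

-- ▼ part R169/SymInv
section

/-!
# Row 169: invariants of `μ_n^5` on `O n k` (helper239)

`rot ζ : z_j ↦ ζ_j z_j`.  An element of `O n k` fixed by all `rot ζ` comes from `O 1 k`; norms from
`O n k` come from `O 1 k`.
-/

set_option autoImplicit false

open Crest.R169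

namespace Crest.Agent.R169.SymInv

open OnOverO1

section

variable (n : ℕ) (k : Type*) [Field k]

/-- `μ_n^5` -/
abbrev Mu : Type _ := Fin 5 → rootsOfUnity n k

variable {n k}

theorem coe_pow_eq_one (ζ : Mu n k) (j : Fin 5) : (((ζ j : kˣ) : k)) ^ n = 1 := by
  have h := (ζ j).2
  rw [mem_rootsOfUnity] at h
  rw [← Units.val_pow_eq_pow_val, h, Units.val_one]

/-- `z_j ↦ ζ_j z_j` -/
noncomputable def rot (ζ : Mu n k) : ORing n k →ₐ[k] ORing n k :=
  ORing.lift (fun j => ((ζ j : kˣ) : k) • z n k j) (fun j => by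
    rw [smul_pow, smul_pow, smul_pow, coe_pow_eq_one, coe_pow_eq_one, coe_pow_eq_one, one_smul,
      one_smul, one_smul]
    exact z_rel n k j)

@[simp] theorem rot_z (ζ : Mu n k) (j : Fin 5) : rot ζ (z n k j) = ((ζ j : kˣ) : k) • z n k j := by
  unfold rot
  rw [ORing.lift_z]

theorem rot_rot (ζ ξ : Mu n k) (x : ORing n k) : rot ζ (rot ξ x) = rot (ζ * ξ) x := by
  have h : (rot ζ).comp (rot ξ) = rot (ζ * ξ) := by
    apply ORing.algHom_ext
    intro j
    rw [AlgHom.comp_apply, rot_z, map_smul, rot_z, rot_z, smul_smul]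
    congr 1
    rw [Pi.mul_apply, Subgroup.coe_mul, Units.val_mul, mul_comm]
  exact DFunLike.congr_fun h x

theorem rot_zm (ζ : Mu n k) (γ : Fin 5 → ℕ) :
    rot ζ (zm n k γ) = (∏ j, ((ζ j : kˣ) : k) ^ γ j) • zm n k γ := by
  unfold zm
  rw [map_prod]
  simp only [map_pow, rot_z, smul_pow]
  rw [Finset.prod_smul]

variable [Fintype (rootsOfUnity n k)]

theorem sum_pow_eq_zero [NeZero n] {ζ₀ : k} (hζ₀ : IsPrimitiveRoot ζ₀ n) {a : ℕ} (ha : ¬ n ∣ a) :
    ∑ ξ : rootsOfUnity n k, ((ξ : kˣ) : k) ^ a = 0 := by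
  have hu : IsUnit ζ₀ := hζ₀.isUnit (NeZero.ne n)
  obtain ⟨u, hu⟩ := hu
  have hun : u ∈ rootsOfUnity n k := by
    rw [mem_rootsOfUnity]
    ext
    rw [Units.val_pow_eq_pow_val, hu, hζ₀.pow_eq_one, Units.val_one]
  have h1 : ∑ ξ : rootsOfUnity n k, ((ξ : kˣ) : k) ^ a
      = ζ₀ ^ a * ∑ ξ : rootsOfUnity n k, ((ξ : kˣ) : k) ^ a := by
    rw [Finset.mul_sum]
    symm
    refine Fintype.sum_equiv (Equiv.mulLeft (⟨u, hun⟩ : rootsOfUnity n k)) _ _ ?_
    intro ξ
    rw [Equiv.coe_mulLeft, Subgroup.coe_mul, Units.val_mul, mul_pow, hu]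
  have h2 : ζ₀ ^ a ≠ 1 := by
    rw [Ne, hζ₀.pow_eq_one_iff_dvd]
    exact ha
  have h3 : (ζ₀ ^ a - 1) * ∑ ξ : rootsOfUnity n k, ((ξ : kˣ) : k) ^ a = 0 := by
    rw [sub_mul, one_mul, ← h1, sub_self]
  exact (mul_eq_zero.mp h3).resolve_left (sub_ne_zero.mpr h2)

theorem sum_rot_mem [NeZero n] {ζ₀ : k} (hζ₀ : IsPrimitiveRoot ζ₀ n) (x : ORing n k) :
    ∑ ζ : Mu n k, rot ζ x ∈ (incl n k).range := by
  have hx : x ∈ Submodule.span k (Set.range (zm n k)) := by
    rw [span_zm]; exact Submodule.mem_top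
  induction hx using Submodule.span_induction with
  | mem x hx =>
    obtain ⟨γ, rfl⟩ := hx
    simp only [rot_zm]
    rw [← Finset.sum_smul]
    have hprod : ∑ ζ : Mu n k, ∏ j, ((ζ j : kˣ) : k) ^ γ j
        = ∏ j, ∑ ξ : rootsOfUnity n k, ((ξ : kˣ) : k) ^ γ j := by
      rw [Finset.prod_univ_sum]
      rw [Fintype.piFinset_univ]
    rw [hprod]
    by_cases hall : ∀ j, n ∣ γ j
    · refine Subalgebra.smul_mem _ ?_ _
      refine ⟨zm 1 k (fun j => γ j / n), ?_⟩
      show incl n k (zm 1 k (fun j => γ j / n)) = _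
      unfold zm
      rw [map_prod]
      refine Finset.prod_congr rfl fun j _ => ?_
      rw [map_pow, incl_z, ← pow_mul, Nat.mul_div_cancel' (hall j)]
    · push Not at hall
      obtain ⟨j, hj⟩ := hall
      rw [Finset.prod_eq_zero (Finset.mem_univ j) (sum_pow_eq_zero hζ₀ hj), zero_smul]
      exact Subalgebra.zero_mem _
  | zero => simp only [map_zero, Finset.sum_const_zero]; exact Subalgebra.zero_mem _
  | add x y _ _ hx hy =>
    simp only [map_add, Finset.sum_add_distrib]
    exact Subalgebra.add_mem _ hx hy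
  | smul c x _ hx =>
    simp only [map_smul, ← Finset.smul_sum]
    exact Subalgebra.smul_mem _ hx _

/-- invariants of `μ_n^5` -/
theorem mem_range_of_fixed [NeZero (n : k)] {ζ₀ : k} (hζ₀ : IsPrimitiveRoot ζ₀ n)
    (x : ORing n k) (hx : ∀ ζ : Mu n k, rot ζ x = x) : x ∈ (incl n k).range := by
  have : NeZero n := NeZero.of_neZero_natCast k
  have h := sum_rot_mem hζ₀ x
  simp only [hx] at h
  rw [Finset.sum_const, Finset.card_univ, Fintype.card_fun, Fintype.card_fin] at h
  have hcard : Fintype.card (rootsOfUnity n k) = n := by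
    rw [← Nat.card_eq_fintype_card]
    exact hζ₀.card_rootsOfUnity
  rw [hcard] at h
  have h2 : ((n : k) ^ 5)⁻¹ • ((n ^ 5) • x) = x := by
    rw [← Nat.cast_smul_eq_nsmul k (n ^ 5) x, smul_smul]
    have : ((n : k) ^ 5)⁻¹ * ((n ^ 5 : ℕ) : k) = 1 := by
      push_cast
      exact inv_mul_cancel₀ (pow_ne_zero _ (NeZero.ne (n : k)))
    rw [this, one_smul]
  rw [← h2]
  exact Subalgebra.smul_mem _ h _

/-- norms come from `O 1 k` -/
theorem norm_mem_range [NeZero (n : k)] {ζ₀ : k} (hζ₀ : IsPrimitiveRoot ζ₀ n) (x : ORing n k) :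
    ∏ ζ : Mu n k, rot ζ x ∈ (incl n k).range := by
  apply mem_range_of_fixed hζ₀
  intro ξ
  rw [map_prod]
  refine Fintype.prod_equiv (Equiv.mulLeft ξ) _ _ ?_
  intro ζ
  rw [rot_rot, Equiv.coe_mulLeft]

end

end Crest.Agent.R169.SymInv
end

-- ▼ part R169/SymmAlg
section

/-!
# Row 169, part D3/K4: commutative algebra for the symmetry instance (helper239)

Going down for invariants of finite groups, contraction of "height one" primes.
"Height one" is used in the elementary form `MinNZ P`.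
-/

set_option autoImplicit false

namespace Crest.Agent.R169.SymmAlg

open Ideal
open scoped Pointwise

section GoingDown

variable {A B : Type*} [CommRing A] [CommRing B] [Algebra A B]


/-- `P` is a prime minimal among the nonzero primes (height one in a domain). -/
structure MinNZ {B : Type*} [CommRing B] (P : Ideal B) : Prop where
  prime : P.IsPrime
  ne_bot : P ≠ ⊥
  min : ∀ P' : Ideal B, P'.IsPrime → P' ≤ P → P' ≠ ⊥ → P' = P


/-- contraction of a height one prime contains no smaller nonzero prime -/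
theorem MinNZ.under_eq [Algebra.HasGoingDown A B] {P : Ideal B}
    (hinj : Function.Injective (algebraMap A B)) (hP : MinNZ P) {p : Ideal A} (hp : p.IsPrime)
    (hne : p ≠ ⊥) (hle : p ≤ P.under A) : p = P.under A := by
  have := hP.prime
  by_contra hne2
  have hlt : p < P.under A := lt_of_le_of_ne hle hne2
  obtain ⟨P', hP'le, hP', hlo⟩ := Algebra.HasGoingDown.exists_ideal_le_liesOver_of_lt P hlt
  have hP'ne : P' ≠ ⊥ := by
    rintro rfl
    apply hne
    rw [hlo.over]
    rw [eq_bot_iff]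
    intro x hx
    rw [Ideal.under_def, Ideal.mem_comap, Ideal.mem_bot] at hx
    exact hinj (by rw [hx, map_zero])
  have := hP.min P' hP' hP'le hP'ne
  apply hne2
  rw [hlo.over, this]

/-- in a UFD `A`, two relatively prime elements do not both lie in a height one prime of an
extension with going down -/
theorem MinNZ.not_both_mem [IsDomain A] [UniqueFactorizationMonoid A]
    [Algebra.HasGoingDown A B] {P : Ideal B}
    (hinj : Function.Injective (algebraMap A B)) (hP : MinNZ P) {a b : A} (hab : IsRelPrime a b)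
    (ha : algebraMap A B a ∈ P) (hb : algebraMap A B b ∈ P) : False := by
  have := hP.prime
  have hprime : (P.under A).IsPrime := inferInstance
  have hne : P.under A ≠ ⊥ := by
    intro h0
    have ha0 : a = 0 := by
      have : a ∈ P.under A := ha
      rwa [h0, Ideal.mem_bot] at this
    have hb0 : b = 0 := by
      have : b ∈ P.under A := hb
      rwa [h0, Ideal.mem_bot] at this
    rw [ha0, hb0] at hab
    exact not_isUnit_zero (hab (dvd_refl 0) (dvd_refl 0))
  obtain ⟨π, hπ, hprimeπ⟩ := hprime.exists_mem_prime_of_ne_bot hne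
  have hspan : (Ideal.span {π}).IsPrime := (Ideal.span_singleton_prime hprimeπ.ne_zero).mpr hprimeπ
  have heq : Ideal.span {π} = P.under A := hP.under_eq hinj hspan
    (by rw [Ne, Ideal.span_singleton_eq_bot]; exact hprimeπ.ne_zero)
    (by rw [Ideal.span_singleton_le_iff_mem]; exact hπ)
  have h1 : π ∣ a := by
    rw [← Ideal.mem_span_singleton, heq]; exact ha
  have h2 : π ∣ b := by
    rw [← Ideal.mem_span_singleton, heq]; exact hb
  exact hprimeπ.not_isUnit (hab h1 h2)

end GoingDown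

end Crest.Agent.R169.SymmAlg
end

-- ▼ part R169/SymGcd0

/-!
# Row 169, field `gcd` of `Symm` (helper239), abstract part

* `gcd_abs` : norms from `O` to a UFD `A` have gcd's at all places centred at height one primes.
* `affine_prime` : a homogeneous height one prime of `T` not containing `X` gives a height one
  prime of `O = ⋃ F m`.
-/

set_option autoImplicit false

namespace Crest.Agent.R169.SymGcd

open Crest.Agent.R169.SymmAlg

section Abs

variable {A O Q : Type} [CommRing A] [IsDomain A] [UniqueFactorizationMonoid A] [CommRing O]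
  [IsDomain O] [Field Q] [Algebra A O] [Algebra O Q] [Algebra A Q] [IsScalarTower A O Q]
  [IsFractionRing O Q] [Algebra.HasGoingDown A O]

/-- `P` is centred at a height one prime of `O`. -/
def Centred (P : Place Q) (O : Type) [CommRing O] [Algebra O Q] : Prop :=
  ∃ 𝔭 : Ideal O, MinNZ 𝔭 ∧ ∀ a : O, a ≠ 0 →
    0 ≤ P.ord (algebraMap O Q a) ∧ (a ∈ 𝔭 ↔ 0 < P.ord (algebraMap O Q a))

theorem gcd_abs (hinj : Function.Injective (algebraMap A O)) (N : Q →* Q)
    (hN0 : ∀ x : Q, x ≠ 0 → N x ≠ 0)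
    (hN : ∀ a : O, a ≠ 0 → ∃ α : A, algebraMap A Q α = N (algebraMap O Q a))
    (x y : Q) (hx : x ≠ 0) (hy : y ≠ 0) :
    ∃ g : Q, g ≠ 0 ∧ ∀ P : Place Q, Centred P O →
      P.ord g = min (P.ord (N x)) (P.ord (N y)) := by
  obtain ⟨a, c, hc, hxa⟩ := IsFractionRing.div_surjective (A := O) x
  obtain ⟨b, d, hd, hyb⟩ := IsFractionRing.div_surjective (A := O) y
  have hc0 : c ≠ 0 := nonZeroDivisors.ne_zero hc
  have hd0 : d ≠ 0 := nonZeroDivisors.ne_zero hd
  have hinjO : Function.Injective (algebraMap O Q) := IsFractionRing.injective O Q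
  have hcQ : algebraMap O Q c ≠ 0 := by rwa [Ne, map_eq_zero_iff _ hinjO]
  have hdQ : algebraMap O Q d ≠ 0 := by rwa [Ne, map_eq_zero_iff _ hinjO]
  have haQ : algebraMap O Q a ≠ 0 := by
    intro h; rw [h, zero_div] at hxa; exact hx hxa.symm
  have hbQ : algebraMap O Q b ≠ 0 := by
    intro h; rw [h, zero_div] at hyb; exact hy hyb.symm
  have ha0 : a ≠ 0 := by rintro rfl; exact haQ (map_zero _)
  have hb0 : b ≠ 0 := by rintro rfl; exact hbQ (map_zero _)
  obtain ⟨α, hα⟩ := hN (a * d) (mul_ne_zero ha0 hd0)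
  obtain ⟨β, hβ⟩ := hN (b * c) (mul_ne_zero hb0 hc0)
  obtain ⟨γ, hγ⟩ := hN (c * d) (mul_ne_zero hc0 hd0)
  have hinjA : Function.Injective (algebraMap A Q) := by
    rw [IsScalarTower.algebraMap_eq A O Q]
    exact hinjO.comp hinj
  have hαQ : algebraMap A Q α ≠ 0 := by
    rw [hα, map_mul]; exact hN0 _ (mul_ne_zero haQ hdQ)
  have hβQ : algebraMap A Q β ≠ 0 := by
    rw [hβ, map_mul]; exact hN0 _ (mul_ne_zero hbQ hcQ)
  have hγQ : algebraMap A Q γ ≠ 0 := by
    rw [hγ, map_mul]; exact hN0 _ (mul_ne_zero hcQ hdQ)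
  have hα0 : α ≠ 0 := by rintro rfl; exact hαQ (map_zero _)
  have hβ0 : β ≠ 0 := by rintro rfl; exact hβQ (map_zero _)
  have hNx : N x * algebraMap A Q γ = algebraMap A Q α := by
    rw [hα, hγ, ← map_mul]
    congr 1
    rw [← hxa, map_mul, map_mul]
    field_simp
  have hNy : N y * algebraMap A Q γ = algebraMap A Q β := by
    rw [hβ, hγ, ← map_mul]
    congr 1
    rw [← hyb, map_mul, map_mul]
    field_simp
  obtain ⟨α', β', δ, hrel, h1, h2⟩ := UniqueFactorizationMonoid.exists_reduced_factors α hα0 β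
  have hδ0 : δ ≠ 0 := by rintro rfl; rw [zero_mul] at h1; exact hα0 h1.symm
  have hα'0 : α' ≠ 0 := by rintro rfl; rw [mul_zero] at h1; exact hα0 h1.symm
  have hβ'0 : β' ≠ 0 := by rintro rfl; rw [mul_zero] at h2; exact hβ0 h2.symm
  have hδQ : algebraMap A Q δ ≠ 0 := by rwa [Ne, map_eq_zero_iff _ hinjA]
  have hα'Q : algebraMap A Q α' ≠ 0 := by rwa [Ne, map_eq_zero_iff _ hinjA]
  have hβ'Q : algebraMap A Q β' ≠ 0 := by rwa [Ne, map_eq_zero_iff _ hinjA]
  refine ⟨algebraMap A Q δ / algebraMap A Q γ, div_ne_zero hδQ hγQ, ?_⟩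
  intro P hP
  obtain ⟨𝔭, h𝔭, hord⟩ := hP
  have e1 : P.ord (N x) + P.ord (algebraMap A Q γ)
      = P.ord (algebraMap A Q δ) + P.ord (algebraMap A Q α') := by
    rw [← P.ord_mul _ _ (hN0 x hx) hγQ, hNx, ← P.ord_mul _ _ hδQ hα'Q, ← map_mul, h1]
  have e2 : P.ord (N y) + P.ord (algebraMap A Q γ)
      = P.ord (algebraMap A Q δ) + P.ord (algebraMap A Q β') := by
    rw [← P.ord_mul _ _ (hN0 y hy) hγQ, hNy, ← P.ord_mul _ _ hδQ hβ'Q, ← map_mul, h2]
  have e3 : P.ord (algebraMap A Q δ / algebraMap A Q γ) + P.ord (algebraMap A Q γ)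
      = P.ord (algebraMap A Q δ) := by
    rw [← P.ord_mul _ _ (div_ne_zero hδQ hγQ) hγQ, div_mul_cancel₀ _ hγQ]
  have hinjAO : ∀ t : A, t ≠ 0 → algebraMap A O t ≠ 0 := by
    intro t ht; rwa [Ne, map_eq_zero_iff _ hinj]
  have p1 := hord (algebraMap A O α') (hinjAO _ hα'0)
  have p2 := hord (algebraMap A O β') (hinjAO _ hβ'0)
  rw [← IsScalarTower.algebraMap_apply A O Q] at p1 p2
  have hnot : ¬ (0 < P.ord (algebraMap A Q α') ∧ 0 < P.ord (algebraMap A Q β')) := by
    rintro ⟨q1, q2⟩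
    exact h𝔭.not_both_mem hinj hrel (p1.2.mpr q1) (p2.2.mpr q2)
  have n1 := p1.1
  have n2 := p2.1
  by_cases hc1 : 0 < P.ord (algebraMap A Q α')
  · have : P.ord (algebraMap A Q β') = 0 := by
      by_contra hne
      exact hnot ⟨hc1, by omega⟩
    rw [min_eq_right (by omega)]
    omega
  · have : P.ord (algebraMap A Q α') = 0 := by omega
    rw [min_eq_left (by omega)]
    omega

end Abs

section Affine

open Polynomial

variable {k Q O : Type} [Field k] [Field Q] [Algebra k Q] (D : TData k Q) [CommRing O]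
  [Algebra O Q]

theorem exists_lift (hO : ∀ (m : ℕ), ∀ f ∈ D.F m, ∃ a : O, algebraMap O Q a = f) (t : D.Ttot) :
    ∃ p : O[X], p.map (algebraMap O Q) = (t : Q[X]) := by
  have h : (t : Q[X]) ∈ (Polynomial.mapRingHom (algebraMap O Q)).range := by
    rw [Polynomial.mem_map_range]
    intro n
    obtain ⟨a, ha⟩ := hO n _ (t.2 n)
    exact ⟨a, ha⟩
  obtain ⟨p, hp⟩ := h
  exact ⟨p, hp⟩

/-- `T → O[X]` -/
noncomputable def toPoly (hinj : Function.Injective (algebraMap O Q))
    (hO : ∀ (m : ℕ), ∀ f ∈ D.F m, ∃ a : O, algebraMap O Q a = f) : D.Ttot →+* O[X] where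
  toFun t := Classical.choose (exists_lift D hO t)
  map_one' := by
    apply Polynomial.map_injective _ hinj
    rw [Classical.choose_spec (exists_lift D hO 1), Polynomial.map_one]
    rfl
  map_mul' a b := by
    apply Polynomial.map_injective _ hinj
    rw [Classical.choose_spec (exists_lift D hO (a * b)), Polynomial.map_mul,
      Classical.choose_spec (exists_lift D hO a), Classical.choose_spec (exists_lift D hO b)]
    rfl
  map_zero' := by
    apply Polynomial.map_injective _ hinj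
    rw [Classical.choose_spec (exists_lift D hO 0), Polynomial.map_zero]
    rfl
  map_add' a b := by
    apply Polynomial.map_injective _ hinj
    rw [Classical.choose_spec (exists_lift D hO (a + b)), Polynomial.map_add,
      Classical.choose_spec (exists_lift D hO a), Classical.choose_spec (exists_lift D hO b)]
    rfl

theorem coeff_toPoly (hinj : Function.Injective (algebraMap O Q))
    (hO : ∀ (m : ℕ), ∀ f ∈ D.F m, ∃ a : O, algebraMap O Q a = f) (t : D.Ttot) (n : ℕ) :
    algebraMap O Q ((toPoly D hinj hO t).coeff n) = (t : Q[X]).coeff n := by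
  rw [← Polynomial.coeff_map]
  congr 1
  exact Classical.choose_spec (exists_lift D hO t)

theorem coe_mono (m : ℕ) (f : Q) (hf : f ∈ D.F m) :
    ((D.mono m f hf : D.Ttot) : Q[X]) = Polynomial.monomial m f := rfl

theorem sum_mono (t : D.Ttot) :
    t = ∑ m ∈ (t : Q[X]).support, D.mono m ((t : Q[X]).coeff m) (t.2 m) := by
  apply Subtype.ext
  rw [AddSubmonoidClass.coe_finsetSum]
  simp only [coe_mono]
  exact Polynomial.as_sum_support (t : Q[X])

/-- a homogeneous height one prime of `T` gives a height one prime of `O`, provided that the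
valuation is `≥ 0` on `O`. -/
theorem affine_prime (hinj : Function.Injective (algebraMap O Q))
    (hO1 : ∀ a : O, ∃ m : ℕ, algebraMap O Q a ∈ D.F m)
    (hO2 : ∀ (m : ℕ), ∀ f ∈ D.F m, ∃ a : O, algebraMap O Q a = f)
    (P : Place Q) (hpos : ∀ (m : ℕ), ∀ f ∈ D.F m, f ≠ 0 → 0 ≤ P.ord f)
    (𝔓 : Ideal D.Ttot) (h𝔓 : MinNZ 𝔓)
    (hhom : ∀ t ∈ 𝔓, ∀ m : ℕ, D.mono m ((t : Q[X]).coeff m) (t.2 m) ∈ 𝔓)
    (hP : ∀ (m : ℕ) (f : Q) (hf : f ∈ D.F m), f ≠ 0 → (D.mono m f hf ∈ 𝔓 ↔ 0 < P.ord f)) :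
    Centred P O := by
  have hne : ∀ a : O, a ≠ 0 → algebraMap O Q a ≠ 0 := fun a ha => by
    rwa [Ne, map_eq_zero_iff _ hinj]
  have hposO : ∀ a : O, a ≠ 0 → 0 ≤ P.ord (algebraMap O Q a) := by
    intro a ha
    obtain ⟨m, hm⟩ := hO1 a
    exact hpos m _ hm (hne a ha)
  have hge0 : ∀ a : O, P.ge 0 (algebraMap O Q a) := by
    intro a
    by_cases ha : a = 0
    · rw [ha, map_zero]; exact P.ge_zero _
    · exact Or.inr (hposO a ha)
  let 𝔭 : Ideal O :=
    { carrier := {a | P.ge 1 (algebraMap O Q a)}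
      add_mem' := by
        intro a b ha hb
        simp only [Set.mem_ofPred_eq, map_add] at *
        exact ha.add hb
      zero_mem' := by
        simp only [Set.mem_ofPred_eq, map_zero]
        exact P.ge_zero _
      smul_mem' := by
        intro c a ha
        simp only [Set.mem_ofPred_eq, smul_eq_mul, map_mul] at *
        have := (hge0 c).mul ha
        rwa [zero_add] at this }
  have hmem : ∀ a : O, a ∈ 𝔭 ↔ P.ge 1 (algebraMap O Q a) := fun a => Iff.rfl
  have hmem2 : ∀ a : O, a ≠ 0 → (a ∈ 𝔭 ↔ 0 < P.ord (algebraMap O Q a)) := by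
    intro a ha
    rw [hmem, Place.ge_iff (hne a ha)]
    omega
  have hmono : ∀ (m : ℕ) (a : O) (hf : algebraMap O Q a ∈ D.F m),
      a ∈ 𝔭 ↔ D.mono m _ hf ∈ 𝔓 := by
    intro m a hf
    by_cases ha : a = 0
    · subst ha
      refine iff_of_true 𝔭.zero_mem ?_
      have : D.mono m _ hf = 0 := by
        apply Subtype.ext
        rw [coe_mono, map_zero, map_zero]
        rfl
      rw [this]; exact 𝔓.zero_mem
    · rw [hmem2 a ha, hP m _ hf (hne a ha)]
  refine ⟨𝔭, ⟨⟨?_, ?_⟩, ?_, ?_⟩, fun a ha => ⟨hposO a ha, hmem2 a ha⟩⟩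
  · rw [Ideal.ne_top_iff_one, hmem, map_one]
    rintro (h | h)
    · exact one_ne_zero h
    · rw [P.ord_one] at h; omega
  · intro a b hab
    by_cases ha : a = 0
    · left; rw [ha]; exact 𝔭.zero_mem
    by_cases hb : b = 0
    · right; rw [hb]; exact 𝔭.zero_mem
    rw [hmem2 a ha, hmem2 b hb]
    rw [hmem, map_mul] at hab
    rcases hab with h | h
    · exact absurd h (mul_ne_zero (hne a ha) (hne b hb))
    · rw [P.ord_mul _ _ (hne a ha) (hne b hb)] at h
      have h1 := hposO a ha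
      have h2 := hposO b hb
      omega
  · intro hbot
    apply h𝔓.ne_bot
    rw [eq_bot_iff]
    intro t ht
    rw [Ideal.mem_bot]
    apply Subtype.ext
    ext m
    obtain ⟨a, ha⟩ := hO2 m _ (t.2 m)
    have h1 := hhom t ht m
    have h2 : a ∈ 𝔭 := by
      rw [hmono m a (by rw [ha]; exact t.2 m)]
      convert h1 using 2
    rw [hbot, Ideal.mem_bot] at h2
    rw [← ha, h2, map_zero]
    simp
  · intro 𝔭' h𝔭' hle hne'
    let φ := toPoly D hinj hO2
    have hφ : ∀ (t : D.Ttot) n, algebraMap O Q ((φ t).coeff n) = (t : Q[X]).coeff n :=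
      coeff_toPoly D hinj hO2
    have hpc : (𝔭'.map (C : O →+* O[X])).IsPrime := Ideal.isPrime_map_C_of_isPrime
    let 𝔓' : Ideal D.Ttot := (𝔭'.map (C : O →+* O[X])).comap φ
    have hprime : 𝔓'.IsPrime := Ideal.comap_isPrime φ _
    have hm' : ∀ t : D.Ttot, t ∈ 𝔓' ↔ ∀ n, (φ t).coeff n ∈ 𝔭' := by
      intro t
      rw [Ideal.mem_comap, Ideal.mem_map_C_iff]
    have hmm : ∀ (m : ℕ) (a : O) (hf : algebraMap O Q a ∈ D.F m),
        D.mono m _ hf ∈ 𝔓' ↔ a ∈ 𝔭' := by
      intro m a hf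
      rw [hm']
      have hco : ∀ n, (φ (D.mono m _ hf)).coeff n = if m = n then a else 0 := by
        intro n
        apply hinj
        rw [hφ, coe_mono, Polynomial.coeff_monomial]
        split_ifs <;> simp
      constructor
      · intro h
        have := h m
        rwa [hco, if_pos rfl] at this
      · intro h n
        rw [hco]
        split_ifs
        · exact h
        · exact 𝔭'.zero_mem
    have hle' : 𝔓' ≤ 𝔓 := by
      intro t ht
      rw [hm'] at ht
      rw [sum_mono D t]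
      refine Ideal.sum_mem _ fun m _ => ?_
      have h1 := hle (ht m)
      rw [hmono m _ (by rw [hφ]; exact t.2 m)] at h1
      convert h1 using 2
      exact (hφ t m).symm
    have hne2 : 𝔓' ≠ ⊥ := by
      intro hbot
      apply hne'
      rw [eq_bot_iff]
      intro a ha
      obtain ⟨m, hm⟩ := hO1 a
      have h1 := (hmm m a hm).mpr ha
      rw [hbot, Ideal.mem_bot] at h1
      have h2 := congrArg (fun t : D.Ttot => (t : Q[X]).coeff m) h1
      simp only [coe_mono, Polynomial.coeff_monomial, if_pos] at h2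
      rw [Ideal.mem_bot]
      apply hinj
      rw [h2, map_zero]
      simp
    have heq := h𝔓.min 𝔓' hprime hle' hne2
    refine le_antisymm hle ?_
    intro a ha
    obtain ⟨m, hm⟩ := hO1 a
    rw [hmono m a hm, ← heq, hmm] at ha
    exact ha

end Affine

end Crest.Agent.R169.SymGcd
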