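import Crest.Agent.R169.O1Ufd_Mg
import Crest.Agent.R169.D7
import Crest.Agent.R169.Iface
import Crest.Agent.R169.SymGcd0_Mg
import Crest.Agent.R169.SymGcd_Mg
import Crest.Agent.R169.TNormal
import Crest.Agent.R169.Pack256

-- ▼ part R169/FilNormalD7
section

/-!
# Row 169, F3: `D7_normal : FilNormal (D7 k).toFil` (helper789)
-/

set_option autoImplicit false

open Crest.R169

namespace Crest.Agent.R169

/-- `O n k` is integrally closed. -/
theorem isIntegrallyClosed_ORing (n : ℕ) (k : Type*) [Field k] [IsAlgClosed k] [NeZero (n : k)] :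
    IsIntegrallyClosed (ORing n k) := by
  have hn : 0 < n := NeZero.pos_of_cast n k
  have : NeZero n := ⟨hn.ne'⟩
  obtain ⟨ζ, hζ⟩ := HasEnoughRootsOfUnity.exists_primitiveRoot k n
  exact OnOverO1.isIntegrallyClosed hn hζ (O1Ufd.prime_z k) (O1Ufd.not_associated_z k)

/-- strong normality of the filtration, for all `n`. -/
theorem filQ_normal (n : ℕ) (k : Type*) [Field k] [IsAlgClosed k] [NeZero (n : k)] {N : ℕ}
    (hN : 0 < N) {m l : ℤ} {c q : QField n k} (hc : c ≠ 0)
    (h : ∀ j : ℕ, c * q ^ (N * j) ∈ FilQ n k (l + j * m)) : q ∈ FilQ n k (m / N) := by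
  have := isIntegrallyClosed_ORing n k
  exact Avg.filQ_normal hN hc h

section D7

variable (k : Type) [Field k] [IsAlgClosed k] [NeZero ((7 : ℕ) : k)]

/-- strong normality of `D7 k` -/
theorem D7_normal_strong {N : ℕ} (hN : 0 < N) {m l : ℤ} {c q : QField 7 k} (hc : c ≠ 0)
    (h : ∀ j : ℕ, c * q ^ (N * j) ∈ (D7 k).F (l + j * m)) : q ∈ (D7 k).F (m / N) :=
  filQ_normal 7 k hN hc h

/-- F3 -/
theorem D7_normal : FilNormal (D7 k).toFil := by
  intro q m l c hc _ h
  have h1 := D7_normal_strong k (N := 1) one_pos (m := m) (l := l) (c := c) (q := q) hc (fun j => by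
    have h2 := h j
    rw [one_mul]
    change c * q ^ j ∈ (D7 k).F (((l + j * m : ℕ)) : ℤ) at h2
    push_cast at h2
    exact h2)
  rw [Nat.cast_one, Int.ediv_one] at h1
  exact h1

end D7

end Crest.Agent.R169
end

-- ▼ part R169/SymmD7

/-!
# Row 169: the instance `Symm (D7 k) (placesOf (D7 k) _)` (helper641)

group: `SymmG`, `gcd`: helper239 (`SymGcd`), `trans`: helper69 (`Trans7`), places: helper748.
-/

set_option autoImplicit false
set_option linter.unusedSectionVars false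

noncomputable section

namespace Crest.Agent.R169.SymmD7

open Crest.R169 SymmG SymInv PlacesEx

variable (k : Type) [Field k] [IsAlgClosed k] [NeZero ((7 : ℕ) : k)]

instance : Fintype (rootsOfUnity 7 k) := Fintype.ofFinite _

/-- the rotation `z_j ↦ z_{j+i}` on the fraction field -/
def rotQ (i : Fin 5) : QField 7 k ≃ₐ[k] QField 7 k :=
  IsFractionRing.algEquivOfAlgEquiv (O1Ufd.rotE 7 k i)

theorem rotQ_zq (i j : Fin 5) : rotQ k i (zq 7 k j) = zq 7 k (j + i) := by
  unfold rotQ zq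
  rw [IsFractionRing.algEquivOfAlgEquiv_algebraMap, O1Ufd.rotE_z]

variable {k}

/-- every monomial automorphism datum is realised. -/
theorem exists_isMon (i : Fin 5) (ζ : Fin 5 → k) (hζ : ∀ j, ζ j ^ 7 = 1) :
    ∃ σ : QField 7 k ≃ₐ[k] QField 7 k, IsMon σ i ζ := by
  have hu : ∀ j, ζ j ≠ 0 := by
    intro j h
    have := hζ j
    rw [h] at this
    norm_num at this
  let ξ : Mu 7 k := fun j => ⟨Units.mk0 (ζ j) (hu j), by
    rw [mem_rootsOfUnity]
    ext
    simpa using hζ j⟩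
  have h1 : IsMon (rotQ k i) i (fun _ => (1 : k)) :=
    ⟨fun _ => one_pow _, fun j => by rw [rotQ_zq, one_smul]⟩
  have h2 := h1.mul (isMon_sig ξ)
  refine ⟨rotQ k i * sig ξ, hζ, fun j => ?_⟩
  have h3 := h2.2 j
  simp only [zero_add, mul_one] at h3
  exact h3

theorem mem_F_iff {σ : QField 7 k ≃ₐ[k] QField 7 k} (hσ : σ ∈ Gam 7 k) (m : ℤ)
    (f : QField 7 k) : σ f ∈ (D7 k).F m ↔ f ∈ (D7 k).F m := by
  rw [D7_F]
  constructor
  · intro h
    obtain ⟨i, ζ, h1⟩ := (Gam 7 k).inv_mem hσ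
    have := h1.map_Fil m h
    rwa [show σ⁻¹ (σ f) = f from AlgEquiv.symm_apply_apply σ f] at this
  · intro h
    obtain ⟨i, ζ, h1⟩ := hσ
    exact h1.map_Fil m h

theorem zq_ne_zero (j : Fin 5) : zq 7 k j ≠ 0 := by
  unfold zq
  rw [Ne, map_eq_zero_iff _ (IsFractionRing.injective (ORing 7 k) (QField 7 k))]
  have hgood : Good 7 (Pi.single j 1 : Fin 5 → ℕ) := by
    revert j; decide
  have h := (linearIndependent_zm 7 k).ne_zero ⟨Pi.single j 1, hgood⟩
  have h1 : zm 7 k (Pi.single j 1) = z 7 k j := by rw [zm_single, pow_one]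
  rw [h1] at h
  exact h

variable (k) in
/-- the torus part `μ ⊆ Γ` -/
def muF : Finset (Gam 7 k) :=
  Finset.univ.map ⟨fun ζ : Mu 7 k => ⟨sig ζ, sig_mem ζ⟩, fun _ _ h =>
    sig_injective zq_ne_zero (congrArg Subtype.val h)⟩

section

variable [IsNoetherianRing (D7 k).Ttot] [IsIntegrallyClosed (D7 k).Ttot] (hred : RedX (D7 k))

/-- action on the places -/
def perm (γ : Gam 7 k) (P : HPrime (D7 k)) : HPrime (D7 k) :=
  HPrime.map γ.1 (mem_F_iff γ.2) P

theorem X_mem {P : HPrime (D7 k)} (h : P.c = 1) : (D7 k).mono 1 1 (D7 k).one_mem ∈ P.I := by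
  have h1 : (1 : QField 7 k) ∈ (D7 k).F ((1 : ℕ) : ℤ) := (D7 k).one_mem
  have h2 := P.mem_iff h1 one_ne_zero
  refine h2.2 ?_
  rw [h]
  have : P.ord (1 : QField 7 k) = 0 := P.pl.ord_one
  rw [this]
  norm_num

theorem trans (P P' : HPrime (D7 k)) (hP : P.c = 1) (hP' : P'.c = 1) :
    ∃ γ, perm γ P = P' := by
  have := P.ht.prime
  have := P'.ht.prime
  obtain ⟨i, ζ, hζ, H⟩ := Trans7.trans7 (D7 k)
    (IsScalarTower.toAlgHom k (ORing 7 k) (QField 7 k))
    (IsFractionRing.injective (ORing 7 k) (QField 7 k)) (fun m => by rw [D7_F]; rfl) P.I P'.I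
    ⟨P.ht.prime, P.ht.ne_bot, fun q h1 h2 h3 => P.ht.min q h1 h3 h2⟩
    ⟨P'.ht.prime, P'.ht.ne_bot, fun q h1 h2 h3 => P'.ht.min q h1 h3 h2⟩
    (X_mem hP) (X_mem hP')
  obtain ⟨σ, hσ⟩ := exists_isMon i ζ hζ
  have hσG : σ ∈ Gam 7 k := ⟨_, _, hσ⟩
  have H' := H σ (fun j => hσ.2 j)
  refine ⟨⟨σ, hσG⟩, HPrime.ext' ?_⟩
  -- homogeneous elements
  have hmono : ∀ (m : ℕ) (f : QField 7 k) (hf : f ∈ (D7 k).F m),
      (D7 k).mono m f hf ∈ (perm ⟨σ, hσG⟩ P).I ↔ (D7 k).mono m f hf ∈ P'.I := by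
    intro m f hf
    obtain ⟨g, rfl⟩ := σ.surjective f
    have hg : g ∈ (D7 k).F m := (mem_F_iff hσG m g).1 hf
    have h1 := HPrime.mono_mem_map σ (mem_F_iff hσG) P m g hg
    have h2 := H' ((D7 k).mono m g hg) ((D7 k).mono m (σ g) hf) (by
      intro j
      rw [coe_mono, coe_mono, Polynomial.coeff_monomial, Polynomial.coeff_monomial]
      split_ifs with h
      · rfl
      · rw [map_zero])
    exact h1.trans h2
  ext t
  constructor
  · intro ht
    exact mem_of_cf_mem fun m => (hmono m _ _).1 ((perm ⟨σ, hσG⟩ P).hom t ht m)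
  · intro ht
    exact mem_of_cf_mem fun m => (hmono m _ _).2 (P'.hom t ht m)

/-- **END PRODUCT**: the symmetries of `D7`. -/
def symm : Symm (D7 k) (placesOf (D7 k) hred) where
  Γ := Gam 7 k
  act := (Gam 7 k).subtype
  F_le := fun γ m f hf => (mem_F_iff γ.2 m f).2 hf
  perm := perm
  ord_perm := fun γ P x hx => HPrime.ord_map γ.1 (mem_F_iff γ.2) P x hx
  c_perm := fun γ P => HPrime.c_map γ.1 (mem_F_iff γ.2) P
  perm_mul := fun γ δ P => HPrime.map_mul γ.1 δ.1 _ _ P
  perm_one := fun P => HPrime.map_one P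
  trans := trans
  μ := muF k
  μ_one := by
    unfold muF
    exact (Finset.map_nonempty).2 (Finset.univ_nonempty (α := Mu 7 k))
  gcd := by
    intro x y hx hy
    obtain ⟨ζ₀, hζ₀⟩ := HasEnoughRootsOfUnity.exists_primitiveRoot k 7
    obtain ⟨g, hg0, hg⟩ := SymGcd.gcd_field hζ₀ (D7 k) (D7_F k) (placesOf (D7 k) hred) (by
      intro P hP
      have hc : P.c = 0 := hP
      refine ⟨P.I, ⟨P.ht.prime, P.ht.ne_bot, fun q h1 h2 h3 => P.ht.min q h1 h3 h2⟩, ?_, ?_⟩
      · intro t ht m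
        exact P.hom t ht m
      · intro m f hf hf0
        have := P.mem_iff hf hf0
        rw [hc, zero_mul, add_zero] at this
        exact this) sig (fun ζ j => sig_zq ζ j) x y hx hy
    refine ⟨g, hg0, fun P hP => ?_⟩
    have hprod : ∀ x : QField 7 k, ∏ δ ∈ muF k, (Gam 7 k).subtype δ x =
        ∏ ζ : Mu 7 k, sig ζ x := by
      intro x
      unfold muF
      rw [Finset.prod_map]
      rfl
    rw [hprod, hprod]
    exact hg P hP

end

variable (k) in
theorem redX : RedX (D7 k) := by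
  intro m f n hn hf hfn
  by_cases hf0 : f = 0
  · rw [hf0]; exact Submodule.zero_mem _
  have h := D7_normal_strong k (N := n) hn (m := n * m - 1) (l := 0) (c := 1) (q := f) one_ne_zero
    (by
      intro j
      rw [one_mul, zero_add, pow_mul]
      exact (D7 k).pow_mem' hfn j)
  have h1 : ((n : ℤ) * m - 1) / n = m - 1 := by
    rw [show (n : ℤ) * m - 1 = -1 + n * m by ring, Int.add_mul_ediv_left _ _ (by omega)]
    have : (-1 : ℤ) / n = -1 := by
      rw [Int.ediv_eq_iff_of_pos (by omega)]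
      constructor <;> omega
    rw [this]; ring
  rwa [h1] at h

variable (k) in
theorem noeth : IsNoetherianRing (D7 k).Ttot := Fil.isNoetherianRing_T (Pack256.filUV (D7 k))

variable (k) in
/-- **END PRODUCT** (Skeleton's `D7_places`) -/
theorem D7_places : ∃ (ι : Type) (S : Places (D7 k) ι), Nonempty (Symm (D7 k) S) := by
  have := noeth k
  have := TNormal.isIntegrallyClosed_Ttot (D7 k) (D7_normal k)
  exact ⟨_, placesOf (D7 k) (redX k), ⟨symm (redX k)⟩⟩

end Crest.Agent.R169.SymmD7
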