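import Crest.Agent.R169.C.SlopeEnd_Mg
import Crest.Agent.R169.LatStmts
import Crest.Agent.R169.EScale_Mg
import Crest.Agent.R169.Principal_Mg
import Crest.Agent.R169.PackFinal_Mg
import Crest.Agent.R169.E4Num
import Crest.Agent.R169.Bridge
import Crest.Agent.R169.Hilb
import Crest.Agent.R169.Iface
import Crest.Agent.R169.Der_Mg
import Crest.Agent.R169.SymmD7
import Crest.Agent.R169.SymGcd_Mg

-- ▼ part R169/C/P15
section

/-!
Row 169, Part C (helper461): the inputs P1, P5 in the form needed by C4, C5, C6.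
-/

set_option autoImplicit false
set_option linter.unusedSectionVars false

namespace Crest.Agent.R169.PC

variable {k Q : Type} [Field k] [Field Q] [Algebra k Q]

theorem isLat_K0 (D : TData k Q) {R : ℕ} {E : ℤ → Submodule k (Fin R → Q)}
    (hE : IsLat D.u D.v E) : IsLat (u0 D) (v0 D) E :=
  IsLat.restrict (L := D.K0) (Q := Q) (V := Fin R → Q) (u := u0 D) (v := v0 D) hE

theorem p1Stmt [Infinite k] (D : TData k Q) : P1Stmt D := by
  intro R G hG V'
  have h1 : IsLat D.u D.v (interU G V') := IsLat.interU hG.lat V'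
  obtain ⟨b, c, h, _⟩ := IsLat.exists_hasHP (K := D.K0) D.isRat (isLat_K0 D h1)
  exact ⟨_, b, c, h⟩

theorem p1KStmt [Infinite k] (D : TData k Q) : SL.P1KStmt D := by
  intro R E hE Y
  have h1 : IsLat (u0 D) (v0 D) (interU E Y) := IsLat.interU (isLat_K0 D hE) Y
  obtain ⟨b, c, h, _⟩ := IsLat.exists_hasHP (K := D.K0) D.isRat h1
  exact ⟨b, c, h⟩

theorem p5Stmt [IsAlgClosed k] (D : TData k Q) : P5Stmt D := by
  intro R E hE n b c hHP hn s₁ s₂ h₁ h₂
  exact jinv_le (K := D.K0) D.isRat (isLat_K0 D hE) hHP hn s₁ s₂ h₁ h₂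

end Crest.Agent.R169.PC
end

-- ▼ part R169/C/Main
section

/-!
Row 169, Part C (helper461): final statement `partC`.
-/

set_option autoImplicit false

namespace Crest.Agent.R169

theorem partC {k Q : Type} [Field k] [IsAlgClosed k] [Field Q] [Algebra k Q] (D : TData k Q)
    (p : ℕ) [Fact p.Prime] [CharP k p] {N : ℕ} {bT cT : ℚ} (hT : HilbT D N bT cT) {c0 c1 : ℕ}
    (X : DerData D p c0 c1) (h3 : C3 D p N bT) : UpperBound D p N c0 c1 := by
  haveI : Infinite k := IsAlgClosed.instInfinite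
  haveI : CharP Q p := charP_of_injective_algebraMap (algebraMap k Q).injective p
  exact PC.upperBound_of X hT.pos h3 (SL.c4Stmt_of X (PC.p1KStmt D)) (SL.c5Stmt_of X (PC.p1KStmt D))
    (PC.p1Stmt D) (PC.p5Stmt D)

end Crest.Agent.R169
end

-- ▼ part R169/PartE
section

/-!
# Row 169, Part E: complete (reduction of a normal semistable slope stable lattice from
characteristic zero to infinitely many characteristics `p`)
-/

set_option autoImplicit false

namespace Crest.Agent.R169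

open Crest.R169

theorem PartE.p6 (s : ℕ) (b : ℚ) (g : ℤ) : ∃ C : ℚ, E3Win.P6Stmt s b g C := by
  obtain ⟨C, hC⟩ := P6.p6_bound s b g
  refine ⟨C, ?_⟩
  intro k K V _ _ _ _ _ _ _ _ u v E hK hE hg b' c' hHP hb m hm
  haveI : Infinite k := IsAlgClosed.instInfinite
  exact hC k K V u v E hK hE hg b' c' hHP hb m hm

/-- **Part E** (exactly the Skeleton statement) -/
theorem partE {R : ℕ} (_ : 0 < R) (G : ℤ → Submodule KStar (Fin R → QField 7 KStar))
    (hG : IsTLat (D7 KStar) G) {n : ℕ} {b c : ℚ} (hn : 0 < n) (hHP : HasHP G n b c)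
    (hN : NSS (Q := QField 7 KStar) G n b) (p0 : ℕ) :
    ∃ p : PP, p0 ≤ p.val ∧ ∃ G' : ℤ → Submodule (Kp p) (Fin R → QField 7 (Kp p)),
      IsTLat (D7 (Kp p)) G' ∧ HasHP G' n b c ∧ NSS (Q := QField 7 (Kp p)) G' n b :=
  E5.partE_of' (E3.e3_of PartE.p6) E4.main EScale.main G hG hn hHP hN p0

end Crest.Agent.R169
end

-- ▼ part R169/PartDFinal
section

/-! Row 169, PART D final (safety copy, helper641). -/

set_option autoImplicit false

namespace Crest.Agent.R169

theorem partD {k Q : Type} [Field k] [IsAlgClosed k] [Field Q] [Algebra k Q] (D : TData k Q)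
    (p : ℕ) [Fact p.Prime] [CharP k p] {N : ℕ} {bT cT : ℚ} (hT : HilbT D N bT cT)
    {ι : Type} (S : Places D ι) (Y : Symm D S) (hpt : AllPtRegular D) :
    C3 D p N bT ∧ C7 D p N bT cT := by
  haveI : Infinite k := IsAlgClosed.instInfinite
  have hcol := colengthStatement D p hpt
  have hprin : PrincipalStatement D S Y := Principal.principal Y
  refine ⟨C3W.c3_of_whole D p N bT hT.pos fun R G hG => ?_, PartD.c7 S Y p hT hcol hprin⟩
  obtain ⟨b, c, b', c', h1, h2, h3, -⟩ := PartD.whole S Y p hT hcol hprin R G hG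
  exact ⟨b, c, b', c', h1, h2, h3⟩

end Crest.Agent.R169
end

-- ▼ part R169/A2b
section

/-!
# Row 169, Part A, step A2 (owner helper592), second half: the lattices `N^(d)`
-/

set_option autoImplicit false
set_option linter.dupNamespace false

namespace Crest.Agent.R169

open Module

namespace A2

variable {k Q : Type} [Field k] [Field Q] [Algebra k Q] (D : TData k Q)

/-! ### the standard lattice -/

theorem poly_neg {m : ℤ} (hm : m < 0) : polyLE k D.u D.v m = ⊥ := by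
  rw [eq_bot_iff]
  unfold polyLE
  rw [Submodule.span_le]
  rintro x ⟨i, j, hij, rfl⟩
  omega

theorem poly_gen {m : ℤ} (hm : 0 ≤ m) (f : Q) (hf : f ∈ polyLE k D.u D.v (m + 1)) :
    ∃ a ∈ polyLE k D.u D.v m, ∃ b ∈ polyLE k D.u D.v m, ∃ c ∈ polyLE k D.u D.v m,
      f = a + D.u * b + D.v * c := by
  unfold polyLE at hf
  induction hf using Submodule.span_induction with
  | mem x hx =>
    obtain ⟨i, j, hij, rfl⟩ := hx
    by_cases h : (i : ℤ) + j ≤ m
    · exact ⟨_, Submodule.subset_span ⟨i, j, h, rfl⟩, 0, Submodule.zero_mem _, 0,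
        Submodule.zero_mem _, by simp⟩
    · rcases Nat.eq_zero_or_pos i with hi | hi
      · subst hi
        obtain ⟨j', rfl⟩ : ∃ j', j = j' + 1 := ⟨j - 1, by omega⟩
        refine ⟨0, Submodule.zero_mem _, 0, Submodule.zero_mem _, D.u ^ 0 * D.v ^ j',
          Submodule.subset_span ⟨0, j', by omega, rfl⟩, by simp [pow_succ']⟩
      · obtain ⟨i', rfl⟩ : ∃ i', i = i' + 1 := ⟨i - 1, by omega⟩
        refine ⟨0, Submodule.zero_mem _, D.u ^ i' * D.v ^ j,
          Submodule.subset_span ⟨i', j, by omega, rfl⟩, 0, Submodule.zero_mem _, ?_⟩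
        rw [pow_succ']; ring
  | zero => exact ⟨0, Submodule.zero_mem _, 0, Submodule.zero_mem _, 0, Submodule.zero_mem _, by simp⟩
  | add x y _ _ hx hy =>
    obtain ⟨a, ha, b, hb, c, hc, rfl⟩ := hx
    obtain ⟨a', ha', b', hb', c', hc', rfl⟩ := hy
    exact ⟨a + a', Submodule.add_mem _ ha ha', b + b', Submodule.add_mem _ hb hb', c + c',
      Submodule.add_mem _ hc hc', by ring⟩
  | smul t x _ hx =>
    obtain ⟨a, ha, b, hb, c, hc, rfl⟩ := hx
    exact ⟨t • a, Submodule.smul_mem _ _ ha, t • b, Submodule.smul_mem _ _ hb, t • c,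
      Submodule.smul_mem _ _ hc, by simp only [smul_add, mul_smul_comm]⟩

/-- the standard lattice `A^n` -/
noncomputable def StdL (n : ℕ) : ℤ → Submodule k (Fin n → Q) :=
  fun m => Submodule.pi Set.univ (fun _ => polyLE k D.u D.v m)

theorem mem_StdL {n : ℕ} {m : ℤ} {f : Fin n → Q} :
    f ∈ StdL D n m ↔ ∀ i, f i ∈ polyLE k D.u D.v m := by
  simp [StdL, Submodule.mem_pi]

/-- inclusion `(A_j)^n → Q^n` -/
noncomputable def polyIncl (n j : ℕ) : (Fin n → polyLE k D.u D.v (j : ℤ)) →ₗ[k] (Fin n → Q) where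
  toFun := fun f i => (f i : Q)
  map_add' := fun _ _ => rfl
  map_smul' := fun _ _ => rfl

theorem polyIncl_inj (n j : ℕ) : Function.Injective (polyIncl D n j) := by
  intro f g h
  funext i
  exact Subtype.ext (congrFun h i)

theorem range_polyIncl (n j : ℕ) : LinearMap.range (polyIncl D n j) = StdL D n (j : ℤ) := by
  ext f
  rw [mem_StdL]
  constructor
  · rintro ⟨g, rfl⟩ i
    exact (g i).2
  · intro h
    exact ⟨fun i => ⟨f i, h i⟩, rfl⟩

theorem StdL_fin (n : ℕ) (m : ℤ) : Module.Finite k (StdL D n m) := by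
  rcases lt_or_ge m 0 with hm | hm
  · have : StdL D n m = ⊥ := by
      rw [eq_bot_iff]
      intro f hf
      rw [mem_StdL, poly_neg D hm] at hf
      rw [Submodule.mem_bot]
      funext i
      exact (Submodule.mem_bot k).mp (hf i)
    rw [this]
    infer_instance
  · obtain ⟨j, rfl⟩ := Int.eq_ofNat_of_zero_le hm
    rw [← range_polyIncl]
    have := poly_finite D j
    infer_instance

theorem StdL_lat (n : ℕ) : IsLat (K := Q) D.u D.v (StdL D n) where
  mono := by
    intro m f hf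
    rw [mem_StdL] at hf ⊢
    exact fun i => poly_mono D (by omega) (hf i)
  umul := by
    intro m f hf
    rw [mem_StdL] at hf ⊢
    exact fun i => u_mem_poly D (hf i)
  vmul := by
    intro m f hf
    rw [mem_StdL] at hf ⊢
    exact fun i => v_mem_poly D (hf i)
  fin := StdL_fin D n
  bot := by
    refine ⟨-1, fun m hm => ?_⟩
    rw [eq_bot_iff]
    intro f hf
    rw [mem_StdL, poly_neg D (by omega)] at hf
    rw [Submodule.mem_bot]
    funext i
    exact (Submodule.mem_bot k).mp (hf i)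
  gen := by
    refine ⟨0, fun m hm f hf => ?_⟩
    rw [mem_StdL] at hf
    choose a ha b hb c hc h using fun i => poly_gen D hm (f i) (hf i)
    refine ⟨a, (mem_StdL D).mpr ha, b, (mem_StdL D).mpr hb, c, (mem_StdL D).mpr hc, ?_⟩
    funext i
    simpa using h i

theorem finrank_StdL (hA : ∀ j : ℕ, finrank k (polyLE k D.u D.v (j : ℤ)) = dimA (j : ℤ))
    (n j : ℕ) : finrank k (StdL D n (j : ℤ)) = n * dimA (j : ℤ) := by
  rw [← range_polyIncl, LinearMap.finrank_range_of_inj (polyIncl_inj D n j)]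
  have := poly_finite D j
  rw [Module.finrank_pi_fintype]
  simp [hA j]

/-! ### the lattices `N^(d)` -/

variable {M : Type} [AddCommGroup M] [Module D.Ttot M] [Module k M] [IsScalarTower k D.Ttot M]
variable {n : ℕ}

/-- the lattice `N^(d)` -/
noncomputable def NLat (w : Fin n → M) (FM : ℤ → Submodule k M) (d : ℤ) :
    ℤ → Submodule k (Fin n → Q)
  | Int.ofNat j => (NL D w FM d j).map (polyIncl D n j)
  | Int.negSucc _ => ⊥

theorem NLat_nat (w : Fin n → M) (FM : ℤ → Submodule k M) (d : ℤ) (j : ℕ) :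
    NLat D w FM d (j : ℤ) = (NL D w FM d j).map (polyIncl D n j) := rfl

theorem NLat_neg (w : Fin n → M) (FM : ℤ → Submodule k M) (d : ℤ) {m : ℤ} (hm : m < 0) :
    NLat D w FM d m = ⊥ := by
  cases m with
  | ofNat j => exact absurd hm (by simp)
  | negSucc j => rfl

theorem finrank_NLat (w : Fin n → M) (FM : ℤ → Submodule k M) (d : ℤ) (j : ℕ) :
    finrank k (NLat D w FM d (j : ℤ)) = finrank k (NL D w FM d j) := by
  rw [NLat_nat]
  exact (LinearEquiv.finrank_eq
    (Submodule.equivMapOfInjective _ (polyIncl_inj D n j) (NL D w FM d j))).symm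

theorem NLat_le (w : Fin n → M) (FM : ℤ → Submodule k M) (d m : ℤ) :
    NLat D w FM d m ≤ StdL D n m := by
  rcases lt_or_ge m 0 with hm | hm
  · rw [NLat_neg D w FM d hm]; exact bot_le
  · obtain ⟨j, rfl⟩ := Int.eq_ofNat_of_zero_le hm
    rw [NLat_nat, ← range_polyIncl]
    exact LinearMap.map_le_range

/-- multiplication step -/
theorem NL_step {FM : ℤ → Submodule k M} (h : IsGoodFilt D FM) (d : ℤ) (j : ℕ)
    (g : Q) (hg : g ∈ D.F ((1 : ℕ) : ℤ)) (hgI : D.mono 1 g hg ∈ D.mI)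
    (y : M) (hy : y ∈ FM ((j : ℤ) + d) ⊔ D.mp M ((j : ℤ) + 1)) :
    D.mono 1 g hg • y ∈ FM (((j + 1 : ℕ) : ℤ) + d) ⊔ D.mp M (((j + 1 : ℕ) : ℤ) + 1) := by
  obtain ⟨a, ha, b, hb, rfl⟩ := Submodule.mem_sup.mp hy
  rw [smul_add]
  refine Submodule.add_mem_sup ?_ ?_
  · have := h.act 1 g hg _ a ha
    have e : ((1 : ℕ) : ℤ) + ((j : ℤ) + d) = ((j + 1 : ℕ) : ℤ) + d := by push_cast; ring
    rwa [e] at this
  · have := smul_mem_mp D 1 _ (by simpa using hgI) _ b hb
    have e : ((1 : ℕ) : ℤ) + ((j : ℤ) + 1) = ((j + 1 : ℕ) : ℤ) + 1 := by push_cast; ring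
    rwa [e] at this

theorem NLat_fam {w : Fin n → M} {FM : ℤ → Submodule k M} (h : IsGoodFilt D FM) (d : ℤ) :
    IsFam (K := Q) D.u D.v (NLat D w FM d) where
  mono := by
    intro m f hf
    rcases lt_or_ge m 0 with hm | hm
    · rw [NLat_neg D w FM d hm, Submodule.mem_bot] at hf
      rw [hf]; exact Submodule.zero_mem _
    · obtain ⟨j, rfl⟩ := Int.eq_ofNat_of_zero_le hm
      obtain ⟨f, hf, rfl⟩ := hf
      have h1 := NL_step D h d j 1 (by simpa using D.one_mem) (x0_mem D) _ hf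
      change D.x0 • frm D w j f ∈ _ at h1
      rw [frm_x0] at h1
      exact ⟨_, h1, rfl⟩
  umul := by
    intro m f hf
    rcases lt_or_ge m 0 with hm | hm
    · rw [NLat_neg D w FM d hm, Submodule.mem_bot] at hf
      rw [hf, smul_zero]; exact Submodule.zero_mem _
    · obtain ⟨j, rfl⟩ := Int.eq_ofNat_of_zero_le hm
      obtain ⟨f, hf, rfl⟩ := hf
      have h1 := NL_step D h d j D.u (by simpa using D.u_mem) (x1_mem D) _ hf
      change D.x1 • frm D w j f ∈ _ at h1
      rw [frm_x1] at h1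
      exact ⟨_, h1, rfl⟩
  vmul := by
    intro m f hf
    rcases lt_or_ge m 0 with hm | hm
    · rw [NLat_neg D w FM d hm, Submodule.mem_bot] at hf
      rw [hf, smul_zero]; exact Submodule.zero_mem _
    · obtain ⟨j, rfl⟩ := Int.eq_ofNat_of_zero_le hm
      obtain ⟨f, hf, rfl⟩ := hf
      have h1 := NL_step D h d j D.v (by simpa using D.v_mem) (x2_mem D) _ hf
      change D.x2 • frm D w j f ∈ _ at h1
      rw [frm_x2] at h1
      exact ⟨_, h1, rfl⟩

theorem NLat_lat {w : Fin n → M} {FM : ℤ → Submodule k M} (h : IsGoodFilt D FM) (d : ℤ) :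
    IsLat (K := Q) D.u D.v (NLat D w FM d) :=
  (StdL_lat D n).of_le (NLat_fam D h d) (NLat_le D w FM d)

/-! ### ranks -/

/-- `u, v` as elements of `K0` -/
noncomputable abbrev u0 : D.K0 := ⟨D.u, IntermediateField.subset_adjoin _ _ (by simp)⟩
noncomputable abbrev v0 : D.K0 := ⟨D.v, IntermediateField.subset_adjoin _ _ (by simp)⟩

theorem StdL_lat0 (n : ℕ) : IsLat (u0 D) (v0 D) (StdL D n) :=
  IsLat.restrict (L := D.K0) (Q := Q) (V := Fin n → Q) (StdL_lat D n)

theorem NLat_lat0 {w : Fin n → M} {FM : ℤ → Submodule k M} (h : IsGoodFilt D FM) (d : ℤ) :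
    IsLat (u0 D) (v0 D) (NLat D w FM d) :=
  IsLat.restrict (L := D.K0) (Q := Q) (V := Fin n → Q) (NLat_lat D h d)

theorem poly_mem_K0 {m : ℤ} {f : Q} (hf : f ∈ polyLE k D.u D.v m) : f ∈ D.K0 := by
  unfold polyLE at hf
  induction hf using Submodule.span_induction with
  | mem x hx =>
    obtain ⟨i, j, _, rfl⟩ := hx
    exact mul_mem (pow_mem (IntermediateField.subset_adjoin _ _ (by simp)) _)
      (pow_mem (IntermediateField.subset_adjoin _ _ (by simp)) _)
  | zero => exact zero_mem _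
  | add x y _ _ hx hy => exact add_mem hx hy
  | smul c x _ hx => exact D.K0.toSubalgebra.smul_mem hx c

theorem spanK_StdL (n : ℕ) : spanK D.K0 (StdL D n) =
    Submodule.span D.K0 (Set.range (fun i : Fin n => (Pi.single i (1 : Q) : Fin n → Q))) := by
  apply le_antisymm
  · unfold spanK
    rw [Submodule.span_le]
    intro f hf
    obtain ⟨m, hm⟩ := Set.mem_iUnion.mp hf
    rw [SetLike.mem_coe, mem_StdL] at hm
    have e : f = ∑ i, (⟨f i, poly_mem_K0 D (hm i)⟩ : D.K0) • (Pi.single i (1 : Q) : Fin n → Q) := by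
      funext j
      rw [Finset.sum_apply]
      have : ∀ i : Fin n, ((⟨f i, poly_mem_K0 D (hm i)⟩ : D.K0) •
          (Pi.single i (1 : Q) : Fin n → Q)) j = if i = j then f i else 0 := by
        intro i
        rw [Pi.smul_apply, Pi.single_apply]
        change (f i) * _ = _
        by_cases h : i = j
        · simp [h]
        · rw [if_neg (fun h' => h h'.symm), if_neg h, mul_zero]
      simp only [this]
      simp
    rw [SetLike.mem_coe, e]
    exact Submodule.sum_mem _ fun i _ => Submodule.smul_mem _ _ (Submodule.subset_span ⟨i, rfl⟩)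
  · rw [Submodule.span_le]
    rintro _ ⟨i, rfl⟩
    refine Submodule.subset_span (Set.mem_iUnion.mpr ⟨0, ?_⟩)
    rw [SetLike.mem_coe, mem_StdL]
    intro j
    change (Pi.single i (1 : Q) : Fin n → Q) j ∈ _
    rw [Pi.single_apply]
    split_ifs
    · exact Submodule.subset_span ⟨0, 0, by simp, by simp⟩
    · exact Submodule.zero_mem _

theorem finite_spanK_StdL (n : ℕ) : Module.Finite D.K0 (spanK D.K0 (StdL D n)) := by
  rw [spanK_StdL]
  exact FiniteDimensional.span_of_finite _ (Set.finite_range _)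

theorem rk_StdL (n : ℕ) : rk D.K0 (StdL D n) = n := by
  unfold rk
  rw [spanK_StdL]
  have hli : LinearIndependent D.K0 (fun i : Fin n => (Pi.single i (1 : Q) : Fin n → Q)) := by
    have h := (Pi.basisFun Q (Fin n)).linearIndependent
    have h2 := h.restrict_scalars (R := D.K0) (by
      intro a b hab
      apply Subtype.ext
      simpa [Algebra.smul_def] using hab)
    convert h2 using 1
    funext i
    simp
  rw [finrank_span_eq_card hli, Fintype.card_fin]

/-- a sublattice of `A^n` of rank `r` has `dim ≤ r dim A_m` -/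
theorem finrank_sub_le (hA : ∀ j : ℕ, finrank k (polyLE k D.u D.v (j : ℤ)) = dimA (j : ℤ))
    (E : ℤ → Submodule k (Fin n → Q))
    (hE : ∀ m, E m ≤ StdL D n m) (j : ℕ) :
    finrank k (E (j : ℤ)) ≤ rk D.K0 E * dimA (j : ℤ) := by
  set U : Submodule D.K0 (Fin n → Q) := spanK D.K0 E with hU
  have hS := StdL_lat0 D n
  have h1 := finrank_add hS U (j : ℤ)
  have h2 := rk_add D.isRat hS U
  have hq := hS.quotU U
  have hgen : ∀ m ≥ (0 : ℤ), ∀ e ∈ quotU (StdL D n) U (m + 1), ∃ x ∈ quotU (StdL D n) U m,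
      ∃ y ∈ quotU (StdL D n) U m, ∃ z ∈ quotU (StdL D n) U m,
        e = x + (u0 D) • y + (v0 D) • z := by
    intro m hm e he
    obtain ⟨f, hf, rfl⟩ := he
    rw [SetLike.mem_coe, mem_StdL] at hf
    choose a ha b hb c hc hh using fun i => poly_gen D hm (f i) (hf i)
    refine ⟨U.mkQ a, ⟨a, (mem_StdL D).mpr ha, rfl⟩, U.mkQ b, ⟨b, (mem_StdL D).mpr hb, rfl⟩,
      U.mkQ c, ⟨c, (mem_StdL D).mpr hc, rfl⟩, ?_⟩
    rw [← map_smul, ← map_smul, ← map_add, ← map_add]
    change U.mkQ f = _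
    congr 1
    funext i
    exact hh i
  have h3 := E4.le_finrank_of_gen D.isRat.indep hq hgen (j : ℤ)
  have h4 : rk D.K0 (interU (StdL D n) U) ≤ rk D.K0 E := by
    have hle : spanK D.K0 (interU (StdL D n) U) ≤ U := by
      unfold spanK
      rw [Submodule.span_le]
      intro x hx
      obtain ⟨m, hm⟩ := Set.mem_iUnion.mp hx
      exact hm.2
    have hfin : Module.Finite D.K0 U := by
      have h0 := finite_spanK_StdL D n
      refine Submodule.finiteDimensional_of_le (S₂ := spanK D.K0 (StdL D n)) ?_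
      rw [hU]
      unfold spanK
      exact Submodule.span_mono (Set.iUnion_mono fun m => hE m)
    exact Submodule.finrank_mono hle
  have h5 : finrank k (E (j : ℤ)) ≤ finrank k (interU (StdL D n) U (j : ℤ)) := by
    have hfin : Module.Finite k (interU (StdL D n) U (j : ℤ)) := by
      have := StdL_fin D n (j : ℤ)
      exact Submodule.finiteDimensional_of_le (inf_le_left : _ ⊓ _ ≤ StdL D n (j : ℤ))
    refine Submodule.finrank_mono ?_
    intro x hx
    refine ⟨hE _ hx, ?_⟩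
    change x ∈ U
    rw [hU]
    exact Submodule.subset_span (Set.mem_iUnion.mpr ⟨_, hx⟩)
  rw [finrank_StdL D hA n j] at h1
  rw [rk_StdL] at h2
  rw [sub_zero] at h3
  nlinarith [h1, h2, h3, h4, h5, Nat.zero_le (dimA (j : ℤ)),
    Nat.mul_le_mul_right (dimA (j : ℤ)) h4]

theorem dimA_rat (j : ℕ) : (dimA (j : ℤ) : ℚ) = 1 / 2 * (j : ℚ) ^ 2 + 3 / 2 * j + 1 := by
  have h := two_dimA j
  have h' : (2 : ℚ) * dimA (j : ℤ) = (j + 1) * (j + 2) := by exact_mod_cast h
  linarith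

/-- the three numerical invariants of `N^(d)` -/
theorem NLat_hp [Infinite k]
    (hA : ∀ j : ℕ, finrank k (polyLE k D.u D.v (j : ℤ)) = dimA (j : ℤ))
    {w : Fin n → M} {FM : ℤ → Submodule k M} (h : IsGoodFilt D FM) (d : ℤ) :
    ∃ (r : ℕ) (β γ : ℚ), HasHP (NLat D w FM d) r β γ ∧ r ≤ n ∧ β ≤ 3 / 2 * r := by
  obtain ⟨β, γ, hHP, -, -⟩ := IsLat.exists_hasHP D.isRat (NLat_lat0 D (w := w) h d)
  refine ⟨rk D.K0 (NLat D w FM d), β, γ, hHP, ?_, ?_⟩
  · have h1 := rk_le_of_le (StdL_lat0 D n) (NLat_lat0 D (w := w) h d) ⟨0, fun m _ => NLat_le D w FM d m⟩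
    rwa [rk_StdL] at h1
  · obtain ⟨m₀, hm₀⟩ := hHP
    have key : ∀ m : ℤ, max m₀ 0 ≤ m →
        (rk D.K0 (NLat D w FM d) : ℚ) / 2 * (m : ℚ) ^ 2 + β * m + γ ≤
        (rk D.K0 (NLat D w FM d) : ℚ) / 2 * (m : ℚ) ^ 2 +
          (3 / 2 * rk D.K0 (NLat D w FM d)) * m + rk D.K0 (NLat D w FM d) := by
      intro m hm
      have h0 : 0 ≤ m := le_trans (le_max_right _ _) hm
      obtain ⟨j, rfl⟩ := Int.eq_ofNat_of_zero_le h0
      have h1 := finrank_sub_le D hA (NLat D w FM d) (NLat_le D w FM d) j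
      have h2 := hm₀ j (le_trans (le_max_left _ _) hm)
      have h3 : (finrank k (NLat D w FM d (j : ℤ)) : ℚ) ≤
        rk D.K0 (NLat D w FM d) * dimA (j : ℤ) := by exact_mod_cast h1
      rw [h2, dimA_rat] at h3
      push_cast
      push_cast at h3
      linarith
    exact (E4.quad_le key).2 rfl

/-- (A2) the numerical inequality. -/
theorem A2 [Infinite k] (hG : GrFree D M n) (FM : ℤ → Submodule k M)
    (h : IsGoodFilt D FM) :
    ∃ b c : ℚ, HasGrHP FM n b c ∧ 0 ≤ Jinv n b c := by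
  obtain ⟨⟨w, hw⟩, hA⟩ := exists_frame D hG
  obtain ⟨c, hc⟩ := h.bdd
  choose r β γ hHP hrn hβ using fun e : ℕ => NLat_hp D hA (w := w) h ((e : ℤ) - c)
  -- e = 0
  have h0 : r 0 = n ∧ β 0 = 3 / 2 * n ∧ γ 0 = n := by
    have hstd : HasHP (NLat D w FM (((0 : ℕ) : ℤ) - c)) n (3 / 2 * n) n := by
      refine ⟨0, fun m hm => ?_⟩
      obtain ⟨j, rfl⟩ := Int.eq_ofNat_of_zero_le hm
      have e1 : (finrank k (NLat D w FM (((0 : ℕ) : ℤ) - c) (j : ℤ)) : ℚ) = n * dimA (j : ℤ) := by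
        rw [finrank_NLat, NL_top D hc _ (by simp), finrank_top]
        have := poly_finite D j
        rw [Module.finrank_pi_fintype]
        simp [hA j]
      rw [e1, dimA_rat]
      push_cast
      ring
    exact hasHP_unique (hHP 0) hstd
  have hM : r (2 * c + 1) = 0 ∧ β (2 * c + 1) = 0 ∧ γ (2 * c + 1) = 0 := by
    have hstd : HasHP (NLat D w FM (((2 * c + 1 : ℕ) : ℤ) - c)) 0 0 0 := by
      refine ⟨0, fun m hm => ?_⟩
      obtain ⟨j, rfl⟩ := Int.eq_ofNat_of_zero_le hm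
      rw [finrank_NLat, NL_bot D hw hc _ (by push_cast; omega)]
      simp
    exact hasHP_unique (hHP (2 * c + 1)) hstd
  choose m₁ hm₁ using hHP
  -- a common bound
  obtain ⟨B, hB⟩ : ∃ B : ℤ, ∀ e ∈ Finset.range (2 * c + 2), m₁ e ≤ B := by
    refine ⟨((Finset.range (2 * c + 2)).sup' ⟨0, by simp⟩ m₁), fun e he => ?_⟩
    exact Finset.le_sup' m₁ he
  have hh : ∃ l₀ : ℤ, ∀ l ≥ l₀, (grdim FM l : ℚ) = ∑ e ∈ Finset.range (2 * c + 1),
      (((r e : ℚ) / 2 * ((l : ℚ) + (c : ℤ) - e) ^ 2 + β e * ((l : ℚ) + (c : ℤ) - e) + γ e)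
        - ((r (e + 1) : ℚ) / 2 * ((l : ℚ) + (c : ℤ) - e) ^ 2 + β (e + 1) * ((l : ℚ) + (c : ℤ) - e)
          + γ (e + 1))) := by
    refine ⟨max (B + 2 * c) (2 * c), fun l hl => ?_⟩
    have hl0 : 0 ≤ l := by have := le_trans (le_max_right _ _) hl; omega
    obtain ⟨l, rfl⟩ := Int.eq_ofNat_of_zero_le hl0
    have hlc : c ≤ l := by have := le_trans (le_max_right _ _) hl; omega
    have hlB : B + 2 * c ≤ l := le_trans (le_max_left _ _) hl
    have h1 := grdim_formula' D hw h hc l hlc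
    have h2 : (grdim FM (l : ℤ) : ℚ) = ∑ e ∈ Finset.range (2 * c + 1),
      ((finrank k (NL D w FM ((e : ℤ) - c) (l + c - e)) : ℚ) -
        finrank k (NL D w FM ((e : ℤ) + 1 - c) (l + c - e))) := by exact_mod_cast h1
    rw [h2]
    refine Finset.sum_congr rfl fun e he => ?_
    rw [Finset.mem_range] at he
    have e1 : ((l + c - e : ℕ) : ℤ) = (l : ℤ) + c - e := by omega
    have e2 : ((l + c - e : ℕ) : ℚ) = (l : ℚ) + c - e := by
      have := congrArg (fun z : ℤ => (z : ℚ)) e1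
      push_cast at this
      exact this
    have h3 := hm₁ e ((l + c - e : ℕ) : ℤ) (by
      have := hB e (Finset.mem_range.mpr (by omega)); omega)
    have h4 := hm₁ (e + 1) ((l + c - e : ℕ) : ℤ) (by
      have := hB (e + 1) (Finset.mem_range.mpr (by omega)); omega)
    rw [finrank_NLat] at h3 h4
    have e3 : (((e + 1 : ℕ) : ℤ) - c) = (e : ℤ) + 1 - c := by push_cast; ring
    rw [e3] at h4
    rw [h3, h4, Int.cast_natCast, e2]
    push_cast
    ring
  obtain ⟨b, c', hb, hJ⟩ := AAbel.jinv_nonneg_of_abel hG.1 (2 * c) r β γ hrn hβ h0 hM (c : ℤ)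
    (fun l => (grdim FM l : ℚ)) hh
  exact ⟨b, c', hb, hJ⟩

end A2

end Crest.Agent.R169
end

-- ▼ part R169/A4
section

/-!
# Row 169, Part A, step A4 (helper592): symbol maps of a good filtration into `Q^R`
-/

set_option autoImplicit false
set_option linter.unusedSectionVars false

namespace Crest.Agent.R169

open Module

namespace A4

variable {k Q : Type} [Field k] [Field Q] [Algebra k Q] (D : TData k Q)
variable {M : Type} [AddCommGroup M] [Module D.Ttot M] [Module k M] [IsScalarTower k D.Ttot M]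

theorem mono_zero' (i : ℕ) (h : (0 : Q) ∈ D.F (i : ℤ)) : D.mono i 0 h = 0 := by
  apply Subtype.ext
  change Polynomial.monomial i (0 : Q) = 0
  exact Polynomial.monomial_zero_right _

/-- the value of `∑ t_i X^e w_i` -/
noncomputable def cmb {R : ℕ} (w : Fin R → M) (e : ℕ) (t : Fin R → D.F (e : ℤ)) : M :=
  ∑ i, D.mono e (t i : Q) (t i).2 • w i

theorem cmb_add {R : ℕ} (w : Fin R → M) (e : ℕ) (t t' : Fin R → D.F (e : ℤ)) :
    cmb D w e (t + t') = cmb D w e t + cmb D w e t' := by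
  unfold cmb
  rw [← Finset.sum_add_distrib]
  refine Finset.sum_congr rfl fun i _ => ?_
  rw [← add_smul, ← mono_add]
  rfl

theorem cmb_smul {R : ℕ} (w : Fin R → M) (e : ℕ) (c : k) (t : Fin R → D.F (e : ℤ)) :
    cmb D w e (c • t) = c • cmb D w e t := by
  unfold cmb
  rw [Finset.smul_sum]
  refine Finset.sum_congr rfl fun i _ => ?_
  rw [← smul_assoc, ← mono_smul]
  rfl

theorem cmb_zero {R : ℕ} (w : Fin R → M) (e : ℕ) : cmb D w e 0 = 0 := by
  have := cmb_smul D w e (0 : k) 0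
  rwa [zero_smul, zero_smul] at this

theorem mono_cmb {R : ℕ} (w : Fin R → M) (i e : ℕ) (f : Q) (hf : f ∈ D.F (i : ℤ))
    (t : Fin R → D.F (e : ℤ)) :
    D.mono i f hf • cmb D w e t =
      cmb D w (i + e) (fun j => ⟨f * t j, mul_mem_F D i e f (t j) hf (t j).2⟩) := by
  unfold cmb
  rw [Finset.smul_sum]
  refine Finset.sum_congr rfl fun j _ => ?_
  rw [mono_smul_mono]

theorem cmb_congr {R : ℕ} (w : Fin R → M) {e e' : ℕ} (h : e = e') (t : Fin R → D.F (e : ℤ))
    (t' : Fin R → D.F (e' : ℤ)) (ht : ∀ i, (t i : Q) = t' i) : cmb D w e t = cmb D w e' t' := by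
  subst h
  unfold cmb
  refine Finset.sum_congr rfl fun i _ => ?_
  rw [mono_congr D rfl (ht i)]

/-- `T`-independence of a family in `FM J` -/
structure Indep (FM : ℤ → Submodule k M) (J : ℤ) {R : ℕ} (w : Fin R → M) : Prop where
  mem : ∀ i, w i ∈ FM J
  inj : ∀ (e : ℕ) (t : Fin R → D.F (e : ℤ)), cmb D w e t ∈ FM (J + e + 1) → t = 0

variable {D}

theorem cmb_mem {FM : ℤ → Submodule k M} (h : IsGoodFilt D FM) {J : ℤ} {R : ℕ} {w : Fin R → M}
    (hw : ∀ i, w i ∈ FM J) (e : ℕ) (t : Fin R → D.F (e : ℤ)) : cmb D w e t ∈ FM (J + e) := by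
  unfold cmb
  refine Submodule.sum_mem _ fun i _ => ?_
  have := h.act e (t i) (t i).2 J (w i) (hw i)
  rwa [add_comm] at this

theorem gr_finite {FM : ℤ → Submodule k M} (h : IsGoodFilt D FM) {n : ℕ} (hG : GrFree D M n)
    (l : ℤ) : Module.Finite k (↥(FM l) ⧸ (FM (l + 1)).submoduleOf (FM l)) := by
  obtain ⟨⟨w, hw⟩, hA⟩ := exists_frame D hG
  obtain ⟨c, hc⟩ := h.bdd
  have h1 : D.mp M (((l + 1 + c).toNat : ℕ) : ℤ) ≤ FM (l + 1) :=
    (mp_anti D (by omega)).trans (hc (l + 1)).1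
  have h2 := (A2.qdim_mp D hw (FM l) (l + 1 + c).toNat (h1.trans (h.anti l))).1
  exact qfin_top h1

/-- the linear map `(F_e)^R → FM (J+e) / FM (J+e+1)` of an independent family is injective -/
theorem card_bound {FM : ℤ → Submodule k M} (h : IsGoodFilt D FM) {n : ℕ} (hG : GrFree D M n)
    {J : ℤ} {R : ℕ} {w : Fin R → M} (hw : Indep D FM J w) (e : ℕ) :
    R * finrank k (D.F (e : ℤ)) ≤ grdim FM (J + e) := by
  have hfin := gr_finite h hG (J + e)
  have hfF := D.lat.fin (e : ℤ)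
  let φ : (Fin R → D.F (e : ℤ)) →ₗ[k]
      (↥(FM (J + e)) ⧸ (FM (J + e + 1)).submoduleOf (FM (J + e))) :=
    ((FM (J + e + 1)).submoduleOf (FM (J + e))).mkQ ∘ₗ
      (({ toFun := cmb D w e
          map_add' := cmb_add D w e
          map_smul' := cmb_smul D w e } : (Fin R → D.F (e : ℤ)) →ₗ[k] M).codRestrict
        (FM (J + e)) (cmb_mem h hw.mem e))
  have hφ : Function.Injective φ := by
    rw [injective_iff_map_eq_zero]
    intro t ht
    apply hw.inj e t
    change Submodule.Quotient.mk _ = _ at ht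
    rw [Submodule.Quotient.mk_eq_zero, mem_subOf] at ht
    exact ht
  have h1 := LinearMap.finrank_le_finrank_of_injective hφ
  rw [Module.finrank_pi_fintype] at h1
  simp only [Finset.sum_const, Finset.card_univ, Fintype.card_fin, smul_eq_mul] at h1
  exact h1

theorem rank_bound {FM : ℤ → Submodule k M} (h : IsGoodFilt D FM) {n : ℕ} (hG : GrFree D M n)
    (hF : ∃ (N : ℕ) (b c : ℚ), 0 < N ∧ HasHP D.F N b c) {b c : ℚ} (hHP : HasGrHP FM n b c)
    {J : ℤ} {R : ℕ} {w : Fin R → M} (hw : Indep D FM J w) : R ≤ n := by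
  obtain ⟨N, bT, cT, hN, m₀, hm₀⟩ := hF
  obtain ⟨m₁, hm₁⟩ := hHP
  have key : ∀ m : ℤ, max (max m₀ 0) (m₁ - J) ≤ m →
      ((R : ℚ) * (N / 2)) * (m : ℚ) ^ 2 + (R * bT) * m + R * cT ≤
      ((n : ℚ) / 2) * (m : ℚ) ^ 2 + (n * J + b) * m + (n / 2 * (J : ℚ) ^ 2 + b * J + c) := by
    intro m hm
    have h0 : 0 ≤ m := le_trans (le_trans (le_max_right _ _) (le_max_left _ _)) hm
    obtain ⟨e, rfl⟩ := Int.eq_ofNat_of_zero_le h0
    have h1 := card_bound h hG hw e
    have h2 := hm₀ e (le_trans (le_trans (le_max_left _ _) (le_max_left _ _)) hm)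
    have h3 := hm₁ (J + e) (by have := le_trans (le_max_right _ _) hm; omega)
    have h4 : (R : ℚ) * finrank k (D.F (e : ℤ)) ≤ grdim FM (J + e) := by exact_mod_cast h1
    rw [h2, h3] at h4
    push_cast at h4 ⊢
    linarith
  have h1 := (E4.quad_le key).1
  have h2 : (R : ℚ) * N ≤ n := by linarith
  have h3 : R * N ≤ n := by exact_mod_cast h2
  calc R = R * 1 := (mul_one R).symm
    _ ≤ R * N := Nat.mul_le_mul_left R hN
    _ ≤ n := h3

/-- there is a one-element independent family -/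
theorem exists_one {FM : ℤ → Submodule k M} (h : IsGoodFilt D FM) {n : ℕ} (hn : 0 < n)
    {b c : ℚ} (hHP : HasGrHP FM n b c) :
    ∃ (J : ℤ) (w : Fin 1 → M), Indep D FM J w := by
  obtain ⟨m₁, hm₁⟩ := hHP
  -- some `grdim` is nonzero
  obtain ⟨J, hJ⟩ : ∃ J : ℤ, grdim FM J ≠ 0 := by
    by_contra hcon
    push Not at hcon
    have key : ∀ m : ℤ, m₁ ≤ m →
        ((n : ℚ) / 2) * (m : ℚ) ^ 2 + b * m + c ≤ 0 * (m : ℚ) ^ 2 + 0 * m + 0 := by
      intro m hm
      have h1 := hm₁ m hm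
      rw [hcon m] at h1
      push_cast at h1
      linarith
    have h2 := (E4.quad_le key).1
    have h3 : (0 : ℚ) < n := by exact_mod_cast hn
    linarith
  obtain ⟨x, hx, hx'⟩ : ∃ x ∈ FM J, x ∉ FM (J + 1) := by
    by_contra hcon
    push Not at hcon
    apply hJ
    have e : FM (J + 1) = FM J := le_antisymm (h.anti J) hcon
    rw [grdim_eq, e, qdim_self]
  refine ⟨J, fun _ => x, fun _ => hx, ?_⟩
  intro e t ht
  have h1 : cmb D (fun _ : Fin 1 => x) e t = D.mono e (t 0 : Q) (t 0).2 • x := by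
    unfold cmb
    rw [Fin.sum_univ_one]
  rw [h1] at ht
  by_contra hne
  have h0 : (t 0 : Q) ≠ 0 := by
    intro h0
    apply hne
    funext i
    rw [Fin.fin_one_eq_zero i]
    exact Subtype.ext h0
  have e2 : J + (e : ℤ) + 1 = e + J + 1 := by ring
  rw [e2] at ht
  exact hx' (h.tf e (t 0) (t 0).2 h0 J x hx ht)

/-- shifting an independent family by a power of `X` -/
theorem Indep.shift {FM : ℤ → Submodule k M} (h : IsGoodFilt D FM) {J : ℤ} {R : ℕ}
    {w : Fin R → M} (hw : Indep D FM J w) (s : ℕ) (h1 : (1 : Q) ∈ D.F (s : ℤ)) :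
    Indep D FM (s + J) (fun i => D.mono s 1 h1 • w i) where
  mem := fun i => h.act s 1 h1 J (w i) (hw.mem i)
  inj := by
    intro e t ht
    have e1 : cmb D (fun i => D.mono s 1 h1 • w i) e t = D.mono s 1 h1 • cmb D w e t := by
      unfold cmb
      rw [Finset.smul_sum]
      refine Finset.sum_congr rfl fun i _ => ?_
      rw [smul_smul, smul_smul, mul_comm]
    rw [e1] at ht
    have e2 : (s : ℤ) + J + e + 1 = s + (J + e) + 1 := by ring
    rw [e2] at ht
    exact hw.inj e t (h.tf s 1 h1 one_ne_zero _ _ (cmb_mem h hw.mem e t) ht)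

theorem one_mem (s : ℕ) : (1 : Q) ∈ D.F (s : ℤ) :=
  F_le D (show (((0 : ℕ) : ℤ)) ≤ (s : ℤ) by simp) (one_mem_zero D)

variable (D) in
/-- maximal independent families -/
structure MaxIndep (FM : ℤ → Submodule k M) (J : ℤ) {R : ℕ} (w : Fin R → M) :
    Prop where
  indep : Indep D FM J w
  max : ∀ (J' : ℤ) (w' : Fin (R + 1) → M), ¬ Indep D FM J' w'

theorem exists_maxIndep {FM : ℤ → Submodule k M} (h : IsGoodFilt D FM) {n : ℕ}
    (hG : GrFree D M n) (hF : ∃ (N : ℕ) (b c : ℚ), 0 < N ∧ HasHP D.F N b c) {b c : ℚ}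
    (hHP : HasGrHP FM n b c) :
    ∃ (R : ℕ), 0 < R ∧ ∃ (J : ℤ) (w : Fin R → M), MaxIndep D FM J w := by
  classical
  let P : ℕ → Prop := fun R => ∃ (J : ℤ) (w : Fin R → M), Indep D FM J w
  have hP1 : P 1 := exists_one h hG.1 hHP
  have hb : ∀ R, P R → R ≤ n := fun R ⟨J, w, hw⟩ => rank_bound h hG hF hHP hw
  have hn : 1 ≤ n := hb 1 hP1
  obtain ⟨R, hR1, hR2⟩ : ∃ R, P R ∧ ¬ P (R + 1) ∧ 0 < R := by
    by_contra hcon
    push Not at hcon
    have : ∀ m : ℕ, P (m + 1) := by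
      intro m
      induction m with
      | zero => exact hP1
      | succ m ih =>
        by_contra h'
        have := hcon (m + 1) ih h'
        omega
    have := hb (n + 1) (this n)
    omega
  obtain ⟨J, w, hw⟩ := hR1
  exact ⟨R, hR2.2, J, w, hw, fun J' w' hw' => hR2.1 ⟨J', w', hw'⟩⟩

variable (D) in
/-- the coordinate relation -/
def Rel (FM : ℤ → Submodule k M) (J : ℤ) {R : ℕ} (w : Fin R → M) (l : ℤ) (g : M)
    (q : Fin R → Q) : Prop :=
  ∃ (d e : ℕ) (t : Q) (ht : t ∈ D.F (d : ℤ)) (hq : ∀ i, t * q i ∈ D.F (e : ℤ)),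
    t ≠ 0 ∧ l + d = J + e ∧
    D.mono d t ht • g - cmb D w e (fun i => ⟨t * q i, hq i⟩) ∈ FM (l + d + 1)

variable {FM : ℤ → Submodule k M} {J : ℤ} {R : ℕ} {w : Fin R → M}

/-- common rescaling of a relation -/
theorem rel_scale (h : IsGoodFilt D FM) {l : ℤ} {g : M} {q : Fin R → Q} {d e : ℕ} {t : Q}
    {ht : t ∈ D.F (d : ℤ)} {hq : ∀ i, t * q i ∈ D.F (e : ℤ)}
    (H : D.mono d t ht • g - cmb D w e (fun i => ⟨t * q i, hq i⟩) ∈ FM (l + d + 1))
    (s : ℕ) (f : Q) (hf : f ∈ D.F (s : ℤ)) :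
    D.mono (s + d) (f * t) (mul_mem_F D s d f t hf ht) • g -
      cmb D w (s + e) (fun i => ⟨f * (t * q i), mul_mem_F D s e f _ hf (hq i)⟩) ∈
        FM (l + (s + d : ℕ) + 1) := by
  have h1 := h.act s f hf _ _ H
  rw [smul_sub, mono_smul_mono, mono_cmb] at h1
  have e1 : (s : ℤ) + (l + d + 1) = l + (s + d : ℕ) + 1 := by push_cast; ring
  rw [e1] at h1
  exact h1

theorem rel_add (h : IsGoodFilt D FM) {l : ℤ} {g g' : M} {q q' : Fin R → Q}
    (H : Rel D FM J w l g q) (H' : Rel D FM J w l g' q') : Rel D FM J w l (g + g') (q + q') := by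
  obtain ⟨d, e, t, ht, hq, ht0, hde, H⟩ := H
  obtain ⟨d', e', t', ht', hq', ht0', hde', H'⟩ := H'
  have h1 := rel_scale h H d' t' ht'
  have h2 := rel_scale h H' d t ht
  have ee : d' + e = d + e' := by omega
  have hmem : ∀ i, t' * t * (q + q') i ∈ D.F ((d' + e : ℕ) : ℤ) := by
    intro i
    have a1 := mul_mem_F D d' e t' _ ht' (hq i)
    have a2 := mul_mem_F D d e' t _ ht (hq' i)
    rw [← ee] at a2
    have : t' * t * (q + q') i = t' * (t * q i) + t * (t' * q' i) := by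
      rw [Pi.add_apply]; ring
    rw [this]
    exact Submodule.add_mem _ a1 a2
  refine ⟨d' + d, d' + e, t' * t, mul_mem_F D d' d t' t ht' ht, hmem, mul_ne_zero ht0' ht0,
    by push_cast; omega, ?_⟩
  have e1 : l + ((d + d' : ℕ) : ℤ) + 1 = l + ((d' + d : ℕ) : ℤ) + 1 := by push_cast; ring
  rw [e1] at h2
  have h3 := Submodule.add_mem _ h1 h2
  have e2 : D.mono (d + d') (t * t') (mul_mem_F D d d' t t' ht ht') =
      D.mono (d' + d) (t' * t) (mul_mem_F D d' d t' t ht' ht) :=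
    mono_congr D (by omega) (mul_comm _ _) _ _
  rw [e2] at h3
  have e3 : cmb D w (d + e') (fun i => ⟨t * (t' * q' i), mul_mem_F D d e' t _ ht (hq' i)⟩) =
      cmb D w (d' + e) (fun i => ⟨t * (t' * q' i), by
        have := mul_mem_F D d e' t _ ht (hq' i); rwa [← ee] at this⟩) :=
    cmb_congr D w ee.symm _ _ (fun _ => rfl)
  rw [e3] at h3
  have e4 : cmb D w (d' + e) (fun i => ⟨t' * t * (q + q') i, hmem i⟩) =
      cmb D w (d' + e) (fun i => ⟨t' * (t * q i), mul_mem_F D d' e t' _ ht' (hq i)⟩) +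
      cmb D w (d' + e) (fun i => ⟨t * (t' * q' i), by
        have := mul_mem_F D d e' t _ ht (hq' i); rwa [← ee] at this⟩) := by
    rw [← cmb_add]
    refine cmb_congr D w rfl _ _ (fun i => ?_)
    simp only [Pi.add_apply, Submodule.coe_add]
    ring
  rw [e4, smul_add]
  convert h3 using 1
  abel

theorem rel_smul {l : ℤ} {g : M} {q : Fin R → Q} (c : k)
    (H : Rel D FM J w l g q) : Rel D FM J w l (c • g) (c • q) := by
  obtain ⟨d, e, t, ht, hq, ht0, hde, H⟩ := H
  have hmem : ∀ i, t * (c • q) i ∈ D.F (e : ℤ) := by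
    intro i
    rw [Pi.smul_apply, mul_smul_comm]
    exact Submodule.smul_mem _ _ (hq i)
  refine ⟨d, e, t, ht, hmem, ht0, hde, ?_⟩
  have e1 : cmb D w e (fun i => ⟨t * (c • q) i, hmem i⟩) =
      c • cmb D w e (fun i => ⟨t * q i, hq i⟩) := by
    rw [← cmb_smul]
    refine cmb_congr D w rfl _ _ (fun i => ?_)
    simp only [Pi.smul_apply, Submodule.coe_smul, mul_smul_comm]
  rw [e1, smul_algebra_smul_comm, ← smul_sub]
  exact Submodule.smul_mem _ _ H

/-- kernel -/
theorem rel_ker (h : IsGoodFilt D FM) (hw : Indep D FM J w) {l : ℤ} {g : M} {q : Fin R → Q}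
    (hg : g ∈ FM l) (H : Rel D FM J w l g q) : g ∈ FM (l + 1) ↔ q = 0 := by
  obtain ⟨d, e, t, ht, hq, ht0, hde, H⟩ := H
  constructor
  · intro hg'
    have h1 := h.act d t ht _ _ hg'
    have e1 : (d : ℤ) + (l + 1) = l + d + 1 := by ring
    rw [e1] at h1
    have h2 := Submodule.sub_mem _ h1 H
    rw [sub_sub_cancel, hde] at h2
    have h3 := hw.inj e _ h2
    funext i
    have h4 := congrArg Subtype.val (congrFun h3 i)
    simp only [Pi.zero_apply, Submodule.coe_zero] at h4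
    exact (mul_eq_zero.mp h4).resolve_left ht0
  · intro hq0
    subst hq0
    have e1 : cmb D w e (fun i => ⟨t * (0 : Fin R → Q) i, hq i⟩) = 0 := by
      rw [← cmb_zero D w e]
      refine cmb_congr D w rfl _ _ (fun i => ?_)
      simp
    rw [e1, sub_zero] at H
    have e2 : l + (d : ℤ) + 1 = d + l + 1 := by ring
    rw [e2] at H
    exact h.tf d t ht ht0 l g hg H

theorem rel_unique (h : IsGoodFilt D FM) (hw : Indep D FM J w) {l : ℤ} {g : M} {q q' : Fin R → Q}
    (H : Rel D FM J w l g q) (H' : Rel D FM J w l g q') : q = q' := by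
  have h1 := rel_add h H (rel_smul (-1 : k) H')
  have h2 : g + (-1 : k) • g = 0 := by simp
  rw [h2] at h1
  have h3 := (rel_ker h hw (Submodule.zero_mem _) h1).mp (Submodule.zero_mem _)
  have h4 : q - q' = 0 := by
    rw [← h3]; simp [sub_eq_add_neg]
  exact sub_eq_zero.mp h4

/-- compatibility with `T` -/
theorem rel_act (h : IsGoodFilt D FM) {l : ℤ} {g : M} {q : Fin R → Q} (H : Rel D FM J w l g q)
    (i : ℕ) (f : Q) (hf : f ∈ D.F (i : ℤ)) :
    Rel D FM J w (i + l) (D.mono i f hf • g) (f • q) := by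
  obtain ⟨d, e, t, ht, hq, ht0, hde, H⟩ := H
  have hmem : ∀ j, t * (f • q) j ∈ D.F ((i + e : ℕ) : ℤ) := by
    intro j
    have := mul_mem_F D i e f _ hf (hq j)
    have e1 : t * (f • q) j = f * (t * q j) := by
      rw [Pi.smul_apply, smul_eq_mul]; ring
    rwa [e1]
  refine ⟨d, i + e, t, ht, hmem, ht0, by push_cast; omega, ?_⟩
  have h1 := h.act i f hf _ _ H
  rw [smul_sub, mono_cmb] at h1
  have e1 : (i : ℤ) + (l + d + 1) = i + l + d + 1 := by ring
  rw [e1] at h1
  have e2 : D.mono i f hf • D.mono d t ht • g = D.mono d t ht • D.mono i f hf • g := by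
    rw [smul_smul, smul_smul, mul_comm]
  rw [e2] at h1
  have e3 : cmb D w (i + e) (fun j => ⟨t * (f • q) j, hmem j⟩) =
      cmb D w (i + e) (fun j => ⟨f * (t * q j), mul_mem_F D i e f _ hf (hq j)⟩) := by
    refine cmb_congr D w rfl _ _ (fun j => ?_)
    simp only [Pi.smul_apply, smul_eq_mul]
    ring
  rw [e3]
  exact h1

theorem cmb_cons {R : ℕ} (g : M) (w : Fin R → M) (e : ℕ) (t : Fin (R + 1) → D.F (e : ℤ)) :
    cmb D (Fin.cons g w : Fin (R + 1) → M) e t =
      D.mono e (t 0 : Q) (t 0).2 • g + cmb D w e (fun i => t i.succ) := by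
  unfold cmb
  rw [Fin.sum_univ_succ]
  rfl

/-- from maximality: a dependency relation -/
theorem exists_dep (hw : MaxIndep D FM J w) {J' : ℤ} {w' : Fin R → M} (hw' : Indep D FM J' w')
    (g : M) (hg : g ∈ FM J') : ∃ (e : ℕ) (t : D.F (e : ℤ)) (s : Fin R → D.F (e : ℤ)),
      (t : Q) ≠ 0 ∧ D.mono e (t : Q) t.2 • g + cmb D w' e s ∈ FM (J' + e + 1) := by
  have h1 := hw.max J' (Fin.cons g w')
  by_contra hcon
  push Not at hcon
  apply h1
  refine ⟨?_, ?_⟩
  · intro i
    refine Fin.cases ?_ ?_ i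
    · exact hg
    · intro i; exact hw'.mem i
  · intro e t ht
    rw [cmb_cons] at ht
    have h0 : ((t 0 : D.F (e : ℤ)) : Q) = 0 := by
      by_contra hne
      exact hcon e (t 0) (fun i => t i.succ) hne ht
    have e1 : D.mono e (t 0 : Q) (t 0).2 • g = 0 := by
      have : D.mono e (t 0 : Q) (t 0).2 = 0 := by
        rw [mono_congr D rfl h0 (t 0).2 (Submodule.zero_mem _), mono_zero']
      rw [this, zero_smul]
    rw [e1, zero_add] at ht
    have h2 := hw'.inj e _ ht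
    funext i
    refine Fin.cases ?_ ?_ i
    · exact Subtype.ext h0
    · intro i; exact congrFun h2 i

/-- every element has coordinates -/
theorem rel_total (h : IsGoodFilt D FM) (hw : MaxIndep D FM J w) (l : ℤ) (g : M)
    (hg : g ∈ FM l) : ∃ q : Fin R → Q, Rel D FM J w l g q := by
  rcases le_or_gt J l with hJl | hJl
  · -- `J ≤ l`
    obtain ⟨s, rfl⟩ : ∃ s : ℕ, l = s + J := ⟨(l - J).toNat, by omega⟩
    have h1 := one_mem (D := D) s
    obtain ⟨e, t, t', ht0, H⟩ := exists_dep hw (hw.indep.shift h s h1) g hg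
    have hq : ∀ i, (t : Q) * (-(t' i : Q) / t) ∈ D.F ((s + e : ℕ) : ℤ) := by
      intro i
      have : (t : Q) * (-(t' i : Q) / t) = -(t' i : Q) := by field_simp
      rw [this]
      exact Submodule.neg_mem _ (F_le D (by push_cast; omega) (t' i).2)
    refine ⟨fun i => -(t' i : Q) / t, e, s + e, t, t.2, hq, ht0, by push_cast; ring, ?_⟩
    have e1 : cmb D w (s + e) (fun i => ⟨(t : Q) * (-(t' i : Q) / t), hq i⟩) =
        - cmb D (fun i => D.mono s 1 h1 • w i) e t' := by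
      have e2 : cmb D (fun i => D.mono s 1 h1 • w i) e t' = D.mono s 1 h1 • cmb D w e t' := by
        unfold cmb
        rw [Finset.smul_sum]
        refine Finset.sum_congr rfl fun i _ => ?_
        rw [smul_smul, smul_smul, mul_comm]
      rw [e2, mono_cmb]
      have e3 := cmb_smul D w (s + e) (-1 : k)
        (fun i => ⟨(1 : Q) * (t' i : Q), mul_mem_F D s e 1 (t' i) h1 (t' i).2⟩)
      rw [neg_one_smul] at e3
      rw [← e3]
      refine cmb_congr D w rfl _ _ (fun i => ?_)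
      simp only [Pi.smul_apply, Submodule.coe_smul, one_mul, neg_smul, one_smul]
      field_simp
    rw [e1, sub_neg_eq_add]
    exact H
  · -- `l < J`
    obtain ⟨s, rfl⟩ : ∃ s : ℕ, J = s + l := ⟨(J - l).toNat, by omega⟩
    have h1 := one_mem (D := D) s
    obtain ⟨e, t, t', ht0, H⟩ := exists_dep hw hw.indep (D.mono s 1 h1 • g) (h.act s 1 h1 l g hg)
    have hq : ∀ i, ((t : Q) * 1) * (-(t' i : Q) / t) ∈ D.F ((e : ℕ) : ℤ) := by
      intro i
      have : ((t : Q) * 1) * (-(t' i : Q) / t) = -(t' i : Q) := by field_simp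
      rw [this]
      exact Submodule.neg_mem _ (t' i).2
    refine ⟨fun i => -(t' i : Q) / t, e + s, e, (t : Q) * 1, mul_mem_F D e s t 1 t.2 h1, hq,
      by rw [mul_one]; exact ht0, by push_cast; ring, ?_⟩
    have e1 : cmb D w e (fun i => ⟨((t : Q) * 1) * (-(t' i : Q) / t), hq i⟩) = - cmb D w e t' := by
      have e3 := cmb_smul D w e (-1 : k) t'
      rw [neg_one_smul] at e3
      rw [← e3]
      refine cmb_congr D w rfl _ _ (fun i => ?_)
      simp only [Pi.smul_apply, Submodule.coe_smul, neg_smul, one_smul]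
      field_simp
    rw [e1, sub_neg_eq_add, ← mono_smul_mono]
    have e4 : l + ((e + s : ℕ) : ℤ) + 1 = (s : ℤ) + l + e + 1 := by push_cast; ring
    rw [e4]
    exact H
    

/-- the symbol map -/
noncomputable def sig (h : IsGoodFilt D FM) (hw : MaxIndep D FM J w) (l : ℤ) :
    ↥(FM l) →ₗ[k] (Fin R → Q) where
  toFun := fun g => (rel_total h hw l g g.2).choose
  map_add' := fun g g' => rel_unique h hw.indep (rel_total h hw l (g + g') (g + g').2).choose_spec
    (rel_add h (rel_total h hw l g g.2).choose_spec (rel_total h hw l g' g'.2).choose_spec)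
  map_smul' := fun c g => rel_unique h hw.indep (rel_total h hw l (c • g) (c • g).2).choose_spec
    (rel_smul c (rel_total h hw l g g.2).choose_spec)

theorem sig_spec (h : IsGoodFilt D FM) (hw : MaxIndep D FM J w) (l : ℤ) (g : ↥(FM l)) :
    Rel D FM J w l g (sig h hw l g) := (rel_total h hw l g g.2).choose_spec

theorem sig_eq (h : IsGoodFilt D FM) (hw : MaxIndep D FM J w) (l : ℤ) (g : ↥(FM l))
    {q : Fin R → Q} (H : Rel D FM J w l g q) : sig h hw l g = q :=
  rel_unique h hw.indep (sig_spec h hw l g) H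

theorem sig_ker (h : IsGoodFilt D FM) (hw : MaxIndep D FM J w) (l : ℤ) (g : ↥(FM l)) :
    sig h hw l g = 0 ↔ (g : M) ∈ FM (l + 1) :=
  (rel_ker h hw.indep g.2 (sig_spec h hw l g)).symm

theorem sig_act (h : IsGoodFilt D FM) (hw : MaxIndep D FM J w) (i : ℕ) (f : Q)
    (hf : f ∈ D.F (i : ℤ)) (l : ℤ) (g : ↥(FM l)) (hm : D.mono i f hf • (g : M) ∈ FM (i + l)) :
    sig h hw (i + l) ⟨D.mono i f hf • (g : M), hm⟩ = f • sig h hw l g :=
  sig_eq h hw _ _ (rel_act h (sig_spec h hw l g) i f hf)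

/-- finite generation: one step -/
theorem gen_step {n : ℕ} {v : Fin n → M} (hv : IsFrame D v) (h : IsGoodFilt D FM) (d : ℤ) :
    ∃ m₁ : ℕ, ∀ j : ℕ, m₁ ≤ j → ∀ g ∈ FM (((j + 1 : ℕ) : ℤ) + d) ⊓ D.mp M ((j + 1 : ℕ) : ℤ),
      ∃ a ∈ FM ((j : ℤ) + d), ∃ b ∈ FM ((j : ℤ) + d), ∃ c ∈ FM ((j : ℤ) + d),
        g - (D.x0 • a + D.x1 • b + D.x2 • c) ∈
          FM (((j + 1 : ℕ) : ℤ) + d) ⊓ D.mp M (((j + 1 : ℕ) : ℤ) + 1) := by
  obtain ⟨m₁, hm₁⟩ := (A2.NLat_lat D (w := v) h d).gen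
  refine ⟨m₁.toNat, fun j hj g hg => ?_⟩
  -- symbol of `g`
  set f := A2.symL D hv (j + 1) ⟨g, hg.2⟩ with hf
  have h1 : g - frm D v (j + 1) f ∈ D.mp M (((j + 1 : ℕ) : ℤ) + 1) := A2.symL_spec D hv (j + 1) ⟨g, hg.2⟩
  have h2 : f ∈ A2.NL D v FM d (j + 1) := by
    change frm D v (j + 1) f ∈ FM (((j + 1 : ℕ) : ℤ) + d) ⊔ D.mp M (((j + 1 : ℕ) : ℤ) + 1)
    have := Submodule.sub_mem (FM (((j + 1 : ℕ) : ℤ) + d) ⊔ D.mp M (((j + 1 : ℕ) : ℤ) + 1))
      (Submodule.mem_sup_left hg.1) (Submodule.mem_sup_right h1)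
    rwa [sub_sub_cancel] at this
  have h3 : A2.polyIncl D n (j + 1) f ∈ A2.NLat D v FM d ((j : ℤ) + 1) := ⟨f, h2, rfl⟩
  obtain ⟨a, ha, b, hb, c, hc, he⟩ := hm₁ j (by omega) _ h3
  obtain ⟨a, ha, rfl⟩ := ha
  obtain ⟨b, hb, rfl⟩ := hb
  obtain ⟨c, hc, rfl⟩ := hc
  -- lifts of a b c
  have lift : ∀ a' : Fin n → polyLE k D.u D.v (j : ℤ), a' ∈ A2.NL D v FM d j →
      ∃ y ∈ FM ((j : ℤ) + d), y - frm D v j a' ∈ D.mp M ((j : ℤ) + 1) := by
    intro a' ha'
    change frm D v j a' ∈ FM ((j : ℤ) + d) ⊔ D.mp M ((j : ℤ) + 1) at ha'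
    obtain ⟨y, hy, z, hz, hyz⟩ := Submodule.mem_sup.mp ha'
    refine ⟨y, hy, ?_⟩
    rw [← hyz, sub_add_cancel_left]
    exact Submodule.neg_mem _ hz
  obtain ⟨ya, hya, hya'⟩ := lift a ha
  obtain ⟨yb, hyb, hyb'⟩ := lift b hb
  obtain ⟨yc, hyc, hyc'⟩ := lift c hc
  refine ⟨ya, hya, yb, hyb, yc, hyc, ?_, ?_⟩
  · refine Submodule.sub_mem _ hg.1 ?_
    have hh : ∀ (q : Q) (hq : q ∈ D.F ((1 : ℕ) : ℤ)), ∀ y ∈ FM ((j : ℤ) + d),
        D.mono 1 q hq • y ∈ FM (((j + 1 : ℕ) : ℤ) + d) := by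
      intro q hq y hy
      have := h.act 1 q hq _ y hy
      have e : ((1 : ℕ) : ℤ) + ((j : ℤ) + d) = ((j + 1 : ℕ) : ℤ) + d := by push_cast; ring
      rwa [e] at this
    exact Submodule.add_mem _ (Submodule.add_mem _ (hh 1 (by simpa using D.one_mem) ya hya)
      (hh D.u (by simpa using D.u_mem) yb hyb)) (hh D.v (by simpa using D.v_mem) yc hyc)
  · have hh : ∀ t ∈ D.mI, ∀ y ∈ D.mp M ((j : ℤ) + 1), t • y ∈ D.mp M (((j + 1 : ℕ) : ℤ) + 1) := by
      intro t ht y hy
      have := smul_mem_mp D 1 t (by simpa using ht) _ y hy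
      have e : ((1 : ℕ) : ℤ) + ((j : ℤ) + 1) = ((j + 1 : ℕ) : ℤ) + 1 := by push_cast; ring
      rwa [e] at this
    obtain ⟨fa, e0, e0'⟩ : ∃ g', D.x0 • frm D v j a = frm D v (j + 1) g' ∧
        ∀ i, (g' i : Q) = a i := ⟨_, frm_x0 D v j a, fun _ => rfl⟩
    obtain ⟨fb, e1, e1'⟩ : ∃ g', D.x1 • frm D v j b = frm D v (j + 1) g' ∧
        ∀ i, (g' i : Q) = D.u * b i := ⟨_, frm_x1 D v j b, fun _ => rfl⟩
    obtain ⟨fc, e2, e2'⟩ : ∃ g', D.x2 • frm D v j c = frm D v (j + 1) g' ∧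
        ∀ i, (g' i : Q) = D.v * c i := ⟨_, frm_x2 D v j c, fun _ => rfl⟩
    have e3 : f = fa + fb + fc := by
      funext i
      apply Subtype.ext
      have := congrFun he i
      change (f i : Q) = (a i : Q) + D.u * (b i : Q) + D.v * (c i : Q) at this
      rw [this]
      simp only [Pi.add_apply, Submodule.coe_add, e0', e1', e2']
    rw [e3, map_add, map_add, ← e0, ← e1, ← e2] at h1
    have h4 := Submodule.sub_mem _ h1 (Submodule.add_mem _ (Submodule.add_mem _
      (hh _ (x0_mem D) _ hya') (hh _ (x1_mem D) _ hyb')) (hh _ (x2_mem D) _ hyc'))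
    have e5 : g - (D.x0 • frm D v j a + D.x1 • frm D v j b + D.x2 • frm D v j c) -
        (D.x0 • (ya - frm D v j a) + D.x1 • (yb - frm D v j b) + D.x2 • (yc - frm D v j c)) =
        g - (D.x0 • ya + D.x1 • yb + D.x2 • yc) := by
      simp only [smul_sub]
      abel
    rw [e5] at h4
    exact h4

/-- finite generation of `gr` -/
theorem gen_gr {n : ℕ} {v : Fin n → M} (hv : IsFrame D v) (h : IsGoodFilt D FM) :
    ∃ l₁ : ℤ, ∀ l ≥ l₁, ∀ g ∈ FM (l + 1), ∃ a ∈ FM l, ∃ b ∈ FM l, ∃ c ∈ FM l,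
      g - (D.x0 • a + D.x1 • b + D.x2 • c) ∈ FM (l + 2) := by
  obtain ⟨c₀, hc₀⟩ := h.bdd
  choose m₁ hm₁ using fun d : ℤ => gen_step hv h d
  -- a bound for all relevant `d = l - j`, `|d| ≤ c₀ + 1`
  obtain ⟨B, hB⟩ : ∃ B : ℕ, ∀ d ∈ Finset.Icc (-((c₀ : ℤ) + 2)) ((c₀ : ℤ) + 2), m₁ d ≤ B := by
    refine ⟨(Finset.Icc (-((c₀ : ℤ) + 2)) ((c₀ : ℤ) + 2)).sup m₁, fun d hd => ?_⟩
    exact Finset.le_sup (f := m₁) hd
  refine ⟨(B : ℤ) + c₀ + 2, fun l hl g hg => ?_⟩
  -- descending: for `s ≤ 2 c₀ + 3`, the remainder lies in `mp (l + 1 - c₀ + s)`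
  have key : ∀ s : ℕ, s ≤ 2 * c₀ + 1 → ∃ a ∈ FM l, ∃ b ∈ FM l, ∃ c ∈ FM l,
      g - (D.x0 • a + D.x1 • b + D.x2 • c) ∈ FM (l + 1) ⊓ D.mp M (l + 1 - c₀ + s) := by
    intro s
    induction s with
    | zero =>
      intro _
      refine ⟨0, Submodule.zero_mem _, 0, Submodule.zero_mem _, 0, Submodule.zero_mem _, ?_⟩
      simp only [smul_zero, add_zero, sub_zero, Nat.cast_zero]
      exact ⟨hg, (hc₀ (l + 1)).2 hg⟩
    | succ s ih =>
      intro hs
      obtain ⟨a, ha, b, hb, c, hc, H⟩ := ih (by omega)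
      -- `j + 1 = l + 1 - c₀ + s`
      obtain ⟨j, hj⟩ : ∃ j : ℕ, (j : ℤ) = l - c₀ + s := ⟨(l - c₀ + s).toNat, by omega⟩
      have e1 : l + 1 - (c₀ : ℤ) + s = ((j + 1 : ℕ) : ℤ) := by push_cast; omega
      have e2 : l + 1 = ((j + 1 : ℕ) : ℤ) + (l - j) := by push_cast; ring
      have hH : g - (D.x0 • a + D.x1 • b + D.x2 • c) ∈
          FM (((j + 1 : ℕ) : ℤ) + (l - j)) ⊓ D.mp M ((j + 1 : ℕ) : ℤ) := by
        rw [← e2, ← e1]; exact H
      obtain ⟨a', ha', b', hb', c', hc', H'⟩ := hm₁ (l - j) j (by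
        have := hB (l - j) (Finset.mem_Icc.mpr ⟨by omega, by omega⟩)
        omega) _ hH
      have e3 : (j : ℤ) + (l - j) = l := by ring
      rw [e3] at ha' hb' hc'
      refine ⟨a + a', Submodule.add_mem _ ha ha', b + b', Submodule.add_mem _ hb hb', c + c',
        Submodule.add_mem _ hc hc', ?_⟩
      have e4 : g - (D.x0 • a + D.x1 • b + D.x2 • c) - (D.x0 • a' + D.x1 • b' + D.x2 • c') =
          g - (D.x0 • (a + a') + D.x1 • (b + b') + D.x2 • (c + c')) := by
        simp only [smul_add]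
        abel
      rw [e4, ← e2] at H'
      have e5 : ((j + 1 : ℕ) : ℤ) + 1 = l + 1 - c₀ + ((s + 1 : ℕ) : ℤ) := by push_cast; omega
      rw [e5] at H'
      exact H'
  obtain ⟨a, ha, b, hb, c, hc, H⟩ := key (2 * c₀ + 1) le_rfl
  refine ⟨a, ha, b, hb, c, hc, ?_⟩
  refine (hc₀ (l + 2)).1 ?_
  have e : l + 1 - (c₀ : ℤ) + ((2 * c₀ + 1 : ℕ) : ℤ) = l + 2 + c₀ := by push_cast; ring
  rw [← e]
  exact H.2

/-- the lattice of symbols -/
theorem symb (h : IsGoodFilt D FM) {n : ℕ} (hG : GrFree D M n) (hw : MaxIndep D FM J w) :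
    IsSymb D FM (fun l => LinearMap.range (sig h hw l)) (sig h hw) where
  ker := sig_ker h hw
  range := fun _ => rfl
  act := fun i f hf j w' hm => sig_act h hw i f hf j w' hm
  lat := by
    have hact : ∀ (i : ℕ) (f : Q) (hf : f ∈ D.F (i : ℤ)) (l : ℤ), ∀ x ∈ LinearMap.range (sig h hw l),
        f • x ∈ LinearMap.range (sig h hw (i + l)) := by
      rintro i f hf l _ ⟨g, rfl⟩
      exact ⟨⟨_, h.act i f hf l g g.2⟩, sig_act h hw i f hf l g _⟩
    have hone : (1 : Q) ∈ D.F ((1 : ℕ) : ℤ) := by simpa using D.one_mem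
    have hu : D.u ∈ D.F ((1 : ℕ) : ℤ) := by simpa using D.u_mem
    have hv : D.v ∈ D.F ((1 : ℕ) : ℤ) := by simpa using D.v_mem
    have hcast : ∀ l : ℤ, ((1 : ℕ) : ℤ) + l = l + 1 := fun l => by push_cast; ring
    obtain ⟨⟨v, hv'⟩, -⟩ := exists_frame D hG
    refine ⟨⟨?_, ?_, ?_, ?_, ?_, ?_⟩, ?_, ?_⟩
    · intro m x hx
      have := hact 1 1 hone m x hx
      rwa [one_smul, hcast] at this
    · intro m x hx
      have := hact 1 D.u hu m x hx
      rwa [hcast] at this
    · intro m x hx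
      have := hact 1 D.v hv m x hx
      rwa [hcast] at this
    · intro m
      have := gr_finite h hG m
      exact Module.Finite.equiv (qEquiv (sig h hw m) (sig_ker h hw m))
    · obtain ⟨c, hc⟩ := h.bdd
      refine ⟨-(c : ℤ) - 1, fun m hm => ?_⟩
      rw [LinearMap.range_eq_bot]
      ext1 g
      rw [LinearMap.zero_apply, sig_ker]
      apply (hc (m + 1)).1
      rw [mp_nonpos D (by omega)]
      trivial
    · obtain ⟨l₁, hl₁⟩ := gen_gr hv' h
      refine ⟨l₁, fun l hl x hx => ?_⟩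
      obtain ⟨⟨g, hg⟩, rfl⟩ := hx
      obtain ⟨a, ha, b, hb, c, hc, H⟩ := hl₁ l hl g hg
      refine ⟨sig h hw l ⟨a, ha⟩, ⟨_, rfl⟩, sig h hw l ⟨b, hb⟩, ⟨_, rfl⟩, sig h hw l ⟨c, hc⟩,
        ⟨_, rfl⟩, ?_⟩
      -- all inside FM (l+1)
      have ha1 : D.x0 • a ∈ FM (l + 1) := by
        have := h.act 1 1 hone l a ha; rwa [hcast] at this
      have hb1 : D.x1 • b ∈ FM (l + 1) := by
        have := h.act 1 D.u hu l b hb; rwa [hcast] at this
      have hc1 : D.x2 • c ∈ FM (l + 1) := by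
        have := h.act 1 D.v hv l c hc; rwa [hcast] at this
      have e0 : sig h hw (l + 1) (⟨g, hg⟩ - (⟨D.x0 • a, ha1⟩ + ⟨D.x1 • b, hb1⟩ +
          ⟨D.x2 • c, hc1⟩)) = 0 := by
        rw [sig_ker]
        have e : l + 1 + 1 = l + 2 := by ring
        rw [e]
        exact H
      have hR : ∀ (f : Q) (hf : f ∈ D.F ((1 : ℕ) : ℤ)) (y : M) (hy : y ∈ FM l)
          (hy1 : D.mono 1 f hf • y ∈ FM (l + 1)),
          sig h hw (l + 1) ⟨D.mono 1 f hf • y, hy1⟩ = f • sig h hw l ⟨y, hy⟩ := by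
        intro f hf y hy hy1
        apply sig_eq
        have := rel_act h (sig_spec h hw l ⟨y, hy⟩) 1 f hf
        rwa [hcast] at this
      rw [map_sub, map_add, map_add] at e0
      rw [sub_eq_zero.mp e0]
      have r0 := hR 1 hone a ha ha1
      have r1 := hR D.u hu b hb hb1
      have r2 := hR D.v hv c hc hc1
      rw [one_smul] at r0
      rw [← r0, ← r1, ← r2]
      rfl
    · intro i j f hf x hx
      rcases lt_or_ge i 0 with hi | hi
      · rw [D.F_neg i hi, Submodule.mem_bot] at hf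
        rw [hf, zero_smul]
        exact Submodule.zero_mem _
      · obtain ⟨i, rfl⟩ := Int.eq_ofNat_of_zero_le hi
        exact hact i f hf j x hx
    · rw [eq_top_iff, ← (Pi.basisFun Q (Fin R)).span_eq, Submodule.span_le]
      rintro _ ⟨i, rfl⟩
      refine Submodule.subset_span (Set.mem_iUnion.mpr ⟨J, ?_⟩)
      refine ⟨⟨w i, hw.indep.mem i⟩, ?_⟩
      apply sig_eq
      have hq : ∀ j, (1 : Q) * (Pi.basisFun Q (Fin R) i) j ∈ D.F (((0 : ℕ)) : ℤ) := by
        intro j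
        rw [one_mul, Pi.basisFun_apply, Pi.single_apply]
        split_ifs
        · exact one_mem_zero D
        · exact Submodule.zero_mem _
      refine ⟨0, 0, 1, one_mem_zero D, hq, one_ne_zero, by ring, ?_⟩
      have e1 : cmb D w 0 (fun j => ⟨(1 : Q) * (Pi.basisFun Q (Fin R) i) j, hq j⟩) = w i := by
        unfold cmb
        rw [Finset.sum_eq_single i]
        · have : D.mono 0 ((1 : Q) * (Pi.basisFun Q (Fin R) i) i) (hq i) = 1 := by
            rw [← mono_zero_one D (one_mem_zero D)]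
            refine mono_congr D rfl ?_ _ _
            rw [one_mul, Pi.basisFun_apply, Pi.single_eq_same]
          rw [this, one_smul]
        · intro j _ hj
          have : D.mono 0 ((1 : Q) * (Pi.basisFun Q (Fin R) i) j) (hq j) = 0 := by
            rw [← mono_zero' D 0 (Submodule.zero_mem _)]
            refine mono_congr D rfl ?_ _ _
            rw [one_mul, Pi.basisFun_apply, Pi.single_eq_of_ne hj]
          rw [this, zero_smul]
        · intro hi; exact absurd (Finset.mem_univ i) hi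
      rw [e1, mono_zero_one, one_smul]
      simp

end A4

/-- (A4) symbol maps into `Q^R`. -/
theorem A4 {k Q : Type} [Field k] [Field Q] [Algebra k Q] (D : TData k Q)
    (M : Type) [AddCommGroup M] [Module D.Ttot M] [Module k M] [IsScalarTower k D.Ttot M]
    (n : ℕ) (hG : GrFree D M n) (hF : ∃ (N : ℕ) (b c : ℚ), 0 < N ∧ HasHP D.F N b c)
    (FM : ℤ → Submodule k M) (h : IsGoodFilt D FM) (b c : ℚ) (hHP : HasGrHP FM n b c) :
    ∃ R : ℕ, 0 < R ∧ ∃ (E : ℤ → Submodule k (Fin R → Q))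
      (σ : ∀ j : ℤ, ↥(FM j) →ₗ[k] (Fin R → Q)), IsSymb D FM E σ := by
  obtain ⟨R, hR, J, w, hw⟩ := A4.exists_maxIndep h hG hF hHP
  exact ⟨R, hR, _, A4.sig h hw, A4.symb h hG hw⟩

end Crest.Agent.R169
end

-- ▼ part R169/PartA
section

/-!
# Row 169, PART A (helper592, helper914): end product
-/

set_option autoImplicit false

namespace Crest.Agent.R169

/-- PART A. -/
theorem partA_main {k Q : Type} [Field k] [Field Q] [Algebra k Q] (D : TData k Q)
    (M : Type) [AddCommGroup M] [Module D.Ttot M] [Module k M] [IsScalarTower k D.Ttot M]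
    [Infinite k] (n : ℕ) (hG : GrFree D M n)
    (hF : ∃ (N : ℕ) (b c : ℚ), 0 < N ∧ HasHP D.F N b c) :
    ∃ R : ℕ, 0 < R ∧ ∃ G : ℤ → Submodule k (Fin R → Q), IsTLat D G ∧
      ∃ b c : ℚ, HasHP G n b c ∧ 0 ≤ Jinv n b c ∧ NSS (Q := Q) G n b := by
  have hF' : ∃ (N : ℕ) (b c : ℚ), HasHP D.F N b c := by
    obtain ⟨N, b, c, _, h⟩ := hF
    exact ⟨N, b, c, h⟩
  exact AMin.partA_of D M n hG (A1 D n hG hF') (fun FM hFM => A2.A2 D hG FM hFM)
    (fun FM hFM b c hHP => A4 D M n hG hF FM hFM b c hHP)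

end Crest.Agent.R169
end

-- ▼ part R169/Main

/-!
# Row 169: final assembly (integrator helper169)

`noMCM` : there is no module over the graded ring `T_7` (over `KStar ≅ ℂ`) whose associated graded
with respect to `(X, uX, vX)` is free over `k[X, uX, vX]` — from parts A, C, D, E, F.
-/

set_option autoImplicit false

noncomputable section

namespace Crest.Agent.R169.Main

open Crest.Agent.R169 Crest.R169

/-- the rank of a `T`-lattice in `Q^R` is `N R` -/
theorem rank_eq {k Q : Type} [Field k] [IsAlgClosed k] [Field Q] [Algebra k Q] (D : TData k Q)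
    {N : ℕ} {bT cT : ℚ} (hT : HilbT D N bT cT) {R : ℕ} (G : ℤ → Submodule k (Fin R → Q))
    (hG : IsTLat D G) {n : ℕ} {b c : ℚ} (h : HasHP G n b c) : n = N * R := by
  have : Infinite k := IsAlgClosed.instInfinite
  have h1 := Rank.rk_G D hG
  obtain ⟨b', c', h2, -, -⟩ := IsLat.exists_hasHP (K := D.K0) D.isRat (IsTLat.lat' D hG)
  obtain ⟨b₁, c₁, h3, -, -⟩ := IsLat.exists_hasHP (K := D.K0) (V := Q) D.isRat
    (IsLat.restrict (L := D.K0) (Q := Q) (V := Q) D.lat)
  rw [(hasHP_unique h h2).1, h1, (hasHP_unique hT.hp h3).1]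

/-- Part A -/
theorem partA {k Q : Type} [Field k] [IsAlgClosed k] [Field Q] [Algebra k Q] (D : TData k Q)
    {N : ℕ} {bT cT : ℚ} (hT : HilbT D N bT cT) : PartA D N := by
  intro M _ _ _ _ n hM
  have : Infinite k := IsAlgClosed.instInfinite
  obtain ⟨R, hR, G, hG, b, c, hHP, hJ, hN⟩ := partA_main D M n hM ⟨N, bT, cT, hT.pos, hT.hp⟩
  obtain rfl := rank_eq D hT G hG hHP
  exact ⟨R, G, b, c, hR, hG, hHP, hJ, hN⟩

theorem interU_top {k Q V : Type} [Field k] [Field Q] [Algebra k Q] [AddCommGroup V] [Module k V]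
    [Module Q V] [IsScalarTower k Q V] (G : ℤ → Submodule k V) :
    interU G (⊤ : Submodule Q V) = G := by
  funext m
  simp [interU]

theorem frobSub_top {Q : Type} [Field Q] {p R : ℕ} (hp : p ≠ 0) :
    frobSub p (⊤ : Submodule Q (Fin R → Q)) = ⊤ := by
  rw [eq_top_iff]
  intro w _
  have h : w = ∑ i, w i • (Pi.single i (1 : Q) : Fin R → Q) := by
    funext j
    simp [Finset.sum_apply, Pi.single_apply]
  rw [h]
  refine Submodule.sum_mem _ fun i _ => Submodule.smul_mem _ _ (Submodule.subset_span ?_)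
  refine ⟨Pi.single i 1, trivial, ?_⟩
  funext j
  by_cases hj : j = i
  · subst hj; simp [phi]
  · simp [phi, hj, hp]

/-- the derivation data of `D7` -/
def D7_der (k : Type) [Field k] [IsAlgClosed k] [NeZero ((7 : ℕ) : k)] (p : ℕ) [Fact p.Prime]
    [CharP k p] : DerData (D7 k) p 7 700 :=
  Der.derData (n := 7) (NeZero.ne _) (D7 k) (fun _ => rfl) p 700 (D7_gen k)

/-- no module with free associated graded over the ring `T_7` over `KStar` -/
theorem noMCM : NoMCM (D7 KStar) := by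
  intro M _ _ _ _ n hM
  obtain ⟨R, G, b, c, hR, hG, hHP, hJ, hN⟩ := partA (D7 KStar) (D7_hilb KStar) M n hM
  obtain ⟨p0, hp0⟩ := numeric_contra R hR 7 700
  obtain ⟨p, hp, G', hG', hHP', hN'⟩ := partE hR G hG (by positivity) hHP hN p0
  obtain ⟨ι, S, ⟨Y⟩⟩ := SymmD7.D7_places (Kp p)
  have : CharP (Kp p) p.val := inferInstance
  obtain ⟨h3, h7⟩ := partD (D7 (Kp p)) p.val (D7_hilb (Kp p)) S Y (Pt.D7_ptReg (Kp p))
  have hU := partC (D7 (Kp p)) p.val (D7_hilb (Kp p)) (D7_der (Kp p) p.val) h3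
  refine charp_contra (D7 (Kp p)) R hR 7 700 p.val (hp0 p.val hp) hU h7 G' hG' b c hHP' hN' hJ ?_
  obtain ⟨c', hc'⟩ := h3 R G' hG' ⊤ (1715 * R) b c (by rw [interU_top]; exact hHP')
  rw [frobSub_top p.prime.ne_zero, interU_top] at hc'
  exact ⟨_, c', hc'⟩

end Crest.Agent.R169.Main
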