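import Crest.Agent.R169.RingSpan
import Crest.Agent.R169.Ring
import Crest.Agent.R169.OnOverO1

-- ▼ part R169/Val
section

/-!
# Row 169, part F3: the five chart valuations of `O_1`

`hs i : ORing 1 k →ₐ[k] HahnSeries ℤ k[T;T⁻¹]`, `order (hs i f) = - w_i(f)`.
-/

set_option autoImplicit false
set_option linter.unusedSimpArgs false

noncomputable section

namespace Crest.Agent.R169.Val

open HahnSeries Crest.R169

variable (k : Type*) [Field k]

/-- the target of the chart homomorphisms -/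
abbrev HS : Type _ := HahnSeries ℤ (LaurentPolynomial k)

open LaurentPolynomial in
/-- values of the generators in chart `0` -/
def aHS : Fin 5 → HS k :=
  ![single 1 (1 + T (-1)) + single 2 (T (-1)), single (-1) 1, single 0 (T 1) + single 1 1,
    single 0 (T (-1)) + single 1 (T (-1)), single (-1) (T 1)]

open LaurentPolynomial in
theorem aHS_rel (j : Fin 5) : aHS k j * aHS k (j + 1) = 1 + aHS k (j + 3) := by
  have hT : (T 1 * T (-1) : LaurentPolynomial k) = 1 := by rw [← T_add]; simp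
  have hT' : (T (-1) * T 1 : LaurentPolynomial k) = 1 := by rw [← T_add]; simp
  have h1 : (1 : HS k) = single 0 1 := rfl
  fin_cases j <;>
  · simp only [aHS, Fin.zero_eta, Fin.mk_one, Fin.reduceFinMk, Fin.isValue, Fin.reduceAdd, zero_add,
      Matrix.cons_val_zero, Matrix.cons_val_one,
      Matrix.cons_val, add_mul, mul_add, single_mul_single, hT, hT', mul_one, one_mul]
    rw [h1]
    norm_num
    try abel

/-- order of the generators in chart `0` -/
def ordA : Fin 5 → ℤ := ![1, -1, 0, 0, -1]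

open LaurentPolynomial in
/-- leading coefficient of the generators in chart `0` -/
def lcA : Fin 5 → LaurentPolynomial k := ![1 + T (-1), 1, T 1, T (-1), T 1]

open LaurentPolynomial in
theorem one_add_T_ne : (1 + T (-1) : LaurentPolynomial k) ≠ 0 := by
  intro h
  have h2 : ((1 + T (-1) : LaurentPolynomial k)).coeff (-1) = 0 := by rw [h]; rfl
  rw [show (1 : LaurentPolynomial k) = T 0 from rfl] at h2
  simp only [AddMonoidAlgebra.coeff_add, Finsupp.add_apply, T_apply] at h2
  norm_num at h2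

open LaurentPolynomial in
theorem T_ne (n : ℤ) : (T n : LaurentPolynomial k) ≠ 0 := by
  intro h
  have h2 : ((T n : LaurentPolynomial k)).coeff n = 0 := by rw [h]; rfl
  simp only [T_apply] at h2
  norm_num at h2

theorem aHS_lead (j : Fin 5) :
    (aHS k j).orderTop = ((ordA j : ℤ) : WithTop ℤ) ∧ (aHS k j).leadingCoeff = lcA k j := by
  have hlt : ∀ (a b : ℤ) (x y : LaurentPolynomial k), a < b → x ≠ 0 → y ≠ 0 →
      (single a x).orderTop < (single b y).orderTop := by
    intro a b x y hab hx hy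
    rw [orderTop_single hx, orderTop_single hy]
    exact_mod_cast hab
  fin_cases j
  · have h := hlt 1 2 _ _ (by norm_num) (one_add_T_ne k) (T_ne k (-1))
    simp only [aHS, ordA, lcA, Fin.zero_eta, Fin.isValue, Matrix.cons_val_zero]
    rw [orderTop_add_eq_left h, leadingCoeff_add_eq_left h, orderTop_single (one_add_T_ne k),
      leadingCoeff_of_single]
    exact ⟨rfl, rfl⟩
  · simp only [aHS, ordA, lcA, Fin.mk_one, Fin.isValue, Matrix.cons_val_one, Matrix.cons_val_zero]
    rw [orderTop_single one_ne_zero, leadingCoeff_of_single]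
    exact ⟨rfl, rfl⟩
  · have h := hlt 0 1 _ _ (by norm_num) (T_ne k 1) one_ne_zero
    simp only [aHS, ordA, lcA, Fin.reduceFinMk, Fin.isValue, Matrix.cons_val]
    rw [orderTop_add_eq_left h, leadingCoeff_add_eq_left h, orderTop_single (T_ne k 1),
      leadingCoeff_of_single]
    exact ⟨rfl, rfl⟩
  · have h := hlt 0 1 _ _ (by norm_num) (T_ne k (-1)) (T_ne k (-1))
    simp only [aHS, ordA, lcA, Fin.reduceFinMk, Fin.isValue, Matrix.cons_val]
    rw [orderTop_add_eq_left h, leadingCoeff_add_eq_left h, orderTop_single (T_ne k (-1)),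
      leadingCoeff_of_single]
    exact ⟨rfl, rfl⟩
  · simp only [aHS, ordA, lcA, Fin.reduceFinMk, Fin.isValue, Matrix.cons_val]
    rw [orderTop_single (T_ne k 1), leadingCoeff_of_single]
    exact ⟨rfl, rfl⟩


/-- value of a monomial in chart `0` -/
def mHS (β : Fin 5 → ℕ) : HS k := ∏ j, aHS k j ^ β j

/-- the exponent of the leading coefficient -/
def eA (β : Fin 5 → ℕ) : ℤ := (β 4 : ℤ) + β 2 - β 3

theorem orderTop_pow' (x : HS k) (e : ℤ) (h : x.orderTop = (e : WithTop ℤ)) (n : ℕ) :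
    (x ^ n).orderTop = ((n * e : ℤ) : WithTop ℤ) := by
  induction n with
  | zero => simp
  | succ n ih =>
    rw [pow_succ, orderTop_mul, ih, h]
    norm_cast
    push_cast
    ring

theorem leadingCoeff_pow' (x : HS k) (n : ℕ) :
    (x ^ n).leadingCoeff = x.leadingCoeff ^ n := by
  induction n with
  | zero => simp
  | succ n ih => rw [pow_succ, leadingCoeff_mul, ih, pow_succ]

theorem mHS_orderTop (β : Fin 5 → ℕ) : (mHS k β).orderTop = ((-(w 0 β) : ℤ) : WithTop ℤ) := by
  rw [mHS, Fin.prod_univ_five]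
  simp only [orderTop_mul, orderTop_pow' k _ _ (aHS_lead k _).1]
  norm_cast
  simp only [ordA, w]
  simp
  ring

open LaurentPolynomial in
theorem mHS_leadingCoeff (β : Fin 5 → ℕ) :
    (mHS k β).leadingCoeff = (1 + T (-1)) ^ (β 0) * T (eA β) := by
  rw [mHS, Fin.prod_univ_five]
  simp only [leadingCoeff_mul, leadingCoeff_pow', (aHS_lead k _).2]
  simp only [lcA]
  simp only [Matrix.cons_val, T_pow, one_pow, Matrix.cons_val_zero, Matrix.cons_val_one, mul_one,
    mul_assoc, ← T_add]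
  congr 2
  rw [eA]
  ring

/-- the good monomials with the same weight have different leading coefficients -/
theorem eA_inj {β γ : Fin 5 → ℕ} (hβ : Good 1 β) (hγ : Good 1 γ) (hw : w 0 β = w 0 γ)
    (he : eA β = eA γ) : β = γ := by
  have b0 := hβ 0
  have b1 := hβ 1
  have b2 := hβ 2
  have b3 := hβ 3
  have b4 := hβ 4
  have c0 := hγ 0
  have c1 := hγ 1
  have c2 := hγ 2
  have c3 := hγ 3
  have c4 := hγ 4
  simp only [w, eA] at hw he
  simp only [Fin.isValue, Fin.reduceAdd, zero_add] at *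
  funext j
  fin_cases j <;> simp only [Fin.zero_eta, Fin.mk_one, Fin.reduceFinMk, Fin.isValue] <;> omega

theorem w_eq_beta0 {β : Fin 5 → ℕ} (hβ : Good 1 β) : β 0 = (-(w 0 β)).toNat := by
  have b0 := hβ 0
  have b4 := hβ 4
  simp only [w]
  simp only [Fin.isValue, Fin.reduceAdd, zero_add] at *
  omega


/-- cyclic shift of an exponent -/
def sh (i : Fin 5) (β : Fin 5 → ℕ) : Fin 5 → ℕ := fun j => β (j + i)

theorem w_sh (i : Fin 5) (β : Fin 5 → ℕ) : w 0 (sh i β) = w i β := by
  simp only [w, sh, Fin.isValue, zero_add]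
  rw [add_comm (4 : Fin 5) i, add_comm (1 : Fin 5) i]

theorem good_sh {n : ℕ} (i : Fin 5) {β : Fin 5 → ℕ} (h : Good n β) : Good n (sh i β) := by
  intro j
  have := h (j + i)
  simp only [sh]
  rwa [show j + 1 + i = j + i + 1 by clear this; revert i j; decide]

theorem sh_inj (i : Fin 5) {β γ : Fin 5 → ℕ} (h : sh i β = sh i γ) : β = γ := by
  funext j
  have := congrFun h (j - i)
  simpa [sh] using this

section
attribute [-instance] HahnSeries.powerSeriesAlgebra

/-- the chart homomorphism as an algebra homomorphism -/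
def hsA (i : Fin 5) : ORing 1 k →ₐ[k] HS k :=
  ORing.lift (fun j => aHS k (j - i)) (by
    intro j
    simp only [pow_one]
    rw [show j + 1 - i = (j - i) + 1 by revert i j; decide,
      show j + 3 - i = (j - i) + 3 by revert i j; decide]
    exact aHS_rel k _)

/-- the chart homomorphism -/
def hs (i : Fin 5) : ORing 1 k →+* HS k := (hsA k i).toRingHom

theorem hs_z (i j : Fin 5) : hs k i (z 1 k j) = aHS k (j - i) := by
  change hsA k i (z 1 k j) = _
  simp [hsA]

theorem hs_smul (i : Fin 5) (c : k) (x : ORing 1 k) : hs k i (c • x) = c • hs k i x := by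
  change hsA k i (c • x) = c • hsA k i x
  rw [map_smul]

end

theorem hs_zm (i : Fin 5) (β : Fin 5 → ℕ) : hs k i (zm 1 k β) = mHS k (sh i β) := by
  rw [zm, map_prod, mHS]
  rw [← Equiv.prod_comp (Equiv.addRight i)]
  refine Finset.prod_congr rfl fun j _ => ?_
  rw [map_pow, hs_z]
  simp [sh]

theorem hs_zm_orderTop (i : Fin 5) (β : Fin 5 → ℕ) :
    (hs k i (zm 1 k β)).orderTop = ((-(w i β) : ℤ) : WithTop ℤ) := by
  rw [hs_zm, mHS_orderTop, w_sh]

open LaurentPolynomial in
/-- coefficient of a combination of good monomials in top weight -/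
theorem coeff_sum_hs (i : Fin 5) (s : Finset (Fin 5 → ℕ)) (c : (Fin 5 → ℕ) → k)
    (hs' : ∀ β ∈ s, Good 1 β) (M : ℤ) (hM : ∀ β ∈ s, w i β ≤ M) :
    (hs k i (∑ β ∈ s, c β • zm 1 k β)).coeff (-M) =
      (1 + T (-1)) ^ (-M).toNat *
        ∑ β ∈ s.filter (fun β => w i β = M), c β • T (eA (sh i β)) := by
  rw [map_sum, Finset.mul_sum, Finset.sum_filter]
  rw [HahnSeries.coeff_sum]
  refine Finset.sum_congr rfl fun β hβ => ?_
  rw [hs_smul, HahnSeries.coeff_smul]
  split_ifs with h
  · have h1 : (hs k i (zm 1 k β)).coeff (-M) = (hs k i (zm 1 k β)).leadingCoeff := by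
      rw [leadingCoeff_eq]
      congr 1
      have h2 := hs_zm_orderTop k i β
      have h3 : hs k i (zm 1 k β) ≠ 0 := by
        intro h0
        rw [h0, orderTop_zero] at h2
        exact WithTop.top_ne_coe h2
      rw [← order_eq_orderTop_of_ne_zero h3] at h2
      have h4 : (hs k i (zm 1 k β)).order = -(w i β) := by exact_mod_cast h2
      rw [h4, h]
    rw [h1, hs_zm, mHS_leadingCoeff, w_eq_beta0 (good_sh i (hs' β hβ)), w_sh, h, mul_smul_comm]
  · have h1 : (hs k i (zm 1 k β)).coeff (-M) = 0 := by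
      apply coeff_eq_zero_of_lt_orderTop
      rw [hs_zm_orderTop]
      have := lt_of_le_of_ne (hM β hβ) h
      exact_mod_cast neg_lt_neg this
    rw [h1, smul_zero]

open LaurentPolynomial in
theorem coeff_sum_hs_ne (i : Fin 5) (s : Finset (Fin 5 → ℕ)) (c : (Fin 5 → ℕ) → k)
    (hs' : ∀ β ∈ s, Good 1 β) (M : ℤ) (hM : ∀ β ∈ s, w i β ≤ M) {β₀ : Fin 5 → ℕ} (h0 : β₀ ∈ s)
    (hc : c β₀ ≠ 0) (hw : w i β₀ = M) :
    (hs k i (∑ β ∈ s, c β • zm 1 k β)).coeff (-M) ≠ 0 := by
  rw [coeff_sum_hs k i s c hs' M hM]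
  refine mul_ne_zero (pow_ne_zero _ (one_add_T_ne k)) ?_
  intro h
  have h2 : (∑ β ∈ s.filter (fun β => w i β = M), c β • T (eA (sh i β)) :
      LaurentPolynomial k).coeff (eA (sh i β₀)) = 0 := by
    rw [h]; rfl
  rw [AddMonoidAlgebra.coeff_sum, Finset.sum_apply'] at h2
  rw [Finset.sum_eq_single β₀] at h2
  · rw [AddMonoidAlgebra.coeff_smul, Finsupp.smul_apply, T_apply, if_pos rfl, smul_eq_mul,
      mul_one] at h2
    exact hc h2
  · intro β hβ hne
    rw [Finset.mem_filter] at hβ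
    rw [AddMonoidAlgebra.coeff_smul, Finsupp.smul_apply, T_apply, if_neg, smul_zero]
    intro he
    apply hne
    apply sh_inj i
    exact eA_inj (good_sh i (hs' β hβ.1)) (good_sh i (hs' β₀ h0)) (by rw [w_sh, w_sh, hβ.2, hw]) he
  · intro hn
    exact absurd (Finset.mem_filter.2 ⟨h0, hw⟩) hn

/-- the weight of a combination of good monomials is the maximum of the weights -/
theorem le_orderTop_sum_iff (i : Fin 5) (s : Finset (Fin 5 → ℕ)) (c : (Fin 5 → ℕ) → k)
    (hs' : ∀ β ∈ s, Good 1 β) (hc : ∀ β ∈ s, c β ≠ 0) (m : ℤ) :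
    (((-m : ℤ) : WithTop ℤ) ≤ (hs k i (∑ β ∈ s, c β • zm 1 k β)).orderTop) ↔
      ∀ β ∈ s, w i β ≤ m := by
  constructor
  · intro h
    by_contra hcon
    push Not at hcon
    obtain ⟨β₁, hβ₁, hlt⟩ := hcon
    obtain ⟨β₀, hβ₀, hmax⟩ := Finset.exists_max_image s (fun β => w i β) ⟨β₁, hβ₁⟩
    have hne := coeff_sum_hs_ne k i s c hs' (w i β₀) hmax hβ₀ (hc β₀ hβ₀) rfl
    have h2 : m < w i β₀ := lt_of_lt_of_le hlt (hmax β₁ hβ₁)
    apply hne
    apply coeff_eq_zero_of_lt_orderTop
    refine lt_of_lt_of_le ?_ h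
    exact_mod_cast neg_lt_neg h2
  · intro h
    rw [le_orderTop_iff_forall]
    intro g hg
    rw [map_sum, HahnSeries.coeff_sum]
    refine Finset.sum_eq_zero fun β hβ => ?_
    rw [hs_smul, HahnSeries.coeff_smul]
    have h1 : (hs k i (zm 1 k β)).coeff g = 0 := by
      apply coeff_eq_zero_of_lt_orderTop
      rw [hs_zm_orderTop]
      refine lt_of_lt_of_le hg ?_
      exact_mod_cast neg_le_neg (h β hβ)
    rw [h1, smul_zero]


theorem toO_monomial {k : Type*} [Field k] (n : ℕ) (γ : Fin 5 →₀ ℕ) (c : k) :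
    toO n k (MvPolynomial.monomial γ c) = c • zm n k γ := by
  rw [← mul_one c, ← smul_eq_mul, ← MvPolynomial.smul_monomial, map_smul, smul_eq_mul, mul_one]
  congr 1
  rw [MvPolynomial.monomial_eq, map_mul, zm, Finsupp.prod_fintype _ _ (fun _ => pow_zero _),
    map_prod]
  simp [z]

section good

variable {k} {n : ℕ}

theorem span_good_eq_top (hn : 0 < n) :
    Submodule.span k (zm n k '' {β | Good n β}) = ⊤ := by
  rw [eq_top_iff]
  rintro x -
  obtain ⟨p, rfl⟩ := toO_surjective n k x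
  induction p using MvPolynomial.induction_on' with
  | monomial γ c =>
    rw [toO_monomial]
    refine Submodule.smul_mem _ _ ?_
    exact Submodule.span_mono (Set.image_mono fun β hβ => hβ.1) (zm_mem_span_good hn γ)
  | add p q hp hq =>
    rw [map_add]
    exact Submodule.add_mem _ hp hq

theorem exists_good_sum (hn : 0 < n) (x : ORing n k) :
    ∃ (s : Finset (Fin 5 → ℕ)) (c : (Fin 5 → ℕ) → k), (∀ β ∈ s, Good n β) ∧
      (∀ β ∈ s, c β ≠ 0) ∧ x = ∑ β ∈ s, c β • zm n k β := by
  have hx : x ∈ Submodule.span k (zm n k '' {β | Good n β}) := by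
    rw [span_good_eq_top hn]; trivial
  obtain ⟨l, hl, rfl⟩ := (Finsupp.mem_span_image_iff_linearCombination k).1 hx
  refine ⟨l.support, l, fun β hβ => hl hβ, fun β hβ => Finsupp.mem_support_iff.1 hβ, ?_⟩
  rw [Finsupp.linearCombination_apply, Finsupp.sum]

end good

section one

/-- the good monomials of `O_1` are linearly independent (any field) -/
theorem eq_zero_of_sum_eq_zero_one (s : Finset (Fin 5 → ℕ)) (c : (Fin 5 → ℕ) → k)
    (hs' : ∀ β ∈ s, Good 1 β) (hc : ∀ β ∈ s, c β ≠ 0) (i : Fin 5)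
    (h : hs k i (∑ β ∈ s, c β • zm 1 k β) = 0) : s = ∅ := by
  rw [Finset.eq_empty_iff_forall_notMem]
  intro β hβ
  have h1 := (le_orderTop_sum_iff k i s c hs' hc (w i β - 1)).1 (by rw [h]; simp) β hβ
  omega

theorem hs_injective (i : Fin 5) : Function.Injective (hs k i) := by
  rw [injective_iff_map_eq_zero]
  intro x hx
  obtain ⟨s, c, h1, h2, rfl⟩ := exists_good_sum one_pos x
  rw [eq_zero_of_sum_eq_zero_one k s c h1 h2 i hx, Finset.sum_empty]

instance instIsDomainO1 : IsDomain (ORing 1 k) := (hs_injective k 0).isDomain (hs k 0)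

theorem linearIndependent_zm_one :
    LinearIndependent k (fun β : {β : Fin 5 → ℕ // Good 1 β} => zm 1 k β.1) := by
  rw [linearIndependent_iff']
  intro s g hg β hβ
  by_contra hne
  classical
  let t : Finset (Fin 5 → ℕ) := (s.filter fun β => g β ≠ 0).map ⟨Subtype.val, Subtype.val_injective⟩
  let c : (Fin 5 → ℕ) → k := fun β => if h : Good 1 β then g ⟨β, h⟩ else 0
  have hc : ∀ β : {β : Fin 5 → ℕ // Good 1 β}, c β.1 = g β := by
    intro β
    simp only [c]
    rw [dif_pos β.2]
  have h1 : ∑ β ∈ t, c β • zm 1 k β = 0 := by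
    rw [Finset.sum_map]
    simp only [Function.Embedding.coeFn_mk, hc]
    rw [Finset.sum_filter_of_ne, hg]
    intro x _ hx h0
    apply hx
    rw [h0, zero_smul]
  have h2 := eq_zero_of_sum_eq_zero_one k t c (by
      intro β hβ
      simp only [t, Finset.mem_map, Function.Embedding.coeFn_mk] at hβ
      obtain ⟨a, _, rfl⟩ := hβ
      exact a.2) (by
      intro β hβ
      simp only [t, Finset.mem_map, Function.Embedding.coeFn_mk, Finset.mem_filter] at hβ
      obtain ⟨a, ha, rfl⟩ := hβ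
      rw [hc]
      exact ha.2) 0 (by rw [h1, map_zero])
  have h3 : β.1 ∈ t := by
    simp only [t, Finset.mem_map, Function.Embedding.coeFn_mk, Finset.mem_filter]
    exact ⟨β, ⟨hβ, hne⟩, rfl⟩
  rw [h2] at h3
  simp at h3

variable {k}

/-- order of `hs i` on the filtration -/
theorem le_orderTop_of_mem_span (i : Fin 5) (m : ℤ) {x : ORing 1 k}
    (hx : x ∈ Submodule.span k (zm 1 k '' {γ | w i γ ≤ m})) :
    ((-m : ℤ) : WithTop ℤ) ≤ (hs k i x).orderTop := by
  induction hx using Submodule.span_induction with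
  | mem x hx =>
    obtain ⟨γ, hγ, rfl⟩ := hx
    rw [hs_zm_orderTop]
    exact_mod_cast neg_le_neg hγ
  | zero => simp
  | add x y _ _ h1 h2 =>
    rw [map_add]
    exact le_trans (le_min h1 h2) min_orderTop_le_orderTop_add
  | smul c x _ h =>
    rw [hs_smul]
    exact h.trans (orderTop_le_orderTop_smul c _)

/-- `F_m(O_1)` in terms of the five chart valuations -/
theorem mem_Fil_one_iff (m : ℤ) (x : ORing 1 k) :
    x ∈ Fil 1 k m ↔ ∀ i, ((-m : ℤ) : WithTop ℤ) ≤ (hs k i x).orderTop := by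
  constructor
  · intro hx i
    exact le_orderTop_of_mem_span i m (Submodule.span_mono
      (Set.image_mono fun (γ : Fin 5 → ℕ) (hγ : ∀ i, w i γ ≤ m) => hγ i) hx)
  · intro h
    obtain ⟨s, c, h1, h2, rfl⟩ := exists_good_sum one_pos x
    refine Submodule.sum_mem _ fun β hβ => Submodule.smul_mem _ _ (zm_mem_Fil fun i => ?_)
    exact (le_orderTop_sum_iff k i s c h1 h2 m).1 (h i) β hβ

end one

end Crest.Agent.R169.Val
end
end

-- ▼ part R169/Averaging
section

/-!
# Row 169, F3: averaging over `μ_n^5` (helper789)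

`sig ζ j` : the automorphism `z_j ↦ ζ z_j` of `O n k`.
`AI n k N m` : the `k`-space of the `f ∈ O n k` with `c f^j ∈ F_{⌊(L + j m)/N⌋}` for all `j`
(some `0 ≠ c ∈ O 1 k`, `L ∈ ℤ`); it is stable under `sig`, hence under taking isotypic components.
-/

set_option autoImplicit false

open Crest.R169 Crest.Agent.R169.OnOverO1

namespace Crest.Agent.R169.Avg

variable {n : ℕ} {k : Type*} [Field k]

/-- rescaling automorphism `z_j ↦ ζ z_j` -/
noncomputable def sig {ζ : k} (hζ : ζ ^ n = 1) (j : Fin 5) : ORing n k →ₐ[k] ORing n k :=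
  ORing.lift (fun i => (if i = j then ζ else 1 : k) • z n k i) (by
    intro i
    rw [smul_pow, smul_pow, smul_pow]
    have h1 : ∀ i : Fin 5, (if i = j then ζ else 1 : k) ^ n = 1 := by
      intro i; split_ifs <;> simp [hζ]
    rw [h1, h1, h1, one_smul, one_smul, one_smul, z_rel])

theorem sig_z {ζ : k} (hζ : ζ ^ n = 1) (j i : Fin 5) :
    sig hζ j (z n k i) = (if i = j then ζ else 1 : k) • z n k i := by
  unfold sig
  rw [ORing.lift_z]

theorem sig_zm {ζ : k} (hζ : ζ ^ n = 1) (j : Fin 5) (β : Fin 5 → ℕ) :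
    sig hζ j (zm n k β) = ζ ^ β j • zm n k β := by
  unfold zm
  rw [map_prod]
  have h1 : ∀ i ∈ (Finset.univ : Finset (Fin 5)), sig hζ j (z n k i ^ β i) =
      (if i = j then ζ ^ β j else 1 : k) • z n k i ^ β i := by
    intro i _
    rw [map_pow, sig_z, smul_pow]
    split_ifs with h
    · rw [h]
    · rw [one_pow]
  rw [Finset.prod_congr rfl h1, Finset.prod_smul]
  congr 1
  rw [Finset.prod_ite_eq' Finset.univ j (fun _ => ζ ^ β j)]
  simp

theorem sig_incl {ζ : k} (hζ : ζ ^ n = 1) (j : Fin 5) (f : ORing 1 k) :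
    sig hζ j (incl n k f) = incl n k f := by
  have h : (sig hζ j).comp (incl n k) = incl n k := by
    apply ORing.algHom_ext
    intro i
    rw [AlgHom.comp_apply, incl_z, map_pow, sig_z, smul_pow]
    split_ifs
    · rw [hζ, one_smul]
    · rw [one_pow, one_smul]
  exact DFunLike.congr_fun h f

theorem sig_mem_Fil {ζ : k} (hζ : ζ ^ n = 1) (j : Fin 5) {m : ℤ} {x : ORing n k}
    (hx : x ∈ Fil n k m) : sig hζ j x ∈ Fil n k m := by
  induction hx using Submodule.span_induction with
  | mem x hx =>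
    obtain ⟨γ, hγ, rfl⟩ := hx
    rw [sig_zm]
    exact Submodule.smul_mem _ _ (zm_mem_Fil hγ)
  | zero => rw [map_zero]; exact Submodule.zero_mem _
  | add x y _ _ h1 h2 => rw [map_add]; exact Submodule.add_mem _ h1 h2
  | smul c x _ h => rw [map_smul]; exact Submodule.smul_mem _ _ h

theorem floor_add_le {N : ℤ} (hN : 0 < N) (x y : ℤ) : x / N + y / N ≤ (x + y) / N := by
  rw [Int.le_ediv_iff_mul_le hN]
  have h1 := Int.ediv_mul_le x hN.ne'
  have h2 := Int.ediv_mul_le y hN.ne'
  linarith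

variable (n k) in
/-- almost integral elements of degree `m / N` -/
noncomputable def AI (N : ℕ) (hN : 0 < N) (m : ℤ) : Submodule k (ORing n k) where
  carrier := {f | ∃ c : ORing 1 k, c ≠ 0 ∧ ∃ L : ℤ, ∀ j : ℕ,
    incl n k c * f ^ j ∈ Fil n k ((L + j * m) / N)}
  zero_mem' := by
    refine ⟨1, one_ne_zero, 0, fun j => ?_⟩
    rcases Nat.eq_zero_or_pos j with rfl | hj
    · simpa using one_mem_Fil_zero (n := n) (k := k)
    · rw [zero_pow hj.ne', mul_zero]
      exact Submodule.zero_mem _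
  add_mem' := by
    rintro f g ⟨c, hc, L, hf⟩ ⟨c', hc', L', hg⟩
    refine ⟨c * c', mul_ne_zero hc hc', L + L', fun j => ?_⟩
    rw [add_pow, Finset.mul_sum]
    refine Submodule.sum_mem _ fun i hi => ?_
    have hi' : i ≤ j := Nat.lt_succ_iff.1 (Finset.mem_range.1 hi)
    have h1 : incl n k (c * c') * (f ^ i * g ^ (j - i) * ↑(j.choose i)) =
        (j.choose i : k) • ((incl n k c * f ^ i) * (incl n k c' * g ^ (j - i))) := by
      rw [map_mul, Algebra.smul_def, map_natCast]
      ring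
    rw [h1]
    refine Submodule.smul_mem _ _ (Fil_mono ?_ (Fil_mul_mem (hf i) (hg (j - i))))
    refine (floor_add_le (by exact_mod_cast hN) _ _).trans (le_of_eq ?_)
    congr 1
    push_cast [hi']
    ring
  smul_mem' := by
    rintro a f ⟨c, hc, L, hf⟩
    refine ⟨c, hc, L, fun j => ?_⟩
    rw [smul_pow, mul_smul_comm]
    exact Submodule.smul_mem _ _ (hf j)

theorem sig_mem_AI {N : ℕ} {hN : 0 < N} {m : ℤ} {ζ : k} (hζ : ζ ^ n = 1) (j : Fin 5)
    {x : ORing n k} (hx : x ∈ AI n k N hN m) : sig hζ j x ∈ AI n k N hN m := by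
  obtain ⟨c, hc, L, hf⟩ := hx
  refine ⟨c, hc, L, fun i => ?_⟩
  have h := sig_mem_Fil hζ j (hf i)
  rwa [map_mul, sig_incl, map_pow] at h

/-- isotypic components of an element of a `sig`-stable subspace are in the subspace -/
theorem comp_mem {ζ : k} (hζ : IsPrimitiveRoot ζ n) (S : Submodule k (ORing n k))
    (hS : ∀ j, ∀ x ∈ S, sig hζ.pow_eq_one j x ∈ S) (s : Finset (Fin 5 → Fin n)) :
    ∀ v : (Fin 5 → Fin n) → ORing n k,
      (∀ χ ∈ s, ∀ j, sig hζ.pow_eq_one j (v χ) = ζ ^ (χ j : ℕ) • v χ) →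
      ∑ χ ∈ s, v χ ∈ S → ∀ χ ∈ s, v χ ∈ S := by
  classical
  induction s using Finset.induction_on with
  | empty => intro v _ _ χ hχ; simp at hχ
  | insert χ₀ t hχ₀ ih =>
    intro v hv hsum
    have ht : ∀ χ ∈ t, v χ ∈ S := by
      intro χ hχ
      have hne : χ ≠ χ₀ := fun h => hχ₀ (h ▸ hχ)
      obtain ⟨j, hj⟩ := Function.ne_iff.1 hne
      have hcoef : ζ ^ (χ j : ℕ) - ζ ^ (χ₀ j : ℕ) ≠ 0 := by
        intro h
        apply hj
        exact Fin.ext (hζ.pow_inj (χ j).2 (χ₀ j).2 (sub_eq_zero.1 h))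
      have h1 : sig hζ.pow_eq_one j (∑ χ ∈ insert χ₀ t, v χ) - ζ ^ (χ₀ j : ℕ) •
          ∑ χ ∈ insert χ₀ t, v χ ∈ S := Submodule.sub_mem _ (hS j _ hsum) (Submodule.smul_mem _ _ hsum)
      have h2 : sig hζ.pow_eq_one j (∑ χ ∈ insert χ₀ t, v χ) - ζ ^ (χ₀ j : ℕ) •
          ∑ χ ∈ insert χ₀ t, v χ = ∑ χ' ∈ t, (ζ ^ (χ' j : ℕ) - ζ ^ (χ₀ j : ℕ)) • v χ' := by
        rw [map_sum, Finset.smul_sum, ← Finset.sum_sub_distrib, Finset.sum_insert hχ₀,
          hv χ₀ (Finset.mem_insert_self _ _) j, sub_self, zero_add]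
        refine Finset.sum_congr rfl fun χ' hχ' => ?_
        rw [hv χ' (Finset.mem_insert_of_mem hχ') j, sub_smul]
      rw [h2] at h1
      have h3 := ih (fun χ' => (ζ ^ (χ' j : ℕ) - ζ ^ (χ₀ j : ℕ)) • v χ') (by
        intro χ' hχ' i
        rw [map_smul, hv χ' (Finset.mem_insert_of_mem hχ') i, smul_comm]) h1 χ hχ
      have h4 : v χ = (ζ ^ (χ j : ℕ) - ζ ^ (χ₀ j : ℕ))⁻¹ • ((ζ ^ (χ j : ℕ) - ζ ^ (χ₀ j : ℕ)) • v χ) := by
        rw [smul_smul, inv_mul_cancel₀ hcoef, one_smul]
      rw [h4]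
      exact Submodule.smul_mem _ _ h3
    intro χ hχ
    rcases Finset.mem_insert.1 hχ with rfl | hχ
    · rw [Finset.sum_insert hχ₀] at hsum
      have h5 := Submodule.sub_mem _ hsum (Submodule.sum_mem _ ht)
      rwa [add_sub_cancel_right] at h5
    · exact ht χ hχ

section Norm

attribute [local instance] algO

theorem module_finite (hn : 0 < n) : Module.Finite (ORing 1 k) (ORing n k) := by
  rw [Module.finite_def, Submodule.fg_def]
  exact ⟨_, Set.finite_range _, span_zmon n k hn⟩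

theorem exists_mul_eq_incl (hn : 0 < n) [IsDomain (ORing n k)] {c : ORing n k} (hc : c ≠ 0) :
    ∃ (c' : ORing n k) (c₀ : ORing 1 k), c₀ ≠ 0 ∧ c * c' = incl n k c₀ := by
  have := module_finite (k := k) hn
  have hint : IsIntegral (ORing 1 k) c := Algebra.IsIntegral.isIntegral c
  have h1 := Ideal.comap_ne_bot_of_integral_mem hc (Ideal.mem_span_singleton_self c) hint
  obtain ⟨c₀, hc₀, hne⟩ := Submodule.exists_mem_ne_zero_of_ne_bot h1
  rw [Ideal.mem_comap, Ideal.mem_span_singleton] at hc₀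
  obtain ⟨c', hc'⟩ := hc₀
  exact ⟨c', c₀, hne, hc'.symm⟩

end Norm

theorem isNoetherianRing_ORing : IsNoetherianRing (ORing n k) :=
  isNoetherianRing_of_surjective _ _ (toO n k).toRingHom (toO_surjective n k)

/-- from the hypothesis of the theorem to `AI` -/
theorem mem_AI (hn : 0 < n) [IsDomain (ORing n k)] {N : ℕ} (hN : 0 < N) {m l : ℤ} {c q : ORing n k}
    (hc : c ≠ 0) (h : ∀ j : ℕ, c * q ^ (N * j) ∈ Fil n k (l + j * m)) : q ∈ AI n k N hN m := by
  obtain ⟨c', c₀, hc₀, hcc⟩ := exists_mul_eq_incl (k := k) hn hc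
  obtain ⟨a, ha⟩ := exists_mem_Fil c'
  have hb : ∀ r : ℕ, ∃ b : ℕ, q ^ r ∈ Fil n k b := fun r => exists_mem_Fil _
  choose b hb using hb
  set B : ℕ := ∑ r ∈ Finset.range N, b r with hB
  refine ⟨c₀, hc₀, N * (a + l + B) + N * |m|, fun j => ?_⟩
  have hr : j % N < N := Nat.mod_lt _ hN
  have h1 : incl n k c₀ * q ^ j = c' * (c * q ^ (N * (j / N))) * q ^ (j % N) := by
    rw [← hcc]
    conv_lhs => rw [← Nat.div_add_mod j N, pow_add]
    ring
  rw [h1]
  refine Fil_mono ?_ (Fil_mul_mem (Fil_mul_mem ha (h (j / N))) (hb (j % N)))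
  rw [Int.le_ediv_iff_mul_le (by exact_mod_cast hN)]
  have h2 : b (j % N) ≤ B := by
    rw [hB]
    exact Finset.single_le_sum (f := b) (fun _ _ => Nat.zero_le _) (Finset.mem_range.2 hr)
  have h3 : ((j : ℕ) : ℤ) = N * ((j / N : ℕ) : ℤ) + ((j % N : ℕ) : ℤ) := by
    exact_mod_cast (Nat.div_add_mod j N).symm
  have h4 : (((j % N : ℕ) : ℤ)) * m ≥ -(N * |m|) := by
    have h5 : |((j % N : ℕ) : ℤ) * m| ≤ N * |m| := by
      rw [abs_mul, Nat.abs_cast]
      exact mul_le_mul_of_nonneg_right (by exact_mod_cast hr.le) (abs_nonneg m)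
    have := (abs_le.1 h5).1
    linarith
  have h6 : ((b (j % N) : ℕ) : ℤ) ≤ B := by exact_mod_cast h2
  have hN' : (0 : ℤ) < N := by exact_mod_cast hN
  have e : (N * (a + l + B) + N * |m| + (j : ℤ) * m) =
      N * (a + l + B) + N * |m| + (N * ((j / N : ℕ) : ℤ) + ((j % N : ℕ) : ℤ)) * m := by rw [← h3]
  rw [e]
  nlinarith [mul_le_mul_of_nonneg_left h6 hN'.le]

end Crest.Agent.R169.Avg
end

-- ▼ part R169/FilNormal
section

/-!
# Row 169, F3: normality of `T` in filtration form (helper789)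

`filQ_normal` : if `c q^{N j} ∈ F_{l + j m}` for all `j` (with `c ≠ 0`, `N > 0`), then
`q ∈ F_{⌊m / N⌋}`, provided `O n k` is integrally closed.
-/

set_option autoImplicit false

open Crest.R169 Crest.Agent.R169.OnOverO1 Crest.Agent.R169.Val HahnSeries

namespace Crest.Agent.R169.Avg

variable {n : ℕ} {k : Type*} [Field k]

theorem incl_zm (α : Fin 5 → ℕ) : incl n k (zm 1 k α) = zm n k (n • α) := by
  unfold zm
  rw [map_prod]
  refine Finset.prod_congr rfl fun j _ => ?_
  rw [map_pow, incl_z, ← pow_mul]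
  rfl

theorem good_smul (hn : 0 < n) {α : Fin 5 → ℕ} (h : Good 1 α) : Good n (n • α) := by
  intro j
  simp only [Pi.smul_apply, smul_eq_mul]
  rcases h j with h | h
  · left
    rw [Nat.lt_one_iff.1 h, mul_zero]
    exact hn
  · right
    rw [Nat.lt_one_iff.1 h, mul_zero]
    exact hn

theorem w_smul (i : Fin 5) (α : Fin 5 → ℕ) : w i (n • α) = n * w i α := by
  simp only [w, Pi.smul_apply, smul_eq_mul]
  push_cast
  ring

theorem incl_mem_Fil [IsAlgClosed k] [NeZero (n : k)] {t : ℤ} {g : ORing 1 k}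
    (h : incl n k g ∈ Fil n k t) : g ∈ Fil 1 k (t / n) := by
  classical
  have hn : 0 < n := NeZero.pos_of_cast n k
  obtain ⟨s, c, h1, h2, rfl⟩ := exists_good_sum one_pos g
  refine Submodule.sum_mem _ fun α hα => Submodule.smul_mem _ _ (zm_mem_Fil fun i => ?_)
  rw [Int.le_ediv_iff_mul_le (by exact_mod_cast hn), mul_comm, ← w_smul]
  have h3 : (zBasis n k).repr (incl n k (∑ β ∈ s, c β • zm 1 k β))
      ⟨n • α, good_smul hn (h1 α hα)⟩ = c α := by
    rw [map_sum, map_sum, Finset.sum_apply']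
    rw [Finset.sum_eq_single_of_mem α hα]
    · rw [map_smul, incl_zm, map_smul]
      have h4 : zm n k (n • α) = zBasis n k ⟨n • α, good_smul hn (h1 α hα)⟩ := by simp
      rw [h4, Module.Basis.repr_self]
      simp
    · intro β hβ hne
      rw [map_smul, incl_zm, map_smul]
      have h4 : zm n k (n • β) = zBasis n k ⟨n • β, good_smul hn (h1 β hβ)⟩ := by simp
      rw [h4, Module.Basis.repr_self, Finsupp.smul_apply, Finsupp.single_apply, if_neg, smul_zero]
      intro h5
      apply hne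
      have h6 := congrArg Subtype.val h5
      funext j
      have h7 := congrFun h6 j
      simp only [Pi.smul_apply, smul_eq_mul] at h7
      exact Nat.eq_of_mul_eq_mul_left hn h7
  exact (mem_Fil_iff t _).1 h ⟨n • α, good_smul hn (h1 α hα)⟩ (by rw [h3]; exact h2 α hα) i

theorem orderTop_eq_coe {x : HS k} (hx : x ≠ 0) : ∃ e : ℤ, x.orderTop = (e : WithTop ℤ) := by
  exact ⟨x.order, (order_eq_orderTop_of_ne_zero hx).symm⟩

/-- the arithmetic step -/
theorem arith {n N : ℕ} (hn : 0 < n) (hN : 0 < N) (A H L m : ℤ)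
    (h : ∀ j : ℕ, -(((L + (n * j : ℕ) * m) / N) / n) ≤ A + j * H) : -H ≤ m / N := by
  have hn' : (0 : ℤ) < n := by exact_mod_cast hn
  have hN' : (0 : ℤ) < N := by exact_mod_cast hN
  rw [Int.le_ediv_iff_mul_le hN']
  by_contra hcon
  push Not at hcon
  -- `N H + m ≤ -1`
  have h1 : ∀ j : ℕ, (n : ℤ) * j ≤ L + N * n * A := by
    intro j
    have h2 := h j
    have h3 := Int.ediv_mul_le (L + (n * j : ℕ) * m) hN'.ne'
    have h4 := Int.ediv_mul_le ((L + (n * j : ℕ) * m) / N) hn'.ne'
    set a := (L + (n * j : ℕ) * m) / N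
    set b := a / n
    push_cast at h3
    have h5 : b * n * N ≤ L + n * j * m := (mul_le_mul_of_nonneg_right h4 hN'.le).trans h3
    have h6 : -b * (n * N) ≤ (A + j * H) * (n * N) :=
      mul_le_mul_of_nonneg_right h2 (by positivity)
    have h7 : (n : ℤ) * j * (N * H + m) ≤ (n : ℤ) * j * (-1) :=
      mul_le_mul_of_nonneg_left (by linarith) (by positivity)
    nlinarith
  have h8 := h1 (L + N * n * A + 1).toNat
  have h9 : (L + N * n * A + 1) ≤ ((L + N * n * A + 1).toNat : ℤ) := Int.self_le_toNat _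
  have h10 : (1 : ℤ) ≤ n := by exact_mod_cast hn
  have h11 : (0 : ℤ) ≤ ((L + N * n * A + 1).toNat : ℤ) := Int.natCast_nonneg _
  nlinarith

/-- isotypic case -/
theorem isotypic_mem [IsAlgClosed k] [NeZero (n : k)] {N : ℕ} {hN : 0 < N} {m : ℤ} (f : ORing 1 k)
    (χ : Fin 5 → ℕ) (hχ : ∀ j, χ j < n)
    (h : incl n k f * zm n k χ ∈ AI n k N hN m) : incl n k f * zm n k χ ∈ Fil n k (m / N) := by
  have hn : 0 < n := NeZero.pos_of_cast n k
  by_cases hf : f = 0
  · rw [hf, map_zero, zero_mul]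
    exact Submodule.zero_mem _
  obtain ⟨c, hc, L, hj⟩ := h
  set g : ORing 1 k := f ^ n * zm 1 k χ with hg
  have hz : zm 1 k χ ≠ 0 := by
    intro h0
    have := hs_zm_orderTop k 0 χ
    rw [h0, map_zero, orderTop_zero] at this
    exact WithTop.top_ne_coe this
  have hpow : ∀ j : ℕ, incl n k c * (incl n k f * zm n k χ) ^ (n * j) = incl n k (c * g ^ j) := by
    intro j
    rw [hg, map_mul, map_pow, map_mul, map_pow, incl_zm, pow_mul]
    congr 2
    rw [mul_pow]
    congr 1
    unfold zm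
    rw [← Finset.prod_pow]
    refine Finset.prod_congr rfl fun i _ => ?_
    rw [← pow_mul, mul_comm]
    rfl
  have key : ∀ i : Fin 5, ∃ F : ℤ, (hs k i f).orderTop = (F : WithTop ℤ) ∧ n * (-F) + w i χ ≤ m / N := by
    intro i
    have hinj := hs_injective k i
    obtain ⟨A, hA⟩ := orderTop_eq_coe (x := hs k i c) (by rwa [Ne, map_eq_zero_iff _ hinj])
    obtain ⟨F, hF⟩ := orderTop_eq_coe (x := hs k i f) (by rwa [Ne, map_eq_zero_iff _ hinj])
    refine ⟨F, hF, ?_⟩
    have hG : (hs k i g).orderTop = ((n * F - w i χ : ℤ) : WithTop ℤ) := by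
      rw [hg, map_mul, orderTop_mul, map_pow, orderTop_pow' k _ F hF, hs_zm_orderTop]
      norm_cast
    have h1 := arith hn hN A (n * F - w i χ) L m (fun j => by
      have h2 := hj (n * j)
      rw [hpow] at h2
      have h3 := (mem_Fil_one_iff _ _).1 (incl_mem_Fil h2) i
      rw [map_mul, orderTop_mul, map_pow, hA, orderTop_pow' k _ _ hG] at h3
      exact_mod_cast h3)
    linarith
  obtain ⟨s, c', h1, h2, rfl⟩ := exists_good_sum one_pos f
  rw [map_sum, Finset.sum_mul]
  refine Submodule.sum_mem _ fun α hα => ?_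
  rw [map_smul, smul_mul_assoc, incl_zm, ← zm_add]
  refine Submodule.smul_mem _ _ (zm_mem_Fil fun i => ?_)
  obtain ⟨F, hF, hle⟩ := key i
  have h3 : w i α ≤ -F := by
    refine (le_orderTop_sum_iff k i s c' h1 h2 (-F)).1 ?_ α hα
    rw [neg_neg, hF]
  rw [w_add, w_smul]
  have hn' : (0 : ℤ) ≤ n := by positivity
  nlinarith [mul_le_mul_of_nonneg_left h3 hn']

/-- every element is the sum of its isotypic components -/
theorem exists_isotypic (hn : 0 < n) (x : ORing n k) :
    ∃ f : (Fin 5 → Fin n) → ORing 1 k,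
      x = ∑ χ, incl n k (f χ) * zm n k (fun j => (χ j : ℕ)) := by
  letI := algO n k
  have hx : x ∈ Submodule.span (ORing 1 k)
      (Set.range (Kummer.zmon (z n k) : (Fin 5 → Fin n) → ORing n k)) := by
    rw [span_zmon n k hn]; exact Submodule.mem_top
  rw [Submodule.mem_span_range_iff_exists_fun] at hx
  obtain ⟨f, hf⟩ := hx
  refine ⟨f, ?_⟩
  rw [← hf]
  exact Finset.sum_congr rfl fun χ _ => by rw [Algebra.smul_def]; rfl

theorem AI_le_Fil [IsAlgClosed k] [NeZero (n : k)] {N : ℕ} {hN : 0 < N} {m : ℤ} {x : ORing n k}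
    (hx : x ∈ AI n k N hN m) : x ∈ Fil n k (m / N) := by
  have hn : 0 < n := NeZero.pos_of_cast n k
  haveI : NeZero n := ⟨hn.ne'⟩
  obtain ⟨ζ, hζ⟩ := HasEnoughRootsOfUnity.exists_primitiveRoot k n
  obtain ⟨f, rfl⟩ := exists_isotypic hn x
  have h1 := comp_mem hζ (AI n k N hN m) (fun j x hx => sig_mem_AI hζ.pow_eq_one j hx) Finset.univ
    (fun χ => incl n k (f χ) * zm n k (fun j => (χ j : ℕ))) (by
      intro χ _ j
      show sig hζ.pow_eq_one j (incl n k (f χ) * zm n k (fun j => (χ j : ℕ))) = _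
      rw [map_mul, sig_incl, sig_zm, mul_smul_comm]) hx
  exact Submodule.sum_mem _ fun χ hχ => isotypic_mem (f χ) _ (fun j => (χ j).2) (h1 χ hχ)

/-- **Normality, strong form** (inside `O n k`). -/
theorem fil_normal_O [IsAlgClosed k] [NeZero (n : k)] {N : ℕ} (hN : 0 < N) {m l : ℤ}
    {c q : ORing n k} (hc : c ≠ 0) (h : ∀ j : ℕ, c * q ^ (N * j) ∈ Fil n k (l + j * m)) :
    q ∈ Fil n k (m / N) :=
  AI_le_Fil (mem_AI (NeZero.pos_of_cast n k) hN hc h)

theorem mem_FilQ_iff (m : ℤ) (q : QField n k) :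
    q ∈ FilQ n k m ↔ ∃ x ∈ Fil n k m, algebraMap (ORing n k) (QField n k) x = q := by
  unfold FilQ
  rw [Submodule.mem_map]
  rfl

/-- **Normality, strong form.** -/
theorem filQ_normal [IsAlgClosed k] [NeZero (n : k)] [IsIntegrallyClosed (ORing n k)] {N : ℕ}
    (hN : 0 < N) {m l : ℤ} {c q : QField n k} (hc : c ≠ 0)
    (h : ∀ j : ℕ, c * q ^ (N * j) ∈ FilQ n k (l + j * m)) : q ∈ FilQ n k (m / N) := by
  have := isNoetherianRing_ORing (n := n) (k := k)
  set φ := algebraMap (ORing n k) (QField n k) with hφ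
  have hinj : Function.Injective φ := IsFractionRing.injective _ _
  -- `c ∈ O`
  obtain ⟨c', -, hc'⟩ := (mem_FilQ_iff _ _).1 (h 0)
  rw [mul_zero, pow_zero, mul_one] at hc'
  have hc'0 : c' ≠ 0 := by
    rintro rfl
    rw [map_zero] at hc'
    exact hc hc'.symm
  -- `q ^ N` is almost integral
  have h1 : IsAlmostIntegral (ORing n k) (q ^ N) := by
    refine ⟨c', mem_nonZeroDivisors_of_ne_zero hc'0, fun j => ?_⟩
    obtain ⟨x, -, hx⟩ := (mem_FilQ_iff _ _).1 (h j)
    refine ⟨x, ?_⟩
    rw [Algebra.smul_def, ← pow_mul]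
    change φ x = φ c' * q ^ (N * j)
    rw [hx, hc']
  have h2 : IsIntegral (ORing n k) (q ^ N) := h1.isIntegral
  have h3 : IsIntegral (ORing n k) q := IsIntegral.of_pow hN h2
  obtain ⟨q', hq'⟩ := IsIntegrallyClosed.isIntegral_iff.1 h3
  rw [mem_FilQ_iff]
  refine ⟨q', fil_normal_O hN (l := l) hc'0 (fun j => ?_), hq'⟩
  obtain ⟨x, hx1, hx2⟩ := (mem_FilQ_iff _ _).1 (h j)
  have h4 : c' * q' ^ (N * j) = x := by
    apply hinj
    rw [map_mul, map_pow, hx2, hc']
    congr 2
  rw [h4]
  exact hx1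

end Crest.Agent.R169.Avg
end

-- ▼ part R169/O1Ufd

/-!
# Row 169, part F: `O_1 = k[z_0..z_4]/(z_j z_{j+1} = 1 + z_{j+3})` is a UFD, the `z_j` are
pairwise non-associated primes (any field `k`).
-/

set_option autoImplicit false
set_option linter.unusedSimpArgs false

noncomputable section

namespace Crest.Agent.R169.O1Ufd

open Crest.R169 Crest.Agent.R169.Val

section general

variable {n : ℕ} {k : Type*} [Field k]

/-- induction principle for `ORing n k` -/
theorem oring_induction {P : ORing n k → Prop} (hC : ∀ c : k, P (algebraMap k _ c))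
    (hz : ∀ j, P (z n k j)) (ha : ∀ x y, P x → P y → P (x + y))
    (hm : ∀ x y, P x → P y → P (x * y)) (x : ORing n k) : P x := by
  obtain ⟨p, rfl⟩ := toO_surjective n k x
  induction p using MvPolynomial.induction_on with
  | C c =>
    have : toO n k (MvPolynomial.C c) = algebraMap k _ c := (toO n k).commutes c
    rw [this]
    exact hC c
  | add p q hp hq => rw [map_add]; exact ha _ _ hp hq
  | mul_X p j hp => rw [map_mul]; exact hm _ _ hp (hz j)

variable (n k) in
/-- the rotation `z_j ↦ z_{j+i}` -/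
def rot (i : Fin 5) : ORing n k →ₐ[k] ORing n k :=
  ORing.lift (fun j => z n k (j + i)) (by
    intro j
    have h := z_rel n k (j + i)
    rw [show j + 1 + i = j + i + 1 by clear h; revert i j; decide,
      show j + 3 + i = j + i + 3 by clear h; revert i j; decide]
    exact h)

@[simp] theorem rot_z (i j : Fin 5) : rot n k i (z n k j) = z n k (j + i) := by simp [rot]

theorem rot_rot (i i' : Fin 5) (h : i + i' = 0) (x : ORing n k) : rot n k i' (rot n k i x) = x := by
  have : (rot n k i').comp (rot n k i) = AlgHom.id k _ := by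
    apply ORing.algHom_ext
    intro j
    rw [AlgHom.comp_apply, rot_z, rot_z, AlgHom.id_apply, show j + i + i' = j by
      rw [add_assoc, h, add_zero]]
  exact DFunLike.congr_fun this x

variable (n k) in
/-- the rotation as an equivalence -/
def rotE (i : Fin 5) : ORing n k ≃ₐ[k] ORing n k :=
  AlgEquiv.ofAlgHom (rot n k i) (rot n k (-i))
    (by
      apply AlgHom.ext
      intro x
      exact rot_rot (-i) i (by simp) x)
    (by
      apply AlgHom.ext
      intro x
      exact rot_rot i (-i) (by simp) x)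

@[simp] theorem rotE_z (i j : Fin 5) : rotE n k i (z n k j) = z n k (j + i) := rot_z i j

end general

variable (k : Type*) [Field k]

theorem z1_rel (j : Fin 5) : z 1 k j * z 1 k (j + 1) = 1 + z 1 k (j + 3) := by
  simpa using z_rel 1 k j

theorem rel0 : z 1 k 0 * z 1 k 1 = 1 + z 1 k 3 := z1_rel k 0
theorem rel2 : z 1 k 2 * z 1 k 3 = 1 + z 1 k 0 := z1_rel k 2
theorem rel3 : z 1 k 3 * z 1 k 4 = 1 + z 1 k 1 := z1_rel k 3
theorem rel4 : z 1 k 4 * z 1 k 0 = 1 + z 1 k 2 := z1_rel k 4

theorem z_ne_zero (j : Fin 5) : z 1 k j ≠ 0 := by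
  have hg : Good 1 (Pi.single j 1 : Fin 5 → ℕ) := by revert j; decide
  have h := (linearIndependent_zm_one k).ne_zero ⟨Pi.single j 1, hg⟩
  simpa [zm_single] using h

open Polynomial in
/-- `O_1 → k[X]`, `z_3 ↦ 0` -/
def pi3 : ORing 1 k →ₐ[k] k[X] :=
  ORing.lift (![-1, -1, X, 0, -1 - X] : Fin 5 → k[X]) (by
    intro j
    fin_cases j <;> simp <;> ring)

open Polynomial in
theorem pi3_z (j : Fin 5) : pi3 k (z 1 k j) = (![-1, -1, X, 0, -1 - X] : Fin 5 → k[X]) j := by
  simp [pi3]

open Polynomial in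
theorem dvd_sub_pi3 (x : ORing 1 k) : z 1 k 3 ∣ x - Polynomial.aeval (z 1 k 2) (pi3 k x) := by
  induction x using oring_induction with
  | hC c => simp
  | hz j =>
    rw [pi3_z]
    fin_cases j
    · simp only [Fin.zero_eta, Fin.isValue, Matrix.cons_val_zero, map_neg, map_one, sub_neg_eq_add]
      exact ⟨z 1 k 2, by linear_combination -rel2 k⟩
    · simp only [Fin.mk_one, Fin.isValue, Matrix.cons_val_one, Matrix.cons_val_zero, map_neg, map_one, sub_neg_eq_add]
      exact ⟨z 1 k 4, by linear_combination -rel3 k⟩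
    · simp
    · simp
    · simp only [Fin.reduceFinMk, Fin.isValue, Matrix.cons_val, map_sub, map_neg, map_one, aeval_X]
      exact ⟨z 1 k 4 * z 1 k 2, by linear_combination (-rel4 k) - z 1 k 4 * rel2 k⟩
  | ha x y hx hy =>
    have := dvd_add hx hy
    rw [map_add, map_add]
    convert this using 1
    ring
  | hm x y hx hy =>
    have : x * y - Polynomial.aeval (z 1 k 2) (pi3 k (x * y)) =
        (x - Polynomial.aeval (z 1 k 2) (pi3 k x)) * y +
        Polynomial.aeval (z 1 k 2) (pi3 k x) * (y - Polynomial.aeval (z 1 k 2) (pi3 k y)) := by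
      rw [map_mul, map_mul]
      ring
    rw [this]
    exact dvd_add (hx.mul_right _) (hy.mul_left _)

theorem pi3_eq_zero_iff (x : ORing 1 k) : pi3 k x = 0 ↔ z 1 k 3 ∣ x := by
  constructor
  · intro h
    have := dvd_sub_pi3 k x
    rwa [h, map_zero, sub_zero] at this
  · rintro ⟨y, rfl⟩
    rw [map_mul, pi3_z]
    simp

theorem prime_z3 : Prime (z 1 k 3) := by
  refine ⟨z_ne_zero k 3, ?_, ?_⟩
  · intro h
    have h2 := h.map (pi3 k)
    rw [pi3_z] at h2
    simp at h2
  · intro a b hab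
    rw [← pi3_eq_zero_iff, map_mul, mul_eq_zero] at hab
    rw [← pi3_eq_zero_iff, ← pi3_eq_zero_iff]
    exact hab

theorem prime_z (j : Fin 5) : Prime (z 1 k j) := by
  have h := (MulEquiv.prime_iff (rotE 1 k (j - 3) : ORing 1 k ≃* ORing 1 k)).2 (prime_z3 k)
  have h2 : (rotE 1 k (j - 3) : ORing 1 k ≃* ORing 1 k) (z 1 k 3) = z 1 k j := by
    change rotE 1 k (j - 3) (z 1 k 3) = _
    rw [rotE_z]
    congr 1
    clear h
    revert j
    decide
  rwa [h2] at h

theorem not_dvd_z {i j : Fin 5} (hij : i ≠ j) : ¬ z 1 k j ∣ z 1 k i := by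
  intro h
  have h2 := map_dvd (rot 1 k (3 - j)) h
  rw [rot_z, rot_z, show j + (3 - j) = 3 by simp, ← pi3_eq_zero_iff, pi3_z] at h2
  have h3 : i + (3 - j) ≠ 3 := by
    intro h4
    apply hij
    have : i + (3 - j) = i - j + 3 := by clear h2 h hij h4; revert i j; decide
    rw [this] at h4
    have h5 : i - j = 0 := by simpa using h4
    exact sub_eq_zero.1 h5
  generalize i + (3 - j) = l at h2 h3
  fin_cases l
  · simp at h2
  · simp at h2
  · simp at h2
  · simp at h3
  · simp only [Fin.reduceFinMk, Fin.isValue, Matrix.cons_val] at h2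
    have := congrArg (Polynomial.coeff · 1) h2
    simp [Polynomial.coeff_one] at this

theorem not_associated_z (i j : Fin 5) (hij : i ≠ j) : ¬ Associated (z 1 k i) (z 1 k j) :=
  fun h => not_dvd_z k hij.symm h.dvd

/-! ### UFD -/

instance instIsNoetherianRing (n : ℕ) : IsNoetherianRing (ORing n k) :=
  isNoetherianRing_of_surjective _ _ (toO n k).toRingHom (toO_surjective n k)

/-- `k[a,b]` -/
abbrev P2 : Type _ := MvPolynomial (Fin 2) k

/-- `q = ab - 1` -/
def qq : P2 k := MvPolynomial.X 0 * MvPolynomial.X 1 - 1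

/-- `k[a,b] → O_1`, `a ↦ z_0`, `b ↦ z_1` -/
def al : P2 k →ₐ[k] ORing 1 k := MvPolynomial.aeval ![z 1 k 0, z 1 k 1]

@[simp] theorem al_X0 : al k (MvPolynomial.X 0) = z 1 k 0 := by simp [al]
@[simp] theorem al_X1 : al k (MvPolynomial.X 1) = z 1 k 1 := by simp [al]

theorem al_qq : al k (qq k) = z 1 k 3 := by
  rw [qq, map_sub, map_mul, al_X0, al_X1, map_one]
  linear_combination rel0 k

theorem qq_ne : qq k ≠ 0 := by
  intro h
  have := congrArg (MvPolynomial.eval (fun _ => (0 : k))) h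
  simp [qq] at this

/-- the fraction field of `k[a,b]` -/
abbrev L2 : Type _ := FractionRing (P2 k)

/-- `O_1 → k(a,b)` -/
def psi : ORing 1 k →ₐ[k] L2 k :=
  ORing.lift
    (![algebraMap (P2 k) (L2 k) (MvPolynomial.X 0), algebraMap (P2 k) (L2 k) (MvPolynomial.X 1),
      (1 + algebraMap (P2 k) (L2 k) (MvPolynomial.X 0)) / algebraMap (P2 k) (L2 k) (qq k),
      algebraMap (P2 k) (L2 k) (qq k),
      (1 + algebraMap (P2 k) (L2 k) (MvPolynomial.X 1)) / algebraMap (P2 k) (L2 k) (qq k)] :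
      Fin 5 → L2 k) (by
    have h0 : algebraMap (P2 k) (L2 k) (qq k) ≠ 0 := by
      rw [Ne, IsFractionRing.to_map_eq_zero_iff]
      exact qq_ne k
    have h1 : algebraMap (P2 k) (L2 k) (qq k) =
      algebraMap (P2 k) (L2 k) (MvPolynomial.X 0) * algebraMap (P2 k) (L2 k) (MvPolynomial.X 1) - 1 := by
      rw [qq, map_sub, map_mul, map_one]
    generalize algebraMap (P2 k) (L2 k) (qq k) = q at *
    generalize algebraMap (P2 k) (L2 k) (MvPolynomial.X 0) = a at *
    generalize algebraMap (P2 k) (L2 k) (MvPolynomial.X 1) = b at *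
    intro j
    fin_cases j
    · simp only [Fin.zero_eta, Fin.isValue, zero_add, Matrix.cons_val_zero, Matrix.cons_val_one,
        Matrix.cons_val, pow_one]
      rw [h1]; ring
    · simp only [Fin.mk_one, Fin.isValue, Fin.reduceAdd, Matrix.cons_val_zero, Matrix.cons_val_one,
        Matrix.cons_val, pow_one]
      field_simp
      rw [h1]; ring
    · simp only [Fin.reduceFinMk, Fin.isValue, Fin.reduceAdd, Matrix.cons_val_zero, Matrix.cons_val_one,
        Matrix.cons_val, pow_one]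
      field_simp
    · simp only [Fin.reduceFinMk, Fin.isValue, Fin.reduceAdd, Matrix.cons_val_zero, Matrix.cons_val_one,
        Matrix.cons_val, pow_one]
      field_simp
    · simp only [Fin.reduceFinMk, Fin.isValue, Fin.reduceAdd, Matrix.cons_val_zero, Matrix.cons_val_one,
        Matrix.cons_val, pow_one]
      field_simp
      rw [h1]; ring)

theorem psi_al (p : P2 k) : psi k (al k p) = algebraMap (P2 k) (L2 k) p := by
  have : (psi k).comp (al k) = IsScalarTower.toAlgHom k (P2 k) (L2 k) := by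
    apply MvPolynomial.algHom_ext
    intro j
    fin_cases j <;> simp [psi]
  exact DFunLike.congr_fun this p

theorem al_injective : Function.Injective (al k) := by
  intro p p' h
  apply IsFractionRing.injective (P2 k) (L2 k)
  rw [← psi_al, h, psi_al]

theorem exists_pow_mul (x : ORing 1 k) : ∃ (n : ℕ) (p : P2 k), z 1 k 3 ^ n * x = al k p := by
  induction x using oring_induction with
  | hC c => exact ⟨0, algebraMap k _ c, by simp⟩
  | hz j =>
    fin_cases j
    · exact ⟨0, MvPolynomial.X 0, by simp⟩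
    · exact ⟨0, MvPolynomial.X 1, by simp⟩
    · refine ⟨1, 1 + MvPolynomial.X 0, ?_⟩
      rw [map_add, map_one, al_X0]
      change z 1 k 3 ^ 1 * z 1 k 2 = _
      linear_combination rel2 k
    · exact ⟨0, qq k, by rw [al_qq]; simp⟩
    · refine ⟨1, 1 + MvPolynomial.X 1, ?_⟩
      rw [map_add, map_one, al_X1]
      change z 1 k 3 ^ 1 * z 1 k 4 = _
      linear_combination rel3 k
  | ha x y hx hy =>
    obtain ⟨n, p, hp⟩ := hx
    obtain ⟨m, p', hp'⟩ := hy
    refine ⟨n + m, qq k ^ m * p + qq k ^ n * p', ?_⟩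
    rw [map_add, map_mul, map_mul, map_pow, map_pow, al_qq, ← hp, ← hp', pow_add]
    ring
  | hm x y hx hy =>
    obtain ⟨n, p, hp⟩ := hx
    obtain ⟨m, p', hp'⟩ := hy
    refine ⟨n + m, p * p', ?_⟩
    rw [map_mul, ← hp, ← hp', pow_add]
    ring

/-- `O_1[1/z_3]` -/
abbrev S3 : Type _ := Localization.Away (z 1 k 3)

/-- `O_1[1/z_3]` as an algebra over `k[a,b]` -/
abbrev algS3 : Algebra (P2 k) (S3 k) :=
  ((algebraMap (ORing 1 k) (S3 k)).comp (al k).toRingHom).toAlgebra

attribute [local instance] algS3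

theorem algebraMap_S3 (p : P2 k) :
    algebraMap (P2 k) (S3 k) p = algebraMap (ORing 1 k) (S3 k) (al k p) := rfl

theorem inj_S3 : Function.Injective (algebraMap (ORing 1 k) (S3 k)) :=
  IsLocalization.injective (S3 k) (powers_le_nonZeroDivisors_of_noZeroDivisors (z_ne_zero k 3))

instance isLocalization_S3 : IsLocalization.Away (qq k) (S3 k) where
  map_units := by
    rintro ⟨_, n, rfl⟩
    simp only [map_pow]
    rw [algebraMap_S3, al_qq]
    exact (IsLocalization.Away.algebraMap_isUnit (z 1 k 3)).pow n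
  surj := by
    intro y
    obtain ⟨⟨x, ⟨_, n, rfl⟩⟩, hx⟩ := IsLocalization.surj (Submonoid.powers (z 1 k 3)) y
    obtain ⟨m, p, hp⟩ := exists_pow_mul k x
    refine ⟨⟨p, ⟨qq k ^ (n + m), n + m, rfl⟩⟩, ?_⟩
    simp only at hx ⊢
    rw [algebraMap_S3, algebraMap_S3, map_pow, al_qq, ← hp, map_mul, ← hx, pow_add, map_mul]
    ring
  exists_of_eq := by
    intro p p' h
    rw [algebraMap_S3, algebraMap_S3] at h
    have h2 := al_injective k (inj_S3 k h)
    exact ⟨1, by rw [h2]⟩

instance : IsDomain (S3 k) :=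
  IsLocalization.isDomain_localization
    (powers_le_nonZeroDivisors_of_noZeroDivisors (z_ne_zero k 3))

theorem ufd_S3 : UniqueFactorizationMonoid (S3 k) :=
  UniqueFactorizationMonoid.of_isLocalization (Submonoid.powers (qq k)) (S3 k)

/-- `O_1` is a UFD. -/
instance ufd : UniqueFactorizationMonoid (ORing 1 k) :=
  (UniqueFactorizationMonoid.iff_localizationAway_of_prime (prime_z3 k)).2 (ufd_S3 k)

end Crest.Agent.R169.O1Ufd
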