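import Crest.Agent.R169.Lat
import Crest.Agent.R169.GenL
import Mathlib.FieldTheory.IntermediateField.Adjoin.Basic

-- ▼ part R169/P3a
section

/-!
# Row 169, P2/P3, part a: polynomials of bounded degree `polyLE`
(helper272)
-/

set_option autoImplicit false

namespace Crest.Agent.R169.P3

open Module

/-- monomials as a family indexed by `ℕ × ℕ` -/
def mono2 {K : Type} [Field K] (u v : K) (p : ℕ × ℕ) : K := u ^ p.1 * v ^ p.2

section Field

variable {k K : Type} [Field k] [Field K] [Algebra k K] {u v : K}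

/-- index set of monomials of degree `≤ m` -/
def degSet (m : ℤ) : Set (ℕ × ℕ) := {p | ((p.1 : ℤ) + p.2) ≤ m}

lemma polyLE_eq (m : ℤ) :
    polyLE k u v m = Submodule.span k (mono2 u v '' degSet m) := by
  unfold polyLE
  congr 1
  ext x
  simp only [Set.mem_ofPred_eq, Set.mem_image, Prod.exists, degSet, mono2]
  constructor
  · rintro ⟨i, j, h, rfl⟩; exact ⟨i, j, h, rfl⟩
  · rintro ⟨i, j, h, rfl⟩; exact ⟨i, j, h, rfl⟩

lemma mem_polyLE_iff {m : ℤ} {x : K} :
    x ∈ polyLE k u v m ↔ ∃ c ∈ Finsupp.supported k k (degSet m),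
      Finsupp.linearCombination k (mono2 u v) c = x := by
  rw [polyLE_eq, Finsupp.span_image_eq_map_linearCombination]
  simp [Submodule.mem_map]

lemma mono2_mem {m : ℤ} {p : ℕ × ℕ} (h : ((p.1 : ℤ) + p.2) ≤ m) :
    mono2 u v p ∈ polyLE k u v m := by
  rw [polyLE_eq]
  exact Submodule.subset_span ⟨p, h, rfl⟩

lemma one_mem_polyLE {m : ℤ} (h : 0 ≤ m) : (1 : K) ∈ polyLE k u v m := by
  have := mono2_mem (k := k) (u := u) (v := v) (m := m) (p := (0, 0)) (by simpa using h)
  simpa [mono2] using this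

lemma polyLE_mono {m m' : ℤ} (h : m ≤ m') : polyLE k u v m ≤ polyLE k u v m' := by
  rw [polyLE_eq, polyLE_eq]
  refine Submodule.span_mono (Set.image_mono ?_)
  intro p hp
  exact le_trans hp h

lemma polyLE_neg {m : ℤ} (h : m < 0) : polyLE k u v m = ⊥ := by
  rw [polyLE_eq]
  have : degSet m = ∅ := by
    ext p
    simp only [degSet, Set.mem_ofPred_eq, Set.mem_empty_iff_false, iff_false]
    omega
  rw [this]
  simp

/-- shift of exponents -/
noncomputable def sh (q : ℕ × ℕ) : (ℕ × ℕ →₀ k) →ₗ[k] (ℕ × ℕ →₀ k) :=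
  Finsupp.lmapDomain k k (fun p => p + q)

lemma linComb_sh (q : ℕ × ℕ) (c : ℕ × ℕ →₀ k) :
    Finsupp.linearCombination k (mono2 u v) (sh q c) =
      mono2 u v q * Finsupp.linearCombination k (mono2 u v) c := by
  induction c using Finsupp.induction_linear with
  | zero => simp
  | add f g hf hg => rw [map_add, map_add, hf, hg, map_add, mul_add]
  | single p a =>
    simp only [sh, Finsupp.lmapDomain_apply, Finsupp.mapDomain_single,
      Finsupp.linearCombination_single]
    simp only [mono2, Prod.fst_add, Prod.snd_add, pow_add, Algebra.smul_def]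
    ring

lemma sh_supported {q : ℕ × ℕ} {m : ℤ} {c : ℕ × ℕ →₀ k}
    (hc : c ∈ Finsupp.supported k k (degSet m)) :
    sh q c ∈ Finsupp.supported k k (degSet (m + (q.1 + q.2))) := by
  rw [Finsupp.mem_supported] at hc ⊢
  intro p hp
  have hp' : p ∈ (Finsupp.mapDomain (fun p => p + q) c).support := hp
  have := Finsupp.mapDomain_support hp'
  rw [Finset.mem_image] at this
  obtain ⟨p', hpp, rfl⟩ := this
  have := hc hpp
  simp only [degSet, Set.mem_ofPred_eq, Prod.fst_add, Prod.snd_add, Nat.cast_add] at this ⊢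
  omega

lemma sh_apply_add (q : ℕ × ℕ) (c : ℕ × ℕ →₀ k) (p : ℕ × ℕ) : sh q c (p + q) = c p := by
  have hinj : Function.Injective (fun p : ℕ × ℕ => p + q) := fun a b h => by simpa using h
  exact Finsupp.mapDomain_apply hinj c p

lemma mono2_mul_mem {m : ℤ} {x : K} (hx : x ∈ polyLE k u v m) (q : ℕ × ℕ) :
    mono2 u v q * x ∈ polyLE k u v (m + (q.1 + q.2)) := by
  obtain ⟨c, hc, rfl⟩ := mem_polyLE_iff.1 hx
  exact mem_polyLE_iff.2 ⟨sh q c, sh_supported hc, linComb_sh q c⟩

lemma u_mul_mem {m : ℤ} {x : K} (hx : x ∈ polyLE k u v m) : u * x ∈ polyLE k u v (m + 1) := by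
  have := mono2_mul_mem hx (1, 0)
  simpa [mono2] using this

lemma v_mul_mem {m : ℤ} {x : K} (hx : x ∈ polyLE k u v m) : v * x ∈ polyLE k u v (m + 1) := by
  have := mono2_mul_mem hx (0, 1)
  simpa [mono2] using this

lemma mul_mem_polyLE {m m' : ℤ} {x y : K} (hx : x ∈ polyLE k u v m) (hy : y ∈ polyLE k u v m') :
    x * y ∈ polyLE k u v (m + m') := by
  rw [polyLE_eq] at hx
  induction hx using Submodule.span_induction with
  | mem x h =>
    obtain ⟨p, hp, rfl⟩ := h
    refine polyLE_mono ?_ (mono2_mul_mem hy p)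
    have : ((p.1 : ℤ) + p.2) ≤ m := hp
    omega
  | zero => rw [zero_mul]; exact Submodule.zero_mem _
  | add x y _ _ hx hy => rw [add_mul]; exact Submodule.add_mem _ hx hy
  | smul a x _ hx => rw [smul_mul_assoc]; exact Submodule.smul_mem _ _ hx

/-- degree reduction: an element of `A_m` is `c + u a + v b` -/
lemma polyLE_gen {m : ℤ} (hm : 0 ≤ m) {x : K} (hx : x ∈ polyLE k u v (m + 1)) :
    ∃ a ∈ polyLE k u v m, ∃ b ∈ polyLE k u v m, ∃ c ∈ polyLE k u v m,
      x = a + u * b + v * c := by
  rw [polyLE_eq] at hx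
  induction hx using Submodule.span_induction with
  | mem x h =>
    obtain ⟨p, hp, rfl⟩ := h
    have hp' : ((p.1 : ℤ) + p.2) ≤ m + 1 := hp
    rcases p with ⟨i, j⟩
    simp only at hp'
    rcases i with _ | i
    · rcases j with _ | j
      · exact ⟨_, mono2_mem (p := (0, 0)) (by simpa using hm), 0, Submodule.zero_mem _, 0,
          Submodule.zero_mem _, by simp⟩
      · refine ⟨0, Submodule.zero_mem _, 0, Submodule.zero_mem _, mono2 u v (0, j),
          mono2_mem (by simp only; push_cast at hp' ⊢; omega), ?_⟩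
        simp only [mono2]; ring
    · refine ⟨0, Submodule.zero_mem _, mono2 u v (i, j),
          mono2_mem (by simp only; push_cast at hp' ⊢; omega), 0, Submodule.zero_mem _, ?_⟩
      simp only [mono2]; ring
  | zero => exact ⟨0, Submodule.zero_mem _, 0, Submodule.zero_mem _, 0, Submodule.zero_mem _,
      by simp⟩
  | add x y _ _ hx hy =>
    obtain ⟨a, ha, b, hb, c, hc, rfl⟩ := hx
    obtain ⟨a', ha', b', hb', c', hc', rfl⟩ := hy
    exact ⟨a + a', Submodule.add_mem _ ha ha', b + b', Submodule.add_mem _ hb hb', c + c',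
      Submodule.add_mem _ hc hc', by ring⟩
  | smul r x _ hx =>
    obtain ⟨a, ha, b, hb, c, hc, rfl⟩ := hx
    refine ⟨r • a, Submodule.smul_mem _ _ ha, r • b, Submodule.smul_mem _ _ hb, r • c,
      Submodule.smul_mem _ _ hc, ?_⟩
    simp only [Algebra.smul_def]; ring

/-- the finite index set -/
def degFin (m : ℤ) : Finset (ℕ × ℕ) :=
  if m < 0 then ∅ else (Finset.range (m.toNat + 1)).biUnion
    (fun s => Finset.HasAntidiagonal.antidiagonal s)

lemma mem_degFin {m : ℤ} {p : ℕ × ℕ} : p ∈ degFin m ↔ p ∈ degSet m := by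
  unfold degFin degSet
  split_ifs with h
  · simp only [Finset.notMem_empty, Set.mem_ofPred_eq, false_iff]
    omega
  · simp only [Finset.mem_biUnion, Finset.mem_range, Finset.HasAntidiagonal.mem_antidiagonal, Set.mem_ofPred_eq]
    constructor
    · rintro ⟨s, hs, h2⟩
      omega
    · intro h2
      exact ⟨p.1 + p.2, by omega, rfl⟩

lemma card_degFin (m : ℤ) : (degFin m).card = dimA m := by
  unfold degFin dimA
  split_ifs with h
  · simp only [Finset.card_empty]
    have : (m + 1).toNat = 0 := by omega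
    rw [this]; simp
  · rw [Finset.card_biUnion]
    · simp only [Finset.Nat.card_antidiagonal]
      obtain ⟨n, rfl⟩ : ∃ n : ℕ, m = n := ⟨m.toNat, by omega⟩
      have h1 : ((n : ℤ) + 1).toNat = n + 1 := by omega
      have h2 : ((n : ℤ) + 2).toNat = n + 2 := by omega
      rw [h1, h2, Int.toNat_natCast]
      have h3 : ∑ x ∈ Finset.range (n + 1), (x + 1) = ∑ x ∈ Finset.range (n + 2), x := by
        rw [Finset.sum_range_succ' (fun x => x) (n + 1)]
        simp
      rw [h3, Finset.sum_range_id]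
      congr 1
      rw [mul_comm]
      simp
    · intro x _ y _ hxy
      rw [Function.onFun, Finset.disjoint_left]
      intro p hp hp'
      rw [Finset.HasAntidiagonal.mem_antidiagonal] at hp hp'
      omega

lemma degSet_eq_coe (m : ℤ) : degSet m = (degFin m : Set (ℕ × ℕ)) := by
  ext p; rw [Finset.mem_coe, mem_degFin]

instance polyLE_finite (m : ℤ) : Module.Finite k (polyLE k u v m) := by
  rw [polyLE_eq, degSet_eq_coe]
  exact Module.Finite.span_of_finite k ((Finset.finite_toSet _).image _)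

/-- monomials are independent -/
def MonoIndep (k : Type) {K : Type} [Field k] [Field K] [Algebra k K] (u v : K) : Prop :=
  LinearIndependent k (mono2 u v)

lemma finrank_polyLE (h : MonoIndep k u v) (m : ℤ) :
    finrank k (polyLE k u v m) = dimA m := by
  classical
  rw [polyLE_eq, degSet_eq_coe, ← card_degFin]
  have h2 : LinearIndependent k (fun p : (degFin m : Set (ℕ × ℕ)) => mono2 u v p) :=
    h.comp _ Subtype.val_injective
  have h3 := finrank_span_eq_card (R := k) h2
  rw [Set.image_eq_range]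
  rw [h3]
  simp

lemma linComb_inj (h : MonoIndep k u v) :
    Function.Injective (Finsupp.linearCombination k (mono2 u v)) := h

/-- (Hu) for polynomials -/
lemma polyLE_Hu (h : MonoIndep k u v) {m : ℤ} {x : K}
    (hx : x ∈ polyLE k u v m) (hux : u * x ∈ polyLE k u v m) : x ∈ polyLE k u v (m - 1) := by
  obtain ⟨c, hc, rfl⟩ := mem_polyLE_iff.1 hx
  obtain ⟨d, hd, hd2⟩ := mem_polyLE_iff.1 hux
  have h1 : u = mono2 u v (1, 0) := by simp [mono2]
  have h2 : Finsupp.linearCombination k (mono2 u v) d =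
      Finsupp.linearCombination k (mono2 u v) (sh (1, 0) c) := by
    rw [linComb_sh, hd2, ← h1]
  have h3 := linComb_inj h h2
  refine mem_polyLE_iff.2 ⟨c, ?_, rfl⟩
  rw [Finsupp.mem_supported]
  intro p hp
  have h4 : sh (1, 0) c (p + (1, 0)) ≠ 0 := by
    rw [sh_apply_add]; exact Finsupp.mem_support_iff.1 hp
  rw [← h3] at h4
  have h5 := (Finsupp.mem_supported _ _).1 hd (Finsupp.mem_support_iff.2 h4)
  simp only [degSet, Set.mem_ofPred_eq, Prod.fst_add, Prod.snd_add, Nat.cast_add] at h5 ⊢
  push_cast at h5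
  omega

/-- (Hv) for polynomials -/
lemma polyLE_Hv (h : MonoIndep k u v) {m : ℤ} {x : K}
    (hx : x ∈ polyLE k u v m) (hvx : ∃ a ∈ polyLE k u v m, ∃ b ∈ polyLE k u v m,
      v * x = a + u * b) :
    ∃ a ∈ polyLE k u v (m - 1), ∃ b ∈ polyLE k u v (m - 1), x = a + u * b := by
  obtain ⟨c, hc, rfl⟩ := mem_polyLE_iff.1 hx
  obtain ⟨_, ha, _, hb, hab⟩ := hvx
  obtain ⟨d, hd, rfl⟩ := mem_polyLE_iff.1 ha
  obtain ⟨e, he, rfl⟩ := mem_polyLE_iff.1 hb
  have h1 : u = mono2 u v (1, 0) := by simp [mono2]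
  have h1' : v = mono2 u v (0, 1) := by simp [mono2]
  have h2 : Finsupp.linearCombination k (mono2 u v) (sh (0, 1) c) =
      Finsupp.linearCombination k (mono2 u v) (d + sh (1, 0) e) := by
    rw [linComb_sh, map_add, linComb_sh, ← h1, ← h1', hab]
  have h3 := linComb_inj h h2
  -- coefficient of `v^m` in `x` vanishes
  have key : ∀ p ∈ c.support, ((p.1 : ℤ) + p.2 ≤ m - 1) ∨ 1 ≤ p.1 := by
    intro p hp
    by_contra hcon
    push Not at hcon
    obtain ⟨hc1, hc2⟩ := hcon
    have hc3 : p.1 = 0 := by omega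
    have hm : (p.2 : ℤ) = m := by
      have := (Finsupp.mem_supported _ _).1 hc hp
      simp only [degSet, Set.mem_ofPred_eq] at this
      omega
    have h4 : sh (0, 1) c (p + (0, 1)) ≠ 0 := by
      rw [sh_apply_add]; exact Finsupp.mem_support_iff.1 hp
    rw [h3, Finsupp.add_apply] at h4
    apply h4
    have h5 : d (p + (0, 1)) = 0 := by
      by_contra h6
      have := (Finsupp.mem_supported _ _).1 hd (Finsupp.mem_support_iff.2 h6)
      simp only [degSet, Set.mem_ofPred_eq, Prod.fst_add, Prod.snd_add, Nat.cast_add] at this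
      push_cast at this
      omega
    have h6 : sh (1, 0) e (p + (0, 1)) = 0 := by
      have : p + (0, 1) ∉ Set.range (fun q : ℕ × ℕ => q + (1, 0)) := by
        rintro ⟨q, hq⟩
        have := congrArg Prod.fst hq
        simp only [Prod.fst_add] at this
        omega
      exact Finsupp.mapDomain_of_notMem_range e _ this
    rw [h5, h6, add_zero]
  -- decompose
  have : ∀ c : ℕ × ℕ →₀ k, c ∈ Finsupp.supported k k (degSet m) →
      (∀ p ∈ c.support, ((p.1 : ℤ) + p.2 ≤ m - 1) ∨ 1 ≤ p.1) →
      ∃ a ∈ polyLE k u v (m - 1), ∃ b ∈ polyLE k u v (m - 1),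
        Finsupp.linearCombination k (mono2 u v) c = a + u * b := by
    intro c hc hk
    rw [Finsupp.linearCombination_apply, Finsupp.sum]
    refine Finset.sum_induction _ (fun x => ∃ a ∈ polyLE k u v (m - 1),
      ∃ b ∈ polyLE k u v (m - 1), x = a + u * b) ?_ ?_ ?_
    · rintro x y ⟨a, ha, b, hb, rfl⟩ ⟨a', ha', b', hb', rfl⟩
      exact ⟨a + a', Submodule.add_mem _ ha ha', b + b', Submodule.add_mem _ hb hb', by ring⟩
    · exact ⟨0, Submodule.zero_mem _, 0, Submodule.zero_mem _, by simp⟩
    · intro p hp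
      have hpm := (Finsupp.mem_supported _ _).1 hc hp
      simp only [degSet, Set.mem_ofPred_eq] at hpm
      rcases hk p hp with h6 | h6
      · exact ⟨c p • mono2 u v p, Submodule.smul_mem _ _ (mono2_mem h6), 0,
          Submodule.zero_mem _, by simp⟩
      · rcases p with ⟨i, j⟩
        rcases i with _ | i
        · simp at h6
        · refine ⟨0, Submodule.zero_mem _, c (i + 1, j) • mono2 u v (i, j),
            Submodule.smul_mem _ _ (mono2_mem ?_), ?_⟩
          · simp only at hpm ⊢
            push_cast at hpm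
            omega
          · simp only [mono2, Algebra.smul_def]; ring
  exact this c hc key

end Field

end Crest.Agent.R169.P3
end

-- ▼ part R169/P3b
section

/-!
# Row 169, P2/P3, part b: third differences and homogeneous generators
(helper272)
-/

set_option autoImplicit false
set_option linter.unusedSectionVars false

namespace Crest.Agent.R169.P3

open Module

section Gen

variable {k K V : Type} [Field k] [Field K] [Algebra k K] [AddCommGroup V] [Module k V]
  [Module K V] [IsScalarTower k K V]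

/-- multiplication by `a` on subspaces -/
def sm (a : K) (E : Submodule k V) : Submodule k V := E.map (Algebra.lsmul k k V a)

lemma mem_sm {a : K} {E : Submodule k V} {x : V} : x ∈ sm a E ↔ ∃ y ∈ E, a • y = x := by
  simp [sm, Submodule.mem_map]

lemma sm_finrank {a : K} (ha : a ≠ 0) (E : Submodule k V) : finrank k (sm a E) = finrank k E := by
  have hinj : Function.Injective (Algebra.lsmul k k V a) := by
    intro x y h
    exact smul_right_injective V ha h
  exact (Submodule.equivMapOfInjective (Algebra.lsmul k k V a) hinj E).finrank_eq.symm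

instance sm_finite (a : K) (E : Submodule k V) [Module.Finite k E] : Module.Finite k (sm a E) := by
  unfold sm; infer_instance

/-- (Hu): `u` is injective on `gr E`. -/
def Hu (u : K) (E : ℤ → Submodule k V) : Prop :=
  ∀ m, ∀ x ∈ E m, u • x ∈ E m → x ∈ E (m - 1)

/-- (Hv): `v` is injective on `gr E / u gr E`. -/
def Hv (u v : K) (E : ℤ → Submodule k V) : Prop :=
  ∀ m, ∀ x ∈ E m, (∃ a ∈ E m, ∃ b ∈ E m, v • x = a + u • b) →
    ∃ a ∈ E (m - 1), ∃ b ∈ E (m - 1), x = a + u • b

/-- `S_m = E_m + u E_m` -/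
def SS (u : K) (E : ℤ → Submodule k V) (m : ℤ) : Submodule k V := E m ⊔ sm u (E m)

/-- `N_m = E_{m-1} + u E_{m-1} + v E_{m-1}` -/
def NN (u v : K) (E : ℤ → Submodule k V) (m : ℤ) : Submodule k V :=
  SS u E (m - 1) ⊔ sm v (E (m - 1))

lemma mem_SS {u : K} {E : ℤ → Submodule k V} {m : ℤ} {x : V} :
    x ∈ SS u E m ↔ ∃ a ∈ E m, ∃ b ∈ E m, x = a + u • b := by
  unfold SS
  rw [Submodule.mem_sup]
  constructor
  · rintro ⟨a, ha, y, hy, rfl⟩
    obtain ⟨b, hb, rfl⟩ := mem_sm.1 hy
    exact ⟨a, ha, b, hb, rfl⟩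
  · rintro ⟨a, ha, b, hb, rfl⟩
    exact ⟨a, ha, u • b, mem_sm.2 ⟨b, hb, rfl⟩, rfl⟩

lemma mem_NN {u v : K} {E : ℤ → Submodule k V} {m : ℤ} {x : V} :
    x ∈ NN u v E m ↔ ∃ a ∈ E (m - 1), ∃ b ∈ E (m - 1), ∃ c ∈ E (m - 1),
      x = a + u • b + v • c := by
  unfold NN
  rw [Submodule.mem_sup]
  constructor
  · rintro ⟨y, hy, z, hz, rfl⟩
    obtain ⟨a, ha, b, hb, rfl⟩ := mem_SS.1 hy
    obtain ⟨c, hc, rfl⟩ := mem_sm.1 hz
    exact ⟨a, ha, b, hb, c, hc, rfl⟩
  · rintro ⟨a, ha, b, hb, c, hc, rfl⟩
    exact ⟨a + u • b, mem_SS.2 ⟨a, ha, b, hb, rfl⟩, v • c, mem_sm.2 ⟨c, hc, rfl⟩, rfl⟩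

instance SS_finite (u : K) (E : ℤ → Submodule k V) [∀ m, Module.Finite k (E m)] (m : ℤ) :
    Module.Finite k (SS u E m) := by unfold SS; infer_instance

instance NN_finite (u v : K) (E : ℤ → Submodule k V) [∀ m, Module.Finite k (E m)] (m : ℤ) :
    Module.Finite k (NN u v E m) := by unfold NN; infer_instance

lemma NN_le {u v : K} {E : ℤ → Submodule k V} (hE : IsFam u v E) (m : ℤ) :
    NN u v E m ≤ E m := by
  intro x hx
  obtain ⟨a, ha, b, hb, c, hc, rfl⟩ := mem_NN.1 hx
  have h1 := hE.mono (m - 1) ha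
  have h2 := hE.umul (m - 1) b hb
  have h3 := hE.vmul (m - 1) c hc
  rw [sub_add_cancel] at h1 h2 h3
  exact Submodule.add_mem _ (Submodule.add_mem _ h1 h2) h3

lemma mono_le {u v : K} {E : ℤ → Submodule k V} (hE : IsFam u v E) {m m' : ℤ} (h : m ≤ m') :
    E m ≤ E m' := by
  obtain ⟨n, rfl⟩ := Int.le.dest h
  induction n with
  | zero => simp
  | succ n ih =>
    refine le_trans (ih (by omega)) ?_
    have := hE.mono (m + n)
    push_cast
    rwa [← add_assoc]

lemma poly_smul_mem {u v : K} {E : ℤ → Submodule k V} (hE : IsFam u v E) {i m : ℤ} {a : K}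
    {x : V} (ha : a ∈ polyLE k u v i) (hx : x ∈ E m) : a • x ∈ E (i + m) := by
  rw [polyLE_eq] at ha
  induction ha using Submodule.span_induction with
  | mem a h =>
    obtain ⟨p, hp, rfl⟩ := h
    have hp' : ((p.1 : ℤ) + p.2) ≤ i := hp
    have h1 : ∀ j : ℕ, v ^ j • x ∈ E (j + m) := by
      intro j
      induction j with
      | zero => simpa using hx
      | succ j ih =>
        have := hE.vmul _ _ ih
        rw [smul_smul, ← pow_succ'] at this
        convert this using 1
        push_cast; ring_nf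
    have h2 : ∀ j : ℕ, u ^ j • (v ^ p.2 • x) ∈ E (j + p.2 + m) := by
      intro j
      induction j with
      | zero => simpa using h1 p.2
      | succ j ih =>
        have := hE.umul _ _ ih
        rw [smul_smul, ← pow_succ'] at this
        convert this using 1
        push_cast; ring_nf
    have h3 := h2 p.1
    rw [smul_smul] at h3
    exact mono_le hE (by omega) h3
  | zero => rw [zero_smul]; exact Submodule.zero_mem _
  | add x y _ _ hx hy => rw [add_smul]; exact Submodule.add_mem _ hx hy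
  | smul a x _ hx => rw [smul_assoc]; exact Submodule.smul_mem _ _ hx

lemma finrank_SS {u v : K} (hu : u ≠ 0) {E : ℤ → Submodule k V} (hE : IsFam u v E)
    [∀ m, Module.Finite k (E m)] (hHu : Hu u E) (m : ℤ) :
    finrank k (SS u E m) + finrank k (E (m - 1)) = 2 * finrank k (E m) := by
  have h1 := Submodule.finrank_sup_add_finrank_inf_eq (E m) (sm u (E m))
  have h2 : E m ⊓ sm u (E m) = sm u (E (m - 1)) := by
    apply le_antisymm
    · rintro x ⟨hx1, hx2⟩
      obtain ⟨y, hy, rfl⟩ := mem_sm.1 hx2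
      exact mem_sm.2 ⟨y, hHu m y hy hx1, rfl⟩
    · intro x hx
      obtain ⟨y, hy, rfl⟩ := mem_sm.1 hx
      have h3 := hE.umul _ _ hy
      have h4 := hE.mono _ hy
      rw [sub_add_cancel] at h3 h4
      exact ⟨h3, mem_sm.2 ⟨y, h4, rfl⟩⟩
  rw [h2, sm_finrank hu, sm_finrank hu] at h1
  unfold SS
  omega

lemma finrank_NN {u v : K} (hu : u ≠ 0) (hv : v ≠ 0) {E : ℤ → Submodule k V}
    (hE : IsFam u v E) [∀ m, Module.Finite k (E m)] (hHu : Hu u E) (hHv : Hv u v E) (m : ℤ) :
    finrank k (NN u v E (m + 1)) + 3 * finrank k (E (m - 1)) =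
      3 * finrank k (E m) + finrank k (E (m - 2)) := by
  have h1 := Submodule.finrank_sup_add_finrank_inf_eq (SS u E m) (sm v (E m))
  have h2 : SS u E m ⊓ sm v (E m) = sm v (SS u E (m - 1)) := by
    apply le_antisymm
    · rintro x ⟨hx1, hx2⟩
      obtain ⟨y, hy, rfl⟩ := mem_sm.1 hx2
      exact mem_sm.2 ⟨y, mem_SS.2 (hHv m y hy (mem_SS.1 hx1)), rfl⟩
    · intro x hx
      obtain ⟨y, hy, rfl⟩ := mem_sm.1 hx
      obtain ⟨a, ha, b, hb, rfl⟩ := mem_SS.1 hy
      have h3 := hE.vmul _ _ ha
      have h4 := hE.vmul _ _ hb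
      have h5 := hE.umul _ _ hb
      have h6 := hE.mono _ ha
      rw [sub_add_cancel] at h3 h4 h5 h6
      refine ⟨mem_SS.2 ⟨v • a, h3, v • b, h4, ?_⟩, mem_sm.2 ⟨a + u • b,
        Submodule.add_mem _ h6 h5, rfl⟩⟩
      rw [smul_add, smul_comm v u]
  rw [h2, sm_finrank hv, sm_finrank hv] at h1
  have h3 := finrank_SS hu hE hHu m
  have h4 := finrank_SS hu hE hHu (m - 1)
  have h5 : m - 1 - 1 = m - 2 := by ring
  rw [h5] at h4
  have h6 : NN u v E (m + 1) = SS u E m ⊔ sm v (E m) := by
    unfold NN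
    rw [add_sub_cancel_right]
  rw [h6]
  omega

/-- without `Hv`: an inequality -/
lemma finrank_NN_le {u v : K} (hu : u ≠ 0) (hv : v ≠ 0) {E : ℤ → Submodule k V}
    (hE : IsFam u v E) [∀ m, Module.Finite k (E m)] (hHu : Hu u E) (m : ℤ) :
    finrank k (NN u v E (m + 1)) + 3 * finrank k (E (m - 1)) ≤
      3 * finrank k (E m) + finrank k (E (m - 2)) := by
  have h1 := Submodule.finrank_sup_add_finrank_inf_eq (SS u E m) (sm v (E m))
  have h2 : sm v (SS u E (m - 1)) ≤ SS u E m ⊓ sm v (E m) := by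
    intro x hx
    obtain ⟨y, hy, rfl⟩ := mem_sm.1 hx
    obtain ⟨a, ha, b, hb, rfl⟩ := mem_SS.1 hy
    have h3 := hE.vmul _ _ ha
    have h4 := hE.vmul _ _ hb
    have h5 := hE.umul _ _ hb
    have h6 := hE.mono _ ha
    rw [sub_add_cancel] at h3 h4 h5 h6
    refine ⟨mem_SS.2 ⟨v • a, h3, v • b, h4, ?_⟩, mem_sm.2 ⟨a + u • b,
      Submodule.add_mem _ h6 h5, rfl⟩⟩
    rw [smul_add, smul_comm v u]
  have h2' := Submodule.finrank_mono h2
  rw [sm_finrank hv] at h1 h2'
  have h3 := finrank_SS hu hE hHu m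
  have h4 := finrank_SS hu hE hHu (m - 1)
  have h5 : m - 1 - 1 = m - 2 := by ring
  rw [h5] at h4
  have h6 : NN u v E (m + 1) = SS u E m ⊔ sm v (E m) := by
    unfold NN
    rw [add_sub_cancel_right]
  rw [h6]
  omega

/-- number of generators in degree `m` -/
noncomputable def cc (u v : K) (E : ℤ → Submodule k V) (m : ℤ) : ℕ :=
  finrank k (E m) - finrank k (NN u v E m)

lemma cc_add {u v : K} {E : ℤ → Submodule k V} (hE : IsFam u v E)
    [∀ m, Module.Finite k (E m)] (m : ℤ) :
    cc u v E m + finrank k (NN u v E m) = finrank k (E m) := by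
  have := Submodule.finrank_mono (NN_le hE m)
  unfold cc
  omega

/-- complement to `N_m` in `E_m` -/
lemma exists_gens {u v : K} {E : ℤ → Submodule k V} (hE : IsFam u v E)
    [∀ m, Module.Finite k (E m)] (m : ℤ) :
    ∃ g : Fin (cc u v E m) → V, (∀ i, g i ∈ E m) ∧
      ∀ x ∈ E m, ∃ y ∈ NN u v E m, ∃ c : Fin (cc u v E m) → k, x = y + ∑ i, c i • g i := by
  set N' := (NN u v E m).submoduleOf (E m) with hN'
  have h1 : finrank k N' = finrank k (NN u v E m) :=
    (Submodule.submoduleOfEquivOfLe (NN_le hE m)).finrank_eq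
  have h2 := Submodule.finrank_quotient_add_finrank N'
  have h3 := cc_add hE m
  have h4 : finrank k (E m ⧸ N') = cc u v E m := by omega
  let b := Module.finBasisOfFinrankEq k (E m ⧸ N') h4
  refine ⟨fun i => ((Quotient.out (b i) : E m) : V), fun i => (Quotient.out (b i)).2, ?_⟩
  intro x hx
  set c := b.repr (N'.mkQ ⟨x, hx⟩) with hc
  refine ⟨x - ∑ i, c i • ((Quotient.out (b i) : E m) : V), ?_, c, by simp⟩
  have h5 : N'.mkQ (⟨x, hx⟩ - ∑ i, c i • (Quotient.out (b i) : E m)) = 0 := by
    rw [map_sub, map_sum]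
    have : ∀ i, N'.mkQ (c i • (Quotient.out (b i) : E m)) = c i • b i := by
      intro i
      rw [map_smul]
      congr 1
      exact Quotient.out_eq (b i)
    simp_rw [this]
    rw [hc, b.sum_repr, sub_self]
  rw [Submodule.mkQ_apply, Submodule.Quotient.mk_eq_zero] at h5
  have h6 : ((⟨x, hx⟩ - ∑ i, c i • (Quotient.out (b i) : E m) : E m) : V) ∈ NN u v E m := h5
  simpa using h6

end Gen

end Crest.Agent.R169.P3
end

-- ▼ part R169/P3c
section

/-!
# Row 169, P2/P3, part c: homogeneous generators, dimension count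
(helper272)
-/

set_option autoImplicit false
set_option linter.unusedSectionVars false

namespace Crest.Agent.R169.P3

open Module

lemma two_dimA {m : ℤ} (hm : -2 ≤ m) : 2 * (dimA m : ℤ) = (m + 1) * (m + 2) := by
  rcases lt_or_ge m (-1) with h | h
  · have : m = -2 := by omega
    subst this
    simp [dimA]
  · obtain ⟨n, hn⟩ : ∃ n : ℕ, m + 1 = n := ⟨(m + 1).toNat, by omega⟩
    have h1 : (m + 1).toNat = n := by omega
    have h2 : (m + 2).toNat = n + 1 := by omega
    have h3 : (m + 2) = (n : ℤ) + 1 := by omega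
    unfold dimA
    rw [h1, h2, h3, hn]
    have h4 : 2 ∣ n * (n + 1) := (Nat.even_mul_succ_self n).two_dvd
    have h5 := Nat.mul_div_cancel' h4
    exact_mod_cast h5

lemma dimA_neg {m : ℤ} (hm : m < 0) : dimA m = 0 := by
  have : (m + 1).toNat = 0 := by omega
  simp [dimA, this]

/-- third difference of `dimA` -/
lemma dimA_third (m : ℤ) : (dimA (m + 1) : ℤ) - 3 * dimA m + 3 * dimA (m - 1) - dimA (m - 2) =
    if m + 1 = 0 then 1 else 0 := by
  split_ifs with h
  · have : m = -1 := by omega
    subst this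
    simp [dimA]
  · rcases lt_or_ge (m + 1) 0 with h1 | h1
    · rw [dimA_neg h1, dimA_neg (by omega : m < 0), dimA_neg (by omega : m - 1 < 0),
        dimA_neg (by omega : m - 2 < 0)]
      simp
    · have e1 := two_dimA (by omega : -2 ≤ m + 1)
      have e2 := two_dimA (by omega : -2 ≤ m)
      have e3 := two_dimA (by omega : -2 ≤ m - 1)
      have e4 := two_dimA (by omega : -2 ≤ m - 2)
      have : 2 * ((dimA (m + 1) : ℤ) - 3 * dimA m + 3 * dimA (m - 1) - dimA (m - 2)) = 0 := by
        linear_combination e1 - 3 * e2 + 3 * e3 - e4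
      omega

section Gen

variable {k K V : Type} [Field k] [Field K] [Algebra k K] [AddCommGroup V] [Module k V]
  [Module K V] [IsScalarTower k K V]

/-- a sequence `ℤ → ℤ` with vanishing third difference and zero for `m ≪ 0` is zero -/
lemma third_zero {D : ℤ → ℤ} {m₀ : ℤ} (h0 : ∀ m ≤ m₀, D m = 0)
    (h : ∀ m, D (m + 1) - 3 * D m + 3 * D (m - 1) - D (m - 2) = 0) (m : ℤ) : D m = 0 := by
  have key : ∀ n : ℕ, D (m₀ + n) = 0 := by
    intro n
    induction n using Nat.strong_induction_on with
    | _ n ih =>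
      rcases n with _ | n
      · exact h0 _ (by simp)
      · have h1 := h (m₀ + n)
        have e1 : D (m₀ + n) = 0 := ih n (by omega)
        have e2 : D (m₀ + n - 1) = 0 := by
          rcases n with _ | n
          · exact h0 _ (by simp)
          · have := ih n (by omega)
            convert this using 2
            push_cast; ring
        have e3 : D (m₀ + n - 2) = 0 := by
          rcases n with _ | n
          · exact h0 _ (by simp)
          · rcases n with _ | n
            · exact h0 _ (by push_cast; omega)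
            · have := ih n (by omega)
              convert this using 2
              push_cast; ring
        rw [e1, e2, e3] at h1
        have : D (m₀ + n + 1) = 0 := by linarith
        convert this using 2
        push_cast; ring
  rcases le_total m m₀ with h1 | h1
  · exact h0 m h1
  · obtain ⟨n, rfl⟩ := Int.le.dest h1
    exact key n

/-- A finite homogeneous generating system: `n` generators `f j ∈ E (δ j)`,
`cc m` of them in degree `m`. -/
lemma exists_generators {u v : K} {E : ℤ → Submodule k V} (hE : IsFam u v E)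
    [∀ m, Module.Finite k (E m)] (m₀ m₁ : ℤ) (h0 : ∀ m ≤ m₀, E m = ⊥)
    (h1 : ∀ m > m₁, cc u v E m = 0) :
    ∃ (n : ℕ) (δ : Fin n → ℤ) (f : Fin n → V), (∀ j, f j ∈ E (δ j)) ∧
      (∀ φ : ℤ → ℤ, ∑ j, φ (δ j) = ∑ d ∈ Finset.Ioc m₀ m₁, (cc u v E d : ℤ) * φ d) ∧
      ∀ m, ∀ x ∈ E m, ∃ q : Fin n → K, (∀ j, q j ∈ polyLE k u v (m - δ j)) ∧
        x = ∑ j, q j • f j := by
  classical
  choose g hg hg2 using fun m => exists_gens hE m
  let J := Σ d : Finset.Ioc m₀ m₁, Fin (cc u v E d)
  let e : J ≃ Fin (Fintype.card J) := Fintype.equivFin J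
  refine ⟨Fintype.card J, fun j => (e.symm j).1, fun j => g (e.symm j).1 (e.symm j).2,
    fun j => hg _ _, ?_, ?_⟩
  · intro φ
    rw [Equiv.sum_comp e.symm (fun j : J => φ j.1)]
    rw [Fintype.sum_sigma]
    simp only [Finset.sum_const, Finset.card_univ, Fintype.card_fin, nsmul_eq_mul]
    exact Finset.sum_coe_sort (Finset.Ioc m₀ m₁) (fun d => (cc u v E d : ℤ) * φ d)
  · suffices H : ∀ n : ℕ, ∀ x ∈ E (m₀ + n), ∃ q : J → K,
        (∀ j, q j ∈ polyLE k u v (m₀ + n - j.1)) ∧ x = ∑ j, q j • g j.1 j.2 by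
      intro m x hx
      rcases le_total m m₀ with h2 | h2
      · rw [h0 m h2, Submodule.mem_bot] at hx
        exact ⟨0, fun j => Submodule.zero_mem _, by simp [hx]⟩
      · obtain ⟨n, rfl⟩ := Int.le.dest h2
        obtain ⟨q, hq, hq2⟩ := H n x hx
        refine ⟨fun j => q (e.symm j), fun j => hq _, ?_⟩
        rw [hq2, Equiv.sum_comp e.symm (fun j : J => q j • g j.1 j.2)]
    -- the top part
    have top : ∀ M > m₀, ∀ c : Fin (cc u v E M) → k, ∃ q : J → K,
        (∀ j, q j ∈ polyLE k u v (M - j.1)) ∧ ∑ i, c i • g M i = ∑ j, q j • g j.1 j.2 := by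
      intro M hM0 c
      by_cases hMm : M ∈ Finset.Ioc m₀ m₁
      · refine ⟨fun j => if h : (j.1 : ℤ) = M then
            algebraMap k K (c (Fin.cast (congrArg (cc u v E) h) j.2)) else 0, ?_, ?_⟩
        · intro j
          simp only
          split_ifs with h
          · rw [Algebra.algebraMap_eq_smul_one]
            refine Submodule.smul_mem _ _ (one_mem_polyLE ?_)
            rw [h]; simp
          · exact Submodule.zero_mem _
        · rw [Fintype.sum_sigma]
          rw [Finset.sum_eq_single (⟨M, hMm⟩ : Finset.Ioc m₀ m₁)]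
          · refine Finset.sum_congr rfl fun i _ => ?_
            simp only [dite_true, algebraMap_smul, Fin.cast_refl, id]
          · intro d _ hd
            refine Finset.sum_eq_zero fun i _ => ?_
            have : ¬ ((d : ℤ) = M) := fun h => hd (Subtype.ext h)
            simp only [dif_neg this, zero_smul]
          · intro h; exact absurd (Finset.mem_univ _) h
      · have hM1 : M > m₁ := by
          rw [Finset.mem_Ioc] at hMm
          push Not at hMm
          exact hMm hM0
        have hM2 := h1 M hM1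
        refine ⟨0, fun j => Submodule.zero_mem _, ?_⟩
        have : IsEmpty (Fin (cc u v E M)) := by rw [hM2]; infer_instance
        simp
    intro n
    induction n with
    | zero =>
      intro x hx
      rw [h0 _ (by simp), Submodule.mem_bot] at hx
      exact ⟨0, fun j => Submodule.zero_mem _, by simp [hx]⟩
    | succ n ih =>
      intro x hx
      obtain ⟨y, hy, c, hyc⟩ := hg2 _ x hx
      obtain ⟨a, ha, b, hb, w, hw, rfl⟩ := mem_NN.1 hy
      have e1 : m₀ + ((n + 1 : ℕ) : ℤ) - 1 = m₀ + n := by push_cast; ring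
      rw [e1] at ha hb hw
      obtain ⟨qa, hqa, rfl⟩ := ih a ha
      obtain ⟨qb, hqb, rfl⟩ := ih b hb
      obtain ⟨qw, hqw, rfl⟩ := ih w hw
      obtain ⟨qt, hqt, hqt2⟩ := top (m₀ + ((n + 1 : ℕ) : ℤ)) (by push_cast; omega) c
      refine ⟨fun j => qa j + u * qb j + v * qw j + qt j, ?_, ?_⟩
      · intro j
        have e2 : m₀ + (n : ℤ) - (j.1 : ℤ) + 1 = m₀ + ((n + 1 : ℕ) : ℤ) - j.1 := by
          push_cast; ring
        refine Submodule.add_mem _ (Submodule.add_mem _ (Submodule.add_mem _
          (polyLE_mono ?_ (hqa j)) ?_) ?_) (hqt j)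
        · push_cast; omega
        · have := u_mul_mem (hqb j)
          rwa [e2] at this
        · have := v_mul_mem (hqw j)
          rwa [e2] at this
      · rw [hyc, hqt2]
        simp only [add_smul, mul_smul, Finset.sum_add_distrib, Finset.smul_sum]

/-- third difference identity `Δ³ dim E = cc` -/
lemma third_eq {u v : K} (hu : u ≠ 0) (hv : v ≠ 0) {E : ℤ → Submodule k V}
    (hE : IsFam u v E) [∀ m, Module.Finite k (E m)] (hHu : Hu u E) (hHv : Hv u v E) (m : ℤ) :
    (finrank k (E (m + 1)) : ℤ) - 3 * finrank k (E m) + 3 * finrank k (E (m - 1)) -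
      finrank k (E (m - 2)) = cc u v E (m + 1) := by
  have h1 := finrank_NN hu hv hE hHu hHv m
  have h2 := cc_add hE (m + 1)
  omega

/-- dimension formula for a family with both injectivity conditions -/
lemma dim_formula {u v : K} (hu : u ≠ 0) (hv : v ≠ 0) {E : ℤ → Submodule k V}
    (hE : IsFam u v E) [∀ m, Module.Finite k (E m)] (hHu : Hu u E) (hHv : Hv u v E)
    (m₀ m₁ : ℤ) (h0 : ∀ m ≤ m₀, E m = ⊥) (h1 : ∀ m > m₁, cc u v E m = 0) (m : ℤ) :
    (finrank k (E m) : ℤ) = ∑ d ∈ Finset.Ioc m₀ m₁, (cc u v E d : ℤ) * dimA (m - d) := by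
  have key := third_zero (D := fun m => (finrank k (E m) : ℤ) -
    ∑ d ∈ Finset.Ioc m₀ m₁, (cc u v E d : ℤ) * dimA (m - d)) (m₀ := m₀) ?_ ?_ m
  · simpa [sub_eq_zero] using key
  · intro m hm
    rw [h0 m hm]
    have : ∑ d ∈ Finset.Ioc m₀ m₁, (cc u v E d : ℤ) * dimA (m - d) = 0 := by
      refine Finset.sum_eq_zero fun d hd => ?_
      rw [Finset.mem_Ioc] at hd
      rw [dimA_neg (by omega)]
      simp
    rw [this]
    simp
  · intro m
    have h2 := third_eq hu hv hE hHu hHv m
    have h3 : ∑ d ∈ Finset.Ioc m₀ m₁, (cc u v E d : ℤ) * dimA (m + 1 - d) -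
        3 * ∑ d ∈ Finset.Ioc m₀ m₁, (cc u v E d : ℤ) * dimA (m - d) +
        3 * ∑ d ∈ Finset.Ioc m₀ m₁, (cc u v E d : ℤ) * dimA (m - 1 - d) -
        ∑ d ∈ Finset.Ioc m₀ m₁, (cc u v E d : ℤ) * dimA (m - 2 - d) = cc u v E (m + 1) := by
      rw [Finset.mul_sum, Finset.mul_sum, ← Finset.sum_sub_distrib, ← Finset.sum_add_distrib,
        ← Finset.sum_sub_distrib]
      have h4 : ∀ d ∈ Finset.Ioc m₀ m₁, ((cc u v E d : ℤ) * dimA (m + 1 - d) -
          3 * ((cc u v E d : ℤ) * dimA (m - d)) + 3 * ((cc u v E d : ℤ) * dimA (m - 1 - d)) -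
          (cc u v E d : ℤ) * dimA (m - 2 - d)) =
          if m + 1 = d then (cc u v E d : ℤ) else 0 := by
        intro d _
        have := dimA_third (m - d)
        have e1 : m - d + 1 = m + 1 - d := by ring
        have e2 : m - d - 1 = m - 1 - d := by ring
        have e3 : m - d - 2 = m - 2 - d := by ring
        rw [e1, e2, e3] at this
        have h5 : (m + 1 - d = 0) ↔ (m + 1 = d) := sub_eq_zero
        rw [if_congr h5 rfl rfl] at this
        split_ifs at this ⊢ with h6
        · linear_combination (cc u v E d : ℤ) * this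
        · linear_combination (cc u v E d : ℤ) * this
      rw [Finset.sum_congr rfl h4, Finset.sum_ite_eq]
      split_ifs with h5
      · rfl
      · rw [Finset.mem_Ioc] at h5
        push Not at h5
        rcases le_or_gt (m + 1) m₀ with h6 | h6
        · unfold cc
          rw [h0 _ h6]
          simp
        · rw [h1 _ (by have := h5 h6; omega)]
          simp
    linarith

end Gen

end Crest.Agent.R169.P3
end

-- ▼ part R169/P3d
section

/-!
# Row 169, P2/P3, part d: the length one resolution under (Hu)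
(helper272)
-/

set_option autoImplicit false
set_option linter.unusedSectionVars false
set_option linter.unusedVariables false

namespace Crest.Agent.R169.P3

open Module

section Free

variable {k K : Type} [Field k] [Field K] [Algebra k K] {u v : K}

lemma u_ne_zero (h : MonoIndep k u v) : u ≠ 0 := by
  have := h.ne_zero (1, 0)
  simpa [mono2] using this

lemma v_ne_zero (h : MonoIndep k u v) : v ≠ 0 := by
  have := h.ne_zero (0, 1)
  simpa [mono2] using this

lemma mem_freeL {I : Type} {d : I → ℤ} {m : ℤ} {g : I → K} :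
    g ∈ freeL k u v d m ↔ ∀ i, g i ∈ polyLE k u v (m - d i) := by
  simp [freeL, Submodule.mem_pi]

lemma freeL_isFam {I : Type} (d : I → ℤ) : IsFam (k := k) u v (freeL k u v d) where
  mono m := by
    intro g hg
    rw [mem_freeL] at hg ⊢
    exact fun i => polyLE_mono (by omega) (hg i)
  umul m g hg := by
    rw [mem_freeL] at hg ⊢
    intro i
    have := u_mul_mem (hg i)
    have e : m - d i + 1 = m + 1 - d i := by ring
    rw [e] at this
    simpa using this
  vmul m g hg := by
    rw [mem_freeL] at hg ⊢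
    intro i
    have := v_mul_mem (hg i)
    have e : m - d i + 1 = m + 1 - d i := by ring
    rw [e] at this
    simpa using this

/-- `freeL` as a product -/
noncomputable def freeLEquiv {I : Type} (d : I → ℤ) (m : ℤ) :
    freeL k u v d m ≃ₗ[k] (∀ i, polyLE k u v (m - d i)) where
  toFun g i := ⟨g.1 i, mem_freeL.1 g.2 i⟩
  invFun g := ⟨fun i => (g i : K), mem_freeL.2 fun i => (g i).2⟩
  left_inv g := rfl
  right_inv g := rfl
  map_add' g h := rfl
  map_smul' c g := rfl

instance freeL_finite {I : Type} [Finite I] (d : I → ℤ) (m : ℤ) :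
    Module.Finite k (freeL k u v d m) :=
  Module.Finite.equiv (freeLEquiv d m).symm

lemma finrank_freeL {I : Type} [Fintype I] (h : MonoIndep k u v) (d : I → ℤ) (m : ℤ) :
    finrank k (freeL k u v d m) = ∑ i, dimA (m - d i) := by
  rw [(freeLEquiv d m).finrank_eq, Module.finrank_pi_fintype]
  exact Finset.sum_congr rfl fun i _ => finrank_polyLE h _

lemma freeL_Hu {I : Type} (h : MonoIndep k u v) (d : I → ℤ) :
    Hu (k := k) u (freeL k u v d) := by
  intro m g hg hug
  rw [mem_freeL] at hg hug ⊢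
  intro i
  have := polyLE_Hu h (hg i) (by simpa using hug i)
  have e : m - d i - 1 = m - 1 - d i := by ring
  rwa [e] at this

lemma freeL_Hv {I : Type} (h : MonoIndep k u v) (d : I → ℤ) :
    Hv (k := k) u v (freeL k u v d) := by
  intro m g hg ⟨a, ha, b, hb, hab⟩
  rw [mem_freeL] at hg ha hb
  have key : ∀ i, ∃ a ∈ polyLE k u v (m - d i - 1), ∃ b ∈ polyLE k u v (m - d i - 1),
      g i = a + u * b := by
    intro i
    refine polyLE_Hv h (hg i) ⟨a i, ha i, b i, hb i, ?_⟩
    have := congrFun hab i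
    simpa using this
  choose a' ha' b' hb' hab' using key
  have e : ∀ i, m - d i - 1 = m - 1 - d i := fun i => by ring
  refine ⟨a', mem_freeL.2 fun i => by rw [← e]; exact ha' i, b',
    mem_freeL.2 fun i => by rw [← e]; exact hb' i, ?_⟩
  funext i
  simpa using hab' i

lemma freeL_bot {I : Type} {d : I → ℤ} {m₀ : ℤ} (h : ∀ i, m₀ < d i) {m : ℤ} (hm : m ≤ m₀) :
    freeL k u v d m = ⊥ := by
  rw [eq_bot_iff]
  intro g hg
  rw [mem_freeL] at hg
  rw [Submodule.mem_bot]
  funext i
  have := hg i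
  rw [polyLE_neg (by have := h i; omega)] at this
  simpa using this

end Free

section Core

variable {k K V : Type} [Field k] [Field K] [Algebra k K] [AddCommGroup V] [Module k V]
  [Module K V] [IsScalarTower k K V] {u v : K}

lemma isFam_of_isLat {E : ℤ → Submodule k V} (hE : IsLat u v E) : IsFam u v E :=
  ⟨hE.mono, hE.umul, hE.vmul⟩

lemma cc_zero_of_isLat {E : ℤ → Submodule k V} (hE : IsLat u v E) :
    ∃ m₁ : ℤ, ∀ m > m₁, cc u v E m = 0 := by
  obtain ⟨m₁, h⟩ := hE.gen
  refine ⟨m₁, fun m hm => ?_⟩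
  have := hE.fin
  have h2 : E m ≤ NN u v E m := by
    intro x hx
    have h3 := h (m - 1) (by omega) x (by rwa [sub_add_cancel])
    exact mem_NN.2 h3
  unfold cc
  have h4 := Submodule.finrank_mono h2
  omega

/-- kernel-image dimension count -/
lemma finrank_ker_map {W : Type} [AddCommGroup W] [Module k W] (π : W →ₗ[k] V)
    (L : Submodule k W) [Module.Finite k L] :
    finrank k (L ⊓ LinearMap.ker π : Submodule k W) + finrank k (L.map π) = finrank k L := by
  have h1 := LinearMap.finrank_range_add_finrank_ker (π.domRestrict L)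
  rw [LinearMap.range_domRestrict] at h1
  have h2 : LinearMap.ker (π.domRestrict L) = (L ⊓ LinearMap.ker π).submoduleOf L := by
    ext x
    simp [Submodule.submoduleOf]
  rw [h2, (Submodule.submoduleOfEquivOfLe
    (inf_le_left : L ⊓ LinearMap.ker π ≤ L)).finrank_eq] at h1
  omega

/-- every element of `K` is a fraction of polynomials -/
def HasFrac (k : Type) {K : Type} [Field k] [Field K] [Algebra k K] (u v : K) : Prop :=
  ∀ q : K, ∃ m : ℤ, ∃ a ∈ polyLE k u v m, ∃ b ∈ polyLE k u v m, b ≠ 0 ∧ b * q = a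

lemma common_denom (hf : HasFrac k u v) {n : ℕ} (q : Fin n → K) :
    ∃ b : K, b ≠ 0 ∧ ∃ m : ℤ, 0 ≤ m ∧ b ∈ polyLE k u v m ∧ ∀ i, b * q i ∈ polyLE k u v m := by
  induction n with
  | zero => exact ⟨1, one_ne_zero, 0, le_rfl, one_mem_polyLE le_rfl, fun i => i.elim0⟩
  | succ n ih =>
    obtain ⟨b, hb, m, hm, hbm, h⟩ := ih (fun i => q i.succ)
    obtain ⟨m', a, ha, b', hb', hb0, hba⟩ := hf (q 0)
    have hm' : 0 ≤ m' := by
      by_contra hcon
      rw [polyLE_neg (by omega), Submodule.mem_bot] at hb'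
      exact hb0 hb'
    refine ⟨b * b', mul_ne_zero hb hb0, m + m', by omega, mul_mem_polyLE hbm hb', ?_⟩
    intro i
    refine Fin.cases ?_ ?_ i
    · rw [mul_assoc, hba]
      exact mul_mem_polyLE hbm ha
    · intro i
      have : b * b' * q i.succ = (b * q i.succ) * b' := by ring
      rw [this]
      exact mul_mem_polyLE (h i) hb'

/-- the eventual vanishing of the third difference of `dim E_m` for a lattice with (Hu) -/
lemma third_eventually (hmi : MonoIndep k u v) {E : ℤ → Submodule k V} (hE : IsLat u v E)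
    (hHu : Hu u E) :
    ∃ M : ℤ, ∀ m ≥ M, (finrank k (E (m + 1)) : ℤ) - 3 * finrank k (E m) +
      3 * finrank k (E (m - 1)) - finrank k (E (m - 2)) = 0 := by
  have hfin := hE.fin
  have hFam := isFam_of_isLat hE
  obtain ⟨m₁, h1⟩ := cc_zero_of_isLat hE
  -- second difference
  let β : ℤ → ℤ := fun m => (finrank k (E m) : ℤ) - 2 * finrank k (E (m - 1)) +
    finrank k (E (m - 2))
  have hβ0 : ∀ m, 0 ≤ β m := by
    intro m
    have h2 := finrank_SS (u_ne_zero hmi) hFam hHu (m - 1)
    have h3 : SS u E (m - 1) ≤ E m := by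
      refine le_trans ?_ (NN_le hFam m)
      exact le_sup_left
    have h4 := Submodule.finrank_mono h3
    have h5 : m - 1 - 1 = m - 2 := by ring
    rw [h5] at h2
    simp only [β]
    omega
  have hβ1 : ∀ m ≥ m₁, β (m + 1) ≤ β m := by
    intro m hm
    have h2 := finrank_NN_le (u_ne_zero hmi) (v_ne_zero hmi) hFam hHu m
    have h3 := cc_add (u := u) (v := v) hFam (m + 1)
    have h4 := h1 (m + 1) (by omega)
    simp only [β]
    have h5 : m + 1 - 1 = m := by ring
    have h6 : m + 1 - 2 = m - 1 := by ring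
    rw [h5, h6]
    omega
  -- a nonincreasing nonnegative sequence is eventually constant
  let s : ℕ → ℕ := fun n => (β (m₁ + n)).toNat
  have hs : Antitone s := by
    apply antitone_nat_of_succ_le
    intro n
    simp only [s]
    have := hβ1 (m₁ + n) (by omega)
    have e : m₁ + ((n + 1 : ℕ) : ℤ) = m₁ + n + 1 := by push_cast; ring
    rw [e]
    omega
  obtain ⟨N, hN⟩ : ∃ N, ∀ n ≥ N, s n = s N := by
    obtain ⟨N, hN⟩ := WellFounded.has_min (wellFounded_lt (α := ℕ)) (Set.range s) ⟨s 0, 0, rfl⟩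
    obtain ⟨⟨N', rfl⟩, hN2⟩ := hN
    refine ⟨N', fun n hn => le_antisymm (hs hn) ?_⟩
    have := hN2 (s n) ⟨n, rfl⟩
    omega
  refine ⟨m₁ + N, fun m hm => ?_⟩
  obtain ⟨n, rfl⟩ : ∃ n : ℕ, m = m₁ + n := ⟨(m - m₁).toNat, by omega⟩
  have h2 := hN n (by omega)
  have h3 := hN (n + 1) (by omega)
  simp only [s] at h2 h3
  have e : m₁ + ((n + 1 : ℕ) : ℤ) = m₁ + n + 1 := by push_cast; ring
  rw [e] at h3
  have h4 := hβ0 (m₁ + n)
  have h5 := hβ0 (m₁ + n + 1)
  have h6 : β (m₁ + n + 1) = β (m₁ + n) := by omega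
  simp only [β] at h6
  have e1 : m₁ + (n : ℤ) + 1 - 1 = m₁ + n := by ring
  have e2 : m₁ + (n : ℤ) + 1 - 2 = m₁ + n - 1 := by ring
  rw [e1, e2] at h6
  omega

theorem resol_core (hmi : MonoIndep k u v) (hfr : HasFrac k u v) {E : ℤ → Submodule k V}
    (hE : IsLat u v E) (hHu : Hu u E) :
    ∃ (r s : ℕ) (d : Fin r → ℤ) (e : Fin r → V) (δ : Fin s → ℤ) (f : Fin s → Fin r → K),
      IsResol u v E d e δ f := by
  classical
  have hfin := hE.fin
  have hFam := isFam_of_isLat hE
  have hu := u_ne_zero hmi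
  have hv := v_ne_zero hmi
  obtain ⟨m₀, h0⟩ := hE.bot
  obtain ⟨m₁, h1⟩ := cc_zero_of_isLat hE
  obtain ⟨r, d, e, he, hsum, hgen⟩ := exists_generators hFam m₀ m₁ h0 h1
  let π : (Fin r → K) →ₗ[K] V := Fintype.linearCombination K e
  have hπ : ∀ g, π g = ∑ i, g i • e i := fun g => rfl
  let πk : (Fin r → K) →ₗ[k] V := π.restrictScalars k
  -- `E m` is the image of `L m`
  have hmap : ∀ m, (freeL k u v d m).map πk = E m := by
    intro m
    apply le_antisymm
    · rintro _ ⟨g, hg, rfl⟩
      change π g ∈ E m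
      rw [hπ]
      refine Submodule.sum_mem _ fun i _ => ?_
      have := poly_smul_mem hFam (mem_freeL.1 hg i) (he i)
      rwa [sub_add_cancel] at this
    · intro x hx
      obtain ⟨q, hq, rfl⟩ := hgen m x hx
      exact ⟨q, mem_freeL.2 hq, rfl⟩
  let KK : ℤ → Submodule k (Fin r → K) := fun m => freeL k u v d m ⊓ LinearMap.ker πk
  have memKK : ∀ m g, g ∈ KK m ↔ g ∈ freeL k u v d m ∧ π g = 0 := fun m g => Iff.rfl
  have hKfin : ∀ m, Module.Finite k (KK m) := fun m =>
    Submodule.finiteDimensional_of_le (inf_le_left : KK m ≤ freeL k u v d m)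
  have hKFam : IsFam u v KK := by
    refine ⟨fun m g hg => ?_, fun m g hg => ?_, fun m g hg => ?_⟩
    · exact ⟨(freeL_isFam d).mono m hg.1, hg.2⟩
    · exact ⟨(freeL_isFam d).umul m g hg.1, by
        change π (u • g) = 0
        rw [map_smul, ((memKK m g).1 hg).2, smul_zero]⟩
    · exact ⟨(freeL_isFam d).vmul m g hg.1, by
        change π (v • g) = 0
        rw [map_smul, ((memKK m g).1 hg).2, smul_zero]⟩
  have hKHu : Hu u KK := by
    intro m g hg hug
    exact ⟨freeL_Hu hmi d m g hg.1 hug.1, hg.2⟩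
  have hKHv : Hv u v KK := by
    intro m g hg ⟨a, ha, b, hb, hab⟩
    obtain ⟨a', ha', b', hb', hab'⟩ := freeL_Hv hmi d m g hg.1 ⟨a, ha.1, b, hb.1, hab⟩
    -- `π b' ∈ E (m - 1)`, `u • π b' = - π a' ∈ E (m-1)`
    have h2 : π a' + u • π b' = 0 := by
      have := ((memKK m g).1 hg).2
      rw [hab', map_add, map_smul] at this
      exact this
    have h3 : π a' ∈ E (m - 1) := by rw [← hmap]; exact ⟨a', ha', rfl⟩
    have h4 : π b' ∈ E (m - 1) := by rw [← hmap]; exact ⟨b', hb', rfl⟩
    have h5 : u • π b' ∈ E (m - 1) := by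
      have : u • π b' = - π a' := by rw [eq_neg_iff_add_eq_zero, add_comm]; exact h2
      rw [this]
      exact Submodule.neg_mem _ h3
    have h6 := hHu _ _ h4 h5
    rw [← hmap] at h6
    obtain ⟨c, hc, hc2⟩ := h6
    have hc2' : π c = π b' := hc2
    have e1 : m - 1 - 1 + 1 = m - 1 := by ring
    have hc3 : c ∈ freeL k u v d (m - 1) := by
      have := (freeL_isFam d).mono (m - 1 - 1) hc
      rwa [e1] at this
    have hc4 : u • c ∈ freeL k u v d (m - 1) := by
      have := (freeL_isFam d).umul (m - 1 - 1) c hc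
      rwa [e1] at this
    refine ⟨a' + u • c, ⟨Submodule.add_mem _ ha' hc4, ?_⟩, b' - c,
      ⟨Submodule.sub_mem _ hb' hc3, ?_⟩, ?_⟩
    · change π (a' + u • c) = 0
      rw [map_add, map_smul, hc2']; exact h2
    · change π (b' - c) = 0
      rw [map_sub, hc2', sub_self]
    · rw [hab', smul_sub]; abel
  -- dimension count
  have hdim : ∀ m, (finrank k (KK m) : ℤ) + finrank k (E m) = ∑ i, (dimA (m - d i) : ℤ) := by
    intro m
    have h2 := finrank_ker_map πk (freeL k u v d m)
    rw [hmap, finrank_freeL hmi] at h2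
    exact_mod_cast h2
  obtain ⟨M, hM⟩ := third_eventually hmi hE hHu
  have hsum3 : ∀ m, ∑ i, (dimA (m - d i) : ℤ) =
      ∑ x ∈ Finset.Ioc m₀ m₁, (cc u v E x : ℤ) * dimA (m - x) := fun m =>
    hsum (fun x => (dimA (m - x) : ℤ))
  have hKcc : ∀ m > max M m₁, cc u v KK m = 0 := by
    intro m hm
    have h2 := third_eq hu hv hKFam hKHu hKHv (m - 1)
    have h3 := hM (m - 1) (by omega)
    have h4 : (∑ i, (dimA (m - 1 + 1 - d i) : ℤ)) - 3 * ∑ i, (dimA (m - 1 - d i) : ℤ) +
        3 * ∑ i, (dimA (m - 1 - 1 - d i) : ℤ) - ∑ i, (dimA (m - 1 - 2 - d i) : ℤ) = 0 := by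
      rw [hsum3, hsum3, hsum3, hsum3, Finset.mul_sum, Finset.mul_sum,
        ← Finset.sum_sub_distrib, ← Finset.sum_add_distrib, ← Finset.sum_sub_distrib]
      refine Finset.sum_eq_zero fun x hx => ?_
      rw [Finset.mem_Ioc] at hx
      have := dimA_third (m - 1 - x)
      have e1 : m - 1 - x + 1 = m - 1 + 1 - x := by ring
      have e2 : m - 1 - x - 1 = m - 1 - 1 - x := by ring
      have e3 : m - 1 - x - 2 = m - 1 - 2 - x := by ring
      rw [e1, e2, e3, if_neg (by omega)] at this
      linear_combination (cc u v E x : ℤ) * this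
    have h5 := hdim (m - 1 + 1)
    have h6 := hdim (m - 1)
    have h7 := hdim (m - 1 - 1)
    have h8 := hdim (m - 1 - 2)
    have h9 : (cc u v KK (m - 1 + 1) : ℤ) = 0 := by linarith
    rw [sub_add_cancel] at h9
    exact_mod_cast h9
  have hK0 : ∀ m ≤ m₀, KK m = ⊥ := by
    intro m hm
    have h2 : ∑ i, (dimA (m - d i) : ℤ) = 0 := by
      rw [hsum3]
      refine Finset.sum_eq_zero fun x hx => ?_
      rw [Finset.mem_Ioc] at hx
      rw [dimA_neg (by omega)]
      simp
    have h3 := hdim m
    have h4 : finrank k (KK m) = 0 := by omega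
    exact Submodule.finrank_eq_zero.1 h4
  obtain ⟨s, δ, f, hf, hsumK, hgenK⟩ := exists_generators hKFam m₀ (max M m₁) hK0 hKcc
  have hdimK : ∀ m, (finrank k (KK m) : ℤ) = ∑ j, (dimA (m - δ j) : ℤ) := by
    intro m
    rw [dim_formula hu hv hKFam hKHu hKHv m₀ (max M m₁) hK0 hKcc m]
    exact (hsumK (fun x => (dimA (m - x) : ℤ))).symm
  let ρ : (Fin s → K) →ₗ[K] (Fin r → K) := Fintype.linearCombination K f
  have hρ : ∀ g, ρ g = ∑ j, g j • f j := fun g => rfl
  let ρk : (Fin s → K) →ₗ[k] (Fin r → K) := ρ.restrictScalars k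
  have hmapK : ∀ m, (freeL k u v δ m).map ρk = KK m := by
    intro m
    apply le_antisymm
    · rintro _ ⟨g, hg, rfl⟩
      change ρ g ∈ KK m
      rw [hρ]
      refine Submodule.sum_mem _ fun i _ => ?_
      have := poly_smul_mem hKFam (mem_freeL.1 hg i) (hf i)
      rwa [sub_add_cancel] at this
    · intro x hx
      obtain ⟨q, hq, rfl⟩ := hgenK m x hx
      exact ⟨q, mem_freeL.2 hq, rfl⟩
  have hinj : ∀ m, ∀ g ∈ freeL k u v δ m, ρ g = 0 → g = 0 := by
    intro m g hg hg0
    have h2 := finrank_ker_map ρk (freeL k u v δ m)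
    rw [hmapK, finrank_freeL hmi] at h2
    have h3 := hdimK m
    have h4 : finrank k (freeL k u v δ m ⊓ LinearMap.ker ρk : Submodule k (Fin s → K)) = 0 := by
      have : (∑ j, dimA (m - δ j) : ℕ) = finrank k (KK m) := by exact_mod_cast h3.symm
      omega
    have h5 : (freeL k u v δ m ⊓ LinearMap.ker ρk : Submodule k (Fin s → K)) = ⊥ := by
      have : Module.Finite k (freeL k u v δ m ⊓ LinearMap.ker ρk : Submodule k (Fin s → K)) :=
        Submodule.finiteDimensional_of_le inf_le_left
      exact Submodule.finrank_eq_zero.1 h4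
    have h6 : g ∈ (freeL k u v δ m ⊓ LinearMap.ker ρk : Submodule k (Fin s → K)) := ⟨hg, hg0⟩
    rw [h5] at h6
    simpa using h6
  -- a vector with polynomial entries lies in some `freeL`
  have hlarge : ∀ {n : ℕ} (δ' : Fin n → ℤ) (m : ℤ) (g : Fin n → K),
      (∀ i, g i ∈ polyLE k u v m) → ∃ M : ℤ, g ∈ freeL k u v δ' M := by
    intro n δ' m g hg
    obtain ⟨B, hB⟩ : ∃ B : ℤ, ∀ i, δ' i ≤ B := by
      refine ⟨∑ i, |δ' i|, fun i => le_trans (le_abs_self _) ?_⟩
      exact Finset.single_le_sum (f := fun i => |δ' i|) (fun _ _ => abs_nonneg _)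
        (Finset.mem_univ i)
    refine ⟨m + B, mem_freeL.2 fun i => polyLE_mono ?_ (hg i)⟩
    have := hB i
    omega
  refine ⟨r, s, d, e, δ, f, he, ?_, ?_, ?_, ?_, ?_⟩
  · intro j i
    exact mem_freeL.1 (hf j).1 i
  · intro m x
    constructor
    · intro hx
      exact hgen m x hx
    · rintro ⟨g, hg, rfl⟩
      rw [← hmap]
      exact ⟨g, mem_freeL.2 hg, rfl⟩
  · rw [Fintype.linearIndependent_iff]
    intro g hg
    obtain ⟨b, hb, m, _, hbm, h⟩ := common_denom hfr g
    obtain ⟨M', hM'⟩ := hlarge δ m (b • g) (by simpa using h)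
    have h2 : ρ (b • g) = 0 := by
      rw [map_smul, hρ, hg, smul_zero]
    have h3 := hinj M' _ hM' h2
    intro i
    have h4 := congrFun h3 i
    simpa [hb] using h4
  · intro g
    constructor
    · intro hg
      obtain ⟨b, hb, m, _, hbm, h⟩ := common_denom hfr g
      obtain ⟨M', hM'⟩ := hlarge d m (b • g) (by simpa using h)
      have h2 : b • g ∈ KK M' := by
        refine ⟨hM', ?_⟩
        change π (b • g) = 0
        rw [map_smul, hπ, hg, smul_zero]
      rw [← hmapK] at h2
      obtain ⟨q, _, hq2⟩ := h2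
      have h3 : b • g ∈ Submodule.span K (Set.range f) := by
        rw [← hq2]
        change ρ q ∈ _
        rw [hρ]
        exact Submodule.sum_mem _ fun j _ =>
          Submodule.smul_mem _ _ (Submodule.subset_span ⟨j, rfl⟩)
      have h4 := Submodule.smul_mem _ b⁻¹ h3
      rwa [smul_smul, inv_mul_cancel₀ hb, one_smul] at h4
    · intro hg
      have h2 : Submodule.span K (Set.range f) ≤ LinearMap.ker π := by
        rw [Submodule.span_le]
        rintro _ ⟨j, rfl⟩
        exact (hf j).2
      exact h2 hg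
  · intro m
    have h2 := hdim m
    have h3 := hdimK m
    rw [h3] at h2
    have h4 : ((finrank k (E m) + ∑ j, dimA (m - δ j) : ℕ) : ℤ) =
        ((∑ i, dimA (m - d i) : ℕ) : ℤ) := by
      push_cast
      linarith
    exact_mod_cast h4

end Core

end Crest.Agent.R169.P3
end

-- ▼ part R169/P3e

/-!
# Row 169, P2/P3, part e: change of coordinates `l = u + t v`, resolution of a saturated lattice
(helper272)
-/

set_option autoImplicit false
set_option linter.unusedSectionVars false
set_option linter.unusedVariables false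

namespace Crest.Agent.R169.P3

open Module

section Rat

variable {k K : Type} [Field k] [Field K] [Algebra k K] {u v : K}

lemma monoIndep_of_isRat (h : AlgebraicIndependent k ![u, v]) : MonoIndep k u v := by
  unfold MonoIndep
  have h1 := (MvPolynomial.basisMonomials (Fin 2) k).linearIndependent
  have h2 : LinearMap.ker (MvPolynomial.aeval (R := k) ![u, v]).toLinearMap = ⊥ :=
    LinearMap.ker_eq_bot.2 h
  have h3 := h1.map' _ h2
  let φ : ℕ × ℕ → (Fin 2 →₀ ℕ) := fun p => Finsupp.single 0 p.1 + Finsupp.single 1 p.2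
  have hφ : Function.Injective φ := by
    intro p q hpq
    have e0 := DFunLike.congr_fun hpq 0
    have e1 := DFunLike.congr_fun hpq 1
    simp [φ] at e0 e1
    exact Prod.ext e0 e1
  have h4 := h3.comp φ hφ
  have h5 : mono2 u v = (((MvPolynomial.aeval (R := k) ![u, v]).toLinearMap ∘
      (MvPolynomial.basisMonomials (Fin 2) k)) ∘ φ) := by
    funext p
    simp only [Function.comp_apply, MvPolynomial.coe_basisMonomials, AlgHom.toLinearMap_apply,
      MvPolynomial.aeval_monomial, map_one, one_mul, φ, mono2]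
    rw [Finsupp.prod_add_index' (fun _ => pow_zero _) (fun _ _ _ => pow_add _ _ _),
      Finsupp.prod_single_index (h := fun i n => (![u, v] i) ^ n) (pow_zero _),
      Finsupp.prod_single_index (h := fun i n => (![u, v] i) ^ n) (pow_zero _)]
    simp
  rw [h5]
  exact h4

lemma hasFrac_of_top (h : IntermediateField.adjoin k ({u, v} : Set K) = ⊤) :
    HasFrac k u v := by
  have key : ∀ x ∈ Algebra.adjoin k ({u, v} : Set K), ∃ m : ℤ, 0 ≤ m ∧ x ∈ polyLE k u v m := by
    intro x hx
    induction hx using Algebra.adjoin_induction with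
    | mem x hx =>
      rcases hx with rfl | hx
      · exact ⟨1, by norm_num, by
          have := mono2_mem (k := k) (u := x) (v := v) (m := 1) (p := (1, 0)) (by simp)
          simpa [mono2] using this⟩
      · rw [Set.mem_singleton_iff] at hx
        subst hx
        exact ⟨1, by norm_num, by
          have := mono2_mem (k := k) (u := u) (v := x) (m := 1) (p := (0, 1)) (by simp)
          simpa [mono2] using this⟩
    | algebraMap r =>
      refine ⟨0, le_rfl, ?_⟩
      rw [Algebra.algebraMap_eq_smul_one]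
      exact Submodule.smul_mem _ _ (one_mem_polyLE le_rfl)
    | add x y _ _ hx hy =>
      obtain ⟨m, hm, hx⟩ := hx
      obtain ⟨m', hm', hy⟩ := hy
      exact ⟨max m m', by omega, Submodule.add_mem _ (polyLE_mono (le_max_left _ _) hx)
        (polyLE_mono (le_max_right _ _) hy)⟩
    | mul x y _ _ hx hy =>
      obtain ⟨m, hm, hx⟩ := hx
      obtain ⟨m', hm', hy⟩ := hy
      exact ⟨m + m', by omega, mul_mem_polyLE hx hy⟩
  intro q
  have hq : q ∈ IntermediateField.adjoin k ({u, v} : Set K) := by rw [h]; trivial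
  rw [IntermediateField.mem_adjoin_iff_div] at hq
  obtain ⟨r, hr, s, hs, rfl⟩ := hq
  obtain ⟨m, hm, hr⟩ := key r hr
  obtain ⟨m', hm', hs⟩ := key s hs
  by_cases h0 : s = 0
  · refine ⟨0, 0, Submodule.zero_mem _, 1, one_mem_polyLE le_rfl, one_ne_zero, ?_⟩
    rw [h0]; simp
  · refine ⟨max m m', r, polyLE_mono (le_max_left _ _) hr, s,
      polyLE_mono (le_max_right _ _) hs, h0, ?_⟩
    field_simp

lemma pow_mem_polyLE {x : K} (hx : x ∈ polyLE k u v 1) (i : ℕ) : x ^ i ∈ polyLE k u v i := by
  induction i with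
  | zero => simpa using one_mem_polyLE (k := k) (u := u) (v := v) (le_refl (0 : ℤ))
  | succ i ih =>
    rw [pow_succ]
    have := mul_mem_polyLE ih hx
    push_cast
    exact this

lemma polyLE_le_of {l w : K} (hl : l ∈ polyLE k u v 1) (hw : w ∈ polyLE k u v 1) (m : ℤ) :
    polyLE k l w m ≤ polyLE k u v m := by
  unfold polyLE
  rw [Submodule.span_le]
  rintro _ ⟨i, j, hij, rfl⟩
  have := mul_mem_polyLE (pow_mem_polyLE hl i) (pow_mem_polyLE hw j)
  exact polyLE_mono hij this

lemma v_mem_one : v ∈ polyLE k u v 1 := by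
  have := mono2_mem (k := k) (u := u) (v := v) (m := 1) (p := (0, 1)) (by simp)
  simpa [mono2] using this

lemma u_mem_one : u ∈ polyLE k u v 1 := by
  have := mono2_mem (k := k) (u := u) (v := v) (m := 1) (p := (1, 0)) (by simp)
  simpa [mono2] using this

lemma polyLE_coord (t : k) (m : ℤ) :
    polyLE k (u + algebraMap k K t * v) v m = polyLE k u v m := by
  apply le_antisymm
  · refine polyLE_le_of ?_ v_mem_one m
    refine Submodule.add_mem _ u_mem_one ?_
    rw [← Algebra.smul_def]
    exact Submodule.smul_mem _ _ v_mem_one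
  · refine polyLE_le_of ?_ v_mem_one m
    have h1 : u = (u + algebraMap k K t * v) + (-t) • v := by
      rw [Algebra.smul_def, map_neg]; ring
    have h2 : (u + algebraMap k K t * v) + (-t) • v ∈
        polyLE k (u + algebraMap k K t * v) v 1 :=
      Submodule.add_mem _ u_mem_one (Submodule.smul_mem _ _ v_mem_one)
    rwa [← h1] at h2

lemma monoIndep_coord (h : MonoIndep k u v) (t : k) :
    MonoIndep k (u + algebraMap k K t * v) v := by
  classical
  set l := u + algebraMap k K t * v with hl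
  unfold MonoIndep
  rw [linearIndependent_iff_finset_linearIndependent]
  intro s
  -- `s` is contained in some `degFin m`
  obtain ⟨m, hm⟩ : ∃ m : ℤ, s ⊆ degFin m := by
    refine ⟨∑ p ∈ s, ((p.1 : ℤ) + p.2), fun p hp => ?_⟩
    rw [mem_degFin]
    simp only [degSet, Set.mem_ofPred_eq]
    exact Finset.single_le_sum (f := fun p : ℕ × ℕ => (p.1 : ℤ) + p.2)
      (fun p _ => by positivity) hp
  have h1 : LinearIndependent k (fun p : degFin m => mono2 l v p) := by
    rw [linearIndependent_iff_card_eq_finrank_span]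
    have h2 : Set.range (fun p : degFin m => mono2 l v p) = mono2 l v '' degSet m := by
      rw [degSet_eq_coe, Set.image_eq_range]
      rfl
    rw [Set.finrank, h2, ← polyLE_eq, hl, polyLE_coord, finrank_polyLE h, ← card_degFin,
      Fintype.card_coe]
  exact h1.comp (fun p : s => (⟨p.1, hm p.2⟩ : degFin m)) (fun a b hab =>
    Subtype.ext (by
      have h3 := congrArg (fun q : degFin m => (q : ℕ × ℕ)) hab
      exact h3))

lemma hasFrac_coord (h : HasFrac k u v) (t : k) : HasFrac k (u + algebraMap k K t * v) v := by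
  intro q
  obtain ⟨m, a, ha, b, hb, h0, hq⟩ := h q
  exact ⟨m, a, by rwa [polyLE_coord], b, by rwa [polyLE_coord], h0, hq⟩

end Rat

section Core

variable {k K V : Type} [Field k] [Field K] [Algebra k K] [AddCommGroup V] [Module k V]
  [Module K V] [IsScalarTower k K V] {u v : K}

lemma lf_eq (t : k) (x : V) : (u + algebraMap k K t * v) • x = u • x + t • v • x := by
  rw [add_smul, mul_smul, algebraMap_smul]

lemma isLat_coord {E : ℤ → Submodule k V} (hE : IsLat u v E) (t : k) :
    IsLat (u + algebraMap k K t * v) v E where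
  mono := hE.mono
  umul m e he := by
    rw [lf_eq]
    exact Submodule.add_mem _ (hE.umul m e he) (Submodule.smul_mem _ _ (hE.vmul m e he))
  vmul := hE.vmul
  fin := hE.fin
  bot := hE.bot
  gen := by
    obtain ⟨m₁, h⟩ := hE.gen
    refine ⟨m₁, fun m hm e he => ?_⟩
    obtain ⟨a, ha, b, hb, c, hc, rfl⟩ := h m hm e he
    refine ⟨a, ha, b, hb, c - t • b, Submodule.sub_mem _ hc (Submodule.smul_mem _ _ hb), ?_⟩
    rw [lf_eq, smul_sub, smul_comm v t b]
    abel

/-- transfer of a resolution between coordinates -/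
lemma isResol_coord {E : ℤ → Submodule k V} (t : k) {r s : ℕ} {d : Fin r → ℤ} {e : Fin r → V}
    {δ : Fin s → ℤ} {f : Fin s → Fin r → K}
    (h : IsResol (u + algebraMap k K t * v) v E d e δ f) : IsResol u v E d e δ f where
  e_mem := h.e_mem
  f_mem j i := by
    have := h.f_mem j i
    rwa [polyLE_coord] at this
  mem_iff m x := by
    rw [h.mem_iff]
    simp_rw [polyLE_coord]
  lin := h.lin
  ker := h.ker
  dim := h.dim

/-- (SAT) gives a generic linear form `l = u + t v` injective on `gr E` -/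
lemma exists_Hu [Infinite k] {E : ℤ → Submodule k V} (hE : IsLat u v E) (hs : SAT u v E) :
    ∃ t : k, Hu (u + algebraMap k K t * v) E := by
  obtain ⟨T, M, hT⟩ := P1.generic_l hE
  obtain ⟨t, ht⟩ := Infinite.exists_notMem_finset T
  refine ⟨t, fun m x hx hlx => ?_⟩
  rw [lf_eq] at hlx
  -- descending induction on `m`
  have key : ∀ n : ℕ, ∀ m : ℤ, M ≤ m + n → ∀ x ∈ E m, u • x + t • v • x ∈ E m →
      x ∈ E (m - 1) := by
    intro n
    induction n with
    | zero => intro m hm x hx hlx; exact hT t ht m (by simpa using hm) x hx hlx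
    | succ n ih =>
      intro m hm x hx hlx
      have h1 : v • x ∈ E m := by
        have := ih (m + 1) (by push_cast at hm; omega) (v • x) (hE.vmul m x hx) ?_
        · rwa [add_sub_cancel_right] at this
        · have h2 := hE.vmul m _ hlx
          rw [smul_add, smul_comm v u, smul_comm v t] at h2
          exact h2
      have h2 : u • x ∈ E m := by
        have : u • x = (u • x + t • v • x) - t • v • x := by abel
        rw [this]
        exact Submodule.sub_mem _ hlx (Submodule.smul_mem _ _ h1)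
      exact hs m x hx h2 h1
  exact key (M - m).toNat m (by omega) x hx hlx

end Core

end Crest.Agent.R169.P3

namespace Crest.Agent.R169

variable {k K V : Type} [Field k] [Field K] [Algebra k K] [AddCommGroup V] [Module k V]
  [Module K V] {u v : K} {E E' : ℤ → Submodule k V}

/-- P3: length one resolution. -/
theorem exists_resol [IsScalarTower k K V] [Infinite k] (hK : IsRat k u v)
    (hE : IsLat u v E) (hs : SAT u v E) :
    ∃ (r s : ℕ) (d : Fin r → ℤ) (e : Fin r → V) (δ : Fin s → ℤ) (f : Fin s → Fin r → K),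
      IsResol u v E d e δ f := by
  obtain ⟨t, ht⟩ := P3.exists_Hu hE hs
  have h1 := P3.monoIndep_coord (P3.monoIndep_of_isRat hK.indep) t
  have h2 := P3.hasFrac_coord (P3.hasFrac_of_top hK.top) t
  obtain ⟨r, s, d, e, δ, f, h⟩ := P3.resol_core h1 h2 (P3.isLat_coord hE t) ht
  exact ⟨r, s, d, e, δ, f, P3.isResol_coord t h⟩

end Crest.Agent.R169
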